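import Crest.Agent.R12.Disp1

/-!
# R12 / BF : bilinear forms with windows
-/

set_option autoImplicit false

noncomputable section

open scoped Classical ComplexConjugate Topology
open MeasureTheory Filter

namespace Crest.Agent.R12

open Crest.Agent.R17

theorem bf_Vw_nonneg (D T : ℝ) (d : O) : 0 ≤ Vw D T d := lw_nonneg (Real.log D) T d

theorem bf_Vw_summ (D : ℝ) {T : ℝ} (hT : 1 ≤ T) : Summable (Vw D T) := summable_an (Real.log D) hT

theorem bf_cub_bdd (b : O) : ∃ M : ℝ, 0 ≤ M ∧ ∀ d, ‖cub b d‖ ≤ M := by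
  unfold cub sym
  induction (UniqueFactorizationMonoid.factors b) using Multiset.induction_on with
  | empty => exact ⟨1, zero_le_one, fun d => by simp⟩
  | cons p s ih =>
    obtain ⟨M, hM0, hM⟩ := ih
    refine ⟨(∑ u ∈ units6, ‖toC u‖) * M, by positivity, fun d => ?_⟩
    rw [Multiset.map_cons, Multiset.prod_cons, norm_mul]
    refine mul_le_mul ?_ (hM d) (norm_nonneg _) (by positivity)
    unfold symP
    refine (norm_sum_le _ _).trans (Finset.sum_le_sum fun u _ => ?_)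
    split_ifs
    · exact le_rfl
    · simp

/-- finite Cauchy–Schwarz with a weight -/
theorem bf_cs {ι : Type*} (S : Finset ι) (x z : ι → ℂ) (u : ι → ℝ) (hu : ∀ i ∈ S, 0 ≤ u i) :
    ‖∑ i ∈ S, x i * (u i : ℂ) * z i‖ ^ 2 ≤
      (∑ i ∈ S, ‖x i‖ ^ 2 * u i) * ∑ i ∈ S, u i * ‖z i‖ ^ 2 := by
  have h1 : ‖∑ i ∈ S, x i * (u i : ℂ) * z i‖ ≤
      ∑ i ∈ S, (‖x i‖ * Real.sqrt (u i)) * (Real.sqrt (u i) * ‖z i‖) := by
    refine (norm_sum_le _ _).trans (le_of_eq (Finset.sum_congr rfl fun i hi => ?_))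
    rw [norm_mul, norm_mul, Complex.norm_real, Real.norm_of_nonneg (hu i hi)]
    have := Real.mul_self_sqrt (hu i hi)
    calc _ = ‖x i‖ * (Real.sqrt (u i) * Real.sqrt (u i)) * ‖z i‖ := by rw [this]
      _ = _ := by ring
  refine (pow_le_pow_left₀ (norm_nonneg _) h1 2).trans ((Finset.sum_mul_sq_le_sq_mul_sq _ _ _).trans
    (le_of_eq ?_))
  congr 1
  · exact Finset.sum_congr rfl fun i hi => by rw [mul_pow, Real.sq_sqrt (hu i hi)]
  · exact Finset.sum_congr rfl fun i hi => by rw [mul_pow, Real.sq_sqrt (hu i hi)]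

/-- integral Cauchy–Schwarz -/
theorem bf_csi {F : ℝ → ℂ} {P Q : ℝ → ℝ} (hP : Integrable P) (hQ : Integrable Q)
    (hP0 : ∀ s, 0 ≤ P s) (hQ0 : ∀ s, 0 ≤ Q s) (h : ∀ s, ‖F s‖ ^ 2 ≤ P s * Q s) :
    ‖∫ s, F s‖ ^ 2 ≤ (∫ s, P s) * ∫ s, Q s := by
  have ha : 0 ≤ ∫ s, P s := integral_nonneg hP0
  have hb : 0 ≤ ∫ s, Q s := integral_nonneg hQ0
  have key : ∀ l : ℝ, 0 < l → ‖∫ s, F s‖ ≤ (l * (∫ s, P s) + l⁻¹ * ∫ s, Q s) / 2 := by
    intro l hl
    have hi : Integrable fun s => (l * P s + l⁻¹ * Q s) / 2 :=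
      ((hP.const_mul l).add (hQ.const_mul l⁻¹)).div_const 2
    refine (norm_integral_le_of_norm_le hi (Eventually.of_forall fun s => ?_)).trans (le_of_eq ?_)
    · refine abs_le_of_sq_le_sq' ?_ (by have := hP0 s; have := hQ0 s; positivity) |>.2
      have e : l * P s * (l⁻¹ * Q s) = P s * Q s := by field_simp
      nlinarith [h s, sq_nonneg (l * P s - l⁻¹ * Q s)]
    · rw [integral_div, integral_add (hP.const_mul l) (hQ.const_mul l⁻¹), integral_const_mul,
        integral_const_mul]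
  set x := ‖∫ s, F s‖ with hx
  set a := ∫ s, P s
  set b := ∫ s, Q s
  have hx0 : 0 ≤ x := norm_nonneg _
  rcases hx0.eq_or_lt with h0 | h0
  · rw [← h0]
    simpa using mul_nonneg ha hb
  rcases ha.eq_or_lt with h1 | h1
  · exfalso
    have h2 := key ((b + 1) / x) (by positivity)
    rw [← h1, mul_zero, zero_add, inv_div] at h2
    have h3 : x / (b + 1) * b ≤ x := by
      rw [div_mul_eq_mul_div, div_le_iff₀ (by positivity)]
      nlinarith
    linarith
  · have h2 := key (x / a) (by positivity)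
    rw [inv_div, div_mul_cancel₀ _ h1.ne'] at h2
    have h3 : x ≤ a / x * b := by linarith
    rw [div_mul_eq_mul_div, le_div_iff₀ h0] at h3
    rwa [sq]

theorem bf_int {ι κ : Type*} (SA : Finset ι) (SB : Finset κ) (c : ι → κ → ℂ) (k : ι → κ → ℝ → ℂ)
    (hk : ∀ a ∈ SA, ∀ b ∈ SB, Integrable (k a b)) :
    ∑ a ∈ SA, ∑ b ∈ SB, c a b * ∫ s, k a b s = ∫ s, ∑ a ∈ SA, ∑ b ∈ SB, c a b * k a b s := by
  rw [integral_finsetSum _ fun a ha => integrable_finsetSum _ fun b hb => (hk a ha b hb).const_mul _]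
  refine Finset.sum_congr rfl fun a ha => ?_
  rw [integral_finsetSum _ fun b hb => (hk a ha b hb).const_mul _]
  exact Finset.sum_congr rfl fun b _ => (integral_const_mul _ _).symm

theorem bf_summ (S : Finset O) (γ : O → ℂ) (D : ℝ) {T : ℝ} (hT : 1 ≤ T) :
    Summable fun d => Vw D T d * ‖∑ b ∈ S, γ b * GG b * conj (cub b d)‖ ^ 2 := by
  choose M hM0 hM using bf_cub_bdd
  refine Summable.of_nonneg_of_le (fun d => mul_nonneg (bf_Vw_nonneg D T d) (sq_nonneg _))
    (fun d => ?_) ((bf_Vw_summ D hT).mul_right ((∑ b ∈ S, ‖γ b * GG b‖ * M b) ^ 2))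
  refine mul_le_mul_of_nonneg_left (pow_le_pow_left₀ (norm_nonneg _) ?_ 2) (bf_Vw_nonneg D T d)
  refine (norm_sum_le _ _).trans (Finset.sum_le_sum fun b _ => ?_)
  rw [norm_mul, Complex.norm_conj]
  exact mul_le_mul_of_nonneg_left (hM b d) (norm_nonneg _)

theorem bf_le_disp (A S : Finset O) (γ : O → ℂ) (D : ℝ) {T : ℝ} (hT : 1 ≤ T) :
    ∑ a ∈ A, Vw D T a * ‖∑ b ∈ S, γ b * GG b * conj (cub b a)‖ ^ 2 ≤ Disp S γ D T :=
  (bf_summ S γ D hT).sum_le_tsum A fun d _ => mul_nonneg (bf_Vw_nonneg D T d) (sq_nonneg _)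

theorem bf_proj {T1 T lo hi x : ℝ} (h0 : 0 ≤ T1) (h : T1 ≤ T) (h1 : lo ≤ x) (h2 : x ≤ hi) (s : ℝ) :
    gw (T * (x - s)) ≤ gw (T1 * (x - max lo (min s hi))) := by
  refine (lw_gw_mono h0 h _).trans ?_
  unfold gw
  refine Real.exp_le_exp.2 (neg_le_neg ?_)
  rw [mul_pow, mul_pow]
  refine mul_le_mul_of_nonneg_left ?_ (sq_nonneg _)
  rcases le_total s hi with h3 | h3
  · rw [min_eq_left h3]
    rcases le_total lo s with h4 | h4
    · rw [max_eq_right h4]
    · rw [max_eq_left h4]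
      nlinarith
  · rw [min_eq_right h3, max_eq_right (h1.trans h2)]
    nlinarith

theorem bf_pw {B : ℝ} (hB : 0 < B) {b : O} (hb : b ≠ 0) (t : ℝ) :
    pw B b (t * Complex.I) = Complex.exp (t * (lg b - Real.log B : ℝ) * Complex.I) := by
  have h1 : 0 < N b := N_pos hb
  have h2 : 0 < N b / B := by positivity
  rw [pw, Complex.cpow_def_of_ne_zero (Complex.ofReal_ne_zero.2 h2.ne'),
    ← Complex.ofReal_log h2.le, Real.log_div h1.ne' hB.ne', lg]
  congr 1
  ring

theorem bf_norm_exp (t x : ℝ) : ‖Complex.exp (t * x * Complex.I)‖ = 1 := by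
  rw [← Complex.ofReal_mul, Complex.norm_exp_ofReal_mul_I]

theorem bf_lg_mul {a b : O} (ha : a ≠ 0) (hb : b ≠ 0) : lg (a * b) = lg a + lg b := by
  rw [lg, lg, lg, N_mul, Real.log_mul (N_pos ha).ne' (N_pos hb).ne']

theorem bf_mem_SA {y B : ℝ} (hB : 0 < B) {a : O} (ha : a ∈ SA y B) :
    SF a ∧ y - 3 - Real.log B ≤ lg a ∧ lg a ≤ y + 1 - Real.log B := by
  obtain ⟨h1, h2, h3⟩ := mem_sfI.1 ha
  refine ⟨h1, ?_, ?_⟩
  · have := Real.log_le_log (by positivity) h2.le
    rwa [Real.log_div (Real.exp_pos _).ne' hB.ne', Real.log_exp] at this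
  · have := Real.log_le_log (N_pos h1.1.ne_zero) h3
    rwa [Real.log_div (Real.exp_pos _).ne' hB.ne', Real.log_exp] at this

theorem bf_n2_nonneg (S : Finset O) (x : O → ℂ) : 0 ≤ n2 S x :=
  Finset.sum_nonneg fun _ _ => sq_nonneg _

theorem bf_nt_nonneg (S : Finset O) (x : O → ℂ) : 0 ≤ nt S x :=
  Finset.sum_nonneg fun n _ => mul_nonneg (sq_nonneg _) (pow_nonneg (Nat.cast_nonneg _) _)

theorem bf_sqrt2 {T : ℝ} (hT : 0 ≤ T) : T ≤ Real.sqrt 2 * T :=
  le_mul_of_one_le_left hT (Real.one_le_sqrt.2 one_le_two)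

theorem bf_int_left {T : ℝ} (hT : 0 < T) {ι : Type*} (S : Finset ι) (c x : ι → ℝ) :
    Integrable (fun s : ℝ => ∑ i ∈ S, c i * gw (T * (x i - s))) ∧
      ∫ s : ℝ, ∑ i ∈ S, c i * gw (T * (x i - s)) = Real.sqrt Real.pi / T * ∑ i ∈ S, c i := by
  refine ⟨integrable_finsetSum _ fun i _ => (sm_integrable_gw hT _).const_mul _, ?_⟩
  rw [integral_finsetSum _ fun i _ => (sm_integrable_gw hT _).const_mul _, Finset.mul_sum]
  refine Finset.sum_congr rfl fun i _ => ?_
  rw [integral_const_mul, integral_gw hT, mul_comm]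

theorem bf_gw_add (T y s : ℝ) : gw (T * (y + s)) = gw (T * (-y - s)) := by
  unfold gw
  congr 1
  ring

/-- the semigroup law inside a bilinear form -/
theorem bf_semi {T : ℝ} (hT : 0 < T) (SA SB : Finset O) (hA : ∀ a ∈ SA, a ≠ 0) (hB : ∀ b ∈ SB, b ≠ 0)
    (c : O → O → ℂ) (v : ℝ) :
    ∑ a ∈ SA, ∑ b ∈ SB, c a b * (gw (T * (lg (a * b) - v)) : ℂ) =
      ((2 * T / Real.sqrt Real.pi : ℝ) : ℂ) * ∫ s : ℝ, ∑ a ∈ SA, ∑ b ∈ SB, c a b *
        ((gw (Real.sqrt 2 * T * (lg a - s)) * gw (Real.sqrt 2 * T * (v - lg b - s)) : ℝ) : ℂ) := by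
  have hT2 : 0 < Real.sqrt 2 * T := by positivity
  rw [← bf_int, Finset.mul_sum]
  · refine Finset.sum_congr rfl fun a ha => ?_
    rw [Finset.mul_sum]
    refine Finset.sum_congr rfl fun b hb => ?_
    rw [bf_lg_mul (hA a ha) (hB b hb), add_sub_assoc, gw_semigroup hT, integral_complex_ofReal]
    simp_rw [bf_gw_add _ (lg b - v), neg_sub]
    push_cast
    ring
  · intro a _ b _
    refine Integrable.ofReal ?_
    exact (sm_integrable_gw hT2 (lg a)).mul_bdd (c := 1)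
      ((sm_continuous_gw.comp (by fun_prop)).aestronglyMeasurable)
      (Eventually.of_forall fun s => by
        rw [Real.norm_of_nonneg (gw_pos _).le]
        exact gw_le_one _)

theorem bf_semi_le {T : ℝ} (hT : 0 < T) {I : ℂ} {a b : ℝ}
    (h : ‖I‖ ^ 2 ≤ (Real.sqrt Real.pi / (Real.sqrt 2 * T) * a) * (Real.sqrt Real.pi / (Real.sqrt 2 * T) * b)) :
    ‖((2 * T / Real.sqrt Real.pi : ℝ) : ℂ) * I‖ ^ 2 ≤ 2 * a * b := by
  have hp := sm_sqrt_pi_pos
  have h2 : Real.sqrt 2 ^ 2 = 2 := Real.sq_sqrt (by norm_num)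
  have h3 : 0 < Real.sqrt 2 := by positivity
  rw [norm_mul, mul_pow, Complex.norm_real, Real.norm_of_nonneg (by positivity)]
  refine (mul_le_mul_of_nonneg_left h (sq_nonneg _)).trans (le_of_eq ?_)
  field_simp
  rw [h2]

theorem disp_nonneg (S : Finset O) (γ : O → ℂ) (D T : ℝ) : 0 ≤ Disp S γ D T := by
  exact tsum_nonneg fun d => mul_nonneg (bf_Vw_nonneg D T d) (sq_nonneg _)

/-- trivial bound (`an`) -/
theorem disp_triv : ∃ C : ℝ, 0 ≤ C ∧ ∀ (S : Finset O) (γ : O → ℂ) (B D T : ℝ), 1 ≤ B → In S B →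
    1 ≤ T → 0 < D → Disp S γ D T ≤ C * D * B * n2 S γ := by
  obtain ⟨C, hC, h⟩ := an
  refine ⟨C * (18 * 16), by positivity, fun S γ B D T hB hS hT hD => ?_⟩
  have h1 : ∑' d, Vw D T d ≤ C * D := by
    have := (h (Real.log D) T hT).2
    rwa [Real.exp_log hD] at this
  have h2 : (S.card : ℝ) ≤ 18 * (16 * B) := by
    refine le_trans ?_ (card_ball_le (X := 16 * B) (by linarith))
    exact_mod_cast Finset.card_le_card fun b hb =>
      mem_ball.2 ⟨(hS b hb).1.1.ne_zero, (hS b hb).2.2⟩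
  have h3 : ∀ d, ‖∑ b ∈ S, γ b * GG b * conj (cub b d)‖ ^ 2 ≤ n2 S γ * (18 * (16 * B)) := by
    intro d
    have h4 := bf_cs S γ (fun b => GG b * conj (cub b d)) (fun _ => 1) (fun _ _ => zero_le_one)
    simp only [Complex.ofReal_one, mul_one, one_mul] at h4
    simp_rw [mul_assoc]
    refine h4.trans (mul_le_mul_of_nonneg_left (le_trans ?_ h2) (bf_n2_nonneg S γ))
    rw [Finset.card_eq_sum_ones, Nat.cast_sum]
    refine Finset.sum_le_sum fun b hb => ?_
    have hb1 := (hS b hb).1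
    rw [norm_mul, norm_GG hb1, one_mul, Complex.norm_conj, Nat.cast_one]
    exact pow_le_one₀ (norm_nonneg _) ((rcub_isChar hb1.1).norm_le hb1.1.ne_zero d)
  have h5 := bf_n2_nonneg S γ
  calc Disp S γ D T ≤ ∑' d, Vw D T d * (n2 S γ * (18 * (16 * B))) :=
        (bf_summ S γ D hT).tsum_le_tsum
          (fun d => mul_le_mul_of_nonneg_left (h3 d) (bf_Vw_nonneg D T d))
          ((bf_Vw_summ D hT).mul_right _)
    _ = (∑' d, Vw D T d) * (n2 S γ * (18 * (16 * B))) := tsum_mul_right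
    _ ≤ C * D * (n2 S γ * (18 * (16 * B))) := mul_le_mul_of_nonneg_right h1 (by positivity)
    _ = _ := by ring

/-- continuity in a twist (uniformly convergent series) -/
theorem continuous_disp (S : Finset O) (γ : O → ℂ) (B D : ℝ) {T : ℝ} (hT : 1 ≤ T)
    (hS : ∀ b ∈ S, b ≠ 0) (hB : 0 < B) :
    Continuous (fun t : ℝ => Disp S (fun b => γ b * pw B b (t * Complex.I)) D T) := by
  choose M hM0 hM using bf_cub_bdd
  unfold Disp
  refine continuous_tsum (u := fun d => Vw D T d * (∑ b ∈ S, ‖γ b * GG b‖ * M b) ^ 2)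
    (fun d => ?_) ((bf_Vw_summ D hT).mul_right _) fun d t => ?_
  · refine continuous_const.mul ((continuous_finsetSum _ fun b hb => ?_).norm.pow 2)
    simp_rw [bf_pw hB (hS b hb)]
    fun_prop
  · rw [Real.norm_of_nonneg (mul_nonneg (bf_Vw_nonneg D T d) (sq_nonneg _))]
    refine mul_le_mul_of_nonneg_left (pow_le_pow_left₀ (norm_nonneg _) ?_ 2) (bf_Vw_nonneg D T d)
    refine (norm_sum_le _ _).trans (Finset.sum_le_sum fun b hb => ?_)
    beta_reduce
    rw [bf_pw hB (hS b hb), norm_mul, norm_mul, norm_mul, bf_norm_exp, mul_one, ← norm_mul,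
      Complex.norm_conj]
    exact mul_le_mul_of_nonneg_left (hM b d) (norm_nonneg _)

/-- `GG_mul`, `gw_fourier`, Cauchy–Schwarz in `a` and in `t` (`integral_gh`);
`Vw D 1 a ≥ e^{-4}` on `SA y B` for `D = e^{y-1}/B` -/
theorem bg_fourier : ∃ C : ℝ, 0 ≤ C ∧ ∀ (S : Finset O) (α β : O → ℂ) (y B v T : ℝ), 1 ≤ B → In S B →
    1 ≤ T → ‖BG (SA y B) S α β v T‖ ^ 2 ≤ C * n2 (SA y B) α *
      ∫ t : ℝ, gh T t * Disp S (fun b => β b * pw B b (t * Complex.I)) (Real.exp (y - 1) / B) 1 := by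
  obtain ⟨C, hC, htriv⟩ := disp_triv
  refine ⟨Real.exp 4, (Real.exp_pos _).le, fun S α β y B v T hB hS hT => ?_⟩
  have hT0 : 0 < T := by linarith
  have hB0 : 0 < B := by linarith
  have hS0 : ∀ b ∈ S, b ≠ 0 := fun b hb => (hS b hb).1.1.ne_zero
  set D := Real.exp (y - 1) / B with hD
  have hD0 : 0 < D := by positivity
  have hlD : Real.log D = y - 1 - Real.log B := by
    rw [hD, Real.log_div (Real.exp_pos _).ne' hB0.ne', Real.log_exp]
  have e : BG (SA y B) S α β v T = ∫ t : ℝ, ∑ a ∈ SA y B, ∑ b ∈ S, α a * β b * GG (a * b) *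
      ((gh T t : ℂ) * Complex.exp (t * (lg (a * b) - v : ℝ) * Complex.I)) := by
    rw [← bf_int]
    · unfold BG
      simp_rw [gw_fourier hT0]
    · intro a _ b _
      exact (integrable_gh hT0).ofReal.mul_bdd (c := 1) (by fun_prop)
        (Eventually.of_forall fun t => (bf_norm_exp _ _).le)
  have hint : Integrable fun t : ℝ =>
      gh T t * Disp S (fun b => β b * pw B b (t * Complex.I)) D 1 := by
    refine (integrable_gh hT0).mul_bdd (c := C * D * B * n2 S β)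
      (continuous_disp S β B D le_rfl hS0 hB0).aestronglyMeasurable (Eventually.of_forall fun t => ?_)
    rw [Real.norm_of_nonneg (disp_nonneg _ _ _ _)]
    refine (htriv S _ B D 1 hB hS le_rfl hD0).trans (le_of_eq ?_)
    congr 1
    refine Finset.sum_congr rfl fun b hb => ?_
    beta_reduce
    rw [bf_pw hB0 (hS0 b hb), norm_mul, bf_norm_exp, mul_one]
  have hn := bf_n2_nonneg (SA y B) α
  have key := bf_csi (F := fun t : ℝ => ∑ a ∈ SA y B, ∑ b ∈ S, α a * β b * GG (a * b) *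
      ((gh T t : ℂ) * Complex.exp (t * (lg (a * b) - v : ℝ) * Complex.I)))
    ((integrable_gh hT0).const_mul (n2 (SA y B) α)) (hint.const_mul (Real.exp 4))
    (fun t => mul_nonneg hn (gh_nonneg T t hT0))
    (fun t => mul_nonneg (Real.exp_pos _).le (mul_nonneg (gh_nonneg T t hT0) (disp_nonneg _ _ _ _)))
    (fun t => ?_)
  · rw [integral_const_mul, integral_const_mul, integral_gh hT0] at key
    rw [e]
    refine key.trans (le_of_eq ?_)
    ring
  · have e2 : ∑ a ∈ SA y B, ∑ b ∈ S, α a * β b * GG (a * b) *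
        ((gh T t : ℂ) * Complex.exp (t * (lg (a * b) - v : ℝ) * Complex.I)) =
        ∑ a ∈ SA y B, (α a * GG a * Complex.exp (t * (lg a - v + Real.log B : ℝ) * Complex.I)) *
          (gh T t : ℂ) * ∑ b ∈ S, β b * pw B b (t * Complex.I) * GG b * conj (cub b a) := by
      refine Finset.sum_congr rfl fun a ha => ?_
      have ha1 := (bf_mem_SA hB0 ha).1
      rw [Finset.mul_sum]
      refine Finset.sum_congr rfl fun b hb => ?_
      have e3 : Complex.exp (t * (lg (a * b) - v : ℝ) * Complex.I) =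
          Complex.exp (t * (lg a - v + Real.log B : ℝ) * Complex.I) *
            Complex.exp (t * (lg b - Real.log B : ℝ) * Complex.I) := by
        rw [← Complex.exp_add, bf_lg_mul ha1.1.ne_zero (hS0 b hb)]
        congr 1
        push_cast
        ring
      rw [e3, GG_mul ha1 (hS b hb).1.1, bf_pw hB0 (hS0 b hb)]
      ring
    rw [e2]
    have hg := gh_nonneg T t hT0
    refine (bf_cs _ _ _ (fun _ => gh T t) fun _ _ => hg).trans (mul_le_mul (le_of_eq ?_) ?_
      (Finset.sum_nonneg fun _ _ => by positivity) (by positivity))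
    · rw [n2, Finset.sum_mul]
      refine Finset.sum_congr rfl fun a ha => ?_
      rw [norm_mul, norm_mul, bf_norm_exp, norm_GG (bf_mem_SA hB0 ha).1, mul_one, mul_one]
    · rw [← Finset.mul_sum, mul_left_comm]
      refine mul_le_mul_of_nonneg_left (le_trans ?_ (mul_le_mul_of_nonneg_left
        (bf_le_disp (SA y B) S _ D le_rfl) (Real.exp_pos _).le)) hg
      rw [Finset.mul_sum]
      refine Finset.sum_le_sum fun a ha => ?_
      obtain ⟨h1, h2, h3⟩ := bf_mem_SA hB0 ha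
      rw [← mul_assoc]
      refine le_mul_of_one_le_left (sq_nonneg _) ?_
      rw [Vw, if_neg h1.1.ne_zero, gw, ← Real.exp_add, hlD]
      refine Real.one_le_exp ?_
      nlinarith

/-- `gw_semigroup` with `x = lg a`, `y = lg b - v`; Cauchy–Schwarz in `a` with the weight
`gw (√2 T (lg a - s)) ≤ gw (T₁ (lg a - s'))`, `s'` the projection of `s` to the `a`-interval;
`γ = β · gw (√2 T (lg b - v + s))`; Cauchy–Schwarz in `s`, `integral_gw`. -/
theorem bg_semi : ∃ C : ℝ, 0 ≤ C ∧ ∀ (S : Finset O) (α β : O → ℂ) (y B v T T1 Λ : ℝ), 1 ≤ B → In S B →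
    1 ≤ T1 → T1 ≤ T → 0 ≤ Λ →
    (∀ (γ : O → ℂ) (D : ℝ), Real.exp (y - 3) / B ≤ D → D ≤ Real.exp (y + 1) / B →
      Disp S γ D T1 ≤ Λ * nt S γ) →
    ‖BG (SA y B) S α β v T‖ ^ 2 ≤ C * Λ * n2 (SA y B) α * nt S β := by
  refine ⟨2, by norm_num, fun S α β y B v T T1 Λ hB hS hT1 hT hΛ hD => ?_⟩
  have hT0 : 0 < T := by linarith
  have hB0 : 0 < B := by linarith
  have hT2 : 0 < Real.sqrt 2 * T := by positivity
  have hS0 : ∀ b ∈ S, b ≠ 0 := fun b hb => (hS b hb).1.1.ne_zero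
  have hA0 : ∀ a ∈ SA y B, a ≠ 0 := fun a ha => (bf_mem_SA hB0 ha).1.1.ne_zero
  unfold BG
  rw [bf_semi hT0 _ _ hA0 hS0]
  obtain ⟨i1, j1⟩ := bf_int_left hT2 (SA y B) (fun a => ‖α a‖ ^ 2) lg
  obtain ⟨i2, j2⟩ := bf_int_left hT2 S (fun b => Λ * (‖β b‖ ^ 2 * dv b ^ 3)) (fun b => v - lg b)
  have hdv : ∀ b, 0 ≤ dv b := fun b => Nat.cast_nonneg _
  have key := bf_csi (F := fun s : ℝ => ∑ a ∈ SA y B, ∑ b ∈ S, α a * β b * GG (a * b) *
        ((gw (Real.sqrt 2 * T * (lg a - s)) * gw (Real.sqrt 2 * T * (v - lg b - s)) : ℝ) : ℂ)) i1 i2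
    (fun s => Finset.sum_nonneg fun a _ => mul_nonneg (sq_nonneg _) (gw_pos _).le)
    (fun s => Finset.sum_nonneg fun b _ => mul_nonneg (by have := hdv b; positivity) (gw_pos _).le)
    (fun s => ?_)
  · rw [j1, j2] at key
    refine (bf_semi_le hT0 key).trans (le_of_eq ?_)
    rw [← Finset.mul_sum, n2, nt]
    ring
  · have e2 : ∑ a ∈ SA y B, ∑ b ∈ S, α a * β b * GG (a * b) *
        ((gw (Real.sqrt 2 * T * (lg a - s)) * gw (Real.sqrt 2 * T * (v - lg b - s)) : ℝ) : ℂ) =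
        ∑ a ∈ SA y B, (α a * GG a) * (gw (Real.sqrt 2 * T * (lg a - s)) : ℂ) *
          ∑ b ∈ S, β b * (gw (Real.sqrt 2 * T * (v - lg b - s)) : ℂ) * GG b * conj (cub b a) := by
      refine Finset.sum_congr rfl fun a ha => ?_
      rw [Finset.mul_sum]
      refine Finset.sum_congr rfl fun b hb => ?_
      rw [GG_mul (bf_mem_SA hB0 ha).1 (hS b hb).1.1]
      push_cast
      ring
    rw [e2]
    refine (bf_cs _ _ _ (fun a => gw (Real.sqrt 2 * T * (lg a - s))) fun _ _ => (gw_pos _).le).trans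
      (mul_le_mul (le_of_eq ?_) ?_
      (Finset.sum_nonneg fun _ _ => mul_nonneg (gw_pos _).le (sq_nonneg _))
      (Finset.sum_nonneg fun a _ => mul_nonneg (sq_nonneg _) (gw_pos _).le))
    · refine Finset.sum_congr rfl fun a ha => ?_
      rw [norm_mul, norm_GG (bf_mem_SA hB0 ha).1, mul_one]
    · set s' := max (y - 3 - Real.log B) (min s (y + 1 - Real.log B)) with hs'
      have h1 : Real.exp (y - 3) / B ≤ Real.exp s' := by
        rw [← Real.exp_log hB0, ← Real.exp_sub]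
        exact Real.exp_le_exp.2 (le_max_left _ _)
      have h2 : Real.exp s' ≤ Real.exp (y + 1) / B := by
        rw [← Real.exp_log hB0, ← Real.exp_sub]
        exact Real.exp_le_exp.2 (max_le (by linarith) (min_le_right _ _))
      refine le_trans ?_ ((bf_le_disp (SA y B) S
        (fun b => β b * (gw (Real.sqrt 2 * T * (v - lg b - s)) : ℂ)) (Real.exp s') hT1).trans
        ((hD _ _ h1 h2).trans ?_))
      · refine Finset.sum_le_sum fun a ha => mul_le_mul_of_nonneg_right ?_ (sq_nonneg _)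
        obtain ⟨h3, h4, h5⟩ := bf_mem_SA hB0 ha
        rw [Vw, if_neg h3.1.ne_zero, Real.log_exp]
        exact bf_proj (by linarith) (hT.trans (bf_sqrt2 hT0.le)) h4 h5 s
      · rw [nt, Finset.mul_sum]
        refine Finset.sum_le_sum fun b _ => ?_
        have h3 := gw_pos (Real.sqrt 2 * T * (v - lg b - s))
        have h4 := gw_le_one (Real.sqrt 2 * T * (v - lg b - s))
        have h5 := hdv b
        rw [norm_mul, Complex.norm_real, Real.norm_of_nonneg h3.le, mul_pow, mul_assoc Λ]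
        refine mul_le_mul_of_nonneg_left ?_ hΛ
        rw [mul_right_comm]
        refine mul_le_mul_of_nonneg_left ?_ (by positivity)
        nlinarith

theorem bf_count : ∃ C : ℝ, 0 ≤ C ∧ ∀ (A : Finset O) (X T s : ℝ), 0 < X → 1 ≤ T →
    (∀ a ∈ A, a ≠ 0 ∧ N a ≤ 16 * X) →
    ∑ a ∈ A, gw (Real.sqrt 2 * T * (lg a - s)) ≤ C * (X / T + Real.sqrt X) := by
  obtain ⟨C, hC, h⟩ := an
  refine ⟨C * 16, by positivity, fun A X T s hX hT hA => ?_⟩
  have hT0 : 0 < T := by linarith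
  set s' := min s (Real.log (16 * X)) with hs'
  have h1 : ∑ a ∈ A, gw (Real.sqrt 2 * T * (lg a - s)) ≤
      ∑ a ∈ A, if a = 0 then 0 else gw (T * (lg a - s')) := by
    refine Finset.sum_le_sum fun a ha => ?_
    rw [if_neg (hA a ha).1]
    have h2 : lg a ≤ Real.log (16 * X) := Real.log_le_log (N_pos (hA a ha).1) (hA a ha).2
    have h3 := bf_proj (lo := min (lg a) s') hT0.le (bf_sqrt2 hT0.le) (min_le_left _ _) h2 s
    rwa [max_eq_right (min_le_right _ _)] at h3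
  refine h1.trans (((summable_an s' hT).sum_le_tsum A fun d _ => lw_nonneg _ _ d).trans
    ((h s' T hT).1.trans ?_))
  have h2 : Real.exp s' ≤ 16 * X := by
    rw [← Real.exp_log (show 0 < 16 * X by positivity)]
    exact Real.exp_le_exp.2 (min_le_right _ _)
  have h3 : Real.exp (s' / 2) ≤ 16 * Real.sqrt X := by
    refine abs_le_of_sq_le_sq' ?_ (by positivity) |>.2
    rw [← Real.exp_nat_mul, mul_pow, Real.sq_sqrt hX.le]
    have : ((2 : ℕ) : ℝ) * (s' / 2) = s' := by push_cast; ring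
    rw [this]
    linarith
  have h4 : Real.exp s' / T ≤ 16 * (X / T) := by
    rw [← mul_div_assoc]
    gcongr
  rw [mul_assoc]
  refine mul_le_mul_of_nonneg_left ?_ hC
  linarith

/-- `gw_semigroup`, Cauchy–Schwarz in `a`, in `b`, in `s`; `an` (project `s` to the intervals) -/
theorem bm_triv : ∃ C : ℝ, 0 ≤ C ∧ ∀ (S : Finset O) (α β : O → ℂ) (y B v T : ℝ), 1 ≤ B → In S B →
    1 ≤ T → ‖BM (SA y B) S α β v T‖ ^ 2 ≤ C * Real.exp (-(y / 3)) *
      (Real.exp y / B / T + Real.sqrt (Real.exp y / B)) * (B / T + Real.sqrt B) *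
      n2 (SA y B) α * n2 S β := by
  obtain ⟨C, hC, hcnt⟩ := bf_count
  refine ⟨2 * Real.exp 1 * C ^ 2, by positivity, fun S α β y B v T hB hS hT => ?_⟩
  have hT0 : 0 < T := by linarith
  have hB0 : 0 < B := by linarith
  have hT2 : 0 < Real.sqrt 2 * T := by positivity
  have hS0 : ∀ b ∈ S, b ≠ 0 := fun b hb => (hS b hb).1.1.ne_zero
  have hA0 : ∀ a ∈ SA y B, a ≠ 0 := fun a ha => (bf_mem_SA hB0 ha).1.1.ne_zero
  set E := Real.exp y / B with hE
  have hE0 : 0 < E := by positivity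
  set κ := Real.exp (-((y - 3) / 6)) with hκ
  have hκ0 : 0 < κ := Real.exp_pos _
  set K1 := κ ^ 2 * (C * (E / T + Real.sqrt E)) with hK1
  set K2 := C * (B / T + Real.sqrt B) with hK2
  have hK10 : 0 ≤ K1 := by positivity
  have hK20 : 0 ≤ K2 := by positivity
  unfold BM
  rw [bf_semi hT0 _ _ hA0 hS0]
  obtain ⟨i1, j1⟩ := bf_int_left hT2 (SA y B) (fun a => K1 * ‖α a‖ ^ 2) lg
  obtain ⟨i2, j2⟩ := bf_int_left hT2 S (fun b => K2 * ‖β b‖ ^ 2) (fun b => v - lg b)
  have key := bf_csi (F := fun s : ℝ => ∑ a ∈ SA y B, ∑ b ∈ S, α a * β b *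
      (if Squarefree (a * b) then ((N (a * b) ^ (-(1 / 6 : ℝ)) : ℝ) : ℂ) else 0) *
        ((gw (Real.sqrt 2 * T * (lg a - s)) * gw (Real.sqrt 2 * T * (v - lg b - s)) : ℝ) : ℂ)) i1 i2
    (fun s => Finset.sum_nonneg fun a _ => mul_nonneg (by positivity) (gw_pos _).le)
    (fun s => Finset.sum_nonneg fun b _ => mul_nonneg (by positivity) (gw_pos _).le)
    (fun s => ?_)
  · rw [j1, j2] at key
    refine (bf_semi_le hT0 key).trans (le_of_eq ?_)
    have e : κ ^ 2 = Real.exp 1 * Real.exp (-(y / 3)) := by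
      rw [hκ, ← Real.exp_nat_mul, ← Real.exp_add]
      congr 1
      push_cast
      ring
    rw [← Finset.mul_sum, ← Finset.mul_sum, n2, n2, hK1, hK2, e]
    ring
  · set u : O → ℝ := fun a => gw (Real.sqrt 2 * T * (lg a - s)) with hu
    set w : O → ℝ := fun b => gw (Real.sqrt 2 * T * (v - lg b - s)) with hw
    have hu0 : ∀ a, 0 ≤ u a := fun a => (gw_pos _).le
    have hw0 : ∀ b, 0 ≤ w b := fun b => (gw_pos _).le
    have h1 : ‖∑ a ∈ SA y B, ∑ b ∈ S, α a * β b *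
        (if Squarefree (a * b) then ((N (a * b) ^ (-(1 / 6 : ℝ)) : ℝ) : ℂ) else 0) *
        ((u a * w b : ℝ) : ℂ)‖ ≤ κ * ((∑ a ∈ SA y B, ‖α a‖ * u a) * ∑ b ∈ S, ‖β b‖ * w b) := by
      rw [Finset.sum_mul_sum, Finset.mul_sum]
      refine (norm_sum_le _ _).trans (Finset.sum_le_sum fun a ha => ?_)
      rw [Finset.mul_sum]
      refine (norm_sum_le _ _).trans (Finset.sum_le_sum fun b hb => ?_)
      have h2 : ‖(if Squarefree (a * b) then ((N (a * b) ^ (-(1 / 6 : ℝ)) : ℝ) : ℂ) else 0)‖ ≤ κ := by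
        split_ifs
        · have h3 : 0 < N (a * b) := N_pos (mul_ne_zero (hA0 a ha) (hS0 b hb))
          rw [Complex.norm_real, Real.norm_of_nonneg (by positivity), Real.rpow_def_of_pos h3]
          refine Real.exp_le_exp.2 ?_
          have h4 := bf_lg_mul (hA0 a ha) (hS0 b hb)
          have h5 := (bf_mem_SA hB0 ha).2.1
          have h6 : Real.log B ≤ lg b := Real.log_le_log hB0 (hS b hb).2.1
          unfold lg at h4 h5 h6
          rw [h4]
          linarith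
        · rw [norm_zero]
          exact hκ0.le
      have h3 := hu0 a
      have h4 := hw0 b
      rw [norm_mul, norm_mul, norm_mul, Complex.norm_real, Real.norm_of_nonneg (by positivity)]
      calc _ ≤ ‖α a‖ * ‖β b‖ * κ * (u a * w b) := by gcongr
        _ = _ := by ring
    have hcs : ∀ (A : Finset O) (x : O → ℂ) (u : O → ℝ), (∀ a, 0 ≤ u a) →
        (∑ a ∈ A, ‖x a‖ * u a) ^ 2 ≤ (∑ a ∈ A, ‖x a‖ ^ 2 * u a) * ∑ a ∈ A, u a := by
      intro A x u hu
      have h2 := bf_cs A (fun a => (‖x a‖ : ℂ)) (fun _ => 1) u fun a _ => hu a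
      simp only [mul_one, norm_one, one_pow, Complex.norm_real, norm_norm] at h2
      refine le_trans (le_of_eq ?_) h2
      rw [← Complex.ofReal_inj]
      simp_rw [← Complex.ofReal_mul]
      rw [← Complex.ofReal_sum, Complex.norm_real, Real.norm_eq_abs, sq_abs]
    have c1 : ∑ a ∈ SA y B, u a ≤ C * (E / T + Real.sqrt E) := by
      refine hcnt _ E T s hE0 hT fun a ha => ⟨hA0 a ha, (mem_sfI.1 ha).2.2.trans ?_⟩
      rw [hE, Real.exp_add, mul_comm, mul_div_assoc]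
      exact mul_le_mul_of_nonneg_right (by linarith [Real.exp_one_lt_three]) (by positivity)
    have c2 : ∑ b ∈ S, w b ≤ K2 := by
      refine le_trans (le_of_eq (Finset.sum_congr rfl fun b _ => ?_))
        (hcnt S B T (v - s) hB0 hT fun b hb => ⟨hS0 b hb, (hS b hb).2.2⟩)
      simp only [hw, gw]
      congr 1
      ring
    have p1 : 0 ≤ ∑ a ∈ SA y B, ‖α a‖ ^ 2 * u a :=
      Finset.sum_nonneg fun a _ => mul_nonneg (sq_nonneg _) (hu0 a)
    have p2 : 0 ≤ ∑ b ∈ S, ‖β b‖ ^ 2 * w b :=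
      Finset.sum_nonneg fun a _ => mul_nonneg (sq_nonneg _) (hw0 a)
    have q1 := (hcs (SA y B) α u hu0).trans (mul_le_mul_of_nonneg_left c1 p1)
    have q2 := (hcs S β w hw0).trans (mul_le_mul_of_nonneg_left c2 p2)
    refine (pow_le_pow_left₀ (norm_nonneg _) h1 2).trans ?_
    simp_rw [mul_assoc K1, mul_assoc K2]
    rw [← Finset.mul_sum, ← Finset.mul_sum, mul_pow, mul_pow]
    calc _ ≤ κ ^ 2 * (((∑ a ∈ SA y B, ‖α a‖ ^ 2 * u a) * (C * (E / T + Real.sqrt E))) *
          ((∑ b ∈ S, ‖β b‖ ^ 2 * w b) * K2)) :=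
          mul_le_mul_of_nonneg_left (mul_le_mul q1 q2 (sq_nonneg _) (by positivity)) (sq_nonneg _)
      _ = _ := by rw [hK1]; ring

/-- **annihilation**: `BF_eq`, `bg_semi` with `ann`, `bm_triv` -/
theorem II_ann : ∃ C : ℝ, 0 ≤ C ∧ ∀ (ℓ : ℤ) (S : Finset O) (α β : O → ℂ) (y B v T T1 : ℝ), 1 ≤ B →
    In S B → 1 ≤ T1 → T1 ≤ T → T1 ^ 2 ≤ Real.exp (y - 3) / B →
    ‖BF ℓ (SA y B) S α β v T‖ ^ 2 ≤ C * (Real.exp y / B / T1 + Real.sqrt (Real.exp y / B) +
        T1 ^ 3 * B ^ 4 / Real.exp y +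
        Real.exp (2 / 3 * y) * (T1 ^ (-(1 / 42 : ℝ)) + B ^ (-(1 / 84 : ℝ)))) *
      n2 (SA y B) α * nt S β := by
  obtain ⟨C1, hC1, hann⟩ := ann
  obtain ⟨C2, hC2, hsemi⟩ := bg_semi
  obtain ⟨C3, hC3, hbm⟩ := bm_triv
  refine ⟨2 * (C2 * (C1 * Real.exp 3)) + 2 * (cP ^ 2 * (C3 * 2)), by positivity,
    fun ℓ S α β y B v T T1 hB hS hT1 hT hTD => ?_⟩
  have hT10 : 0 < T1 := by linarith
  have hT0 : 0 < T := by linarith
  have hB0 : 0 < B := by linarith
  have hS0 : ∀ b ∈ S, b ≠ 0 := fun b hb => (hS b hb).1.1.ne_zero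
  have hA1 : ∀ a ∈ SA y B, SF a := fun a ha => (bf_mem_SA hB0 ha).1
  set E := Real.exp y / B with hE
  have hE0 : 0 < E := by positivity
  set R := T1 ^ (-(1 / 42 : ℝ)) + B ^ (-(1 / 84 : ℝ)) with hR
  have hR0 : 0 ≤ R := by positivity
  set W := E / T1 + Real.sqrt E + T1 ^ 3 * B ^ 4 / Real.exp y + Real.exp (2 / 3 * y) * R with hW
  have hW0 : 0 ≤ W := by positivity
  have e1 : n2 (SA y B) (fun a => α a * ang a ^ ℓ) = n2 (SA y B) α :=
    Finset.sum_congr rfl fun a ha => by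
      rw [norm_mul, norm_zpow, norm_ang (hA1 a ha).1.ne_zero, one_zpow, mul_one]
  have e2 : nt S (fun b => β b * ang b ^ ℓ) = nt S β :=
    Finset.sum_congr rfl fun b hb => by
      rw [norm_mul, norm_zpow, norm_ang (hS0 b hb), one_zpow, mul_one]
  have hn := bf_n2_nonneg (SA y B) α
  have hm := bf_nt_nonneg S β
  have x3 : (1 : ℝ) ≤ Real.exp 3 := Real.one_le_exp (by norm_num)
  have x1 : Real.exp 1 ≤ Real.exp 3 := Real.exp_le_exp.2 (by norm_num)
  have g1 := hsemi S (fun a => α a * ang a ^ ℓ) (fun b => β b * ang b ^ ℓ) y B v T T1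
    (C1 * Real.exp 3 * W) hB hS hT1 hT (by positivity) fun γ D hD1 hD2 => by
      have hD0 : 0 < D := lt_of_lt_of_le (by positivity) hD1
      refine (hann S γ B D T1 hB hS hT1 (hTD.trans hD1)).trans
        (mul_le_mul_of_nonneg_right ?_ (bf_nt_nonneg S γ))
      rw [mul_assoc]
      refine mul_le_mul_of_nonneg_left ?_ hC1
      have hD3 : D ≤ Real.exp 3 * E := by
        refine hD2.trans ?_
        rw [hE, Real.exp_add, mul_comm, mul_div_assoc]
        exact mul_le_mul_of_nonneg_right x1 (by positivity)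
      have a1 : D / T1 ≤ Real.exp 3 * (E / T1) := by
        rw [← mul_div_assoc]
        gcongr
      have a2 : Real.sqrt D ≤ Real.exp 3 * Real.sqrt E := by
        refine Real.sqrt_le_iff.2 ⟨by positivity, hD3.trans ?_⟩
        rw [mul_pow, Real.sq_sqrt hE0.le]
        exact mul_le_mul_of_nonneg_right (by nlinarith) hE0.le
      have a3 : T1 ^ 3 * B ^ 3 / D ≤ Real.exp 3 * (T1 ^ 3 * B ^ 4 / Real.exp y) := by
        calc _ ≤ T1 ^ 3 * B ^ 3 / (Real.exp (y - 3) / B) := by gcongr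
          _ = _ := by rw [Real.exp_sub]; field_simp
      have a4 : (D * B) ^ (2 / 3 : ℝ) ≤ Real.exp 3 * Real.exp (2 / 3 * y) := by
        have h1 : D * B ≤ Real.exp (y + 1) := by rwa [le_div_iff₀ hB0] at hD2
        refine (Real.rpow_le_rpow (by positivity) h1 (by norm_num)).trans ?_
        rw [← Real.exp_mul, ← Real.exp_add]
        exact Real.exp_le_exp.2 (by linarith)
      have a5 := mul_le_mul_of_nonneg_right a4 hR0
      rw [hW]
      linarith
  have g2 := hbm S (fun a => α a * ang a ^ ℓ) (fun b => β b * ang b ^ ℓ) y B v T hB hS (hT1.trans hT)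
  rw [e1, e2] at g1
  rw [e1] at g2
  have g3' : ‖BM (SA y B) S (fun a => α a * ang a ^ ℓ) (fun b => β b * ang b ^ ℓ) v T‖ ^ 2 ≤
      C3 * 2 * W * n2 (SA y B) α * nt S β := by
    refine g2.trans (mul_le_mul (mul_le_mul_of_nonneg_right ?_ hn) ((n2_le_nt hS0 _).trans e2.le)
      (bf_n2_nonneg _ _) (by positivity))
    have hE1 : 1 ≤ E := by
      refine (one_le_pow₀ hT1 (n := 2)).trans (hTD.trans ?_)
      rw [hE]
      gcongr
      linarith
    have b1 : E / T + Real.sqrt E ≤ 2 * E := by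
      have h1 : E / T ≤ E := div_le_self hE0.le (hT1.trans hT)
      have h2 : Real.sqrt E ≤ E := Real.sqrt_le_iff.2 ⟨hE0.le, by nlinarith⟩
      linarith
    have b2 : B / T + Real.sqrt B ≤ B * R := by
      have h1 : T⁻¹ ≤ T1 ^ (-(1 / 42 : ℝ)) := by
        refine (inv_anti₀ hT10 hT).trans ?_
        rw [← Real.rpow_neg_one]
        exact Real.rpow_le_rpow_of_exponent_le hT1 (by norm_num)
      have h2 : Real.sqrt B ≤ B * B ^ (-(1 / 84 : ℝ)) := by
        rw [Real.sqrt_eq_rpow, ← Real.rpow_one_add' hB0.le (by norm_num)]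
        exact Real.rpow_le_rpow_of_exponent_le hB (by norm_num)
      have h3 := mul_le_mul_of_nonneg_left h1 hB0.le
      rw [hR, mul_add, div_eq_mul_inv]
      linarith
    have b3 : Real.exp (-(y / 3)) * (2 * E) * (B * R) = 2 * (Real.exp (2 / 3 * y) * R) := by
      have : Real.exp (2 / 3 * y) = Real.exp (-(y / 3)) * Real.exp y := by
        rw [← Real.exp_add]
        congr 1
        ring
      rw [this, hE]
      field_simp
    have b4 : Real.exp (2 / 3 * y) * R ≤ W := le_add_of_nonneg_left (by positivity)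
    calc _ = C3 * (Real.exp (-(y / 3)) * (E / T + Real.sqrt E) * (B / T + Real.sqrt B)) := by ring
      _ ≤ C3 * (Real.exp (-(y / 3)) * (2 * E) * (B * R)) := by gcongr
      _ ≤ C3 * (2 * W) := by rw [b3]; gcongr
      _ = _ := by ring
  rw [BF_eq ℓ hA1 fun b hb => (hS b hb).1]
  set X := BG (SA y B) S (fun a => α a * ang a ^ ℓ) (fun b => β b * ang b ^ ℓ) v T
  set Y := BM (SA y B) S (fun a => α a * ang a ^ ℓ) (fun b => β b * ang b ^ ℓ) v T
  have h1 : ‖X - cP * Y‖ ≤ ‖X‖ + cP * ‖Y‖ := by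
    refine (norm_sub_le _ _).trans (le_of_eq ?_)
    rw [norm_mul, Complex.norm_real, Real.norm_of_nonneg cP_pos.le]
  have h2 : ‖X - cP * Y‖ ^ 2 ≤ 2 * ‖X‖ ^ 2 + 2 * (cP ^ 2 * ‖Y‖ ^ 2) := by
    refine (pow_le_pow_left₀ (norm_nonneg _) h1 2).trans ?_
    nlinarith [sq_nonneg (‖X‖ - cP * ‖Y‖)]
  have h3 := mul_le_mul_of_nonneg_left g3' (sq_nonneg cP)
  refine h2.trans ?_
  calc _ ≤ 2 * (C2 * (C1 * Real.exp 3 * W) * n2 (SA y B) α * nt S β) +
        2 * (cP ^ 2 * (C3 * 2 * W * n2 (SA y B) α * nt S β)) := by linarith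
    _ = _ := by ring

end Crest.Agent.R12
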