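import Crest.Agent.R12.Defs
import Crest.Agent.R17.RecKey
import Crest.Agent.R17.RecKub

/-!
# R12 / Basic1 : algebra of `GG`, `ff`, cube decompositions, elementary API of windows
-/

set_option autoImplicit false

noncomputable section

open scoped Classical ComplexConjugate Topology
open MeasureTheory Filter

namespace Crest.Agent.R12

open Crest.Agent.R17

theorem mem_sfb {X : ℝ} {n : O} : n ∈ sfb X ↔ SF n ∧ N n ≤ X := by
  rw [sfb, Finset.mem_filter, mem_ball]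
  exact ⟨fun h => ⟨h.2, h.1.2⟩, fun h => ⟨⟨h.1.1.ne_zero, h.2⟩, h.1⟩⟩
theorem mem_sfI {X Y : ℝ} {n : O} : n ∈ sfI X Y ↔ SF n ∧ X < N n ∧ N n ≤ Y := by
  rw [sfI, Finset.mem_filter, mem_ball]
  exact ⟨fun h => ⟨h.2.1, h.2.2, h.1.2⟩, fun h => ⟨⟨h.1.1.ne_zero, h.2.2⟩, h.1, h.2.1⟩⟩
theorem mem_pf {n p : O} (hn : n ≠ 0) : p ∈ pf n ↔ Prime p ∧ Prim p ∧ p ∣ n := by
  rw [pf, Finset.mem_filter, mem_pdiv hn]
  exact ⟨fun h => ⟨h.2, h.1.1, h.1.2⟩, fun h => ⟨⟨h.2.1, h.2.2⟩, h.1⟩⟩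
theorem b1_pf_one : pf 1 = ∅ := by
  ext p
  rw [mem_pf one_ne_zero]
  simp only [Finset.notMem_empty, iff_false, not_and]
  exact fun h _ h' => h.not_isUnit (isUnit_of_dvd_one h')
theorem b1_pf_prime_mul {p a : O} (hp : Prime p) (hp' : Prim p) (ha : a ≠ 0) :
    pf (p * a) = insert p (pf a) := by
  ext q
  rw [Finset.mem_insert, mem_pf (mul_ne_zero hp.ne_zero ha), mem_pf ha]
  constructor
  · rintro ⟨h1, h2, h3⟩
    exact (h1.dvd_or_dvd h3).imp
      (fun h => h2.eq_of_associated hp' (h1.associated_of_dvd hp h)) fun h => ⟨h1, h2, h⟩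
  · rintro (rfl | ⟨h1, h2, h3⟩)
    · exact ⟨hp, hp', dvd_mul_right _ _⟩
    · exact ⟨h1, h2, h3.mul_left _⟩
theorem in_sfI {B B' : ℝ} (h : B' ≤ 16 * B) : In (sfI B B') B := by
  intro n hn
  obtain ⟨h1, h2, h3⟩ := mem_sfI.1 hn
  exact ⟨h1, h2.le, h3.trans h⟩
theorem SF.of_dvd {n d : O} (hn : SF n) (hd : Prim d) (h : d ∣ n) : SF d := by
  exact ⟨hd, hn.2.squarefree_of_dvd h⟩
theorem SF.div {n d : O} (hn : SF n) (hd : Prim d) (h : d ∣ n) : SF (n / d) ∧ IsCoprime d (n / d) := by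
  have e : d * (n / d) = n := EuclideanDomain.mul_div_cancel' hd.ne_zero h
  have hs : Squarefree (d * (n / d)) := by rw [e]; exact hn.2
  rw [squarefree_mul_iff] at hs
  exact ⟨⟨hn.1.div hd h, hs.2.2⟩, hs.1.isCoprime⟩
theorem SF.prod_pf {n : O} (hn : SF n) : ∏ p ∈ pf n, p = n := by
  obtain ⟨h1, h2⟩ := hn
  revert h2
  refine Prim.induction (P := fun n => Squarefree n → ∏ p ∈ pf n, p = n) (fun _ => ?_)
    (fun p a hp hp' ha ih hs => ?_) h1
  · rw [b1_pf_one, Finset.prod_empty]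
  · rw [b1_pf_prime_mul hp hp' ha.ne_zero, Finset.prod_insert, ih hs.of_mul_right]
    intro hm
    exact hp.not_isUnit ((s3_sqfree hp hs).isUnit_of_dvd ((mem_pf ha.ne_zero).1 hm).2.2)
theorem pf_mul {a b : O} (ha : a ≠ 0) (hb : b ≠ 0) : pf (a * b) = pf a ∪ pf b := by
  ext p
  rw [Finset.mem_union, mem_pf (mul_ne_zero ha hb), mem_pf ha, mem_pf hb]
  constructor
  · rintro ⟨h1, h2, h3⟩
    exact (h1.dvd_or_dvd h3).imp (fun h => ⟨h1, h2, h⟩) fun h => ⟨h1, h2, h⟩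
  · rintro (⟨h1, h2, h3⟩ | ⟨h1, h2, h3⟩)
    · exact ⟨h1, h2, h3.mul_right _⟩
    · exact ⟨h1, h2, h3.mul_left _⟩
theorem bx_mul {a b : O} (ha : a ≠ 0) (hb : b ≠ 0) (h : IsCoprime a b) :
    bx (a * b) = bx a + bx b := by
  have hd : Disjoint (pf a) (pf b) := by
    rw [Finset.disjoint_left]
    intro p hp hp'
    exact ((mem_pf ha).1 hp).1.not_isUnit
      (h.isUnit_of_dvd' ((mem_pf ha).1 hp).2.2 ((mem_pf hb).1 hp').2.2)
  rw [bx, bx, bx, pf_mul ha hb, ← Finset.disjUnion_eq_union _ _ hd, Finset.disjUnion_val,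
    Multiset.map_add]
theorem bx_prime {p : O} (hp : Prime p) (hp' : Prim p) : bx p = {box p} := by
  have := b1_pf_prime_mul hp hp' (one_ne_zero (α := O))
  rw [mul_one, b1_pf_one] at this
  rw [bx, this]
  simp
/-- `2^{∑ boxes} ≤ N n ≤ 2^{∑ boxes + number of primes}` -/
theorem SF.N_bx {n : O} (hn : SF n) :
    (2 : ℝ) ^ (bx n).sum ≤ N n ∧ N n ≤ (2 : ℝ) ^ ((bx n).sum + Multiset.card (bx n)) := by
  have e1 : (bx n).sum = ∑ p ∈ pf n, box p := rfl
  have e2 : Multiset.card (bx n) = ∑ p ∈ pf n, 1 := by simp [bx]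
  have e3 : N n = ∏ p ∈ pf n, N p := by rw [← N_prod, hn.prod_pf]
  rw [e2, e1, ← Finset.sum_add_distrib, ← Finset.prod_pow_eq_pow_sum, ← Finset.prod_pow_eq_pow_sum, e3]
  constructor
  · refine Finset.prod_le_prod (fun p _ => by positivity) fun p hp => ?_
    have h0 : nm p ≠ 0 := (nm_pos ((mem_pf hn.1.ne_zero).1 hp).1.ne_zero).ne'
    have := Nat.pow_log_le_self 2 h0
    unfold N box
    exact_mod_cast this
  · refine Finset.prod_le_prod (fun p _ => N_nonneg p) fun p _ => ?_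
    have := (Nat.lt_pow_succ_log_self (by norm_num : 1 < 2) (nm p)).le
    unfold N box
    exact_mod_cast this
theorem one_le_dv {n : O} (hn : n ≠ 0) : 1 ≤ dv n := by
  have : 0 < (pdiv n).card := Finset.card_pos.2 ⟨1, one_mem_pdiv hn⟩
  unfold dv
  exact_mod_cast this
theorem dv_mul_le {a b : O} (ha : a ≠ 0) (hb : b ≠ 0) : dv (a * b) ≤ dv a * dv b := by
  unfold dv
  exact_mod_cast card_pdiv_mul_le ha hb
theorem dv_le_of_dvd {a b : O} (hb : b ≠ 0) (h : a ∣ b) : dv a ≤ dv b := by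
  have ha : a ≠ 0 := ne_zero_of_dvd_ne_zero hb h
  have : pdiv a ⊆ pdiv b := fun e he =>
    (mem_pdiv hb).2 ⟨((mem_pdiv ha).1 he).1, ((mem_pdiv ha).1 he).2.trans h⟩
  unfold dv
  exact_mod_cast Finset.card_le_card this
theorem SF.dv_eq {n : O} (hn : SF n) : dv n = 2 ^ (pf n).card := by
  obtain ⟨h1, h2⟩ := hn
  revert h2
  refine Prim.induction (P := fun n => Squarefree n → dv n = 2 ^ (pf n).card) (fun _ => ?_)
    (fun p a hp hp' ha ih hs => ?_) h1
  · rw [b1_pf_one, dv, b3_pdiv_of_isUnit isUnit_one]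
    simp
  · have hc := s3_sqfree hp hs
    have h3 := sum_pdiv_mul hp.ne_zero ha.ne_zero hc fun _ => (1 : ℝ)
    have h4 : pdiv p = {1, p} := by
      have := pdiv_prime_pow hp hp' 1
      rw [pow_one] at this
      rw [this]
      ext x
      simp [Finset.range_add_one, eq_comm, or_comm]
    rw [b1_pf_prime_mul hp hp' ha.ne_zero, Finset.card_insert_of_notMem, pow_succ, ← ih hs.of_mul_right]
    · rw [h4, Finset.sum_pair hp.ne_one.symm] at h3
      simp only [Finset.sum_const, nsmul_eq_mul, mul_one] at h3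
      rw [dv, dv, h3]
      ring
    · intro hm
      exact hp.not_isUnit (hc.isUnit_of_dvd ((mem_pf ha.ne_zero).1 hm).2.2)
theorem card_pf_le {n : O} (hn : n ≠ 0) : ((pf n).card : ℝ) * Real.log 2 ≤ lg n := by
  have h1 : ∏ p ∈ pf n, p ∣ n := by
    refine Finset.prod_dvd_of_coprime (fun p hp q hq hpq => ?_) fun p hp => ((mem_pf hn).1 hp).2.2
    have h2 := (mem_pf hn).1 hp
    have h3 := (mem_pf hn).1 hq
    exact Prim.b3_isCoprime_of_ne h2.1 h2.2.1 h3.1 h3.2.1 hpq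
  have h2 : (2 : ℝ) ^ (pf n).card ≤ N n := by
    refine le_trans ?_ (N_le_of_dvd hn h1)
    rw [N_prod, ← Finset.prod_const]
    exact Finset.prod_le_prod (fun _ _ => by norm_num) fun p hp => Prime.two_le_N ((mem_pf hn).1 hp).1
  rw [← Real.log_pow]
  exact Real.log_le_log (by positivity) h2
theorem n2_le_nt {S : Finset O} (hS : ∀ n ∈ S, n ≠ 0) (x : O → ℂ) : n2 S x ≤ nt S x := by
  refine Finset.sum_le_sum fun n hn => ?_
  exact le_mul_of_one_le_right (by positivity) (one_le_pow₀ (one_le_dv (hS n hn)))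

/-- `n = p² m`: substituting `x ↦ x (1 + (n/p) t)`-type shifts, or `gs_lift`: `cub n` is periodic
modulo `n/p`, so `gs n (cub n) 1 = 0` since `p ∤ 1`. -/
theorem g3_eq_zero {n : O} (hn : Prim n) (h : ¬ Squarefree n) : g3 n = 0 := by
  rw [Squarefree] at h
  push Not at h
  obtain ⟨x, ⟨m, hm⟩, hx⟩ := h
  have h0 := hn.ne_zero
  have e : n = x * m * x := by rw [hm]; ring
  have h1 : x * m ≠ 0 := fun h => h0 (by rw [e, h, zero_mul])
  have h2 : x ≠ 0 := left_ne_zero_of_mul h1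
  have hper : Per (x * m) (cub n) := by
    have e2 : cub n = fun d => sym 3 (x * m) d * sym 3 x d := by
      funext d
      rw [cub, e, sym_mul_left 3 h1 h2]
    rw [e2]
    exact (sym_per 3 (x * m)).mul ((sym_per 3 x).of_dvd (dvd_mul_right x m))
  have h3 := gs_lift h1 h2 hper 1
  rw [if_neg fun h => hx (isUnit_of_dvd_one h), ← e] at h3
  rw [g3, h3, zero_div]
theorem norm_g3_le {n : O} (hn : Prim n) : ‖g3 n‖ ≤ 1 := by
  by_cases h : Squarefree n
  · exact (norm_g3 hn.isCoprime_three h).le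
  · rw [g3_eq_zero hn h, norm_zero]
    exact zero_le_one
theorem norm_GG {n : O} (hn : SF n) : ‖GG n‖ = 1 := by
  rw [GG, norm_mul, norm_g3 hn.1.isCoprime_three hn.2, Complex.norm_conj,
    (rcub_isChar hn.1).norm_eq_one hn.1.ne_zero hn.1.isCoprime_lam.symm, one_mul]
theorem norm_GG_le {n : O} (hn : Prim n) : ‖GG n‖ ≤ 1 := by
  rw [GG, norm_mul, Complex.norm_conj,
    (rcub_isChar hn).norm_eq_one hn.ne_zero hn.isCoprime_lam.symm, mul_one]
  exact norm_g3_le hn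
/-- coprime case: `g3_mul`, `conj_cub`, `cub_rec`; otherwise both sides vanish -/
theorem g3_mul' {a b : O} (ha : SF a) (hb : Prim b) :
    g3 (a * b) = g3 a * g3 b * conj (cub b a) := by
  by_cases h : IsCoprime a b
  · rw [g3_mul ha.1 hb h, ← conj_cub ha.1.isCoprime_three, cub_rec ha.1 hb]
  · rw [((rcub_isChar hb).zero_iff a).2 h, map_zero, mul_zero]
    refine g3_eq_zero (ha.1.mul hb) fun hs => h ?_
    exact (squarefree_mul_iff.1 hs).1.isCoprime
theorem GG_mul {a b : O} (ha : SF a) (hb : Prim b) :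
    GG (a * b) = GG a * GG b * conj (cub b a) := by
  rw [GG, GG, GG, g3_mul' ha hb, rkub_mul_left ha.1 hb, map_mul]
  ring
/-- Möbius inversion of `tau (m₀c³) = conj (g3 m₀) √N c`: both sides vanish unless `m = m₀c³`
(`tau_ne_zero`, `rkey_cube`), and then the sum is `conj (g3 m₀) √N c ∑_{d ∣ c} μ(d)`. -/
theorem conj_g3_eq {m : O} (hm : Prim m) : conj (g3 m) =
    ∑ d ∈ (pdiv m).filter (fun d => d ^ 3 ∣ m), mu d * (Real.sqrt (N d) : ℂ) * tau (m / d ^ 3) := by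
  have h1 : ∑ d ∈ (pdiv m).filter (fun d => d ^ 3 ∣ m), mu d * (Real.sqrt (N d) : ℂ) * tau (m / d ^ 3) =
      (∑ d ∈ (pdiv m).filter (fun d => d ^ 3 ∣ m), mu d) * tau m := by
    rw [Finset.sum_mul]
    refine Finset.sum_congr rfl fun d hd => ?_
    rw [Finset.mem_filter, mem_pdiv hm.ne_zero] at hd
    have h2 := tau_mul_cube (hm.div (hd.1.1.pow 3) hd.2) hd.1.1
    rw [mul_comm (m / d ^ 3), EuclideanDomain.mul_div_cancel' (hd.1.1.pow 3).ne_zero hd.2] at h2
    rw [h2]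
    ring
  rw [h1]
  have h3 : Squarefree m → tau m = conj (g3 m) := fun hs => by
    have := tau_eq hm hs Prim.one
    simpa [N] using this
  by_cases ht : tau m = 0
  · rw [ht, mul_zero]
    by_cases hs : Squarefree m
    · rw [← h3 hs, ht]
    · rw [g3_eq_zero hm hs, map_zero]
  · obtain ⟨m0, c, hm0, hs, hc, e⟩ := tau_ne_zero hm ht
    have h4 : (pdiv m).filter (fun d => d ^ 3 ∣ m) = pdiv c := by
      ext d
      rw [Finset.mem_filter, mem_pdiv hm.ne_zero, mem_pdiv hc.ne_zero]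
      constructor
      · rintro ⟨⟨hd, -⟩, t, ht⟩
        obtain ⟨a, -, ha, -⟩ := rkey_cube (m := t) hd hc hs (by rw [← e, ht, mul_comm])
        exact ⟨hd, a, ha⟩
      · rintro ⟨hd, h⟩
        have h5 : d ^ 3 ∣ m := by rw [e]; exact (pow_dvd_pow_of_dvd h 3).mul_left _
        exact ⟨⟨hd, (dvd_pow_self d (by norm_num)).trans h5⟩, h5⟩
    rw [h4, sum_mu_pdiv hc]
    split_ifs with h1
    · rw [h1, one_pow, mul_one] at e
      rw [one_mul, h3 (e ▸ hs)]
    · rw [zero_mul, g3_eq_zero hm, map_zero]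
      intro hsq
      exact h1 (hc.eq_one_of_isUnit (hsq c ⟨m0 * c, by rw [e]; ring⟩))
theorem cP_pos : 0 < cP := by
  have h := Real.Gamma_pos_of_pos (show (0 : ℝ) < 2 / 3 by norm_num)
  have := Real.pi_pos
  unfold cP
  positivity
theorem norm_ff_le (ℓ : ℤ) (n : O) : ‖ff ℓ n‖ ≤ 1 + cP := by
  have h0 := cP_pos
  unfold ff
  split_ifs with h
  · rw [norm_mul, norm_zpow, norm_ang h.1.ne_zero, one_zpow, one_mul]
    refine (norm_sub_le _ _).trans (add_le_add (norm_GG h).le ?_)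
    have h1 : 0 ≤ N n ^ (-(1 / 6 : ℝ)) := Real.rpow_nonneg (N_nonneg n) _
    rw [Complex.norm_real, Real.norm_of_nonneg (mul_nonneg h0.le h1)]
    exact mul_le_of_le_one_right h0.le
      (Real.rpow_le_one_of_one_le_of_nonpos (one_le_N h.1.ne_zero) (by norm_num))
  · rw [norm_zero]
    linarith
theorem norm_fP_le (ℓ : ℤ) (n : O) : ‖fP ℓ n‖ ≤ 1 + cP := by
  unfold fP
  split_ifs
  · exact norm_ff_le ℓ n
  · rw [norm_zero]
    linarith [cP_pos]
theorem conj_ang {n : O} (hn : n ≠ 0) (ℓ : ℤ) : conj (ang n ^ ℓ) = ang n ^ (-ℓ) := by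
  rw [map_zpow₀, zpow_neg, ← inv_zpow, Complex.inv_eq_conj (norm_ang hn)]
theorem conj_ff (ℓ : ℤ) (n : O) : conj (ff ℓ n) = h3 (-ℓ) (phr lam) n -
    (if SF n then ang n ^ (-ℓ) * ((cP * N n ^ (-(1 / 6 : ℝ)) : ℝ) : ℂ) else 0) := by
  unfold ff h3 phr
  by_cases h : SF n
  · rw [if_pos h, if_pos h, if_pos h.1, if_pos h.1, map_mul, map_sub, conj_ang h.1.ne_zero, GG, map_mul,
      Complex.conj_conj, Complex.conj_ofReal]
    ring
  · rw [if_neg h, if_neg h, map_zero, sub_zero]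
    split_ifs with hp
    · rw [g3_eq_zero hp fun hs => h ⟨hp, hs⟩]
      simp
    · rfl
theorem BF_eq (ℓ : ℤ) {SA SB : Finset O} (hA : ∀ a ∈ SA, SF a) (hB : ∀ b ∈ SB, SF b)
    (α β : O → ℂ) (v T : ℝ) : BF ℓ SA SB α β v T =
      BG SA SB (fun a => α a * ang a ^ ℓ) (fun b => β b * ang b ^ ℓ) v T -
      cP * BM SA SB (fun a => α a * ang a ^ ℓ) (fun b => β b * ang b ^ ℓ) v T := by
  unfold BF BG BM
  rw [Finset.mul_sum, ← Finset.sum_sub_distrib]
  refine Finset.sum_congr rfl fun a ha => ?_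
  rw [Finset.mul_sum, ← Finset.sum_sub_distrib]
  refine Finset.sum_congr rfl fun b hb => ?_
  have hp : Prim (a * b) := (hA a ha).1.mul (hB b hb).1
  unfold ff
  by_cases hs : Squarefree (a * b)
  · rw [if_pos ⟨hp, hs⟩, if_pos hs, ang_mul, mul_zpow, Complex.ofReal_mul]
    ring
  · rw [if_neg fun h => hs h.2, if_neg hs, GG, g3_eq_zero hp hs]
    ring
theorem b1_prim_congr {x y : O} (hx : Prim x) (h : (9 : O) ∣ y - x) : Prim y := by
  have h3 : (3 : O) ∣ y - x := (show (3 : O) ∣ 9 from ⟨3, by norm_num⟩).trans h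
  have := h3.add hx
  rwa [sub_add_sub_cancel] at this
/-- `phr r` is periodic modulo `9 r` (`cub_congr`) -/
theorem phr_per {r : O} (hr : r ≠ 0) : Per (9 * r) (phr r) := by
  intro x t
  have h9 : (9 : O) ∣ x + 9 * r * t - x := ⟨r * t, by ring⟩
  unfold phr
  by_cases hx : Prim x
  · have hx' := b1_prim_congr hx h9
    rw [if_pos hx, if_pos hx']
    exact cub_congr hx' hx hr h9 fun p _ hp => hp.trans ⟨9 * t, by ring⟩
  · rw [if_neg hx, if_neg fun h => hx (b1_prim_congr h (dvd_sub_comm.1 h9))]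
theorem phr_lam_per : Per 9 (phr lam) := by
  intro x t
  have h9 : (9 : O) ∣ x + 9 * t - x := ⟨t, by ring⟩
  unfold phr
  by_cases hx : Prim x
  · have hx' := b1_prim_congr hx h9
    rw [if_pos hx, if_pos hx']
    exact cub_lam_congr hx' hx h9
  · rw [if_neg hx, if_neg fun h => hx (b1_prim_congr h (dvd_sub_comm.1 h9))]
theorem norm_phr_le (r m : O) : ‖phr r m‖ ≤ 1 := by
  unfold phr
  split_ifs with h
  · exact (rcub_isChar h).norm_le h.ne_zero r
  · simp

theorem b1_sf_one : SF 1 := ⟨Prim.one, squarefree_one⟩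
theorem b1_sf_mul {a b : O} (ha : SF a) (hb : SF b) (h : IsCoprime a b) : SF (a * b) :=
  ⟨ha.1.mul hb.1, squarefree_mul_iff.2 ⟨h.isRelPrime, ha.2, hb.2⟩⟩
theorem b1_dec_prim {b : O} (hb : Prim b) :
    ∃ k1 k2 m, SF k1 ∧ SF k2 ∧ IsCoprime k1 k2 ∧ b = k1 * k2 ^ 2 * m ^ 3 := by
  refine Prim.induction (P := fun b => ∃ k1 k2 m, SF k1 ∧ SF k2 ∧ IsCoprime k1 k2 ∧
    b = k1 * k2 ^ 2 * m ^ 3) ⟨1, 1, 1, b1_sf_one, b1_sf_one, isCoprime_one_left, by simp⟩ ?_ hb
  rintro p a hp hp' - ⟨k1, k2, m, h1, h2, h3, rfl⟩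
  have hsp : SF p := ⟨hp', hp.squarefree⟩
  by_cases d2 : p ∣ k2
  · obtain ⟨k, rfl⟩ := d2
    exact ⟨k1, k, p * m, h1, h2.of_dvd (h2.1.of_mul_left hp') (dvd_mul_left _ _), h3.of_mul_right_right,
      by ring⟩
  · have c2 : IsCoprime p k2 := hp.irreducible.coprime_iff_not_dvd.2 d2
    by_cases d1 : p ∣ k1
    · obtain ⟨k, rfl⟩ := d1
      exact ⟨k, p * k2, m, h1.of_dvd (h1.1.of_mul_left hp') (dvd_mul_left _ _), b1_sf_mul hsp h2 c2,
        (s3_sqfree hp h1.2).symm.mul_right h3.of_mul_left_right, by ring⟩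
    · exact ⟨p * k1, k2, m, b1_sf_mul hsp h1 (hp.irreducible.coprime_iff_not_dvd.2 d1), h2,
        c2.mul_left h3, by ring⟩

/-- every `k ≠ 0` is `u λ^j k₁ k₂² m³` (induction on primes, or `exists_eq_unit_lam_prim` +
factorisation exponents mod 3) -/
theorem exists_dec {k : O} (hk : k ≠ 0) : ∃ k1, Dec k k1 := by
  obtain ⟨u, j, b, hu, hb, e⟩ := exists_eq_unit_lam_prim hk
  obtain ⟨k1, k2, m, h1, h2, h3, e'⟩ := b1_dec_prim hb
  refine ⟨k1, u, j % 3, k2, lam ^ (j / 3) * m, hu, Nat.mod_lt _ (by norm_num), h1, h2, h3, ?_⟩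
  rw [e, e']
  conv_lhs => rw [← Nat.mod_add_div j 3]
  ring
/-- take `k = k₀m³` with `nm k₀` minimal; apply `exists_dec` to `k₀`: its cube part is a unit by
minimality (absorb it in `m`). -/
theorem exists_min_dec {H Q : ℝ} {k : O} (hk : k ≠ 0) (h1 : ¬ Maj H k) (h2 : Maj Q k) :
    ∃ (u : O) (j : ℕ) (k1 k2 m : O), IsUnit u ∧ j < 3 ∧ SF k1 ∧ SF k2 ∧ IsCoprime k1 k2 ∧
      k = u * lam ^ j * k1 * k2 ^ 2 * m ^ 3 ∧ H < N (u * lam ^ j * k1 * k2 ^ 2) ∧
      N (u * lam ^ j * k1 * k2 ^ 2) ≤ Q := by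
  obtain ⟨k0, m, e, hQ⟩ := h2
  have h0 : k0 ≠ 0 := fun h => hk (by rw [e, h, zero_mul])
  obtain ⟨k1, u, j, k2, m', hu, hj, h3, h4, h5, e'⟩ := exists_dec h0
  have e2 : k = u * lam ^ j * k1 * k2 ^ 2 * (m' * m) ^ 3 := by rw [e, e']; ring
  refine ⟨u, j, k1, k2, m' * m, hu, hj, h3, h4, h5, e2, ?_, le_trans (N_le_of_dvd h0 ⟨m' ^ 3, e'⟩) hQ⟩
  by_contra h
  exact h1 ⟨_, _, e2, not_lt.1 h⟩
theorem cub_cube {n : O} (hn : Prim n) (k m : O) :
    cub n (k * m ^ 3) = if IsCoprime n m then cub n k else 0 := by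
  rw [(rcub_isChar hn).mul, rkub_pow hn]
  have := sym_pow_eq (k := 3) (Or.inr (Or.inl rfl)) (n := n) (by exact_mod_cast hn.isCoprime_three) m
  rw [← cub] at this
  rw [this]
  by_cases h : IsCoprime n m
  · rw [if_pos h, if_pos h.symm, mul_one]
  · rw [if_neg h, if_neg fun h' => h h'.symm, mul_zero]
theorem cub_sq {n : O} (hn : Prim n) (k : O) : cub n (k ^ 2) = conj (cub n k) := by
  rw [rkub_pow hn, conj_cub hn.isCoprime_three]

/-! ### windows -/

theorem win_eq_winS (a : O → ℂ) (v T : ℝ) : win a v T = winS a v T 0 := by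
  simp only [win, winS, neg_zero, Complex.cpow_zero, mul_one]
/-- `gw (T x) ≤ gw x` for `T ≥ 1`, `summable_blks` -/
theorem summable_winS {a : O → ℂ} (ha : PolyBd a) (v : ℝ) {T : ℝ} (hT : 1 ≤ T) (s : ℂ) :
    Summable (fun n : O => ‖if n = 0 then 0 else
      a n * (N n : ℂ) ^ (-s) * (gw (T * (lg n - v)) : ℂ)‖) := by
  refine Summable.of_nonneg_of_le (fun _ => norm_nonneg _) (fun n => ?_) (summable_blks ha v s)
  split_ifs with hn
  · exact le_rfl
  · rw [norm_mul, norm_mul (_ * _)]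
    refine mul_le_mul_of_nonneg_left ?_ (norm_nonneg _)
    rw [Complex.norm_real, Complex.norm_real, Real.norm_of_nonneg (gw_pos _).le,
      Real.norm_of_nonneg (gw_pos _).le, gw, gw, lg, Real.exp_le_exp, neg_le_neg_iff, mul_pow]
    exact le_mul_of_one_le_left (sq_nonneg _) (one_le_pow₀ hT)
theorem winS_add {a b : O → ℂ} (ha : PolyBd a) (hb : PolyBd b) (v : ℝ) {T : ℝ} (hT : 1 ≤ T)
    (s : ℂ) : winS (fun n => a n + b n) v T s = winS a v T s + winS b v T s := by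
  unfold winS
  rw [← (summable_winS ha v hT s).of_norm.tsum_add (summable_winS hb v hT s).of_norm]
  refine tsum_congr fun n => ?_
  split_ifs
  · simp
  · ring
theorem winS_sum {ι : Type*} (I : Finset ι) {a : ι → O → ℂ} (ha : ∀ i ∈ I, PolyBd (a i)) (v : ℝ)
    {T : ℝ} (hT : 1 ≤ T) (s : ℂ) :
    winS (fun n => ∑ i ∈ I, a i n) v T s = ∑ i ∈ I, winS (a i) v T s := by
  unfold winS
  rw [← Summable.tsum_finsetSum fun i hi => (summable_winS (ha i hi) v hT s).of_norm]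
  refine tsum_congr fun n => ?_
  split_ifs
  · simp
  · rw [Finset.sum_mul, Finset.sum_mul]
theorem winS_smul (c : ℂ) (a : O → ℂ) (v T : ℝ) (s : ℂ) :
    winS (fun n => c * a n) v T s = c * winS a v T s := by
  unfold winS
  rw [← tsum_mul_left]
  refine tsum_congr fun n => ?_
  split_ifs
  · simp
  · ring
theorem conj_winS (a : O → ℂ) (v T : ℝ) (s : ℂ) :
    conj (winS a v T s) = winS (fun n => conj (a n)) v T (conj s) := by
  unfold winS
  rw [Complex.conj_tsum]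
  refine tsum_congr fun n => ?_
  split_ifs with hn
  · simp
  · have h : ((N n : ℝ) : ℂ).arg ≠ Real.pi := by
      rw [Complex.arg_ofReal_of_nonneg (N_nonneg n)]
      exact Real.pi_pos.ne
    rw [map_mul, map_mul, Complex.conj_ofReal, ← map_neg, Complex.cpow_conj _ _ h, Complex.conj_ofReal]
theorem winS_dvR {e : O} (he : e ≠ 0) (a : O → ℂ) (v T : ℝ) (s : ℂ) :
    winS (dvR e a) v T s = (N e : ℂ) ^ (-s) * winS (fun m => a (e * m)) (v - lg e) T s := by
  have h1 := tsum_dvd he fun n => if n = 0 then 0 else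
    a n * (N n : ℂ) ^ (-s) * (gw (T * (lg n - v)) : ℂ)
  unfold winS dvR
  rw [← tsum_mul_left]
  refine Eq.trans (tsum_congr fun n => ?_) (h1.trans (tsum_congr fun m => ?_))
  · by_cases h2 : e ∣ n <;> simp [h2]
  · by_cases hm : m = 0
    · simp [hm]
    · unfold lg
      rw [if_neg (mul_ne_zero he hm), if_neg hm, N_mul, Complex.ofReal_mul,
        Complex.mul_cpow_ofReal_nonneg (N_nonneg e) (N_nonneg m),
        Real.log_mul (N_pos he).ne' (N_pos hm).ne',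
        show Real.log (N e) + Real.log (N m) - v = Real.log (N m) - (v - Real.log (N e)) by ring]
      ring
theorem winS_shift (a : O → ℂ) (v T : ℝ) (s z : ℂ) :
    winS (fun n => a n * (N n : ℂ) ^ (-z)) v T s = winS a v T (s + z) := by
  unfold winS
  refine tsum_congr fun n => ?_
  split_ifs with hn
  · rfl
  · rw [neg_add, Complex.cpow_add _ _ (Complex.ofReal_ne_zero.2 (N_pos hn).ne')]
    ring
theorem norm_mainW_le {p s : ℂ} (v : ℝ) {T : ℝ} (hT : 1 ≤ T) (h : |p.re - s.re| ≤ 5) :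
    ‖mainW p s v T‖ ≤ 2 * Real.exp 7 / T * Real.exp ((p.re - s.re) * v) := by
  have hT0 : 0 < T := by linarith
  have h1 : ((p - s) ^ 2 / (4 * T ^ 2) + (p - s) * v : ℂ).re ≤ 7 + (p.re - s.re) * v := by
    have e : ((p - s) ^ 2 / (4 * T ^ 2) : ℂ) = (p - s) ^ 2 / ((4 * T ^ 2 : ℝ) : ℂ) := by push_cast; ring
    rw [Complex.add_re, e, Complex.div_ofReal_re, Complex.re_mul_ofReal, Complex.sub_re]
    refine add_le_add ?_ le_rfl
    rw [div_le_iff₀ (by positivity), pow_two, Complex.mul_re, Complex.sub_re]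
    have h2 := abs_le.1 h
    have h3 : 1 ≤ T ^ 2 := one_le_pow₀ hT
    nlinarith [mul_self_nonneg (p - s).im]
  have h2 : Real.sqrt Real.pi ≤ 2 := by
    rw [Real.sqrt_le_left (by norm_num)]
    linarith [Real.pi_le_four]
  rw [mainW, norm_mul, Complex.norm_real, Complex.norm_exp, Real.norm_of_nonneg (by positivity)]
  calc _ ≤ 2 / T * Real.exp (7 + (p.re - s.re) * v) := by gcongr
    _ = _ := by rw [Real.exp_add]; ring
theorem polyBd_of_le {a : O → ℂ} {M : ℝ} (h : ∀ n, ‖a n‖ ≤ M) : PolyBd a := by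
  exact ⟨M, 0, fun n _ => by simpa using h n⟩

end Crest.Agent.R12
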