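import Crest.Agent.R12.Basic1
import Crest.Agent.R17.Local

/-!
# R12 / Basic2 : divisor moments, Rankin's trick, counting primes
-/

set_option autoImplicit false

noncomputable section

open scoped Classical ComplexConjugate Topology
open MeasureTheory Filter

namespace Crest.Agent.R12

open Crest.Agent.R17

theorem bb_dv_nonneg (n : O) : 0 ≤ dv n := Nat.cast_nonneg _

theorem bb_mul_div {n d : O} (hn : n ≠ 0) (h : d ∣ n) : n = d * (n / d) ∧ d ≠ 0 ∧ n / d ≠ 0 := by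
  have hd : d ≠ 0 := ne_zero_of_dvd_ne_zero hn h
  have e := (EuclideanDomain.mul_div_cancel' hd h).symm
  exact ⟨e, hd, fun h0 => hn (by rw [e, h0, mul_zero])⟩

theorem bb_conv (S : Finset O) (hS : ∀ n ∈ S, n ≠ 0) (D : O → Finset O)
    (hD : ∀ n ∈ S, ∀ d ∈ D n, d ∣ n) (A : Finset O) (Bf : O → Finset O) (F : O → O → ℝ)
    (hF : ∀ d m, 0 ≤ F d m) (h : ∀ n ∈ S, ∀ d ∈ D n, d ∈ A ∧ n / d ∈ Bf d) :
    ∑ n ∈ S, ∑ d ∈ D n, F d (n / d) ≤ ∑ d ∈ A, ∑ m ∈ Bf d, F d m := by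
  rw [Finset.sum_sigma', Finset.sum_sigma']
  have hinj : Set.InjOn (fun x : (_ : O) × O => (⟨x.2, x.1 / x.2⟩ : (_ : O) × O))
      (S.sigma D : Finset ((_ : O) × O)) := by
    rintro ⟨n, d⟩ hx ⟨n', d'⟩ hx' e
    rw [Finset.mem_coe, Finset.mem_sigma] at hx hx'
    simp only [Sigma.mk.injEq, heq_eq_eq] at e
    obtain ⟨rfl, e⟩ := e
    have h1 := (bb_mul_div (hS _ hx.1) (hD _ hx.1 _ hx.2)).1
    have h2 := (bb_mul_div (hS _ hx'.1) (hD _ hx'.1 _ hx'.2)).1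
    simp only at h1 h2
    obtain rfl : n = n' := by rw [h1, e, ← h2]
    rfl
  rw [← Finset.sum_image (f := fun y : (_ : O) × O => F y.1 y.2) hinj]
  refine Finset.sum_le_sum_of_subset_of_nonneg (fun y hy => ?_) fun _ _ _ => hF _ _
  obtain ⟨x, hx, rfl⟩ := Finset.mem_image.1 hy
  rw [Finset.mem_sigma] at hx ⊢
  exact h _ hx.1 _ hx.2

theorem bb_dyadic {Y : ℝ} (hY : 0 < Y) (S : Finset O) (hS : ∀ n ∈ S, Y ≤ N n) (f : O → ℝ) (a : ℕ → ℝ)
    (h : ∀ k, ∀ T ⊆ S, (∀ n ∈ T, 2 ^ k * Y ≤ N n ∧ N n ≤ 2 * (2 ^ k * Y)) → ∑ n ∈ T, f n ≤ a k) :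
    ∃ K : Finset ℕ, (∀ k ∈ K, ∃ n ∈ S, 2 ^ k * Y ≤ N n) ∧ ∑ n ∈ S, f n ≤ ∑ k ∈ K, a k := by
  have h1 : ∀ n : O, ∃ k : ℕ, n ∈ S → 2 ^ k * Y ≤ N n ∧ N n ≤ 2 * (2 ^ k * Y) := by
    intro n
    by_cases hn : n ∈ S
    · obtain ⟨k, h1, h2⟩ := exists_nat_pow_near ((one_le_div hY).2 (hS n hn)) (one_lt_two (α := ℝ))
      rw [le_div_iff₀ hY] at h1
      rw [div_lt_iff₀ hY, pow_succ] at h2
      exact ⟨k, fun _ => ⟨h1, by linarith⟩⟩
    · exact ⟨0, fun h => absurd h hn⟩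
  choose κ hκ using h1
  refine ⟨S.image κ, fun k hk => ?_, ?_⟩
  · obtain ⟨n, hn, rfl⟩ := Finset.mem_image.1 hk
    exact ⟨n, hn, (hκ n hn).1⟩
  · rw [← Finset.sum_fiberwise_of_maps_to (g := κ) (t := S.image κ)
      fun n hn => Finset.mem_image_of_mem _ hn]
    refine Finset.sum_le_sum fun k _ => h k _ (Finset.filter_subset _ _) fun n hn => ?_
    obtain ⟨h1, rfl⟩ := Finset.mem_filter.1 hn
    exact hκ n h1

/-- induction on `j`: `∑ dv^{j+1}/N ≤ ∑_{d,m} dv(dm)^j/(N d N m) ≤ (∑ dv^j/N)²`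
(`dv_mul_le`, `sum_ball_inv`); exponent `2^j`. -/
theorem sum_dv_inv (j : ℕ) : ∃ (C : ℝ) (B : ℕ), 0 ≤ C ∧ ∀ X : ℝ, 1 ≤ X →
    ∑ n ∈ ball X, dv n ^ j / N n ≤ C * (1 + Real.log X) ^ B := by
  induction j with
  | zero =>
    obtain ⟨C, hC⟩ := sum_ball_inv
    refine ⟨max C 0, 1, le_max_right _ _, fun X hX => ?_⟩
    have := Real.log_nonneg hX
    simp only [pow_zero, one_div, pow_one]
    exact (hC X hX).trans (mul_le_mul_of_nonneg_right (le_max_left _ _) (by positivity))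
  | succ j ih =>
    obtain ⟨C, B, hC0, hC⟩ := ih
    refine ⟨C * C, B + B, by positivity, fun X hX => ?_⟩
    have nn : ∀ n, 0 ≤ dv n ^ j / N n := fun n =>
      div_nonneg (pow_nonneg (bb_dv_nonneg n) _) (N_nonneg n)
    have h0 : ∀ n ∈ ball X, n ≠ 0 := fun n hn => (mem_ball.1 hn).1
    have h1 := bb_conv (ball X) h0 pdiv (fun n hn d hd => ((mem_pdiv (h0 n hn)).1 hd).2) (ball X)
      (fun _ => ball X) (fun d m => dv d ^ j / N d * (dv m ^ j / N m))
      (fun d m => mul_nonneg (nn d) (nn m)) (fun n hn d hd => by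
        have hd' := ((mem_pdiv (h0 n hn)).1 hd).2
        obtain ⟨e, a1, a2⟩ := bb_mul_div (h0 n hn) hd'
        exact ⟨mem_ball.2 ⟨a1, (N_le_of_dvd (h0 n hn) hd').trans (mem_ball.1 hn).2⟩,
          mem_ball.2 ⟨a2, (N_le_of_dvd (h0 n hn) (Dvd.intro_left _ e.symm)).trans (mem_ball.1 hn).2⟩⟩)
    rw [← Finset.sum_mul_sum] at h1
    have h2 := hC X hX
    have h3 : 0 ≤ ∑ n ∈ ball X, dv n ^ j / N n := Finset.sum_nonneg fun n _ => nn n
    refine le_trans (Finset.sum_le_sum fun n hn => ?_) (h1.trans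
      ((mul_le_mul h2 h2 h3 (h3.trans h2)).trans_eq (by ring)))
    have e1 : dv n ^ (j + 1) / N n = ∑ _d ∈ pdiv n, dv n ^ j / N n := by
      rw [Finset.sum_const, nsmul_eq_mul, pow_succ, ← dv]; ring
    rw [e1]
    refine Finset.sum_le_sum fun d hd => ?_
    obtain ⟨e, a1, a2⟩ := bb_mul_div (h0 n hn) ((mem_pdiv (h0 n hn)).1 hd).2
    have h4 : dv n ≤ dv d * dv (n / d) := by
      conv_lhs => rw [e]
      exact dv_mul_le a1 a2
    have h5 : N n = N d * N (n / d) := by rw [← N_mul, ← e]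
    rw [div_mul_div_comm, ← h5, ← mul_pow]
    exact div_le_div_of_nonneg_right (pow_le_pow_left₀ (bb_dv_nonneg n) h4 j) (N_nonneg n)
theorem sum_dv (j : ℕ) : ∃ (C : ℝ) (B : ℕ), 0 ≤ C ∧ ∀ X : ℝ, 1 ≤ X →
    ∑ n ∈ ball X, dv n ^ j ≤ C * X * (1 + Real.log X) ^ B := by
  obtain ⟨C, B, hC0, hC⟩ := sum_dv_inv j
  refine ⟨C, B, hC0, fun X hX => ?_⟩
  have h1 : ∑ n ∈ ball X, dv n ^ j ≤ X * ∑ n ∈ ball X, dv n ^ j / N n := by
    rw [Finset.mul_sum]
    refine Finset.sum_le_sum fun n hn => ?_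
    obtain ⟨h1, h2⟩ := mem_ball.1 hn
    rw [← mul_div_assoc, le_div_iff₀ (N_pos h1), mul_comm]
    exact mul_le_mul_of_nonneg_right h2 (pow_nonneg (bb_dv_nonneg n) _)
  exact h1.trans ((mul_le_mul_of_nonneg_left (hC X hX) (by linarith)).trans_eq (by ring))
/-- dyadic shells and `sum_dv` -/
theorem sum_dv_tail (j : ℕ) : ∃ (C : ℝ) (B : ℕ), 0 ≤ C ∧ ∀ Y : ℝ, 1 ≤ Y → ∀ S : Finset O,
    (∀ n ∈ S, Y < N n) → ∑ n ∈ S, dv n ^ j / N n ^ 2 ≤ C * (1 + Real.log Y) ^ B / Y := by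
  obtain ⟨C, B, hC0, hC⟩ := sum_dv_inv j
  have hs : Summable fun k : ℕ => ((k : ℝ) + 2) ^ B * (1 / 2 : ℝ) ^ k := by
    have h1 := (summable_nat_add_iff 2).2
      (summable_pow_mul_geometric_of_norm_lt_one B (r := (1 / 2 : ℝ)) (by norm_num))
    refine (h1.mul_left 4).congr fun k => ?_
    push_cast
    ring
  refine ⟨C * ∑' k : ℕ, ((k : ℝ) + 2) ^ B * (1 / 2 : ℝ) ^ k, B,
    mul_nonneg hC0 (tsum_nonneg fun k => by positivity), fun Y hY S hS => ?_⟩
  have hl := Real.log_nonneg hY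
  obtain ⟨K, -, hK⟩ := bb_dyadic (by linarith : 0 < Y) S (fun n hn => (hS n hn).le)
    (fun n => dv n ^ j / N n ^ 2)
    (fun k => C * (1 + Real.log Y) ^ B / Y * (((k : ℝ) + 2) ^ B * (1 / 2 : ℝ) ^ k)) (fun k T _ hT => by
      have h2k : (1 : ℝ) ≤ 2 ^ k := one_le_pow₀ one_le_two
      have hp : 1 ≤ 2 ^ k * Y := one_le_mul_of_one_le_of_one_le h2k hY
      have h1 : ∑ n ∈ T, dv n ^ j / N n ^ 2 ≤ (2 ^ k * Y)⁻¹ * ∑ n ∈ T, dv n ^ j / N n := by
        rw [Finset.mul_sum]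
        refine Finset.sum_le_sum fun n hn => ?_
        rw [sq, ← div_div, div_eq_inv_mul (_ / _)]
        exact mul_le_mul_of_nonneg_right (inv_anti₀ (by linarith) (hT n hn).1)
          (div_nonneg (pow_nonneg (bb_dv_nonneg n) _) (N_nonneg n))
      have h2 : ∑ n ∈ T, dv n ^ j / N n ≤ ∑ n ∈ ball (2 * (2 ^ k * Y)), dv n ^ j / N n :=
        Finset.sum_le_sum_of_subset_of_nonneg (fun n hn => mem_ball.2 ⟨fun h0 => by
          have := (hT n hn).1
          rw [h0, N_zero] at this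
          linarith, (hT n hn).2⟩)
          fun n _ _ => div_nonneg (pow_nonneg (bb_dv_nonneg n) _) (N_nonneg n)
      have h3 := hC (2 * (2 ^ k * Y)) (by linarith)
      have h4 : 1 + Real.log (2 * (2 ^ k * Y)) ≤ (1 + Real.log Y) * (k + 2) := by
        rw [Real.log_mul (by norm_num) (by positivity), Real.log_mul (by positivity) (by positivity),
          Real.log_pow]
        have a1 : Real.log 2 ≤ 1 := by linarith [Real.log_two_lt_d9]
        have a2 : (k : ℝ) * Real.log 2 ≤ k := mul_le_of_le_one_right (Nat.cast_nonneg k) a1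
        have a3 : 0 ≤ Real.log Y * (k + 1) := by positivity
        linarith
      have h5 : (1 + Real.log (2 * (2 ^ k * Y))) ^ B ≤ ((1 + Real.log Y) * (k + 2)) ^ B :=
        pow_le_pow_left₀ (by linarith [Real.log_nonneg (show 1 ≤ 2 * (2 ^ k * Y) by linarith)]) h4 B
      refine h1.trans ((mul_le_mul_of_nonneg_left (h2.trans (h3.trans
        (mul_le_mul_of_nonneg_left h5 hC0))) (by positivity)).trans_eq ?_)
      rw [mul_pow, one_div, inv_pow]
      field_simp)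
  rw [← Finset.mul_sum] at hK
  refine hK.trans ((mul_le_mul_of_nonneg_left (hs.sum_le_tsum K fun k _ => by positivity)
    (by positivity)).trans_eq (by ring))
/-- `d = e d'` with `e = ` primary gcd: `∑_{e ∣ r} N e⁻¹ min(1, N e/Δ)` -/
theorem sum_gcd_tail : ∃ C : ℝ, 0 ≤ C ∧ ∀ r : O, Prim r → ∀ Δ : ℝ, 1 ≤ Δ → ∀ S : Finset O,
    (∀ d ∈ S, Prim d ∧ Δ < N d) →
    ∑ d ∈ S, N (EuclideanDomain.gcd r d) / N d ^ 2 ≤ C * dv r / Δ := by
  obtain ⟨C, hC0, hC⟩ := b2_tail (σ := 2) (by norm_num)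
  refine ⟨C, hC0, fun r hr Δ hΔ S hS => ?_⟩
  have h0 : ∀ d ∈ S, d ≠ 0 := fun d hd => (hS d hd).1.ne_zero
  have nn : ∀ e m : O, 0 ≤ (N e)⁻¹ * if Δ / N e < N m then N m ^ (-(2 : ℝ)) else 0 := fun e m => by
    have := N_nonneg e
    have := N_nonneg m
    split_ifs <;> positivity
  have h1 := bb_conv S h0 (fun d => (pdiv r).filter (· ∣ d)) (fun d _ e he => (Finset.mem_filter.1 he).2)
    (pdiv r) (fun e => S.image (· / e))
    (fun e m => (N e)⁻¹ * if Δ / N e < N m then N m ^ (-(2 : ℝ)) else 0) nn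
    (fun d hd e he => ⟨(Finset.mem_filter.1 he).1, Finset.mem_image_of_mem _ hd⟩)
  refine le_trans (Finset.sum_le_sum fun d hd => ?_) (h1.trans ?_)
  · obtain ⟨u, hu, hp⟩ := exists_unit_mul_prim
      (hr.isCoprime_three.of_isCoprime_of_dvd_left (EuclideanDomain.gcd_dvd_left r d))
    have hed : u * EuclideanDomain.gcd r d ∣ d := hu.mul_left_dvd.2 (EuclideanDomain.gcd_dvd_right r d)
    have hm : u * EuclideanDomain.gcd r d ∈ (pdiv r).filter (· ∣ d) :=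
      Finset.mem_filter.2 ⟨(mem_pdiv hr.ne_zero).2
        ⟨hp, hu.mul_left_dvd.2 (EuclideanDomain.gcd_dvd_left r d)⟩, hed⟩
    refine le_trans (le_of_eq ?_) (Finset.single_le_sum (fun e _ => nn e (d / e)) hm)
    have hN : N (u * EuclideanDomain.gcd r d) = N (EuclideanDomain.gcd r d) := by
      rw [N_mul, show N u = 1 by unfold N; rw [isUnit_iff_nm.1 hu, Nat.cast_one], one_mul]
    obtain ⟨e, a1, a2⟩ := bb_mul_div (h0 d hd) hed
    have h5 : N d = N (u * EuclideanDomain.gcd r d) * N (d / (u * EuclideanDomain.gcd r d)) := by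
      rw [← N_mul, ← e]
    have b1 := N_pos a1
    have b2 := N_pos a2
    rw [if_pos (by rw [div_lt_iff₀ b1, mul_comm, ← h5]; exact (hS d hd).2), ← hN, h5,
      Real.rpow_neg b2.le, Real.rpow_two]
    field_simp
  · rw [dv, mul_comm C, mul_div_assoc, ← nsmul_eq_mul]
    refine Finset.sum_le_card_nsmul _ _ _ fun e he => ?_
    have b1 := N_pos ((mem_pdiv hr.ne_zero).1 he).1.ne_zero
    rw [← Finset.mul_sum]
    refine (mul_le_mul_of_nonneg_left (hC (Δ / N e) (by positivity) _) (by positivity)).trans_eq ?_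
    rw [show (1 : ℝ) - 2 = -1 by norm_num, Real.rpow_neg_one]
    field_simp
/-- `cheb_theta` -/
theorem card_primes_le : ∃ C : ℝ, 0 ≤ C ∧ ∀ X : ℝ, 2 ≤ X → ∀ S : Finset O,
    (∀ p ∈ S, Prime p ∧ Prim p ∧ X ≤ N p ∧ N p ≤ 2 * X) → (S.card : ℝ) ≤ C * X / Real.log X := by
  refine ⟨8, by norm_num, fun X hX S hS => ?_⟩
  have h1 := cheb_theta (X := 2 * X) (by linarith) S fun p hp =>
    ⟨(hS p hp).1, (hS p hp).2.1, (hS p hp).2.2.2⟩
  have h2 := Finset.card_nsmul_le_sum S (fun p => Real.log (N p)) (Real.log X) fun p hp =>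
    Real.log_le_log (by linarith) (hS p hp).2.2.1
  rw [nsmul_eq_mul] at h2
  rw [le_div_iff₀ (Real.log_pos (by linarith))]
  linarith
/-- dyadic boxes and `card_primes_le` -/
theorem sum_inv_primes : ∃ C : ℝ, 0 ≤ C ∧ ∀ X : ℝ, 1 ≤ X → ∀ S : Finset O,
    (∀ p ∈ S, Prime p ∧ Prim p ∧ N p ≤ X) →
    ∑ p ∈ S, (N p)⁻¹ ≤ C * (1 + Real.log (1 + Real.log X)) := by
  obtain ⟨C, hC0, hC⟩ := card_primes_le
  refine ⟨4 * C, by positivity, fun X hX S hS => ?_⟩
  have l2 : 1 / 2 ≤ Real.log 2 := by linarith [Real.log_two_gt_d9]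
  have l2' : Real.log 2 ≤ 1 := by linarith [Real.log_two_lt_d9]
  have hl := Real.log_nonneg hX
  obtain ⟨K, hK1, hK⟩ := bb_dyadic two_pos S (fun p hp => Prime.two_le_N (hS p hp).1)
    (fun p => (N p)⁻¹) (fun k => 2 * C * ((k : ℝ) + 1)⁻¹) (fun k T hTS hT => by
      have h2k : (1 : ℝ) ≤ 2 ^ k := one_le_pow₀ one_le_two
      have h1 := hC (2 ^ k * 2) (by linarith) T fun p hp =>
        ⟨(hS p (hTS hp)).1, (hS p (hTS hp)).2.1, hT p hp⟩
      have h2 := Finset.sum_le_card_nsmul T (fun p => (N p)⁻¹) (2 ^ k * 2)⁻¹ fun p hp =>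
        inv_anti₀ (by positivity) (hT p hp).1
      rw [nsmul_eq_mul] at h2
      refine h2.trans ((mul_le_mul_of_nonneg_right h1 (by positivity)).trans ?_)
      rw [← pow_succ, Real.log_pow]
      push_cast
      have e1 : C * 2 ^ (k + 1) / (((k : ℝ) + 1) * Real.log 2) * (2 ^ (k + 1))⁻¹ =
          (Real.log 2)⁻¹ * (C * ((k : ℝ) + 1)⁻¹) := by field_simp
      rw [e1, mul_assoc]
      refine mul_le_mul_of_nonneg_right ?_ (by positivity)
      rw [inv_le_comm₀ (by linarith) two_pos]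
      linarith)
  have hsub : K ⊆ Finset.range ⌊2 * Real.log X⌋₊ := by
    intro k hk
    obtain ⟨p, hp, h1⟩ := hK1 k hk
    have h2 := Real.log_le_log (by positivity) (h1.trans (hS p hp).2.2)
    rw [← pow_succ, Real.log_pow] at h2
    rw [Finset.mem_range, ← Nat.succ_le_iff]
    refine Nat.le_floor ?_
    have h3 := mul_le_mul_of_nonneg_left l2 (Nat.cast_nonneg (α := ℝ) (k + 1))
    rw [Nat.succ_eq_add_one]
    linarith
  rw [← Finset.mul_sum] at hK
  have h1 : ∑ k ∈ K, ((k : ℝ) + 1)⁻¹ ≤ ∑ k ∈ Finset.range ⌊2 * Real.log X⌋₊, ((k : ℝ) + 1)⁻¹ :=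
    Finset.sum_le_sum_of_subset_of_nonneg hsub fun _ _ _ => by positivity
  have h2 := harmonic_le_one_add_log ⌊2 * Real.log X⌋₊
  rw [harmonic] at h2
  push_cast at h2
  have h3 : Real.log (⌊2 * Real.log X⌋₊ : ℝ) ≤ Real.log (2 * (1 + Real.log X)) := by
    rcases Nat.eq_zero_or_pos ⌊2 * Real.log X⌋₊ with h | h
    · rw [h, Nat.cast_zero, Real.log_zero]
      exact Real.log_nonneg (by linarith)
    · refine Real.log_le_log (by exact_mod_cast h) ?_
      linarith [Nat.floor_le (show 0 ≤ 2 * Real.log X by positivity)]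
  rw [Real.log_mul (by norm_num) (by positivity)] at h3
  have h4 := Real.log_nonneg (show 1 ≤ 1 + Real.log X by linarith)
  have h5 : ∑ k ∈ K, ((k : ℝ) + 1)⁻¹ ≤ 2 * (1 + Real.log (1 + Real.log X)) := by linarith
  exact hK.trans ((mul_le_mul_of_nonneg_left h5 (by positivity)).trans_eq (by ring))
/-- `mertens_lower` with `Q = 72`, `R = y₂`, `yp = log L - y₂` -/
theorem many_primes : ∃ c L0 : ℝ, 0 < c ∧ ∀ L : ℝ, L0 ≤ L → ∃ P : Finset O,
    (∀ p ∈ P, Prime p ∧ Prim p ∧ N p ≤ L) ∧ c * L / Real.log L ≤ P.card := by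
  let Q : Lev := ⟨72, by norm_num, dvd_rfl⟩
  obtain ⟨c, hc, y2, h⟩ := mertens_lower Q
  refine ⟨c * Real.exp (-(2 * y2)), max (Real.exp (2 * y2)) 3, by positivity, fun L hL => ?_⟩
  have hL3 : 3 ≤ L := (le_max_right _ _).trans hL
  have hL0 : 0 < L := by linarith
  have hlog : 2 * y2 ≤ Real.log L := (Real.le_log_iff_exp_le hL0).2 ((le_max_left _ _).trans hL)
  have hlog0 : 0 < Real.log L := Real.log_pos (by linarith)
  have e1 : Real.exp (Real.log L - y2 + y2) = L := by rw [sub_add_cancel, Real.exp_log hL0]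
  have e2 : Real.exp (Real.log L - y2 - y2) = L * Real.exp (-(2 * y2)) := by
    rw [show Real.log L - y2 - y2 = Real.log L + -(2 * y2) by ring, Real.exp_add, Real.exp_log hL0]
  refine ⟨slot Q (Real.log L - y2) y2, fun p hp => ?_, ?_⟩
  · obtain ⟨a1, a2, -, -, a3⟩ := loc_mem_slot.1 hp
    exact ⟨a1, a2, e1 ▸ a3⟩
  · have h1 := (h (Real.log L - y2) y2 (by linarith) le_rfl).trans
      (Finset.sum_le_card_nsmul _ _ (Real.log L / (L * Real.exp (-(2 * y2)))) fun p hp => by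
        obtain ⟨a1, -, -, a2, a3⟩ := loc_mem_slot.1 hp
        rw [e1] at a3
        rw [e2] at a2
        refine div_le_div₀ hlog0.le ?_ (by positivity) a2
        exact (mul_le_of_le_one_right (Real.log_nonneg (one_le_N a1.ne_zero)) (gw_le_one _)).trans
          (Real.log_le_log (N_pos a1.ne_zero) a3))
    rw [nsmul_eq_mul, ← mul_div_assoc, le_div_iff₀ (by positivity)] at h1
    rw [div_le_iff₀ hlog0]
    linarith
/-- Rankin: for `P` the primary primes of norm `≤ w`, `σ = 1/log (max w 3)`, squarefree `d` are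
products of subsets of `P` (`SF.prod_pf`, `Finset.prod_one_add`), so
`∑ K^{ω(d)}/N d ≤ Y^{-σ} ∏_{p ∈ P}(1 + K e/N p) ≤ Y^{-σ} exp(K e ∑ 1/N p)`. -/
theorem rankin (K : ℝ) (hK : 0 ≤ K) : ∃ C : ℝ, 0 ≤ C ∧ ∀ w Y : ℝ, 3 ≤ w → 1 ≤ Y → ∀ S : Finset O,
    (∀ d ∈ S, SF d ∧ (∀ p ∈ pf d, N p ≤ w) ∧ Y ≤ N d) →
    ∑ d ∈ S, K ^ (pf d).card / N d ≤
      Real.exp (-(Real.log Y / Real.log w)) * (C * (1 + Real.log w)) ^ C := by
  obtain ⟨C, hC0, hC⟩ := sum_inv_primes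
  have he := Real.exp_pos 1
  refine ⟨max (Real.exp 1) (K * Real.exp 1 * C), le_max_of_le_left he.le, fun w Y hw hY S hS => ?_⟩
  have hlw : 0 < Real.log w := Real.log_pos (by linarith)
  set P := (ball w).filter (fun p => Prime p ∧ Prim p) with hP
  have nn : ∀ p : O, 0 ≤ K * Real.exp 1 * (N p)⁻¹ := fun p => by
    have := N_nonneg p
    positivity
  have h1 : ∀ d ∈ S, K ^ (pf d).card / N d ≤
      Real.exp (-(Real.log Y / Real.log w)) * ∏ p ∈ pf d, K * Real.exp 1 * (N p)⁻¹ := by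
    intro d hd
    obtain ⟨a1, a2, a3⟩ := hS d hd
    have hp0 : ∀ p ∈ pf d, 0 < N p := fun p hp => N_pos ((mem_pf a1.1.ne_zero).1 hp).1.ne_zero
    have e1 : N d = ∏ p ∈ pf d, N p := by rw [← N_prod, a1.prod_pf]
    have b1 : Real.log Y / Real.log w ≤ (pf d).card := by
      rw [div_le_iff₀ hlw]
      refine (Real.log_le_log (by linarith) a3).trans ?_
      rw [e1, Real.log_prod fun p hp => (hp0 p hp).ne', ← nsmul_eq_mul]
      exact Finset.sum_le_card_nsmul _ _ _ fun p hp => Real.log_le_log (hp0 p hp) (a2 p hp)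
    have b2 : 1 ≤ Real.exp (-(Real.log Y / Real.log w)) * Real.exp 1 ^ (pf d).card := by
      rw [← Real.exp_nat_mul, ← Real.exp_add]
      exact Real.one_le_exp (by linarith)
    rw [Finset.prod_mul_distrib, Finset.prod_const, Finset.prod_inv_distrib, ← e1, mul_pow]
    have b3 : 0 ≤ K ^ (pf d).card / N d := div_nonneg (pow_nonneg hK _) (N_nonneg d)
    exact (le_mul_of_one_le_left b3 b2).trans_eq (by ring)
  have h2 : ∑ d ∈ S, ∏ p ∈ pf d, K * Real.exp 1 * (N p)⁻¹ ≤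
      ∑ I ∈ P.powerset, ∏ p ∈ I, K * Real.exp 1 * (N p)⁻¹ := by
    rw [← Finset.sum_image (g := pf) (f := fun I => ∏ p ∈ I, K * Real.exp 1 * (N p)⁻¹)
      fun d hd d' hd' e => by rw [← (hS d hd).1.prod_pf, e, (hS d' hd').1.prod_pf]]
    refine Finset.sum_le_sum_of_subset_of_nonneg (fun I hI => ?_)
      fun I _ _ => Finset.prod_nonneg fun p _ => nn p
    obtain ⟨d, hd, rfl⟩ := Finset.mem_image.1 hI
    refine Finset.mem_powerset.2 fun p hp => ?_
    obtain ⟨a1, a2, -⟩ := (mem_pf (hS d hd).1.1.ne_zero).1 hp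
    exact Finset.mem_filter.2 ⟨mem_ball.2 ⟨a1.ne_zero, (hS d hd).2.1 p hp⟩, a1, a2⟩
  rw [← Finset.prod_one_add] at h2
  have h3 : ∏ p ∈ P, (1 + K * Real.exp 1 * (N p)⁻¹) ≤ Real.exp (∑ p ∈ P, K * Real.exp 1 * (N p)⁻¹) := by
    rw [Real.exp_sum]
    exact Finset.prod_le_prod (fun p _ => by linarith [nn p]) fun p _ => by
      linarith [Real.add_one_le_exp (K * Real.exp 1 * (N p)⁻¹)]
  have h4 := hC w (by linarith) P fun p hp =>
    have := Finset.mem_filter.1 hp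
    ⟨this.2.1, this.2.2, (mem_ball.1 this.1).2⟩
  have h5 : Real.exp (∑ p ∈ P, K * Real.exp 1 * (N p)⁻¹) ≤
      (Real.exp 1 * (1 + Real.log w)) ^ (K * Real.exp 1 * C) := by
    rw [Real.rpow_def_of_pos (by positivity), Real.log_mul he.ne' (by positivity), Real.log_exp,
      ← Finset.mul_sum]
    exact Real.exp_le_exp.2 ((mul_le_mul_of_nonneg_left h4 (by positivity)).trans_eq (by ring))
  have h6 : 1 ≤ Real.exp 1 * (1 + Real.log w) :=
    one_le_mul_of_one_le_of_one_le (Real.one_le_exp zero_le_one) (by linarith)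
  have h7 : (Real.exp 1 * (1 + Real.log w)) ^ (K * Real.exp 1 * C) ≤
      (max (Real.exp 1) (K * Real.exp 1 * C) * (1 + Real.log w)) ^ max (Real.exp 1) (K * Real.exp 1 * C) :=
    (Real.rpow_le_rpow_of_exponent_le h6 (le_max_right _ _)).trans
      (Real.rpow_le_rpow (by positivity) (mul_le_mul_of_nonneg_right (le_max_left _ _) (by positivity))
        (le_max_of_le_left he.le))
  refine (Finset.sum_le_sum h1).trans ?_
  rw [← Finset.mul_sum]
  exact mul_le_mul_of_nonneg_left (h2.trans (h3.trans (h5.trans h7))) (Real.exp_pos _).le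

theorem bb_poly {C a : ℝ} (hC : 0 ≤ C) (ha : 0 ≤ a) : ∃ (c : ℝ) (n : ℕ), 0 ≤ c ∧ ∀ y L : ℝ, 1 ≤ y →
    0 ≤ L → L ≤ a * y → (C * (1 + L)) ^ C ≤ c * y ^ n := by
  refine ⟨((C + 1) * (1 + a)) ^ ⌈C⌉₊, ⌈C⌉₊, by positivity, fun y L hy hL hLa => ?_⟩
  have h1 : 1 + L ≤ (1 + a) * y := by linarith
  have h2 : C * (1 + L) ≤ (C + 1) * (1 + a) * y := by
    rw [mul_assoc]
    exact mul_le_mul (by linarith) h1 (by linarith) (by linarith)
  have h3 : 1 ≤ (C + 1) * (1 + a) * y := one_le_mul_of_one_le_of_one_le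
    (one_le_mul_of_one_le_of_one_le (by linarith) (by linarith)) hy
  rw [← mul_pow, ← Real.rpow_natCast]
  exact (Real.rpow_le_rpow (by positivity) h2 hC).trans
    (Real.rpow_le_rpow_of_exponent_le h3 (Nat.le_ceil C))

theorem bb_exp_sqrt {κ : ℝ} (hκ : 0 < κ) (c : ℝ) (M : ℕ) : ∃ y0 : ℝ, 4 ≤ y0 ∧ ∀ y : ℝ, y0 ≤ y →
    c * y ^ M * Real.exp (-(κ * Real.sqrt y)) ≤ 1 := by
  have h1 := ((Real.tendsto_pow_mul_exp_neg_atTop_nhds_zero (2 * M)).comp
    (Real.tendsto_sqrt_atTop.const_mul_atTop hκ)).const_mul (c / κ ^ (2 * M))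
  rw [mul_zero] at h1
  obtain ⟨y0, h⟩ := eventually_atTop.1 (h1.eventually (ge_mem_nhds one_pos))
  refine ⟨max y0 4, le_max_right _ _, fun y hy => ?_⟩
  have h2 := h y ((le_max_left _ _).trans hy)
  have h3 : 0 ≤ y := by linarith [(le_max_right _ _).trans hy]
  refine le_trans (le_of_eq ?_) h2
  simp only [Function.comp]
  rw [mul_pow, pow_mul (Real.sqrt y), Real.sq_sqrt h3]
  field_simp
/-- `b = d m`, `dv_mul_le`, `sum_dv`, `rankin` with `K = 8` -/
theorem rare_small (A Cw : ℕ) {η : ℝ} (hη : 0 < η) : ∃ y0 : ℝ, ∀ y : ℝ, y0 ≤ y → ∀ w B : ℝ,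
    w ≤ y ^ Cw → 1 ≤ B → B ≤ Real.exp y →
    ∑ b ∈ (sfI B (2 * B)).filter (Rare w (Real.exp (η * y))), dv b ^ 3 ≤ B / y ^ A := by
  obtain ⟨C, B1, hC0, hC⟩ := sum_dv 3
  obtain ⟨C2, hC2, hR⟩ := rankin 8 (by norm_num)
  obtain ⟨c, n, hc, hpoly⟩ := bb_poly hC2 (show (0 : ℝ) ≤ Cw + 1 by positivity)
  obtain ⟨y0, hy4, hy0⟩ := bb_exp_sqrt (κ := η / (2 * (Cw + 1))) (by positivity)
    (2 * C * 3 ^ B1 * c) (B1 + n + A)
  refine ⟨y0, fun y hy w B hw hB hBy => ?_⟩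
  have hy1 : 1 ≤ y := by linarith
  have hyp : 0 < y := by linarith
  have hly : 0 < Real.log y := Real.log_pos (by linarith)
  set S := (sfI B (2 * B)).filter (Rare w (Real.exp (η * y))) with hS
  let R : O → Prop := fun d => SF d ∧ (∀ p ∈ pf d, N p ≤ w) ∧ Real.exp (η * y) ≤ N d
  have h0 : ∀ b ∈ S, b ≠ 0 := fun b hb => (mem_sfI.1 (Finset.mem_filter.1 hb).1).1.1.ne_zero
  have nn : ∀ d m : O, 0 ≤ (8 : ℝ) ^ (pf d).card * dv m ^ 3 := fun d m =>
    mul_nonneg (by positivity) (pow_nonneg (bb_dv_nonneg m) _)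
  have h1 := bb_conv S h0 (fun b => (pdiv b).filter R)
    (fun b hb d hd => ((mem_pdiv (h0 b hb)).1 (Finset.mem_filter.1 hd).1).2)
    ((ball (2 * B)).filter R) (fun d => ball (2 * B / N d))
    (fun d m => (8 : ℝ) ^ (pf d).card * dv m ^ 3) nn (fun b hb d hd => by
      obtain ⟨a1, a2⟩ := Finset.mem_filter.1 hd
      have hd' := ((mem_pdiv (h0 b hb)).1 a1).2
      obtain ⟨e, a3, a4⟩ := bb_mul_div (h0 b hb) hd'
      have a5 := (mem_sfI.1 (Finset.mem_filter.1 hb).1).2.2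
      refine ⟨Finset.mem_filter.2 ⟨mem_ball.2 ⟨a3, (N_le_of_dvd (h0 b hb) hd').trans a5⟩, a2⟩,
        mem_ball.2 ⟨a4, ?_⟩⟩
      rwa [le_div_iff₀ (N_pos a3), mul_comm, ← N_mul, ← e])
  have h2 : ∑ b ∈ S, dv b ^ 3 ≤
      ∑ b ∈ S, ∑ d ∈ (pdiv b).filter R, (8 : ℝ) ^ (pf d).card * dv (b / d) ^ 3 := by
    refine Finset.sum_le_sum fun b hb => ?_
    obtain ⟨d, a1, a2⟩ := (Finset.mem_filter.1 hb).2
    refine le_trans ?_ (Finset.single_le_sum (fun d _ => nn d (b / d))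
      (Finset.mem_filter.2 ⟨(mem_pdiv (h0 b hb)).2 ⟨a2.1.1, a1⟩, a2⟩))
    obtain ⟨e, a3, a4⟩ := bb_mul_div (h0 b hb) a1
    have h4 : dv b ≤ dv d * dv (b / d) := by
      conv_lhs => rw [e]
      exact dv_mul_le a3 a4
    refine (pow_le_pow_left₀ (bb_dv_nonneg b) h4 3).trans_eq ?_
    rw [mul_pow, a2.1.dv_eq, ← pow_mul, mul_comm (pf d).card, pow_mul]
    norm_num
  have h3 : ∑ d ∈ (ball (2 * B)).filter R, ∑ m ∈ ball (2 * B / N d), (8 : ℝ) ^ (pf d).card * dv m ^ 3 ≤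
      (2 * C * B * (3 * y) ^ B1) * ∑ d ∈ (ball (2 * B)).filter R, (8 : ℝ) ^ (pf d).card / N d := by
    rw [Finset.mul_sum]
    refine Finset.sum_le_sum fun d hd => ?_
    obtain ⟨a1, a2⟩ := mem_ball.1 (Finset.mem_filter.1 hd).1
    have a3 := N_pos a1
    have a4 : 1 ≤ 2 * B / N d := (one_le_div a3).2 a2
    have a5 : Real.log (2 * B / N d) ≤ 1 + y := by
      refine (Real.log_le_log (by positivity) (div_le_self (by positivity) (one_le_N a1))).trans ?_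
      rw [Real.log_mul (by norm_num) (by positivity)]
      have := (Real.log_le_iff_le_exp (by positivity)).2 hBy
      linarith [Real.log_two_lt_d9]
    have a6 : (1 + Real.log (2 * B / N d)) ^ B1 ≤ (3 * y) ^ B1 :=
      pow_le_pow_left₀ (by linarith [Real.log_nonneg a4]) (by linarith) _
    rw [← Finset.mul_sum]
    refine (mul_le_mul_of_nonneg_left ((hC _ a4).trans (mul_le_mul_of_nonneg_left a6 (by positivity)))
      (by positivity)).trans_eq ?_
    ring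
  have hw' : w ≤ y ^ (Cw + 1) := hw.trans (pow_le_pow_right₀ hy1 (Nat.le_succ _))
  have h4 := hR (y ^ (Cw + 1)) (Real.exp (η * y))
    (le_trans (by linarith) (le_self_pow₀ hy1 (Nat.succ_ne_zero Cw)))
    (Real.one_le_exp (by positivity)) ((ball (2 * B)).filter R) fun d hd =>
      have := (Finset.mem_filter.1 hd).2
      ⟨this.1, fun p hp => (this.2.1 p hp).trans hw', this.2.2⟩
  rw [Real.log_exp, Real.log_pow] at h4
  push_cast at h4
  have h5 := hpoly y ((Cw + 1) * Real.log y) hy1 (by positivity)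
    (mul_le_mul_of_nonneg_left (by linarith [Real.log_le_sub_one_of_pos hyp]) (by positivity))
  have hs := Real.sqrt_pos.2 hyp
  have h6 : η / (2 * (Cw + 1)) * Real.sqrt y ≤ η * y / ((Cw + 1) * Real.log y) := by
    have b1 : Real.log y ≤ 2 * Real.sqrt y := by
      have := Real.log_le_sub_one_of_pos hs
      rw [Real.log_sqrt hyp.le] at this
      linarith
    rw [le_div_iff₀ (by positivity)]
    have b2 : η / (2 * (Cw + 1)) * Real.sqrt y * ((Cw + 1) * Real.log y) =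
        η / 2 * Real.sqrt y * Real.log y := by field_simp
    rw [b2]
    refine (mul_le_mul_of_nonneg_left b1 (by positivity)).trans_eq ?_
    rw [show η / 2 * Real.sqrt y * (2 * Real.sqrt y) = η * (Real.sqrt y * Real.sqrt y) by ring,
      Real.mul_self_sqrt hyp.le]
  have h7 := h4.trans (mul_le_mul (Real.exp_le_exp.2 (neg_le_neg h6)) h5 (by positivity)
    (Real.exp_pos _).le)
  refine (h2.trans (h1.trans (h3.trans (mul_le_mul_of_nonneg_left h7 (by positivity))))).trans ?_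
  rw [le_div_iff₀ (by positivity)]
  refine le_trans (le_of_eq ?_) (mul_le_of_le_one_right (by linarith) (hy0 y hy))
  ring
/-- `rankin` with `K = 1`, `w = exp √y`, `Y = B` -/
theorem smooth_small (A : ℕ) : ∃ y0 : ℝ, ∀ y : ℝ, y0 ≤ y → ∀ B : ℝ, Real.exp (y / 4) ≤ B →
    (((sfI B (2 * B)).filter (fun b => ∀ p ∈ pf b, N p ≤ Real.exp (Real.sqrt y))).card : ℝ) ≤
      B / y ^ A := by
  obtain ⟨C2, hC2, hR⟩ := rankin 1 zero_le_one
  obtain ⟨c, n, hc, hpoly⟩ := bb_poly hC2 zero_le_one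
  obtain ⟨y0, hy4, hy0⟩ := bb_exp_sqrt (κ := 1 / 4) (by norm_num) (2 * c) (n + A)
  refine ⟨y0, fun y hy B hB => ?_⟩
  have hy1 : 1 ≤ y := by linarith
  have hyp : 0 < y := by linarith
  have hB1 : 1 ≤ B := (Real.one_le_exp (by positivity)).trans hB
  have hs2 : 2 ≤ Real.sqrt y := Real.le_sqrt_of_sq_le (by linarith)
  have hsy : Real.sqrt y * Real.sqrt y = y := Real.mul_self_sqrt hyp.le
  set S := (sfI B (2 * B)).filter (fun b => ∀ p ∈ pf b, N p ≤ Real.exp (Real.sqrt y)) with hS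
  have h1 := hR (Real.exp (Real.sqrt y)) B (by linarith [Real.add_one_le_exp (Real.sqrt y)]) hB1 S
    fun d hd =>
      have h := Finset.mem_filter.1 hd
      ⟨(mem_sfI.1 h.1).1, h.2, (mem_sfI.1 h.1).2.1.le⟩
  rw [Real.log_exp] at h1
  have h2 := Finset.card_nsmul_le_sum S (fun d => (1 : ℝ) ^ (pf d).card / N d) (1 / (2 * B)) fun d hd => by
    obtain ⟨-, a1, a2⟩ := mem_sfI.1 (Finset.mem_filter.1 hd).1
    rw [one_pow]
    exact one_div_le_one_div_of_le (by linarith) a2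
  rw [nsmul_eq_mul, mul_one_div, div_le_iff₀ (by positivity)] at h2
  have h5 := hpoly y (Real.sqrt y) hy1 (by linarith) (by nlinarith)
  have h6 : 1 / 4 * Real.sqrt y ≤ Real.log B / Real.sqrt y := by
    rw [le_div_iff₀ (by linarith), mul_assoc, hsy]
    have := (Real.le_log_iff_exp_le (by linarith)).2 hB
    linarith
  have h7 := h1.trans (mul_le_mul (Real.exp_le_exp.2 (neg_le_neg h6)) h5 (by positivity)
    (Real.exp_pos _).le)
  refine (h2.trans (mul_le_mul_of_nonneg_right h7 (by positivity))).trans ?_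
  rw [le_div_iff₀ (by positivity)]
  refine le_trans (le_of_eq ?_) (mul_le_of_le_one_right (by linarith) (hy0 y hy))
  ring

end Crest.Agent.R12
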