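import Crest.Agent.R12.Basic1
import Crest.Agent.R17.FinalD

/-!
# R12 / Bridge13 : translation of S0013 to the ring `O`

For a rational prime `p ≡ 1 mod 3` there are exactly two primary primes of norm `p`, `π` and `star π`
(`≠ π`); every other primary prime is inert of norm `q²` (`q ≡ 2 mod 3`), there are `≤ √X` of norm
`≤ X`, each contributing `≤ 1 + cP` (`norm_fP_le`).  The integers `0 ≤ x < p` are a residue system mod
`π`; `#{x : x³ = t} = 1 + χ(t) + conj χ(t)` for `χ = cub π`, `t ≢ 0`; on integers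
`cub (star π) t = conj (cub π t)`.  For an integer `x`, `ad π (λ x) = e(x·Tr(π)/p)` with
`Tr π ≡ star π mod π` and `cub π (star π) = 1` (reciprocity: it equals its conjugate).  Hence
`∑_x e(x³/p) = √p (GG π + GG (star π))`.
-/

set_option autoImplicit false

noncomputable section

open scoped Classical ComplexConjugate Topology
open MeasureTheory Filter

namespace Crest.Agent.R12

open Crest.Agent.R17

theorem b13_euler {p : O} (hp : Prime p) (hp' : Prim p) {t : O} (ht : ¬ p ∣ t)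
    (h : p ∣ t ^ ((nm p - 1) / 3) - 1) : ∃ s, p ∣ s ^ 3 - t := by
  obtain ⟨he1, he0⟩ := rcub_nm hp hp'
  set e := (nm p - 1) / 3
  have : (Ideal.span {p}).IsMaximal := PrincipalIdealRing.isMaximal_of_irreducible hp.irreducible
  let := Ideal.Quotient.field (Ideal.span {p})
  have : Finite (O ⧸ Ideal.span {p}) :=
    Nat.finite_of_card_ne_zero (by rw [s1_card_quot]; exact (nm_pos hp.ne_zero).ne')
  obtain ⟨g, hg⟩ := IsCyclic.exists_generator (α := (O ⧸ Ideal.span {p})ˣ)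
  have hord : orderOf g = 3 * e := by
    rw [orderOf_eq_card_of_forall_mem_zpowers hg, Nat.card_units, s1_card_quot, he1]; rfl
  have hu' : IsUnit (Ideal.Quotient.mk (Ideal.span {p}) t) := by
    refine Ne.isUnit fun h0 => ht ?_
    rwa [Ideal.Quotient.eq_zero_iff_mem, Ideal.mem_span_singleton] at h0
  obtain ⟨m, hm⟩ := (mem_powers_iff_mem_zpowers.2 (hg hu'.unit) : hu'.unit ∈ Submonoid.powers g)
  have hm' : (g : O ⧸ Ideal.span {p}) ^ m = Ideal.Quotient.mk (Ideal.span {p}) t := by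
    have := congrArg Units.val hm
    simpa using this
  have h1 : g ^ (m * e) = 1 := by
    apply Units.ext
    rw [pow_mul, Units.val_pow_eq_pow_val, Units.val_pow_eq_pow_val, hm', ← map_pow, Units.val_one,
      ← map_one (Ideal.Quotient.mk (Ideal.span {p}))]
    exact Ideal.Quotient.eq.2 (Ideal.mem_span_singleton.2 h)
  have h2 : 3 ∣ m := by
    have := orderOf_dvd_of_pow_eq_one h1
    rw [hord] at this
    exact Nat.dvd_of_mul_dvd_mul_right he0 this
  obtain ⟨c, rfl⟩ := h2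
  obtain ⟨d, hd⟩ := Ideal.Quotient.mk_surjective ((g : O ⧸ Ideal.span {p}) ^ c)
  refine ⟨d, Ideal.mem_span_singleton.1 (Ideal.Quotient.eq.1 ?_)⟩
  rw [map_pow, hd, ← pow_mul, mul_comm, hm']

theorem b13_three {A B C : Prop} (h1 : ¬ (A ∧ B)) (h2 : ¬ (A ∧ C)) (h3 : ¬ (B ∧ C)) :
    (if (A ∨ B) ∨ C then (1 : ℂ) else 0) =
      (if A then 1 else 0) + (if B then 1 else 0) + (if C then 1 else 0) := by
  by_cases ha : A <;> by_cases hb : B <;> by_cases hc : C <;> simp_all

theorem b13_count {p : O} (hp : Prime p) (hp' : Prim p) (t : O) :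
    ∑ y ∈ res p, (if p ∣ t - y ^ 3 then (1 : ℂ) else 0) = 1 + cub p t + cub p t ^ 2 := by
  have h0 := hp.ne_zero
  have hρ := rcub_isChar hp'
  have h1 : ∀ s, ∑ y ∈ res p, (if p ∣ y - s then (1 : ℂ) else 0) = 1 := fun s =>
    rkey_ind h0 (g := fun _ => 1) (fun _ _ => rfl) s
  obtain ⟨u, hq, hu2, ⟨ht, rfl⟩ | ⟨ht, hu1⟩⟩ := rcub_val hp hp' t
  · rw [hq, map_zero, zero_pow two_ne_zero, add_zero, add_zero]
    refine Eq.trans (Finset.sum_congr rfl fun y _ => if_congr ?_ rfl rfl) (h1 0)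
    rw [sub_zero, dvd_sub_right ht]
    exact ⟨hp.dvd_of_dvd_pow, fun h => dvd_pow h three_ne_zero⟩
  by_cases hu : u = 1
  · subst hu
    obtain ⟨s, hs⟩ := b13_euler hp hp' ht hu2
    rw [hq, map_one, one_pow]
    refine Eq.trans ?_ (congrArg₂ (· + ·) (congrArg₂ (· + ·) (h1 (1 * s)) (h1 (om * s)))
      (h1 (om ^ 2 * s)))
    rw [← Finset.sum_add_distrib, ← Finset.sum_add_distrib]
    refine Finset.sum_congr rfl fun y _ => ?_
    have h3 : p ∣ t - y ^ 3 ↔ (p ∣ y - 1 * s ∨ p ∣ y - om * s) ∨ p ∣ y - om ^ 2 * s := by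
      rw [← hp.dvd_mul, ← hp.dvd_mul, show (y - 1 * s) * (y - om * s) * (y - om ^ 2 * s) =
        -(t - y ^ 3) - (s ^ 3 - t) by
          linear_combination (-(y ^ 2 * s) + om * y * s ^ 2) * om_sq_add - s ^ 3 * om_cube,
        dvd_sub_left hs, dvd_neg]
    have h4 : ∀ a b : O, a ^ 3 = 1 → b ^ 3 = 1 → a ≠ b → ¬ (p ∣ y - a * s ∧ p ∣ y - b * s) := by
      intro a b ha hb hab h
      have h5 : p ∣ (a - b) * s := by
        have := dvd_sub h.2 h.1
        rwa [show y - b * s - (y - a * s) = (a - b) * s by ring] at this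
      rcases hp.dvd_or_dvd h5 with h6 | h6
      · exact hab (s1_root_inj (k := 3) (by norm_num) (rcub_not_dvd hp hp') ha hb h6)
      · exact ht (by simpa using dvd_sub (dvd_pow h6 three_ne_zero) hs)
    have h5 : (om ^ 2) ^ 3 = 1 := by decide
    rw [if_congr h3 rfl rfl]
    exact b13_three (h4 _ _ (one_pow 3) om_cube (by decide)) (h4 _ _ (one_pow 3) h5 (by decide))
      (h4 _ _ om_cube h5 (by decide))
  · have h2 : 1 + u + u ^ 2 = 0 :=
      mul_left_cancel₀ (sub_ne_zero.2 hu) (by linear_combination hu1)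
    have h3 : 1 + cub p t + cub p t ^ 2 = 0 := by
      have := congrArg toC h2
      rwa [map_add, map_add, map_one, map_pow, map_zero, ← hq] at this
    rw [h3]
    refine Finset.sum_eq_zero fun y _ => if_neg fun h => hu (toC_injective ?_)
    have hy : IsCoprime y p := (hp.coprime_iff_not_dvd.2 fun hy =>
      ht (by simpa using dvd_add h (dvd_pow hy three_ne_zero))).symm
    rw [← hq, rkub_congr h, rkub_pow hp', rcub_cube hp' hy, map_one]

theorem b13_sum_cube {p : O} (hp : Prime p) (hp' : Prim p) {f : O → ℂ} (hf : Per p f) :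
    ∑ y ∈ res p, f (y ^ 3) = ∑ t ∈ res p, f t * (1 + cub p t + cub p t ^ 2) := by
  simp only [← b13_count hp hp', Finset.mul_sum]
  rw [Finset.sum_comm]
  refine Finset.sum_congr rfl fun y _ => ?_
  rw [← rkey_ind hp.ne_zero hf (y ^ 3)]
  exact Finset.sum_congr rfl fun t _ => by split_ifs <;> simp

theorem b13_dvd_int {π : O} (h : (nm π).Prime) (z : ℤ) : π ∣ (z : O) ↔ (nm π : ℤ) ∣ z := by
  constructor
  · intro h1
    have h2 := b1_nm_dvd h1
    have h3 : nm (z : O) = z.natAbs ^ 2 := by simp [nm, Int.natAbs_pow]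
    rw [h3] at h2
    exact Int.natCast_dvd.2 (h.dvd_of_dvd_pow h2)
  · rintro ⟨m, rfl⟩
    push_cast
    exact (rcub_dvd_nm π).mul_right _

theorem b13_sum_range {π : O} (h : (nm π).Prime) {f : O → ℂ} (hf : Per π f) :
    ∑ x ∈ Finset.range (nm π), f (x : O) = ∑ x ∈ res π, f x := by
  have h0 : π ≠ 0 := fun h0 => h.ne_zero (by rw [h0, nm_zero])
  have h2 : ∀ i ∈ Finset.range (nm π), ∀ j ∈ Finset.range (nm π), π ∣ (i : O) - (j : O) → i = j := by
    intro i hi j hj hd
    rw [Finset.mem_range] at hi hj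
    have h3 := (b13_dvd_int h ((i : ℤ) - j)).1 (by push_cast; exact hd)
    have h4 := Int.eq_zero_of_abs_lt_dvd h3 (by rw [abs_lt]; constructor <;> omega)
    omega
  refine b4_sum_res_map h0 hf _ _ (fun x => ?_) h2
  obtain ⟨i, hi, e⟩ := Finset.surj_on_of_inj_on_of_card_le (s := Finset.range (nm π)) (t := res π)
    (fun i _ => (i : O) % π) (fun i _ => b4_mod_mem_res h0 _) (fun i j hi hj e => h2 i hi j hj (by
      have := dvd_sub (b4_dvd_sub_mod π i) (b4_dvd_sub_mod π j)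
      rwa [e, sub_sub_sub_cancel_right] at this)) (by rw [card_res h0, Finset.card_range])
    (x % π) (b4_mod_mem_res h0 x)
  refine ⟨i, hi, ?_⟩
  have := dvd_sub (b4_dvd_sub_mod π x) (b4_dvd_sub_mod π i)
  rwa [e, sub_sub_sub_cancel_right] at this

theorem b13_ad_nat (p : ℕ) (w : O) :
    ad (p : O) w = Complex.exp (2 * Real.pi * Complex.I * ((w.im : ℂ) / p)) := by
  have h := ee_real_om ((w.re : ℝ) / p) ((w.im : ℝ) / p)
  rw [ad, map_natCast, toC_apply]
  push_cast at h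
  rw [show ((w.re : ℂ) + w.im * omC) / p = w.re / p + w.im / p * omC by ring, h]
  congr 1
  ring

theorem b13_ad_lam {π : O} (h0 : π ≠ 0) (z : ℤ) : ad π (lam * z) =
    Complex.exp (2 * Real.pi * Complex.I * ((((2 * π.re - π.im) * z : ℤ) : ℂ) / nm π)) := by
  rw [← ad_mul_cancel (c := star π) (star_ne_zero.2 h0), mul_comm (star π) π, mul_star_self,
    b13_ad_nat]
  congr 4
  simp [lam]
  ring

theorem b13_ne_star {a : O} (h : (nm a).Prime) : a ≠ star a := by
  intro e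
  have h4 : a.im = 0 := by
    have := congrArg QuadraticAlgebra.im e
    simp only [QuadraticAlgebra.im_star] at this
    omega
  have h5 := nm_int a
  rw [h4] at h5
  have h6 : nm a = a.re.natAbs * a.re.natAbs := by
    zify
    rw [abs_mul_abs_self]
    linarith
  have h7 : a.re.natAbs ≠ 1 := by
    intro h7
    rw [h7] at h6
    exact h.ne_one h6
  exact Nat.not_prime_mul h7 h7 (h6 ▸ h)

theorem b13_GG_star {n : O} (hn : Prim n) : GG (star n) = conj (GG n) := by
  have h0 := hn.ne_zero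
  have h3 : IsCoprime n ((3 : ℕ) : O) := by exact_mod_cast hn.isCoprime_three
  have hs : ∀ d, cub (star n) (star d) = conj (cub n d) :=
    sym_star (k := 3) (Or.inr (Or.inl rfl)) h3
  have h1 : gs (star n) (cub (star n)) 1 = conj (gs n (cub n) 1) := by
    rw [gs, ← b4_sum_res_map (star_ne_zero.2 h0)
      ((rcub_isChar (rcub_star_prim hn)).per.mul (ad_per (star n) 1)) (res n) star, gs, map_sum]
    · refine Finset.sum_congr rfl fun x _ => ?_
      rw [map_mul, ← hs, one_mul, one_mul, ad, ad, toC_star, toC_star, ← map_div₀, ← ee_neg]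
      rw [ee, ee, Complex.conj_im, Complex.neg_im]
    · intro x
      obtain ⟨r, hr, h⟩ := exists_res h0 (star x)
      exact ⟨r, hr, by simpa using s1_star_dvd h⟩
    · intro i hi j hj h
      exact res_inj h0 hi hj (by simpa using s1_star_dvd h)
  have h2 : cub (star n) lam = conj (cub n lam) := by
    rw [show lam = star (-1 * lam) by decide, hs, (rcub_isChar hn).mul,
      cub_neg_one hn.isCoprime_three, one_mul, show star (-1 * lam) = lam by decide]
  have h4 : N (star n) = N n := by rw [N, N, nm_star]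
  rw [GG, GG, g3, g3, h1, h2, h4, map_mul, map_div₀, Complex.conj_ofReal]

theorem b13_sum {π : O} (hπ : Prim π) (h : (nm π).Prime) :
    ∑ x ∈ Finset.range (nm π),
      Complex.exp (2 * Real.pi * Complex.I * ((x : ℂ) ^ 3 / (nm π : ℂ))) =
      (Real.sqrt (nm π : ℝ) : ℂ) * (GG π + GG (star π)) := by
  have hp := FD.prime_of_nm h
  have h0 := hp.ne_zero
  have hχ := rcub_isChar hπ
  have hns : ¬ π ∣ star π := fun hd => b13_ne_star h
    (hπ.eq_of_associated (rcub_star_prim hπ) (hp.associated_of_dvd (rcub_star_prime hp) hd))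
  set T : ℤ := 2 * π.re - π.im with hT
  have hT1 : π ∣ (T : O) - star π := ⟨1, by
    ext
    · simp only [QuadraticAlgebra.re_sub, QuadraticAlgebra.re_intCast, QuadraticAlgebra.re_star,
        mul_one, hT, Int.cast_id]
      ring
    · simp⟩
  have hT2 : ¬ (nm π : ℤ) ∣ T := fun hd =>
    hns (by simpa using dvd_sub ((b13_dvd_int h T).2 hd) hT1)
  obtain ⟨m, T', hm⟩ := (Nat.prime_iff_prime_int.1 h).coprime_iff_not_dvd.2 hT2
  have h3 : IsCoprime π ((3 : ℕ) : O) := by exact_mod_cast hπ.isCoprime_three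
  have hz : cub π (star π) = 1 := by
    have h1 : cub π (star π) = conj (cub π (star π)) := by
      conv_lhs => rw [cub_rec hπ (rcub_star_prim hπ)]
      have := sym_star (k := 3) (Or.inr (Or.inl rfl)) h3 (star π)
      rwa [star_star] at this
    rw [conj_cub hπ.isCoprime_three] at h1
    have h2 := rcub_cube hπ (hp.coprime_iff_not_dvd.2 hns).symm
    linear_combination (cub π (star π) + 1) * h1 + h2
  have hT3 : cub π (T' : O) = 1 := by
    have h1 : π ∣ ((T' * T - 1 : ℤ) : O) := (b13_dvd_int h _).2 ⟨-m, by linear_combination hm⟩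
    push_cast at h1
    have h2 := rkub_congr h1
    rwa [hχ.mul, rkub_congr hT1, hz, mul_one, hχ.one] at h2
  have hnm : (nm π : ℂ) ≠ 0 := Nat.cast_ne_zero.2 h.ne_zero
  have e1 : ∀ x : ℕ, Complex.exp (2 * Real.pi * Complex.I * ((x : ℂ) ^ 3 / (nm π : ℂ))) =
      ad π (lam * T' * (x : O) ^ 3) := by
    intro x
    have h1 := b13_ad_lam h0 (T' * x ^ 3)
    push_cast at h1
    rw [mul_assoc lam, h1, Complex.exp_eq_exp_iff_exists_int]
    refine ⟨m * x ^ 3, ?_⟩
    have h2 : ((m * nm π + T' * T : ℤ) : ℂ) = 1 := by rw [hm, Int.cast_one]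
    rw [hT] at h2
    push_cast at h2 ⊢
    field_simp
    linear_combination (-(x : ℂ) ^ 3) * h2
  simp only [e1]
  have hper : Per π fun y => ad π (lam * T' * y ^ 3) := fun y t =>
    (ad_per π (lam * T')).congr ((dvd_sub_comm.1 ⟨-t, by ring⟩ : π ∣ y + π * t - y).trans
      (sub_dvd_pow_sub_pow _ _ 3))
  rw [b13_sum_range h hper, b13_sum_cube hp hπ (ad_per π (lam * T'))]
  have hc : ¬ π ∣ lam * T' := fun hd => by
    have h1 := (hχ.zero_iff _).2 fun hc : IsCoprime (lam * T') π =>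
      hp.coprime_iff_not_dvd.1 hc.symm hd
    rw [hχ.mul, hT3, mul_one] at h1
    exact (hχ.zero_iff _).1 h1 hπ.isCoprime_lam.symm
  have e2 : ∑ t ∈ res π, ad π (lam * T' * t) * (1 + cub π t + cub π t ^ 2) =
      ∑ t ∈ res π, ad π (lam * T' * t) + gs π (cub π) (lam * T') +
        gs π (fun t => conj (cub π t)) (-(-1 * (lam * T'))) := by
    rw [gs, gs, ← Finset.sum_add_distrib, ← Finset.sum_add_distrib]
    refine Finset.sum_congr rfl fun t _ => ?_
    rw [conj_cub hπ.isCoprime_three, neg_one_mul, neg_neg]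
    ring
  have hsq : (Real.sqrt (N π) : ℂ) ≠ 0 := by
    exact_mod_cast (Real.sqrt_pos.2 (N_pos h0)).ne'
  have e3 : ∀ k, cub π k = cub π lam → gs π (cub π) k = (Real.sqrt (N π) : ℂ) * GG π := by
    intro k hk
    rw [gs_cub hπ.isCoprime_three hp.squarefree, hk, GG, g3]
    field_simp
  rw [e2, sum_ad h0, if_neg hc, ← conj_gs h0, e3 _ (by rw [hχ.mul, hT3, mul_one]),
    e3 _ (by rw [hχ.mul, hχ.mul, hT3, mul_one, cub_neg_one hπ.isCoprime_three, one_mul]),
    b13_GG_star hπ, map_mul, Complex.conj_ofReal, N]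
  ring

theorem b13_filter {π : O} (hπ : Prim π) (h : (nm π).Prime) :
    (ball (nm π : ℝ)).filter (fun r => Prime r ∧ Prim r ∧ nm r = nm π) = {π, star π} := by
  have hp := FD.prime_of_nm h
  have hp' := rcub_star_prime hp
  have hπ' := rcub_star_prim hπ
  ext r
  rw [Finset.mem_filter, mem_ball, Finset.mem_insert, Finset.mem_singleton]
  constructor
  · rintro ⟨-, h6, h4, h5⟩
    have h7 := rcub_dvd_nm r
    rw [h5, ← mul_star_self] at h7
    rcases h6.dvd_or_dvd h7 with h7 | h7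
    · exact Or.inl (h4.eq_of_associated hπ (h6.associated_of_dvd hp h7))
    · exact Or.inr (h4.eq_of_associated hπ' (h6.associated_of_dvd hp' h7))
  · rintro (rfl | rfl)
    · exact ⟨⟨hp.ne_zero, le_rfl⟩, hp, hπ, rfl⟩
    · exact ⟨⟨hp'.ne_zero, by rw [N, nm_star]⟩, hp', hπ', nm_star _⟩

theorem b13_inert {r : O} (hr : Prime r) (h : ¬ (nm r).Prime) :
    ∃ l : ℕ, nm r = l ^ 2 ∧ Associated r (l : O) := by
  obtain ⟨l, j, hl, ⟨w, hw⟩, hj⟩ := rcub_char hr
  have h1 : l ^ 2 = nm r * nm w := by rw [← nm_natCast, hw, nm_mul]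
  have h2 : j ≤ 2 := (Nat.pow_dvd_pow_iff_le_right hl.one_lt).1 ⟨nm w, by rw [← hj, h1]⟩
  interval_cases j
  · exact absurd (isUnit_iff_nm.2 (by simpa using hj)) hr.not_isUnit
  · exact absurd (by rw [hj, pow_one]; exact hl) h
  · refine ⟨l, hj, ?_⟩
    rw [hw]
    refine associated_mul_unit_right _ _ (isUnit_iff_nm.2 ?_)
    rw [hj] at h1
    exact (Nat.eq_of_mul_eq_mul_left (pow_pos hl.pos 2) (by rw [mul_one, ← h1])).symm

theorem b13_card_inert (X : ℕ) :
    (((ball (X : ℝ)).filter (fun r => Prime r ∧ Prim r ∧ ¬ (nm r).Prime)).card : ℝ) ≤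
      Real.sqrt X := by
  refine le_trans ?_ Real.nat_sqrt_le_real_sqrt
  rw [Nat.cast_le]
  conv_rhs => rw [← Nat.add_sub_cancel (n := X.sqrt) (m := 1), ← Nat.card_Icc]
  refine Finset.card_le_card_of_injOn (fun r => (nm r).sqrt) (fun r hr => ?_) fun r hr r' hr' e => ?_
  · obtain ⟨h1, -⟩ := Finset.mem_filter.1 hr
    obtain ⟨h2, h3⟩ := mem_ball.1 h1
    exact Finset.mem_coe.2 (Finset.mem_Icc.2 ⟨Nat.sqrt_pos.2 (nm_pos h2),
      Nat.sqrt_le_sqrt (by unfold N at h3; exact_mod_cast h3)⟩)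
  · obtain ⟨-, h1, h2, h3⟩ := Finset.mem_filter.1 hr
    obtain ⟨-, h1', h2', h3'⟩ := Finset.mem_filter.1 hr'
    obtain ⟨l, hl, ha⟩ := b13_inert h1 h3
    obtain ⟨l', hl', ha'⟩ := b13_inert h1' h3'
    simp only [hl, hl', Nat.sqrt_eq'] at e
    subst e
    exact h2.eq_of_associated h2' (ha.trans ha'.symm)

theorem cubic_sum_eq {p : ℕ} (hp : p.Prime) (h1 : p % 3 = 1) :
    (∑ x ∈ Finset.range p, Complex.exp (2 * Real.pi * Complex.I * ((x : ℂ) ^ 3 / (p : ℂ)))) /
        (2 * (Real.sqrt (p : ℝ) : ℂ)) =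
      (1 / 2) * ∑ π ∈ (ball (p : ℝ)).filter (fun π => Prime π ∧ Prim π ∧ nm π = p), GG π ∧
    ((ball (p : ℝ)).filter (fun π => Prime π ∧ Prim π ∧ nm π = p)).card = 2 := by
  obtain ⟨π, hπ, rfl⟩ := FD.split hp h1
  have hsq : (Real.sqrt (nm π : ℝ) : ℂ) ≠ 0 := by
    exact_mod_cast (Real.sqrt_pos.2 (N_pos hπ.ne_zero)).ne'
  rw [b13_filter hπ hp, Finset.sum_pair (b13_ne_star hp), Finset.card_pair (b13_ne_star hp),
    b13_sum hπ hp]
  refine ⟨?_, rfl⟩
  field_simp

theorem bridge13 : ∃ C : ℝ, ∀ X : ℕ,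
    ‖(∑ p ∈ (Nat.primesBelow (X + 1)).filter (fun p => p % 3 = 1),
          (∑ x ∈ Finset.range p, Complex.exp (2 * Real.pi * Complex.I * ((x : ℂ) ^ 3 / (p : ℂ)))) /
            (2 * (Real.sqrt (p : ℝ) : ℂ))) -
        (1 / 2) * ∑ p ∈ ball (X : ℝ), fP 0 p -
        ((cP * ∑ p ∈ (Nat.primesBelow (X + 1)).filter (fun p => p % 3 = 1),
          (p : ℝ) ^ (-(1 / 6 : ℝ)) : ℝ) : ℂ)‖ ≤ C * Real.sqrt X := by
  refine ⟨1 + cP, fun X => ?_⟩
  set P := (Nat.primesBelow (X + 1)).filter (fun p => p % 3 = 1) with hP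
  set A := (ball (X : ℝ)).filter (fun r => Prime r ∧ Prim r ∧ (nm r).Prime) with hA
  set B := (ball (X : ℝ)).filter (fun r => Prime r ∧ Prim r ∧ ¬ (nm r).Prime) with hB
  have h1 : ∑ r ∈ ball (X : ℝ), fP 0 r = ∑ r ∈ A, fP 0 r + ∑ r ∈ B, fP 0 r := by
    rw [hA, hB, Finset.sum_filter, Finset.sum_filter, ← Finset.sum_add_distrib]
    refine Finset.sum_congr rfl fun r _ => ?_
    by_cases a1 : Prime r
    · by_cases a2 : Prim r
      · by_cases a3 : (nm r).Prime <;> simp [a1, a2, a3]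
      · simp [a2, fP, ff, SF]
    · simp [a1, fP]
  have hmap : ∀ r ∈ A, nm r ∈ P := by
    intro r hr
    obtain ⟨a0, a1, a2, a3⟩ := Finset.mem_filter.1 hr
    have a4 : nm r ≤ X := by
      have := (mem_ball.1 a0).2
      unfold N at this
      exact_mod_cast this
    exact Finset.mem_filter.2 ⟨Nat.mem_primesBelow.2 ⟨by omega, a3⟩,
      nm_prime_mod_three a1 (by exact_mod_cast rcub_not_dvd a1 a2)⟩
  have h2 : ∀ p ∈ P, (∑ x ∈ Finset.range p,
        Complex.exp (2 * Real.pi * Complex.I * ((x : ℂ) ^ 3 / (p : ℂ)))) /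
          (2 * (Real.sqrt (p : ℝ) : ℂ)) =
      (1 / 2) * ∑ r ∈ A.filter (fun r => nm r = p), fP 0 r +
        ((cP * (p : ℝ) ^ (-(1 / 6 : ℝ)) : ℝ) : ℂ) := by
    intro p hp
    obtain ⟨a1, a2⟩ := Finset.mem_filter.1 hp
    obtain ⟨a3, a4⟩ := Nat.mem_primesBelow.1 a1
    obtain ⟨e1, e2⟩ := cubic_sum_eq a4 a2
    have e3 : A.filter (fun r => nm r = p) =
        (ball (p : ℝ)).filter (fun π => Prime π ∧ Prim π ∧ nm π = p) := by
      ext r
      simp only [hA, Finset.mem_filter, mem_ball, N]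
      constructor
      · rintro ⟨⟨⟨b1, -⟩, b2, b3, -⟩, b4⟩
        exact ⟨⟨b1, by rw [b4]⟩, b2, b3, b4⟩
      · rintro ⟨⟨b1, -⟩, b2, b3, b4⟩
        exact ⟨⟨⟨b1, by rw [b4]; exact_mod_cast Nat.lt_succ_iff.1 a3⟩, b2, b3, b4 ▸ a4⟩, b4⟩
    have e4 : ∀ r ∈ (ball (p : ℝ)).filter (fun π => Prime π ∧ Prim π ∧ nm π = p),
        fP 0 r = GG r - ((cP * (p : ℝ) ^ (-(1 / 6 : ℝ)) : ℝ) : ℂ) := by
      intro r hr
      obtain ⟨-, b2, b3, b4⟩ := Finset.mem_filter.1 hr
      rw [fP, if_pos b2, ff, if_pos ⟨b3, b2.squarefree⟩, zpow_zero, one_mul, N, b4]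
    rw [e1, e3, Finset.sum_congr rfl e4, Finset.sum_sub_distrib, Finset.sum_const, e2, nsmul_eq_mul]
    push_cast
    ring
  rw [Finset.sum_congr rfl h2, Finset.sum_add_distrib, ← Finset.mul_sum,
    Finset.sum_fiberwise_of_maps_to hmap, h1, Finset.mul_sum (a := cP), Complex.ofReal_sum]
  have h3 : ‖∑ r ∈ B, fP 0 r‖ ≤ Real.sqrt X * (1 + cP) := by
    refine (norm_sum_le _ _).trans ((Finset.sum_le_card_nsmul _ _ _ fun r _ => norm_fP_le 0 r).trans ?_)
    rw [nsmul_eq_mul]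
    exact mul_le_mul_of_nonneg_right (b13_card_inert X) (by linarith [cP_pos])
  rw [show ∀ a b c : ℂ, 1 / 2 * a + c - 1 / 2 * (a + b) - c = -(1 / 2) * b from fun a b c => by ring,
    norm_mul]
  have h4 : ‖(-(1 / 2) : ℂ)‖ = 1 / 2 := by simp
  have h5 := norm_nonneg (∑ r ∈ B, fP 0 r)
  rw [h4]
  linarith

end Crest.Agent.R12
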