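import Crest.Prelude.Def_CubicGauss
import Crest.Agent.R12.Basic1
import Crest.Agent.R17.FinalH

/-!
# R12 / Bridge14 : translation of S0014 to the ring `O`

There is `e : O ≃+* EisR` with `σ (e x) = toC x` (`σ ζ` is `omC` or `omC²`; send `om` to `ζ` or `ζ²`;
cf. `R17.exists_equiv` in `R17/FinalH.lean`, `IsCyclotomicExtension` integral power basis).
Then `eisNorm (e x) = nm x`, `cubicChar σ (e p) (e x) = cub p x` for prime `p` (`symP 3`, `sym` of a prime
depends only on the ideal), `eisAddChar (e p) (e x) = ad p (λ x)` (`Tr w = 2 Re (σ w)`,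
`toC λ = i√3`), the box `0 ≤ a, b < N p` is a residue system mod the integer `N p`, so the box sum is
`N p · gs p (cub p) λ = N p · conj (cub p λ) · g3 p · √N p` (`gs_cub`).  For `X ≥ 2` every element of
norm `≤ X` has coordinates `|a|, |b| ≤ X`.
-/

set_option autoImplicit false

noncomputable section

open scoped Classical ComplexConjugate Topology
open MeasureTheory Filter

namespace Crest.Agent.R12

open Crest.Agent.R17

theorem b14_coord (x : O) : x = (x.re : O) + (x.im : O) * om := by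
  ext <;> simp [om]

theorem b14_star_om : star om = -1 - om := by decide

theorem b14_hom_eq (ψ : O →+* ℂ) (h : ψ om = omC) (x : O) : ψ x = toC x := by
  rw [b14_coord x, map_add, map_add, map_mul, map_mul, map_intCast, map_intCast, map_intCast,
    map_intCast, h, s1_toC_om]

/-- the roots of `w² + w + 1` in `O` -/
theorem b14_root {w : O} (h : w ^ 2 + w + 1 = 0) : w = om ∨ w = star om := by
  have h1 : (w - om) * (w - star om) = 0 := by
    rw [b14_star_om]
    linear_combination h - om_sq_add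
  rcases mul_eq_zero.1 h1 with h2 | h2
  · exact Or.inl (sub_eq_zero.1 h2)
  · exact Or.inr (sub_eq_zero.1 h2)

open Crest.NumberTheoryR.CubicGauss in
theorem b14_zeta : eisZeta ^ 2 + eisZeta + 1 = 0 := by
  have : IsCyclotomicExtension {3} ℚ EisK := CyclotomicField.isCyclotomicExtension 3 ℚ
  have hζ := IsCyclotomicExtension.zeta_spec 3 ℚ EisK
  have h1 := hζ.toInteger_isPrimitiveRoot.geom_sum_eq_zero (by norm_num)
  simp only [Finset.sum_range_succ, Finset.range_zero, Finset.sum_empty] at h1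
  change hζ.toInteger ^ 2 + hζ.toInteger + 1 = 0
  linear_combination h1

open Crest.NumberTheoryR.CubicGauss in
/-- coordinates -/
theorem b14_coords (e : O ≃+* EisR) : ∃ c : O ≃+* O, (∀ x, nm (c x) = nm x) ∧
    ∀ a b : ℤ, eisOfCoords a b = e (c ⟨a, b⟩) := by
  have h1 : (e.symm eisZeta) ^ 2 + e.symm eisZeta + 1 = 0 := by
    rw [← map_pow, ← map_one e.symm, ← map_add, ← map_add, b14_zeta, map_zero]
  have key : ∀ c : O ≃+* O, e.symm eisZeta = c om → ∀ a b : ℤ, eisOfCoords a b = e (c ⟨a, b⟩) := by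
    intro c hc a b
    rw [b14_coord ⟨a, b⟩, map_add, map_add, map_mul, map_mul, map_intCast, map_intCast, map_intCast,
      map_intCast, ← hc, RingEquiv.apply_symm_apply]
    rfl
  rcases b14_root h1 with h | h
  · exact ⟨RingEquiv.refl O, fun _ => rfl, key _ h⟩
  · exact ⟨starRingAut, nm_star, key _ h⟩

open Crest.NumberTheoryR.CubicGauss in
theorem b14_norm (e : O ≃+* EisR) (x : O) : eisNorm (e x) = nm x := by
  rw [← FH.absNorm_e e x, Ideal.absNorm_span_singleton]
  rfl

theorem b14_trace_O (y : O) : Algebra.trace ℤ O y = 2 * y.re - y.im := by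
  rw [Algebra.trace_eq_matrix_trace (QuadraticAlgebra.basis (-1 : ℤ) (-1)), Matrix.trace_fin_two,
    Algebra.leftMulMatrix_eq_repr_mul, Algebra.leftMulMatrix_eq_repr_mul]
  have h0 : QuadraticAlgebra.basis (-1 : ℤ) (-1) 0 = 1 := by
    ext <;> simp [QuadraticAlgebra.basis, QuadraticAlgebra.re_one, QuadraticAlgebra.im_one]
  have h1 : QuadraticAlgebra.basis (-1 : ℤ) (-1) 1 = om := by
    ext <;> simp [QuadraticAlgebra.basis, om]
  rw [h0, h1, mul_one]
  change y.re + (y * om).im = _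
  simp [om]
  ring

open Crest.NumberTheoryR.CubicGauss in
theorem b14_trace (e : O ≃+* EisR) (y : O) :
    Algebra.trace ℚ EisK ((e y : EisR) : EisK) = 2 * y.re - y.im := by
  rw [← Algebra.coe_trace_int]
  have h := Algebra.trace_eq_of_algEquiv (AlgEquiv.ofRingEquiv (R := ℤ) (f := e)
    (fun n => by simp)) y
  have h' : Algebra.trace ℤ EisR (e y) = Algebra.trace ℤ O y := h
  rw [h', b14_trace_O]
  push_cast
  ring

theorem b14_toC_lam : toC lam = (Real.sqrt 3 : ℂ) * Complex.I := by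
  rw [toC_apply]
  apply Complex.ext
  · simp [lam, omC]
    norm_num
  · simp [lam, omC]
    ring

open Crest.NumberTheoryR.CubicGauss in
theorem b14_add (e : O ≃+* EisR) {p : O} (hp : p ≠ 0) (x : O) :
    eisAddChar (e p) (e x) = ad p (lam * x) := by
  have hn : (nm p : ℚ) ≠ 0 := by exact_mod_cast (nm_pos hp).ne'
  have hnR : (nm p : ℝ) ≠ 0 := by exact_mod_cast (nm_pos hp).ne'
  have hsp : star p ≠ 0 := star_ne_zero.2 hp
  have hm : ∀ a b : EisR, ((a * b : EisR) : EisK) = (a : EisK) * (b : EisK) :=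
    fun a b => map_mul (algebraMap EisR EisK) a b
  have h1 : ((e x : EisR) : EisK) / ((e p : EisR) : EisK) =
      algebraMap ℚ EisK (nm p : ℚ)⁻¹ * ((e (x * star p) : EisR) : EisK) := by
    have h2 : ((e p : EisR) : EisK) * ((e (star p) : EisR) : EisK) = (nm p : EisK) := by
      rw [← hm, ← map_mul, mul_star_self, map_natCast]
      simp
    have h3 : ((e p : EisR) : EisK) ≠ 0 := by
      intro h0
      rw [h0, zero_mul] at h2
      exact (nm_pos hp).ne' (by exact_mod_cast h2.symm)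
    have h4 : (nm p : EisK) ≠ 0 := by exact_mod_cast (nm_pos hp).ne'
    rw [map_mul, hm, map_inv₀, map_natCast]
    field_simp
    rw [← h2]
    ring
  have h5 : toC (lam * x) / toC p =
      (Real.sqrt 3 : ℂ) * Complex.I * toC (x * star p) / ((nm p : ℝ) : ℂ) := by
    have h6 : toC p * toC (star p) = ((nm p : ℝ) : ℂ) := by
      rw [← map_mul, mul_star_self, map_natCast]
      simp
    rw [map_mul, map_mul, b14_toC_lam, ← h6]
    have := b4_toC_ne_zero hp
    have := b4_toC_ne_zero hsp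
    field_simp
  unfold eisAddChar ad
  rw [h1, ← Algebra.smul_def, map_smul, b14_trace, h5, b4_ee_eq]
  obtain ⟨y, hy⟩ : ∃ y, y = x * star p := ⟨_, rfl⟩
  rw [← hy]
  congr 1
  have h7 : ((Real.sqrt 3 : ℂ) * Complex.I * toC y / ((nm p : ℝ) : ℂ)).im =
      Real.sqrt 3 * ((y.re : ℝ) - (y.im : ℝ) / 2) / (nm p : ℝ) := by
    rw [Complex.div_ofReal_im, toC_apply]
    simp [omC]
    ring
  have h8 : Real.sqrt 3 ≠ 0 := by positivity
  have h9 : 4 * Real.pi / Real.sqrt 3 * (Real.sqrt 3 * ((y.re : ℝ) - (y.im : ℝ) / 2) / (nm p : ℝ)) =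
      2 * Real.pi * ((((nm p : ℚ)⁻¹ • (2 * (y.re : ℚ) - (y.im : ℚ)) : ℚ)) : ℝ) := by
    rw [smul_eq_mul]
    push_cast
    field_simp
    ring
  rw [h7, h9]
  push_cast
  ring

open Crest.NumberTheoryR.CubicGauss in
theorem b14_cub (σ : EisK →+* ℂ) (e : O ≃+* EisR) (he : ∀ x : O, σ ((e x : EisR) : EisK) = toC x)
    {p : O} (hp : Prime p) (x : O) : cubicChar σ (e p) (e x) = cub p x := by
  unfold cubicChar cub
  rw [sym_prime 3 hp, symP, ← Finset.sum_filter, ← finsum_mem_coe_finset, b14_norm]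
  symm
  refine finsum_mem_eq_of_bijOn e ⟨?_, e.injective.injOn, ?_⟩ fun u _ => (he u).symm
  · intro u hu
    rw [Finset.mem_coe, Finset.mem_filter] at hu
    refine ⟨by rw [← map_pow, hu.2.1, map_one], ?_⟩
    rw [← map_pow, ← map_sub]
    exact map_dvd e hu.2.2
  · intro v hv
    obtain ⟨u, rfl⟩ := e.surjective v
    have h1 : u ^ 3 = 1 := e.injective (by rw [map_pow, hv.1, map_one])
    have h2 := hv.2
    rw [← map_pow, ← map_sub, map_dvd_iff] at h2
    refine ⟨u, ?_, rfl⟩
    rw [Finset.mem_coe, Finset.mem_filter]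
    exact ⟨isUnit_iff_mem_units6.1 (IsUnit.of_pow_eq_one h1 (by norm_num)), h1, h2⟩

/-- the box is a residue system modulo the integer `n` -/
theorem b14_box (c : O ≃+* O) {n : ℕ} (hn : n ≠ 0) {f : O → ℂ} (hf : Per (n : O) f) :
    ∑ a ∈ Finset.range n, ∑ b ∈ Finset.range n, f (c ⟨(a : ℤ), (b : ℤ)⟩) = ∑ x ∈ res (n : O), f x := by
  have hn' : (n : O) ≠ 0 := by
    intro h
    have := nm_natCast n
    rw [h, nm_zero] at this
    exact hn (pow_eq_zero_iff (two_ne_zero)|>.1 this.symm)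
  have hnz : (n : ℤ) ≠ 0 := by exact_mod_cast hn
  have hd : ∀ y : O, (n : O) ∣ c y ↔ (n : ℤ) ∣ y.re ∧ (n : ℤ) ∣ y.im := fun y => by
    rw [← map_natCast c n, map_dvd_iff]
    have := QuadraticAlgebra.algebraMap_dvd_iff (r := (n : ℤ)) (z := y)
    rwa [map_natCast] at this
  rw [← Finset.sum_product']
  refine b4_sum_res_map hn' hf _ (fun i : ℕ × ℕ => c ⟨(i.1 : ℤ), (i.2 : ℤ)⟩) (fun x => ?_) ?_
  · obtain ⟨y, rfl⟩ := c.surjective x
    have a1 := Int.emod_nonneg y.re hnz
    have a2 := Int.emod_nonneg y.im hnz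
    have b1 := Int.emod_lt_of_pos y.re (show (0 : ℤ) < n by omega)
    have b2 := Int.emod_lt_of_pos y.im (show (0 : ℤ) < n by omega)
    refine ⟨((y.re % n).toNat, (y.im % n).toNat), ?_, ?_⟩
    · rw [Finset.mem_product, Finset.mem_range, Finset.mem_range]
      constructor <;> omega
    · rw [← map_sub, hd]
      simp only [QuadraticAlgebra.re_sub, QuadraticAlgebra.im_sub, Int.toNat_of_nonneg a1,
        Int.toNat_of_nonneg a2]
      exact ⟨Int.dvd_self_sub_emod, Int.dvd_self_sub_emod⟩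
  · intro i hi j hj h
    rw [← map_sub, hd] at h
    simp only [QuadraticAlgebra.re_sub, QuadraticAlgebra.im_sub] at h
    rw [Finset.mem_product, Finset.mem_range, Finset.mem_range] at hi hj
    have c1 := Int.eq_zero_of_abs_lt_dvd h.1 (by rw [abs_lt]; constructor <;> omega)
    have c2 := Int.eq_zero_of_abs_lt_dvd h.2 (by rw [abs_lt]; constructor <;> omega)
    exact Prod.ext (by omega) (by omega)

open Crest.NumberTheoryR.CubicGauss in
theorem exists_equiv_sigma (σ : EisK →+* ℂ) :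
    ∃ e : O ≃+* EisR, ∀ x : O, σ ((e x : EisR) : EisK) = toC x := by
  obtain ⟨e0⟩ := FH.exists_equiv
  have key : ∀ e : O ≃+* EisR, σ ((e om : EisR) : EisK) = omC →
      ∀ x : O, σ ((e x : EisR) : EisK) = toC x := fun e h x =>
    b14_hom_eq (σ.comp ((algebraMap EisR EisK).comp (e : O →+* EisR))) h x
  obtain ⟨φ, hφ⟩ : ∃ φ : O →+* ℂ, ∀ x, φ x = σ ((e0 x : EisR) : EisK) :=
    ⟨σ.comp ((algebraMap EisR EisK).comp (e0 : O →+* EisR)), fun _ => rfl⟩
  have h1 : φ om ^ 2 + φ om + 1 = 0 := by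
    rw [← map_pow, ← map_one φ, ← map_add, ← map_add, om_sq_add, map_zero]
  have h2 : (φ om - omC) * (φ om - (-1 - omC)) = 0 := by
    linear_combination h1 - omC_sq
  rcases mul_eq_zero.1 h2 with h | h
  · exact ⟨e0, key e0 (by rw [← hφ]; exact sub_eq_zero.1 h)⟩
  · refine ⟨(starRingAut : O ≃+* O).trans e0, key _ ?_⟩
    change σ ((e0 (star om) : EisR) : EisK) = omC
    rw [← hφ, b14_star_om, map_sub, map_neg, map_one, sub_eq_zero.1 h]
    ring

open Crest.NumberTheoryR.CubicGauss in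
theorem gauss_eq (σ : EisK →+* ℂ) (e : O ≃+* EisR) (he : ∀ x : O, σ ((e x : EisR) : EisK) = toC x)
    {p : O} (hp : Prime p) (hp' : Prim p) : cubicGaussSum σ (e p) = GG p := by
  obtain ⟨c, -, hc⟩ := b14_coords e
  have hper : Per p (fun x => cub p x * ad p (lam * x)) := (sym_per 3 p).mul (ad_per p lam)
  have hsp : star p ≠ 0 := star_ne_zero.2 hp.ne_zero
  have h1 : ∑ a ∈ Finset.range (nm p), ∑ b ∈ Finset.range (nm p),
      cubicChar σ (e p) (eisOfCoords a b) * eisAddChar (e p) (eisOfCoords a b) =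
      (N p : ℂ) * gs p (cub p) lam := by
    simp only [hc, b14_cub σ e he hp, b14_add e hp.ne_zero]
    rw [b14_box c (nm_pos hp.ne_zero).ne' (f := fun x => cub p x * ad p (lam * x))
      (hper.of_dvd ⟨star p, (mul_star_self p).symm⟩), ← mul_star_self,
      sum_res_tower hp.ne_zero hsp (hper.of_dvd (dvd_mul_right _ _)), gs, Finset.mul_sum]
    refine Finset.sum_congr rfl fun x _ => ?_
    rw [Finset.sum_congr rfl fun y _ => hper x y, Finset.sum_const, card_res hsp, nm_star,
      nsmul_eq_mul, N, Complex.ofReal_natCast]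
  unfold cubicGaussSum
  rw [b14_norm, h1, gs_cub hp'.isCoprime_three hp.squarefree, GG, g3]
  have hN : 0 < N p := N_pos hp.ne_zero
  have h2 : (nm p : ℝ) ^ (-(3 : ℝ) / 2) * N p = (Real.sqrt (N p))⁻¹ := by
    change N p ^ (-(3 : ℝ) / 2) * N p = _
    rw [← Real.rpow_add_one hN.ne', Real.sqrt_eq_rpow, ← Real.rpow_neg hN.le]
    norm_num
  rw [← mul_assoc, ← Complex.ofReal_mul, h2, Complex.ofReal_inv]
  ring

open Crest.NumberTheoryR.CubicGauss in
theorem bridge14 (σ : EisK →+* ℂ) (ℓ : ℤ) {X : ℕ} (hX : 2 ≤ X) :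
    twistedFirstMomentDefect σ ℓ X = ∑ p ∈ ball (X : ℝ), fP ℓ p := by
  obtain ⟨e, he⟩ := exists_equiv_sigma σ
  obtain ⟨c, hnm, hc⟩ := b14_coords e
  have hpr : ∀ y : O, Prime (e y) ↔ Prime y := fun y => MulEquiv.prime_iff e
  have hpm : ∀ y : O, IsPrimary (e y) ↔ Prim y := fun y => by
    unfold IsPrimary Prim
    rw [← map_one e, ← map_sub, ← map_ofNat e 3, map_dvd_iff]
  unfold twistedFirstMomentDefect
  symm
  refine Finset.sum_of_injOn (fun p => ((c.symm p).re, (c.symm p).im)) ?_ ?_ ?_ ?_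
  · intro p _ q _ h
    apply c.symm.injective
    ext
    · exact congrArg Prod.fst h
    · exact congrArg Prod.snd h
  · intro p hp
    rw [Finset.mem_coe, mem_ball] at hp
    have h1 : nm (c.symm p) ≤ X := by
      rw [← hnm, RingEquiv.apply_symm_apply]
      have := hp.2
      unfold N at this
      exact_mod_cast this
    have h2 := nm_int (c.symm p)
    obtain ⟨a, ha⟩ : ∃ a, a = (c.symm p).re := ⟨_, rfl⟩
    obtain ⟨b, hb⟩ : ∃ b, b = (c.symm p).im := ⟨_, rfl⟩
    have h3 : a ^ 2 - a * b + b ^ 2 ≤ X := by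
      rw [ha, hb, ← h2]
      exact_mod_cast h1
    have hX' : (2 : ℤ) ≤ X := by exact_mod_cast hX
    simp only [Finset.coe_product, Finset.coe_Icc, Set.mem_prod, Set.mem_Icc, ← ha, ← hb]
    refine ⟨⟨?_, ?_⟩, ?_, ?_⟩
    · by_contra h
      nlinarith [sq_nonneg (a - 2 * b)]
    · by_contra h
      nlinarith [sq_nonneg (a - 2 * b)]
    · by_contra h
      nlinarith [sq_nonneg (b - 2 * a)]
    · by_contra h
      nlinarith [sq_nonneg (b - 2 * a)]
  · intro ab _ hab
    refine if_neg fun h => hab ⟨c ⟨ab.1, ab.2⟩, ?_, ?_⟩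
    · rw [hc, hpr, b14_norm] at h
      rw [Finset.mem_coe, mem_ball]
      refine ⟨h.1.ne_zero, ?_⟩
      unfold N
      exact_mod_cast h.2.2
    · simp
  · intro p hp
    rw [mem_ball] at hp
    have h1 : eisOfCoords (c.symm p).re (c.symm p).im = e p := by
      rw [hc]
      congr 1
      exact c.apply_symm_apply p
    have h2 : nm p ≤ X := by
      have := hp.2
      unfold N at this
      exact_mod_cast this
    simp only [h1, hpr, hpm, b14_norm]
    unfold fP ff
    by_cases a1 : Prime p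
    · by_cases a2 : Prim p
      · rw [if_pos a1, if_pos (show SF p from ⟨a2, a1.squarefree⟩), if_pos ⟨a1, a2, h2⟩,
          gauss_eq σ e he a1 a2, angularChar, he, neg_div]
        rfl
      · rw [if_pos a1, if_neg fun h : SF p => a2 h.1, if_neg fun h => a2 h.2.1]
    · rw [if_neg a1, if_neg fun h => a1 h.1]

end Crest.Agent.R12
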