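import Crest.Agent.R12.LS0A

/-!
# R12 / LS0 : classical large sieve; major and middle frequencies
-/

set_option autoImplicit false

noncomputable section

open scoped Classical ComplexConjugate Topology
open MeasureTheory Filter

namespace Crest.Agent.R12

open Crest.Agent.R17

/-- duality for finite matrices (Cauchy–Schwarz) -/
theorem ls_dual {ι κ : Type*} (R : Finset ι) (S : Finset κ) (M : ι → κ → ℂ) {Λ : ℝ} (hΛ : 0 ≤ Λ)
    (h : ∀ x : κ → ℂ, ∑ i ∈ R, ‖∑ j ∈ S, x j * M i j‖ ^ 2 ≤ Λ * ∑ j ∈ S, ‖x j‖ ^ 2) (y : ι → ℂ) :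
    ∑ j ∈ S, ‖∑ i ∈ R, y i * M i j‖ ^ 2 ≤ Λ * ∑ i ∈ R, ‖y i‖ ^ 2 := by
  set v : κ → ℂ := fun j => ∑ i ∈ R, y i * M i j with hv
  set V : ℝ := ∑ j ∈ S, ‖v j‖ ^ 2 with hV
  have hV0 : 0 ≤ V := Finset.sum_nonneg fun _ _ => by positivity
  have h1 := h (fun j => conj (v j))
  simp only [Complex.norm_conj] at h1
  have h2 : (V : ℂ) = ∑ i ∈ R, y i * ∑ j ∈ S, conj (v j) * M i j := by
    simp_rw [Finset.mul_sum]
    rw [Finset.sum_comm, hV]
    push_cast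
    refine Finset.sum_congr rfl (fun n _ => ?_)
    rw [← Complex.conj_mul', hv]
    simp only
    rw [Finset.mul_sum]
    exact Finset.sum_congr rfl (fun b _ => by ring)
  have h3 : V ≤ ∑ i ∈ R, ‖y i‖ * ‖∑ j ∈ S, conj (v j) * M i j‖ := by
    calc V = ‖(V : ℂ)‖ := by rw [Complex.norm_real, Real.norm_of_nonneg hV0]
      _ ≤ _ := by
        rw [h2]
        exact (norm_sum_le _ _).trans (le_of_eq (Finset.sum_congr rfl (fun b _ => norm_mul _ _)))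
  have h4 := Finset.sum_mul_sq_le_sq_mul_sq R (fun i => ‖y i‖)
    (fun i => ‖∑ j ∈ S, conj (v j) * M i j‖)
  have hC : 0 ≤ ∑ i ∈ R, ‖y i‖ ^ 2 := Finset.sum_nonneg fun _ _ => by positivity
  have h5 : V ^ 2 ≤ (∑ i ∈ R, ‖y i‖ ^ 2) * (Λ * V) := by
    calc V ^ 2 ≤ (∑ i ∈ R, ‖y i‖ * ‖∑ j ∈ S, conj (v j) * M i j‖) ^ 2 :=
          pow_le_pow_left₀ hV0 h3 2
      _ ≤ _ := h4
      _ ≤ _ := mul_le_mul_of_nonneg_left h1 hC
  change V ≤ Λ * ∑ i ∈ R, ‖y i‖ ^ 2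
  rcases hV0.eq_or_lt with h0 | h0
  · rw [← h0]; positivity
  · nlinarith

/-- As `kernel_bound`/`tls` in `R17/TLS.lean`.  `χ_k = cub k₁ · conj (cub k₂)`.  For `k ≠ k'`,
`χ_k conj χ_{k'}` is, modulo the squarefree `q = lcm(k₁k₂, k₁'k₂')`, a product over `p ∣ q` of
`cub p ^ e` (`e ∈ {1,2}`: Gauss sums `≤ √N p`, vanishing at `0`) or of the principal character
(only if `p` divides both `k₁k₂` and `k₁'k₂'`; Gauss sums `≤ N p`), with at least one non-principal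
factor; so `poisson_bound` gives `≤ C √(N(k₁k₂) N(k₁'k₂')) ≤ C P`.  Then
`∑_d Om(N d/D)|∑_k u_k χ_k(d)|² ≤ C(1+D)‖u‖² + C P (∑|u_k|)²`, `sum_ball_le_tsum`. -/
theorem ls0_dual : ∃ C : ℝ, 0 ≤ C ∧ ∀ (𝒦 : Finset (O × O)) (P D : ℝ), 1 ≤ D →
    (∀ k ∈ 𝒦, SF k.1 ∧ SF k.2 ∧ IsCoprime k.1 k.2 ∧ N k.1 * N k.2 ≤ P) → ∀ u : O × O → ℂ,
    ∑ d ∈ ball D, ‖∑ k ∈ 𝒦, u k * (cub k.1 d * conj (cub k.2 d))‖ ^ 2 ≤
      C * (D + P * 𝒦.card) * ∑ k ∈ 𝒦, ‖u k‖ ^ 2 := by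
  obtain ⟨C1, hC10, hC1⟩ := TL.tsum_Om_le'
  obtain ⟨C2, hC20, hC2⟩ := ls0_kernel
  refine ⟨Real.exp c0 * (1 + C1 + C2), by positivity, fun 𝒦 P D hD h u => ?_⟩
  rcases 𝒦.eq_empty_or_nonempty with rfl | ⟨k0, hk0⟩
  · simp
  have hP : 0 ≤ P := le_trans (mul_nonneg (N_nonneg _) (N_nonneg _)) (h k0 hk0).2.2.2
  have hD0 : 0 < D := by linarith
  obtain ⟨h1, h2⟩ := ls0_abs 𝒦 (fun d => Om (N d / D)) (fun d => (Om_pos _).le) (TL.summ_Om hD0)
    (fun k d => cub k.1 d * conj (cub k.2 d)) (fun k hk d => by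
      rw [norm_mul, Complex.norm_conj]
      exact mul_le_one₀ (ls0_norm_cub (h k hk).1.1 d) (norm_nonneg _)
        (ls0_norm_cub (h k hk).2.1.1 d)) (hC1 D hD0) (B := C2 * P) (by positivity)
    (fun k hk k' hk' hne => by
      obtain ⟨a1, a2, a3, a4⟩ := h k hk
      obtain ⟨b1, b2, b3, b4⟩ := h k' hk'
      refine (hC2 k.1 k.2 k'.1 k'.2 a1 a2 a3 b1 b2 b3 hne D hD0).trans ?_
      refine mul_le_mul_of_nonneg_left ?_ hC20
      calc _ ≤ Real.sqrt P * Real.sqrt P := by gcongr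
        _ = P := Real.mul_self_sqrt hP) u
  refine (sum_ball_le_tsum hD0 (fun d => by positivity) h1).trans ?_
  rw [mul_assoc, mul_assoc]
  refine mul_le_mul_of_nonneg_left (h2.trans ?_) (Real.exp_pos _).le
  rw [← mul_assoc]
  refine mul_le_mul_of_nonneg_right ?_ (Finset.sum_nonneg fun _ _ => by positivity)
  have h3 : 0 ≤ P * 𝒦.card := by positivity
  nlinarith [mul_nonneg hC10 h3, mul_nonneg hC20 hD0.le]

theorem ls0 : ∃ C : ℝ, 0 ≤ C ∧ ∀ (𝒦 : Finset (O × O)) (P D : ℝ), 1 ≤ D →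
    (∀ k ∈ 𝒦, SF k.1 ∧ SF k.2 ∧ IsCoprime k.1 k.2 ∧ N k.1 * N k.2 ≤ P) →
    ∀ (S : Finset O) (x : O → ℂ), S ⊆ ball D →
    ∑ k ∈ 𝒦, ‖∑ n ∈ S, x n * (cub k.1 n * conj (cub k.2 n))‖ ^ 2 ≤
      C * (D + P * 𝒦.card) * n2 S x := by
  obtain ⟨C, hC0, hC⟩ := ls0_dual
  refine ⟨C, hC0, fun 𝒦 P D hD h S x hS => ?_⟩
  rcases 𝒦.eq_empty_or_nonempty with rfl | ⟨k0, hk0⟩
  · have := ls0_n2_nonneg S x
    simp only [Finset.sum_empty, Finset.card_empty, Nat.cast_zero, mul_zero, add_zero]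
    positivity
  have hP : 0 ≤ P := le_trans (mul_nonneg (N_nonneg _) (N_nonneg _)) (h k0 hk0).2.2.2
  exact ls_dual S 𝒦 (fun n k => cub k.1 n * conj (cub k.2 n)) (by positivity)
    (fun u => le_trans (Finset.sum_le_sum_of_subset_of_nonneg hS fun _ _ _ => by positivity)
      (hC 𝒦 P D hD h u)) x

/-- `ls0_dual` with the pairs `(n, 1)` -/
theorem ls1 : ∃ C : ℝ, 0 ≤ C ∧ ∀ (M Y : ℝ) (S : Finset O) (x : O → ℂ), 1 ≤ M → 0 ≤ Y →
    S ⊆ sfb M → ∑ k ∈ ball Y, ‖cs S x k‖ ^ 2 ≤ C * (Y + M ^ 2) * n2 S x := by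
  obtain ⟨C, hC0, hC⟩ := ls0_dual
  refine ⟨19 * C, by positivity, fun M Y S x hM hY hS => ?_⟩
  have hi : ∀ a ∈ S, ∀ b ∈ S, ((a, 1) : O × O) = (b, 1) → a = b := fun a _ b _ h =>
    (Prod.ext_iff.1 h).1
  have h := hC (S.image fun n => (n, 1)) M (max Y 1) (le_max_right _ _) (fun k hk => by
    obtain ⟨n, hn, rfl⟩ := Finset.mem_image.1 hk
    have h1 := mem_sfb.1 (hS hn)
    refine ⟨h1.1, b1_sf_one, isCoprime_one_right, ?_⟩
    have : N 1 = 1 := by simp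
    rw [this, mul_one]
    exact h1.2) (fun k => x k.1)
  have h1 : ∀ d, cub 1 d = 1 := sym_one 3
  simp only [Finset.sum_image hi, h1, map_one, mul_one] at h
  rw [Finset.card_image_of_injOn hi] at h
  refine le_trans (Finset.sum_le_sum_of_subset_of_nonneg (ball_mono (le_max_left Y 1))
    fun _ _ _ => by positivity) (h.trans ?_)
  refine mul_le_mul_of_nonneg_right ?_ (ls0_n2_nonneg S x)
  have h2 := ls0_card_sfb (by linarith) hS
  have h3 : max Y 1 ≤ Y + M ^ 2 := max_le (by nlinarith) (by nlinarith)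
  have h4 : M * S.card ≤ 18 * M ^ 2 := by nlinarith
  nlinarith

theorem ls0_maj_cover (Y Q : ℝ) : ∀ k ∈ (ball Y).filter (Maj Q),
    ∃ t ∈ ball Q ×ˢ ball (Y ^ (1 / 3 : ℝ)), t.1 * t.2 ^ 3 = k := by
  intro k hk
  obtain ⟨hk1, k0, m, rfl, hk0⟩ := Finset.mem_filter.1 hk
  have h0 : k0 ≠ 0 := left_ne_zero_of_mul (mem_ball.1 hk1).1
  have h := ls0_cube_mem hk1 one_pos (one_le_N h0)
  rw [div_one] at h
  exact ⟨(k0, m), Finset.mem_product.2 ⟨mem_ball.2 ⟨h0, hk0⟩, h⟩, rfl⟩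

theorem ls0_add_sq (a b : ℂ) : ‖a + b‖ ^ 2 ≤ 2 * ‖a‖ ^ 2 + 2 * ‖b‖ ^ 2 := by
  have h := pow_le_pow_left₀ (norm_nonneg _) (norm_add_le a b) 2
  nlinarith [sq_nonneg (‖a‖ - ‖b‖)]

theorem ls0_cs_cube {M : ℝ} {S : Finset O} (hS : S ⊆ sfb M) {x : O → ℂ} (k0 m : O) (D0 : ℝ) :
    cs S x (k0 * m ^ 3) =
      ∑ d ∈ (sfb D0).filter (fun d => d ∣ m),
        mu d * ∑ n ∈ S.filter (fun n => d ∣ n), x n * cub n k0 +
      ∑ d ∈ (sfI D0 M).filter (fun d => d ∣ m),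
        mu d * ∑ n ∈ S.filter (fun n => d ∣ n), x n * cub n k0 := by
  have hd : Disjoint ((sfb D0).filter (fun d => d ∣ m)) ((sfI D0 M).filter (fun d => d ∣ m)) := by
    rw [Finset.disjoint_left]
    intro d h1 h2
    have h3 := (mem_sfb.1 (Finset.mem_filter.1 h1).1).2
    have h4 := (mem_sfI.1 (Finset.mem_filter.1 h2).1).2.1
    linarith
  rw [← Finset.sum_union hd]
  simp only [Finset.mul_sum]
  simp only [Finset.sum_filter (s := S)]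
  rw [Finset.sum_comm]
  refine Finset.sum_congr rfl fun n hn => ?_
  obtain ⟨h1, h2⟩ := mem_sfb.1 (hS hn)
  rw [← Finset.sum_filter, ← Finset.sum_mul]
  have e : (((sfb D0).filter (fun d => d ∣ m)) ∪ ((sfI D0 M).filter (fun d => d ∣ m))).filter
      (fun d => d ∣ n) = (pdiv n).filter (fun d => d ∣ m) := by
    ext d
    simp only [Finset.mem_filter, Finset.mem_union, mem_sfb, mem_sfI, mem_pdiv h1.1.ne_zero]
    constructor
    · rintro ⟨h3 | h3, h4⟩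
      · exact ⟨⟨h3.1.1.1, h4⟩, h3.2⟩
      · exact ⟨⟨h3.1.1.1, h4⟩, h3.2⟩
    · rintro ⟨⟨h3, h4⟩, h5⟩
      refine ⟨?_, h4⟩
      have h6 := h1.of_dvd h3 h4
      rcases le_or_gt (N d) D0 with h7 | h7
      · exact Or.inl ⟨⟨h6, h7⟩, h5⟩
      · exact Or.inr ⟨⟨h6, h7, (N_le_of_dvd h1.1.ne_zero h4).trans h2⟩, h5⟩
  rw [e, sum_mu_coprime h1.1, cub_cube h1.1]
  by_cases h : IsCoprime n m
  · rw [if_pos h, if_pos h.symm, one_mul]
  · rw [if_neg h, if_neg fun h' => h h'.symm, zero_mul, mul_zero]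

/-- Minkowski's inequality in `ℓ²(m)` for divisor sums -/
theorem ls0_mink {Z : ℝ} (hZ : 0 ≤ Z) (L : Finset O) (hL : ∀ d ∈ L, d ≠ 0) (a : O → ℝ)
    (ha : ∀ d, 0 ≤ a d) : ∑ m ∈ ball Z, (∑ d ∈ L.filter (fun d => d ∣ m), a d) ^ 2 ≤
      (∑ d ∈ L, a d * Real.sqrt (18 * (Z / N d))) ^ 2 := by
  simp only [sq, Finset.sum_filter, Finset.sum_mul_sum]
  rw [Finset.sum_comm]
  refine Finset.sum_le_sum fun d hd => ?_
  rw [Finset.sum_comm]
  refine Finset.sum_le_sum fun d' hd' => ?_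
  have e : ∀ m, (if d ∣ m then a d else 0) * (if d' ∣ m then a d' else 0) =
      if d ∣ m ∧ d' ∣ m then a d * a d' else 0 := by
    intro m
    by_cases h1 : d ∣ m <;> by_cases h2 : d' ∣ m <;> simp [h1, h2]
  simp only [e]
  rw [← Finset.sum_filter, Finset.sum_const, nsmul_eq_mul]
  set c : ℝ := (((ball Z).filter fun m => d ∣ m ∧ d' ∣ m).card : ℝ) with hc
  have h1 : c ≤ 18 * (Z / N d) := le_trans (by
    rw [hc]
    exact Nat.cast_le.2 (Finset.card_le_card fun m hm =>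
      Finset.mem_filter.2 ⟨(Finset.mem_filter.1 hm).1, (Finset.mem_filter.1 hm).2.1⟩))
    (ls0_card_dvd hZ (hL d hd))
  have h2 : c ≤ 18 * (Z / N d') := le_trans (by
    rw [hc]
    exact Nat.cast_le.2 (Finset.card_le_card fun m hm =>
      Finset.mem_filter.2 ⟨(Finset.mem_filter.1 hm).1, (Finset.mem_filter.1 hm).2.2⟩))
    (ls0_card_dvd hZ (hL d' hd'))
  have h3 : c ≤ Real.sqrt (18 * (Z / N d)) * Real.sqrt (18 * (Z / N d')) := by
    calc c = Real.sqrt c * Real.sqrt c := (Real.mul_self_sqrt (Nat.cast_nonneg _)).symm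
      _ ≤ _ := by gcongr
  have h4 := mul_le_mul_of_nonneg_right h3 (mul_nonneg (ha d) (ha d'))
  linarith

theorem ls0_maj_large : ∃ C : ℝ, 0 ≤ C ∧ ∀ (M Z D0 : ℝ) (S : Finset O) (z : O → ℂ), 0 ≤ M → 0 ≤ Z →
    1 ≤ D0 → S ⊆ sfb M → ∑ m ∈ ball Z, ‖∑ d ∈ (sfI D0 M).filter (fun d => d ∣ m),
      mu d * ∑ n ∈ S.filter (fun n => d ∣ n), z n‖ ^ 2 ≤
      C * Z * M / D0 * ∑ n ∈ S, ‖z n‖ ^ 2 * dv n := by
  obtain ⟨C, hC0, hC⟩ := b2_tail (σ := 2) (by norm_num)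
  refine ⟨18 * 18 * C, by positivity, fun M Z D0 S z hM hZ hD hS => ?_⟩
  have hD0 : 0 < D0 := by linarith
  set L := sfI D0 M with hL
  have hL0 : ∀ d ∈ L, d ≠ 0 := fun d hd => (mem_sfI.1 hd).1.1.ne_zero
  set a : O → ℝ := fun d => ‖∑ n ∈ S.filter (fun n => d ∣ n), z n‖ with ha
  set b : O → ℝ := fun d => ∑ n ∈ S.filter (fun n => d ∣ n), ‖z n‖ ^ 2 with hb
  have hb0 : ∀ d, 0 ≤ b d := fun d => Finset.sum_nonneg fun _ _ => by positivity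
  have h1 : ∀ m ∈ ball Z, ‖∑ d ∈ L.filter (fun d => d ∣ m),
      mu d * ∑ n ∈ S.filter (fun n => d ∣ n), z n‖ ^ 2 ≤
      (∑ d ∈ L.filter (fun d => d ∣ m), a d) ^ 2 := by
    intro m _
    refine pow_le_pow_left₀ (norm_nonneg _)
      ((norm_sum_le _ _).trans (Finset.sum_le_sum fun d _ => ?_)) 2
    rw [norm_mul]
    exact mul_le_of_le_one_left (norm_nonneg _) (norm_mu_le d)
  refine (Finset.sum_le_sum h1).trans ((ls0_mink hZ L hL0 a fun d => norm_nonneg _).trans ?_)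
  have h2 : ∀ d ∈ L, a d * Real.sqrt (18 * (Z / N d)) ≤
      Real.sqrt (18 * 18 * Z * M * b d) * (N d)⁻¹ := by
    intro d hd
    have hN := N_pos (hL0 d hd)
    have h3 : a d ^ 2 ≤ 18 * (M / N d) * b d := by
      refine (ls0_cs _ _).trans (mul_le_mul_of_nonneg_right ?_ (hb0 d))
      refine le_trans ?_ (ls0_card_dvd hM (hL0 d hd))
      exact_mod_cast Finset.card_le_card
        (Finset.filter_subset_filter _ (hS.trans (Finset.filter_subset _ _)))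
    have h4 := hb0 d
    refine (pow_le_pow_iff_left₀ (by positivity) (by positivity) two_ne_zero).1 ?_
    rw [mul_pow, mul_pow, Real.sq_sqrt (by positivity), Real.sq_sqrt (by positivity)]
    calc _ ≤ 18 * (M / N d) * b d * (18 * (Z / N d)) := by gcongr
      _ = _ := by field_simp
  refine (pow_le_pow_left₀ (Finset.sum_nonneg fun d _ => by positivity)
    (Finset.sum_le_sum h2) 2).trans ((Finset.sum_mul_sq_le_sq_mul_sq L _ _).trans ?_)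
  have h3 : ∑ d ∈ L, Real.sqrt (18 * 18 * Z * M * b d) ^ 2 = 18 * 18 * Z * M * ∑ d ∈ L, b d := by
    rw [Finset.mul_sum]
    refine Finset.sum_congr rfl fun d _ => ?_
    have := hb0 d
    exact Real.sq_sqrt (by positivity)
  have h4 : ∑ d ∈ L, b d ≤ ∑ n ∈ S, ‖z n‖ ^ 2 * dv n := by
    simp only [hb, Finset.sum_filter]
    rw [Finset.sum_comm]
    refine Finset.sum_le_sum fun n hn => ?_
    rw [← Finset.sum_filter, Finset.sum_const, nsmul_eq_mul, mul_comm]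
    refine mul_le_mul_of_nonneg_left ?_ (by positivity)
    unfold dv
    refine Nat.cast_le.2 (Finset.card_le_card fun d hd => ?_)
    obtain ⟨h5, h6⟩ := Finset.mem_filter.1 hd
    exact (mem_pdiv (mem_sfb.1 (hS hn)).1.1.ne_zero).2 ⟨(mem_sfI.1 h5).1.1, h6⟩
  have h5 : ∑ d ∈ L, (N d)⁻¹ ^ 2 ≤ C / D0 := by
    have h6 := hC D0 hD0 L
    rw [show (1 - 2 : ℝ) = -1 by norm_num, Real.rpow_neg_one, ← div_eq_mul_inv] at h6
    refine le_trans (le_of_eq (Finset.sum_congr rfl fun d hd => ?_)) h6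
    rw [if_pos (mem_sfI.1 hd).2.1, Real.rpow_neg (N_nonneg d), Real.rpow_two, inv_pow]
  rw [h3]
  have h6 : 0 ≤ ∑ n ∈ S, ‖z n‖ ^ 2 * dv n :=
    Finset.sum_nonneg fun n _ => mul_nonneg (by positivity) (Nat.cast_nonneg _)
  calc _ ≤ (18 * 18 * Z * M * ∑ n ∈ S, ‖z n‖ ^ 2 * dv n) * (C / D0) := by gcongr
    _ = _ := by ring

/-- the pairs with `N(k₁k₂²) ≤ T` -/
def ls0_pairs (T : ℝ) : Finset (O × O) :=
  (ball T ×ˢ ball T).filter fun k => SF k.1 ∧ SF k.2 ∧ IsCoprime k.1 k.2 ∧ N k.1 * N k.2 ^ 2 ≤ T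

theorem ls0_mem_pairs {T : ℝ} {a b : O} (ha : SF a) (hb : SF b) (h : IsCoprime a b)
    (hT : N a * N b ^ 2 ≤ T) : (a, b) ∈ ls0_pairs T := by
  have h1 := one_le_N ha.1.ne_zero
  have h2 := one_le_N hb.1.ne_zero
  have h3 : N b ≤ N b ^ 2 := by nlinarith
  exact Finset.mem_filter.2 ⟨Finset.mem_product.2 ⟨mem_ball.2 ⟨ha.1.ne_zero, by nlinarith⟩,
    mem_ball.2 ⟨hb.1.ne_zero, by nlinarith⟩⟩, ha, hb, h, hT⟩

theorem ls0_of_mem_pairs {T : ℝ} {k : O × O} (h : k ∈ ls0_pairs T) :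
    SF k.1 ∧ SF k.2 ∧ IsCoprime k.1 k.2 ∧ N k.1 * N k.2 ≤ T := by
  obtain ⟨-, ha, hb, h, hT⟩ := Finset.mem_filter.1 h
  have h1 := N_nonneg k.1
  have h2 := one_le_N hb.1.ne_zero
  have h3 : N k.2 ≤ N k.2 ^ 2 := by nlinarith
  exact ⟨ha, hb, h, (mul_le_mul_of_nonneg_left h3 h1).trans hT⟩

theorem ls0_card_pairs : ∃ C : ℝ, 0 ≤ C ∧ ∀ T : ℝ, 0 ≤ T → ((ls0_pairs T).card : ℝ) ≤ C * T := by
  have hs := summable_N_rpow (σ := 2) (by norm_num)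
  have h0 : ∀ n : O, 0 ≤ N n ^ (-2 : ℝ) := fun n => Real.rpow_nonneg (N_nonneg n) _
  refine ⟨18 * ∑' n : O, N n ^ (-2 : ℝ), mul_nonneg (by norm_num) (tsum_nonneg h0), fun T hT => ?_⟩
  have h1 : (ls0_pairs T).card ≤ ∑ b ∈ ball T, (ball (T / N b ^ 2)).card := by
    rw [← Finset.card_sigma]
    refine Finset.card_le_card_of_injOn (fun k => ⟨k.2, k.1⟩) (fun k hk => ?_) ?_
    · obtain ⟨h1, ha, hb, -, h2⟩ := Finset.mem_filter.1 hk
      have h3 := N_pos hb.1.ne_zero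
      exact Finset.mem_sigma.2 ⟨(Finset.mem_product.1 h1).2,
        mem_ball.2 ⟨ha.1.ne_zero, (le_div_iff₀ (by positivity)).2 h2⟩⟩
    · rintro ⟨a, b⟩ - ⟨a', b'⟩ - h
      simp only [Sigma.mk.injEq, heq_eq_eq] at h
      exact Prod.ext h.2 h.1
  calc ((ls0_pairs T).card : ℝ) ≤ ∑ b ∈ ball T, ((ball (T / N b ^ 2)).card : ℝ) := by
        exact_mod_cast h1
    _ ≤ ∑ b ∈ ball T, 18 * T * N b ^ (-2 : ℝ) := by
        refine Finset.sum_le_sum fun b _ => (card_ball_le (by positivity)).trans (le_of_eq ?_)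
        rw [Real.rpow_neg (N_nonneg b), Real.rpow_two]
        ring
    _ ≤ 18 * T * ∑' n : O, N n ^ (-2 : ℝ) := by
        rw [← Finset.mul_sum]
        exact mul_le_mul_of_nonneg_left (hs.sum_le_tsum _ fun n _ => h0 n) (by positivity)
    _ = _ := by ring

theorem ls0_sum_min : ∃ C : ℝ, 0 ≤ C ∧ ∀ Y Q : ℝ, 0 ≤ Y → 0 ≤ Q → ∀ s : Finset O,
    (∀ m ∈ s, m ≠ 0) →
    ∑ m ∈ s, min Q (Y / N m ^ 3) ^ 2 ≤ C * (Y ^ (1 / 3 : ℝ) * Q ^ (5 / 3 : ℝ)) := by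
  obtain ⟨C, hC0, hC⟩ := b2_tail (σ := 6) (by norm_num)
  refine ⟨18 + C, by positivity, fun Y Q hY hQ s hs => ?_⟩
  have hm0 : ∀ m : O, 0 ≤ min Q (Y / N m ^ 3) := fun m =>
    le_min hQ (div_nonneg hY (pow_nonneg (N_nonneg m) 3))
  rcases hY.eq_or_lt with rfl | hY0
  · simp [min_eq_right hQ]
  rcases hQ.eq_or_lt with rfl | hQ0
  · have : ∀ m : O, min 0 (Y / N m ^ 3) = 0 := fun m =>
      min_eq_left (div_nonneg hY (pow_nonneg (N_nonneg m) 3))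
    simp [this]
  set X := (Y / Q) ^ (1 / 3 : ℝ) with hX
  have hX0 : 0 < X := by positivity
  have h1 : ∀ m ∈ s, min Q (Y / N m ^ 3) ^ 2 ≤ (if m ∈ ball X then Q ^ 2 else 0) +
      Y ^ 2 * (if X < N m then N m ^ (-6 : ℝ) else 0) := by
    intro m hm
    by_cases h : X < N m
    · rw [if_pos h, if_neg fun h' => absurd (mem_ball.1 h').2 (not_le.2 h), zero_add]
      refine (pow_le_pow_left₀ (hm0 m) (min_le_right _ _) 2).trans (le_of_eq ?_)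
      rw [Real.rpow_neg (N_nonneg m), show (6 : ℝ) = ((6 : ℕ) : ℝ) by norm_num, Real.rpow_natCast]
      ring
    · rw [if_neg h, if_pos (mem_ball.2 ⟨hs m hm, not_lt.1 h⟩), mul_zero, add_zero]
      exact pow_le_pow_left₀ (hm0 m) (min_le_left _ _) 2
  refine (Finset.sum_le_sum h1).trans ?_
  rw [Finset.sum_add_distrib, ← Finset.mul_sum, ← Finset.sum_filter, Finset.sum_const, nsmul_eq_mul]
  have h2 : ((s.filter fun m => m ∈ ball X).card : ℝ) ≤ 18 * X := le_trans (by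
    exact_mod_cast Finset.card_le_card fun m hm => (Finset.mem_filter.1 hm).2) (card_ball_le hX0.le)
  have h3 := hC X hX0 s
  have e1 : X * Q ^ 2 = Y ^ (1 / 3 : ℝ) * Q ^ (5 / 3 : ℝ) := by
    rw [hX, Real.div_rpow hY hQ, ← Real.rpow_two, div_mul_eq_mul_div, mul_div_assoc,
      ← Real.rpow_sub hQ0]
    norm_num
  have e2 : Y ^ 2 * X ^ (1 - 6 : ℝ) = Y ^ (1 / 3 : ℝ) * Q ^ (5 / 3 : ℝ) := by
    rw [hX, ← Real.rpow_mul (by positivity), show (1 / 3 * (1 - 6) : ℝ) = -(5 / 3) by norm_num,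
      Real.rpow_neg (by positivity), Real.div_rpow hY hQ, inv_div, ← Real.rpow_two,
      ← mul_div_assoc, mul_div_right_comm, ← Real.rpow_sub hY0]
    norm_num
  calc _ ≤ 18 * X * Q ^ 2 + Y ^ 2 * (C * X ^ (1 - 6 : ℝ)) := by gcongr
    _ = 18 * (X * Q ^ 2) + C * (Y ^ 2 * X ^ (1 - 6 : ℝ)) := by ring
    _ = _ := by rw [e1, e2]; ring

/-- trivial bound on cubes times units: `≤ 6 · 18 Y^{1/3}` frequencies, each `≤ 18 M ‖x‖²` -/
theorem maj_one : ∃ C : ℝ, 0 ≤ C ∧ ∀ (M Y : ℝ) (S : Finset O) (x : O → ℂ), 0 ≤ M → 0 ≤ Y →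
    S ⊆ sfb M → ∑ k ∈ (ball Y).filter (Maj 1), ‖cs S x k‖ ^ 2 ≤
      C * Y ^ (1 / 3 : ℝ) * M * n2 S x := by
  refine ⟨18 * 18 * 18, by norm_num, fun M Y S x hM hY hS => ?_⟩
  have hZ : 0 ≤ Y ^ (1 / 3 : ℝ) := by positivity
  have hn := ls0_n2_nonneg S x
  refine (ls0_cover _ (ball 1 ×ˢ ball (Y ^ (1 / 3 : ℝ))) (fun t => t.1 * t.2 ^ 3)
    (fun k => ‖cs S x k‖ ^ 2) (fun _ => by positivity) (ls0_maj_cover Y 1)).trans ?_
  refine (Finset.sum_le_card_nsmul _ _ (18 * M * n2 S x) fun t _ => ?_).trans ?_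
  · refine (ls0_cs S _).trans (mul_le_mul (ls0_card_sfb hM hS) ?_
      (Finset.sum_nonneg fun _ _ => by positivity) (by positivity))
    refine Finset.sum_le_sum fun n hn => pow_le_pow_left₀ (norm_nonneg _) ?_ 2
    rw [norm_mul]
    exact mul_le_of_le_one_right (norm_nonneg _) (ls0_norm_cub (mem_sfb.1 (hS hn)).1.1 _)
  · rw [nsmul_eq_mul, Finset.card_product, Nat.cast_mul]
    have h1 := card_ball_le zero_le_one
    have h2 := card_ball_le hZ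
    calc _ ≤ (18 * 1) * (18 * Y ^ (1 / 3 : ℝ)) * (18 * M * n2 S x) := by gcongr
      _ = _ := by ring

/-- Major frequencies.  `k = k₀m³`, `N k₀ ≤ Q`, `N m ≤ Y^{1/3}`;
`cs S x k = ∑_{d ∣ m} μ(d) S_d`, `S_d = ∑_{d ∣ n} x n cub n k₀` (`cub_cube`, `sum_mu_coprime` with
`g = n`).  `d` with `N d ≤ D₀`: Cauchy–Schwarz.  `N d > D₀`: Minkowski in `ℓ²(m)`,
`#{m : d ∣ m} ≤ 18 Y^{1/3}/N d`, `|S_d|² ≤ (18 M/N d) ‖x 1_{d ∣ ·}‖²`, then Cauchy–Schwarz with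
`∑_{N d > D₀} N d⁻² ≤ C/D₀` and `∑_d ‖x 1_{d ∣ ·}‖² = ∑ |x n|² dv n`. -/
theorem maj_bound : ∃ C : ℝ, 0 ≤ C ∧ ∀ (M Y Q D0 : ℝ) (S : Finset O) (x : O → ℂ), 0 ≤ M → 0 ≤ Y →
    1 ≤ Q → 1 ≤ D0 → S ⊆ sfb M → ∑ k ∈ (ball Y).filter (Maj Q), ‖cs S x k‖ ^ 2 ≤
      C * Y ^ (1 / 3 : ℝ) * (D0 * ∑ k0 ∈ ball Q, ∑ d ∈ sfb D0,
        ‖∑ n ∈ S.filter (fun n => d ∣ n), x n * cub n k0‖ ^ 2 +
        Q * M / D0 * ∑ n ∈ S, ‖x n‖ ^ 2 * dv n) := by
  obtain ⟨C, hC0, hC⟩ := ls0_maj_large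
  refine ⟨2 * 18 * 18 + 2 * 18 * C, by positivity, fun M Y Q D0 S x hM hY hQ hD hS => ?_⟩
  have hQ0 : 0 ≤ Q := by linarith
  have hD0 : 0 < D0 := by linarith
  set Z := Y ^ (1 / 3 : ℝ) with hZdef
  have hZ : 0 ≤ Z := by positivity
  refine (ls0_cover _ (ball Q ×ˢ ball Z) (fun t => t.1 * t.2 ^ 3)
    (fun k => ‖cs S x k‖ ^ 2) (fun _ => by positivity) (ls0_maj_cover Y Q)).trans ?_
  rw [Finset.sum_product]
  set W := ∑ n ∈ S, ‖x n‖ ^ 2 * dv n with hW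
  have hW0 : 0 ≤ W := Finset.sum_nonneg fun n _ => mul_nonneg (by positivity) (Nat.cast_nonneg _)
  have key : ∀ k0 ∈ ball Q, ∑ m ∈ ball Z, ‖cs S x (k0 * m ^ 3)‖ ^ 2 ≤
      2 * 18 * 18 * Z * D0 * ∑ d ∈ sfb D0, ‖∑ n ∈ S.filter (fun n => d ∣ n), x n * cub n k0‖ ^ 2 +
        2 * (C * Z * M / D0 * W) := by
    intro k0 _
    have h1 := hC M Z D0 S (fun n => x n * cub n k0) hM hZ hD hS
    have h2 : ∑ n ∈ S, ‖x n * cub n k0‖ ^ 2 * dv n ≤ W := by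
      refine Finset.sum_le_sum fun n hn => mul_le_mul_of_nonneg_right
        (pow_le_pow_left₀ (norm_nonneg _) ?_ 2) (Nat.cast_nonneg _)
      rw [norm_mul]
      exact mul_le_of_le_one_right (norm_nonneg _) (ls0_norm_cub (mem_sfb.1 (hS hn)).1.1 _)
    have h3 : C * Z * M / D0 * ∑ n ∈ S, ‖x n * cub n k0‖ ^ 2 * dv n ≤ C * Z * M / D0 * W :=
      mul_le_mul_of_nonneg_left h2 (by positivity)
    set T := ∑ d ∈ sfb D0, ‖∑ n ∈ S.filter (fun n => d ∣ n), x n * cub n k0‖ ^ 2 with hT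
    have hT0 : 0 ≤ T := Finset.sum_nonneg fun _ _ => by positivity
    have h4 : ∀ m ∈ ball Z, ‖cs S x (k0 * m ^ 3)‖ ^ 2 ≤ 2 * (18 * D0 * T) +
        2 * ‖∑ d ∈ (sfI D0 M).filter (fun d => d ∣ m),
          mu d * ∑ n ∈ S.filter (fun n => d ∣ n), x n * cub n k0‖ ^ 2 := by
      intro m _
      rw [ls0_cs_cube hS k0 m D0]
      refine (ls0_add_sq _ _).trans (add_le_add (mul_le_mul_of_nonneg_left ?_ zero_le_two) le_rfl)
      refine (ls0_cs _ _).trans (mul_le_mul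
        (ls0_card_sfb (by linarith) (Finset.filter_subset _ _)) ?_
        (Finset.sum_nonneg fun _ _ => by positivity) (by positivity))
      refine le_trans (Finset.sum_le_sum fun d _ => ?_)
        (Finset.sum_le_sum_of_subset_of_nonneg (Finset.filter_subset (fun d => d ∣ m) _)
          fun _ _ _ => by positivity)
      refine pow_le_pow_left₀ (norm_nonneg _) ?_ 2
      rw [norm_mul]
      exact mul_le_of_le_one_left (norm_nonneg _) (norm_mu_le d)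
    refine (Finset.sum_le_sum h4).trans ?_
    rw [Finset.sum_add_distrib, Finset.sum_const, nsmul_eq_mul, ← Finset.mul_sum]
    have h5 := card_ball_le hZ
    have h6 : ((ball Z).card : ℝ) * (2 * (18 * D0 * T)) ≤ 18 * Z * (2 * (18 * D0 * T)) :=
      mul_le_mul_of_nonneg_right h5 (by positivity)
    linarith
  refine (Finset.sum_le_sum key).trans ?_
  rw [Finset.sum_add_distrib, Finset.sum_const, nsmul_eq_mul, ← Finset.mul_sum]
  set U := ∑ k0 ∈ ball Q, ∑ d ∈ sfb D0, ‖∑ n ∈ S.filter (fun n => d ∣ n), x n * cub n k0‖ ^ 2 with hU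
  have hU0 : 0 ≤ U := Finset.sum_nonneg fun _ _ => Finset.sum_nonneg fun _ _ => by positivity
  have h5 := card_ball_le hQ0
  clear key
  clear_value U W Z
  have h6 : ((ball Q).card : ℝ) * (2 * (C * Z * M / D0 * W)) ≤ 18 * Q * (2 * (C * Z * M / D0 * W)) :=
    mul_le_mul_of_nonneg_right h5 (by positivity)
  have h7 : 0 ≤ C * (Z * (D0 * U)) := by positivity
  have h8 : 0 ≤ Z * (Q * M / D0 * W) := by positivity
  have e : 18 * Q * (2 * (C * Z * M / D0 * W)) = 2 * 18 * C * (Z * (Q * M / D0 * W)) := by ring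
  rw [e] at h6
  nlinarith

/-- Middle frequencies (no logarithms lost).  `exists_min_dec`; dyadic `J < N k₀ ≤ 2J`, `J = 2^i H`;
for fixed `u, j, m` (`≤ 18 · 18 (Y/J)^{1/3}` choices) absorb `cub n (uλ^j) 1_{(n,m)=1}` in `x`, use
`cub_rec`, `cub_sq` and `ls0` for the pairs with `N(k₁k₂²) ≤ 2J` (at most `C J` pairs, `P = 2J`). -/
theorem mid_bound : ∃ C : ℝ, 0 ≤ C ∧ ∀ (M Y H Q : ℝ) (S : Finset O) (x : O → ℂ), 1 ≤ M → 0 ≤ Y →
    1 ≤ H → 0 ≤ Q → S ⊆ sfb M →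
    ∑ k ∈ (ball Y).filter (fun k => ¬ Maj H k ∧ Maj Q k), ‖cs S x k‖ ^ 2 ≤
      C * Y ^ (1 / 3 : ℝ) * (M * H ^ (-(1 / 3 : ℝ)) + Q ^ (5 / 3 : ℝ)) * n2 S x := by
  obtain ⟨C1, hC10, hC1⟩ := ls0
  obtain ⟨C2, hC20, hC2⟩ := ls0_card_pairs
  obtain ⟨C3, hC30, hC3⟩ := ls0_sum_min
  refine ⟨18 * C1 * (18 + C2 * C3), by positivity, fun M Y H Q S x hM hY hH hQ hS => ?_⟩
  have hn := ls0_n2_nonneg S x
  have hH0 : 0 < H := by linarith
  set Z := (Y / H) ^ (1 / 3 : ℝ) with hZdef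
  have hZ : 0 ≤ Z := by positivity
  refine (ls0_cover _ (((units6 ×ˢ Finset.range 3) ×ˢ ball Z).sigma
      fun t => ls0_pairs (min Q (Y / N t.2 ^ 3)))
    (fun t => t.1.1.1 * lam ^ t.1.1.2 * t.2.1 * t.2.2 ^ 2 * t.1.2 ^ 3)
    (fun k => ‖cs S x k‖ ^ 2) (fun _ => by positivity) ?_).trans ?_
  · intro k hk
    obtain ⟨hk1, hk2, hk3⟩ := Finset.mem_filter.1 hk
    have hk0 := (mem_ball.1 hk1).1
    obtain ⟨u, j, k1, k2, m, hu, hj, h1, h2, h3, rfl, h4, h5⟩ := exists_min_dec hk0 hk2 hk3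
    have hm := ls0_cube_mem hk1 hH0 h4.le
    have hm0 := N_pos (mem_ball.1 hm).1
    refine ⟨⟨((u, j), m), (k1, k2)⟩, ?_, rfl⟩
    rw [Finset.mem_sigma]
    refine ⟨Finset.mem_product.2 ⟨Finset.mem_product.2
      ⟨isUnit_iff_mem_units6.1 hu, Finset.mem_range.2 hj⟩, hm⟩, ls0_mem_pairs h1 h2 h3 ?_⟩
    have h6 : N k1 * N k2 ^ 2 ≤ N (u * lam ^ j * k1 * k2 ^ 2) := by
      rw [← N_pow, ← N_mul]
      exact N_le_of_dvd (left_ne_zero_of_mul hk0) ⟨u * lam ^ j, by ring⟩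
    refine le_min (h6.trans h5) (h6.trans ?_)
    rw [le_div_iff₀ (by positivity), ← N_pow, ← N_mul]
    exact (mem_ball.1 hk1).2
  rw [Finset.sum_sigma]
  have key : ∀ t ∈ (units6 ×ˢ Finset.range 3) ×ˢ ball Z,
      ∑ s ∈ ls0_pairs (min Q (Y / N t.2 ^ 3)),
        ‖cs S x (t.1.1 * lam ^ t.1.2 * s.1 * s.2 ^ 2 * t.2 ^ 3)‖ ^ 2 ≤
      C1 * (M + C2 * min Q (Y / N t.2 ^ 3) ^ 2) * n2 S x := by
    rintro ⟨⟨u, j⟩, m⟩ _
    set T := min Q (Y / N m ^ 3) with hT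
    have hT0 : 0 ≤ T := le_min hQ (div_nonneg hY (pow_nonneg (N_nonneg m) 3))
    set x' : O → ℂ := fun n => if IsCoprime n m then x n * cub n (u * lam ^ j) else 0 with hx'
    have h1 := hC1 (ls0_pairs T) T M hM (fun k hk => ls0_of_mem_pairs hk) S x'
      (hS.trans (Finset.filter_subset _ _))
    have h2 : n2 S x' ≤ n2 S x := by
      refine Finset.sum_le_sum fun n hn => pow_le_pow_left₀ (norm_nonneg _) ?_ 2
      simp only [hx']
      split_ifs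
      · rw [norm_mul]
        exact mul_le_of_le_one_right (norm_nonneg _) (ls0_norm_cub (mem_sfb.1 (hS hn)).1.1 _)
      · simp
    have h3 : ∀ s ∈ ls0_pairs T, cs S x (u * lam ^ j * s.1 * s.2 ^ 2 * m ^ 3) =
        ∑ n ∈ S, x' n * (cub s.1 n * conj (cub s.2 n)) := by
      intro s hs
      obtain ⟨a1, a2, -, -⟩ := ls0_of_mem_pairs hs
      refine Finset.sum_congr rfl fun n hn => ?_
      have hp := (mem_sfb.1 (hS hn)).1.1
      rw [cub_cube hp]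
      simp only [hx']
      split_ifs
      · rw [(rcub_isChar hp).mul, (rcub_isChar hp).mul, cub_sq hp, cub_rec hp a1.1, cub_rec hp a2.1]
        ring
      · simp
    dsimp only
    refine le_trans (le_of_eq (Finset.sum_congr rfl fun s hs => by rw [h3 s hs])) (h1.trans ?_)
    have h4 := hC2 T hT0
    have h5 : T * (ls0_pairs T).card ≤ C2 * T ^ 2 := by nlinarith
    have h6 := ls0_n2_nonneg S x'
    gcongr
  refine (Finset.sum_le_sum key).trans ?_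
  rw [Finset.sum_product]
  dsimp only
  rw [Finset.sum_const, Finset.card_product, card_units6, Finset.card_range, nsmul_eq_mul,
    ← Finset.sum_mul, ← Finset.mul_sum, Finset.sum_add_distrib, Finset.sum_const, nsmul_eq_mul,
    ← Finset.mul_sum]
  have h1 := hC3 Y Q hY hQ (ball Z) (fun m hm => (mem_ball.1 hm).1)
  have h2 := card_ball_le hZ
  have h3 : Z = Y ^ (1 / 3 : ℝ) * H ^ (-(1 / 3 : ℝ)) := by
    rw [hZdef, Real.div_rpow hY hH0.le, Real.rpow_neg hH0.le, div_eq_mul_inv]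
  set A := Y ^ (1 / 3 : ℝ)
  set B := H ^ (-(1 / 3 : ℝ))
  set G := Q ^ (5 / 3 : ℝ)
  have hA : 0 ≤ A := by positivity
  have hB : 0 ≤ B := by positivity
  have hG : 0 ≤ G := by positivity
  have h4 : ((ball Z).card : ℝ) * M + C2 * ∑ m ∈ ball Z, min Q (Y / N m ^ 3) ^ 2 ≤
      (18 + C2 * C3) * A * (M * B + G) := by
    have h5 : ((ball Z).card : ℝ) * M ≤ 18 * (A * B) * M := by
      rw [← h3]
      exact mul_le_mul_of_nonneg_right h2 (by linarith)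
    have h6 := mul_le_mul_of_nonneg_left h1 hC20
    have h7 : 0 ≤ C2 * C3 * (A * (M * B)) := by positivity
    have h8 : 0 ≤ A * G := by positivity
    nlinarith
  calc _ ≤ ((6 * 3 : ℕ) : ℝ) * (C1 * ((18 + C2 * C3) * A * (M * B + G)) * n2 S x) := by gcongr
    _ = _ := by push_cast; ring

/-- frequencies with a large first-power part: `k = c k₁` with `N k₁ > X` -/
theorem high_le {X Y : ℝ} (hX : 0 < X) (F : O → ℝ) (hF : ∀ k, 0 ≤ F k) :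
    ∑ k ∈ (ball Y).filter (fun k => ¬ Low X k), F k ≤
      ∑ c ∈ ball (Y / X), ∑ k1 ∈ sfI X (Y / N c), F (c * k1) := by
  rw [← Finset.sum_sigma (ball (Y / X)) (fun c => sfI X (Y / N c)) (fun t => F (t.1 * t.2))]
  refine ls0_cover _ _ (fun t : (Σ _ : O, O) => t.1 * t.2) F hF fun k hk => ?_
  obtain ⟨hk1, hk2⟩ := Finset.mem_filter.1 hk
  obtain ⟨hk0, hkY⟩ := mem_ball.1 hk1
  obtain ⟨k1, hd⟩ := exists_dec hk0
  have h1 : X < N k1 := not_le.1 fun h => hk2 ⟨k1, hd, h⟩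
  obtain ⟨u, j, k2, m, -, -, h2, -, -, e⟩ := hd
  have e' : k = u * lam ^ j * k2 ^ 2 * m ^ 3 * k1 := by rw [e]; ring
  set c := u * lam ^ j * k2 ^ 2 * m ^ 3
  have hc : c ≠ 0 := fun h => hk0 (by rw [e', h, zero_mul])
  have hN := N_pos hc
  rw [e', N_mul] at hkY
  refine ⟨⟨c, k1⟩, Finset.mem_sigma.2 ⟨mem_ball.2 ⟨hc, ?_⟩, mem_sfI.2 ⟨h2, h1, ?_⟩⟩, e'.symm⟩
  · rw [le_div_iff₀ hX]
    nlinarith
  · rw [le_div_iff₀ hN, mul_comm]
    exact hkY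

end Crest.Agent.R12
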