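import Crest.Agent.R12.LW
import Crest.Agent.R17.VoC5

/-!
# R12 / PW : the two Poisson weights
-/

set_option autoImplicit false

noncomputable section

open scoped Classical ComplexConjugate Topology
open MeasureTheory Filter

namespace Crest.Agent.R12

open Crest.Agent.R17

theorem pw_hasSum_congr {f g : O → ℂ} {a : ℂ} (h : HasSum f a) (e : ∀ k, g k = f k) :
    HasSum g a := (funext e : g = f) ▸ h

/-- `poisson_per`, `κ = Om`, `mellin_Om`, `Gm_le`, `tsum_Om_le` -/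
theorem pw_Vo : ∃ C : ℝ, 0 ≤ C ∧ ∀ D : ℝ, 1 ≤ D → PW (Vo D) D 1 C := by
  obtain ⟨C0, hC0⟩ := tsum_Om_le
  obtain ⟨C1, h1⟩ := Gm_le (σ := 1 / 6) (by norm_num)
  obtain ⟨C2, h2⟩ := Gm_le (σ := 1 / 2) (by norm_num)
  obtain ⟨C3, h3⟩ := Gm_le (σ := 5 / 2) (by norm_num)
  have a0 := abs_nonneg C0
  have a1 := abs_nonneg C1
  have a2 := abs_nonneg C2
  have a3 := abs_nonneg C3
  refine ⟨1 + |C0| + |C1| + |C2| + |C3|, by positivity, fun D hD => ?_⟩
  have hD0 : 0 < D := by linarith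
  have hs : ∀ {X : ℝ}, 0 < X → Summable fun k : O => Om (N k / X) := fun hX => by
    simpa using summable_Om hX 0
  refine ⟨fun d => (Om_pos _).le, hs hD0, ?_, fun x => (Om x : ℂ), fun σ τ =>
    (1 / (2 * Real.pi) : ℂ) * (Complex.Gamma (σ + τ * Complex.I) * (c0 : ℂ) ^ (-(σ + τ * Complex.I))),
    fun q φ hq hφ hg _ => ?_, fun σ hσ => ?_⟩
  · unfold Vo
    rw [(hs hD0).tsum_eq_add_tsum_ite 0]
    have e : Om (N 0 / D) = 1 := by simp [Om]
    have h4 := (hC0 D hD0).trans (mul_le_mul_of_nonneg_right (le_abs_self C0) hD0.le)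
    have h5 := Real.sqrt_nonneg D
    rw [e, div_one]
    nlinarith
  · obtain ⟨M, hM⟩ := (Per.gs q φ).bdd hq
    have hX : 0 < N q / D := div_pos (N_pos hq) hD0
    have hsum : Summable fun d : O => gs q φ d * (Om (D * N d / N q) : ℂ) := by
      refine Summable.of_norm_bounded ((hs hX).mul_left M) fun d => ?_
      rw [norm_mul, Complex.norm_real, Real.norm_of_nonneg (Om_pos _).le,
        show D * N d / N q = N d / (N q / D) by field_simp]
      exact mul_le_mul_of_nonneg_right (hM d) (Om_pos _).le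
    unfold Vo
    rw [poisson_per hq hφ hD0]
    refine pw_hasSum_congr (hsum.hasSum.mul_left ((D / N q : ℝ) : ℂ)) fun k => ?_
    split_ifs with hk
    · rw [hk, hg, zero_mul, mul_zero]
    · rw [mul_assoc]
  · have hσ0 : 0 < σ := by
      simp only [Finset.mem_insert, Finset.mem_singleton] at hσ
      rcases hσ with rfl | rfl | rfl <;> norm_num
    have hc : (c0 : ℂ) ≠ 0 := Complex.ofReal_ne_zero.2 c0_pos.ne'
    refine ⟨continuous_const.mul ((Po.continuous_Gamma_line hσ0).mul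
      (Continuous.const_cpow (by fun_prop) (Or.inl hc))), fun τ => ?_, fun x hx => ?_⟩
    · have h4 : Gm σ τ ≤ (|C1| + |C2| + |C3|) * Real.exp (-|τ|) := by
        have he := (Real.exp_pos (-|τ|)).le
        simp only [Finset.mem_insert, Finset.mem_singleton] at hσ
        rcases hσ with rfl | rfl | rfl
        · exact (h1 τ).trans (mul_le_mul_of_nonneg_right (by linarith [le_abs_self C1]) he)
        · exact (h2 τ).trans (mul_le_mul_of_nonneg_right (by linarith [le_abs_self C2]) he)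
        · exact (h3 τ).trans (mul_le_mul_of_nonneg_right (by linarith [le_abs_self C3]) he)
      have h5 : ‖(c0 : ℂ) ^ (-(σ + τ * Complex.I))‖ ≤ 1 := by
        rw [Complex.norm_cpow_eq_rpow_re_of_pos c0_pos]
        exact Real.rpow_le_one_of_one_le_of_nonpos one_lt_c0.le (by simpa using hσ0.le)
      have h6 : ‖(1 / (2 * Real.pi) : ℂ)‖ ≤ 1 := by
        rw [norm_div, norm_one, norm_mul, Complex.norm_real, Real.norm_of_nonneg Real.pi_pos.le,
          Complex.norm_two, div_le_one (by positivity)]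
        linarith [Real.pi_gt_three]
      rw [norm_mul, norm_mul, one_pow, ite_self, mul_one, mT, inv_one, one_mul, div_one]
      refine (mul_le_of_le_one_left (by positivity) h6).trans
        ((mul_le_of_le_one_right (norm_nonneg _) h5).trans (h4.trans ?_))
      exact mul_le_mul_of_nonneg_right (by linarith) (Real.exp_pos _).le
    · simp only
      rw [mellin_Om hσ0 hx, ← integral_const_mul]
      refine integral_congr_ae (ae_of_all _ fun τ => ?_)
      simp only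
      rw [Complex.ofReal_mul, Complex.mul_cpow_ofReal_nonneg c0_pos.le hx.le]
      ring

theorem pw_expGr {q : O} {φ : O → ℂ} (hq : q ≠ 0) (hφ : Per q φ) (h0 : Ef φ 1 = 0) :
    Vor.ExpGr (Lf φ) := by
  refine Vor.c5Gr.expGr (fun σ1 σ2 => ?_) (Lf_differentiable hq hφ h0).continuous
  obtain ⟨K, hK⟩ := Ef_apriori hq hφ σ1 σ2
  refine ⟨|K|, Real.pi + 1, abs_nonneg _, by positivity, fun s h1 h2 h3 => ?_⟩
  have h4 : 1 ≤ ‖s - 1‖ := h3.trans (by simpa using Complex.abs_im_le_norm (s - 1))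
  have h5 : s ≠ 1 := by
    rintro rfl
    norm_num at h4
  rw [Lf_eq_div φ h5, norm_div]
  exact (div_le_self (norm_nonneg _) h4).trans ((hK s h1 h2 h3).trans
    (mul_le_mul_of_nonneg_right (le_abs_self K) (Real.exp_pos _).le))

theorem pw_gamA (s : ℂ) : gamA 0 s = Complex.Gamma (1 - s) * (Complex.Gamma s)⁻¹ := by
  simp [gamA]

theorem pw_sum {D T : ℝ} (hD : 0 < D) (hT : 1 ≤ T) {q : O} {φ : O → ℂ} (hq : q ≠ 0) (hφ : Per q φ)
    (hg : gs q φ 0 = 0) :
    HasSum (fun k : O => if k = 0 then 0 else ((D / N q : ℝ) : ℂ) * gs q φ k *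
      (((c0 * (D * N k / N q) : ℝ) : ℂ)⁻¹ *
        kernT (gamA 0) T (1 / 2) 0 (Real.log (c0 ^ 2 * (D * N k / N q)))))
      (∑' d, φ d * (Vw D T d : ℂ)) := by
  have hc := c0_pos
  have hN := N_pos hq
  have h0 : Ef φ 1 = 0 := by rw [Ef_one hq hφ, ← gs_zero, hg, mul_zero, zero_div]
  obtain ⟨M, hM⟩ := hφ.bdd hq
  obtain ⟨M', hM'⟩ := (Per.gs q φ).bdd hq
  have hsq : 0 < Real.sqrt (N q) := Real.sqrt_pos.2 hN
  have hb : PolyBd fun k => ((Real.sqrt (N q) : ℝ) : ℂ)⁻¹ * gs q φ k :=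
    polyBd_of_le (M := (Real.sqrt (N q))⁻¹ * M') fun k => by
      rw [norm_mul, norm_inv, Complex.norm_real, Real.norm_of_nonneg hsq.le]
      exact mul_le_mul_of_nonneg_left (hM' k) (by positivity)
  have hρ : 0 < N q / c0 ^ 2 := by positivity
  have hlog : Real.log (N q / c0 ^ 2) = Real.log (N q) - 2 * Real.log c0 := by
    rw [Real.log_div hN.ne' (by positivity), Real.log_pow]; norm_num
  have hsqe : ((Real.sqrt (N q) : ℝ) : ℂ)⁻¹ = Complex.exp (-(Real.log (N q) : ℂ) / 2) := by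
    rw [← Real.exp_log hsq, Real.log_sqrt hN.le, Complex.ofReal_exp, ← Complex.exp_neg]
    congr 1
    push_cast; ring
  obtain ⟨hs, he⟩ := win_fe (polyBd_of_le hM) hb (R := 0) (p := 1) (s1 := 1) hρ
    (Lf_differentiable hq hφ h0) (pw_expGr hq hφ h0) (gamA_diff 0) (gamA_growth 0)
    ⟨1, fun s hs => by rw [zero_div, add_zero, Lf_eq_dser hq hφ hs]⟩
    ⟨0, fun s hs => by
      rw [zero_div, add_zero, Lf_fe hq hφ hs, Vor.c5_dser_mul, pw_gamA, hsqe, Kn.cpow_eq hN,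
        Kn.cpow_eq hc, Kn.cpow_eq hρ, hlog]
      have e : Complex.exp ((1 / 2 - s) * ((Real.log (N q) - 2 * Real.log c0 : ℝ) : ℂ)) *
          Complex.exp (-(Real.log (N q) : ℂ) / 2) =
          Complex.exp (-s * Real.log (N q)) * Complex.exp ((2 * s - 1) * Real.log c0) := by
        rw [← Complex.exp_add, ← Complex.exp_add]
        congr 1
        push_cast; ring
      rw [← e]
      ring⟩ hT (s := 0) (σ := 1 / 2) (by norm_num) (Real.log D)
  have e1 : ∑' d, φ d * (Vw D T d : ℂ) = winS φ (Real.log D) T 0 := by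
    refine tsum_congr fun d => ?_
    unfold Vw
    split_ifs <;> simp
  rw [e1, he, zero_mul, zero_add]
  refine pw_hasSum_congr (hs.of_norm.hasSum.mul_left (((N q / c0 ^ 2 : ℝ) : ℂ) ^ (1 / 2 - 0 : ℂ)))
    fun k => ?_
  split_ifs with hk
  · rw [mul_zero]
  · have hk0 := N_pos hk
    have e2 : Real.log (c0 ^ 2 * (D * N k / N q)) = lg k + Real.log D - Real.log (N q / c0 ^ 2) := by
      rw [lg, ← Real.log_mul hk0.ne' hD.ne', ← Real.log_div (by positivity) hρ.ne']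
      congr 1
      field_simp
    have e3 : ((N q / c0 ^ 2 : ℝ) : ℂ) ^ (1 / 2 - 0 : ℂ) = ((Real.sqrt (N q) / c0 : ℝ) : ℂ) := by
      rw [sub_zero, show (1 / 2 : ℂ) = ((1 / 2 : ℝ) : ℂ) by push_cast; rfl,
        ← Complex.ofReal_cpow hρ.le, ← Real.sqrt_eq_rpow, Real.sqrt_div hN.le, Real.sqrt_sq hc.le]
    rw [e2, e3, zero_sub, Complex.cpow_neg_one]
    have n1 : (c0 : ℂ) ≠ 0 := Complex.ofReal_ne_zero.2 hc.ne'
    have n2 : (D : ℂ) ≠ 0 := Complex.ofReal_ne_zero.2 hD.ne'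
    have n3 : (N q : ℂ) ≠ 0 := Complex.ofReal_ne_zero.2 hN.ne'
    have n4 : (N k : ℂ) ≠ 0 := Complex.ofReal_ne_zero.2 hk0.ne'
    have n5 : ((Real.sqrt (N q) : ℝ) : ℂ) ≠ 0 := Complex.ofReal_ne_zero.2 hsq.ne'
    push_cast
    field_simp

theorem pw_shift {T a b : ℝ} (hT : 0 < T) (ha : a < 1) (hb : b < 1) (u : ℝ) :
    kernT (gamA 0) T a 0 u = kernT (gamA 0) T b 0 u := by
  have key : ∀ {a b : ℝ}, a ≤ b → b < 1 → kernT (gamA 0) T a 0 u = kernT (gamA 0) T b 0 u := by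
    intro a b hab hb
    obtain ⟨C, hC⟩ := gamA_growth 0 a b hb
    refine kernT_shift (C := C) hT hab 0 u ((gamA_diff 0).mono fun z hz => ?_) fun z h1 h2 => ?_
    · exact lt_of_le_of_lt (by simpa using hz.2) hb
    · exact hC z (by simpa using h1) (by simpa using h2)
  rcases le_total a b with h | h
  · exact key h hb
  · exact (key h ha).symm

/-- the point `1 - σ - iτ` -/
def pw_w (σ τ : ℝ) : ℂ := ((1 - σ : ℝ) : ℂ) + ((-τ : ℝ) : ℂ) * Complex.I

theorem pw_w_re (σ τ : ℝ) : (pw_w σ τ).re = 1 - σ := by simp [pw_w]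

theorem pw_w_im (σ τ : ℝ) : (pw_w σ τ).im = -τ := by simp [pw_w]

/-- the Mellin kernel -/
def pw_mu (T σ τ : ℝ) : ℂ := (((2 * Real.pi * c0)⁻¹ * Real.sqrt Real.pi * T⁻¹ : ℝ) : ℂ) *
  gamA 0 (pw_w σ τ) * Complex.exp (pw_w σ τ ^ 2 / (4 * T ^ 2) + pw_w σ τ * (2 * Real.log c0 : ℝ))

theorem pw_mu_cont (T : ℝ) {σ : ℝ} (hσ : 0 < σ) : Continuous (pw_mu T σ) := by
  have h1 : Continuous (pw_w σ) := by unfold pw_w; fun_prop
  have h2 : Continuous fun τ => gamA 0 (pw_w σ τ) :=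
    (gamA_diff 0).continuousOn.comp_continuous h1 fun τ => by
      show (pw_w σ τ).re < 1
      rw [pw_w_re]; linarith
  exact (continuous_const.mul h2).mul
    (((h1.pow 2).div_const _).add (h1.mul continuous_const)).cexp

theorem pw_mu_norm {T : ℝ} (hT : 0 < T) (σ τ : ℝ) : ‖pw_mu T σ τ‖ =
    (2 * Real.pi * c0)⁻¹ * Real.sqrt Real.pi * T⁻¹ * ‖gamA 0 (pw_w σ τ)‖ *
      Real.exp (((1 - σ) ^ 2 - τ ^ 2) / (4 * T ^ 2) + (1 - σ) * (2 * Real.log c0)) := by
  have hc := c0_pos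
  rw [pw_mu, norm_mul, norm_mul, Complex.norm_real, Real.norm_of_nonneg (by positivity),
    Complex.norm_exp]
  congr 2
  rw [Complex.add_re, show (4 * (T : ℂ) ^ 2) = ((4 * T ^ 2 : ℝ) : ℂ) by push_cast; rfl,
    Complex.div_ofReal_re, Complex.re_mul_ofReal, sq (pw_w σ τ), Complex.mul_re, pw_w_re, pw_w_im]
  ring

theorem pw_mellin {T σ x : ℝ} (hT : 0 < T) (hσ : 0 < σ) (hx : 0 < x) :
    ((c0 * x : ℝ) : ℂ)⁻¹ * kernT (gamA 0) T (1 / 2) 0 (Real.log (c0 ^ 2 * x)) =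
      ∫ τ : ℝ, pw_mu T σ τ * (x : ℂ) ^ (-(σ + τ * Complex.I)) := by
  have hc := c0_pos
  rw [pw_shift hT (by norm_num) (show 1 - σ < 1 by linarith), kernT, ← integral_neg_eq_self,
    ← mul_assoc, ← integral_const_mul]
  refine integral_congr_ae (ae_of_all _ fun τ => ?_)
  simp only
  rw [zero_add, ← pw_w, pw_mu, Kn.cpow_eq hx, Real.log_mul (by positivity) hx.ne', Real.log_pow]
  have e : Complex.exp (pw_w σ τ ^ 2 / (4 * T ^ 2) +
      pw_w σ τ * (((2 : ℕ) * Real.log c0 + Real.log x : ℝ) : ℂ)) =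
      Complex.exp (pw_w σ τ ^ 2 / (4 * T ^ 2) + pw_w σ τ * (2 * Real.log c0 : ℝ)) *
        Complex.exp (-(σ + τ * Complex.I) * Real.log x) * x := by
    conv_rhs => rw [← Real.exp_log hx, Complex.ofReal_exp, Real.log_exp]
    rw [← Complex.exp_add, ← Complex.exp_add]
    congr 1
    unfold pw_w
    push_cast; ring
  rw [e]
  have n1 : (c0 : ℂ) ≠ 0 := Complex.ofReal_ne_zero.2 hc.ne'
  have n2 : (x : ℂ) ≠ 0 := Complex.ofReal_ne_zero.2 hx.ne'
  have n3 : (T : ℂ) ≠ 0 := Complex.ofReal_ne_zero.2 hT.ne'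
  have n4 : (Real.pi : ℂ) ≠ 0 := Complex.ofReal_ne_zero.2 Real.pi_pos.ne'
  generalize Complex.exp (pw_w σ τ ^ 2 / (4 * T ^ 2) + pw_w σ τ * (2 * Real.log c0 : ℝ)) = A
  generalize Complex.exp (-(σ + τ * Complex.I) * Real.log x) = B
  push_cast
  field_simp

theorem pw_gam : ∃ M : ℝ, 0 ≤ M ∧ ∀ σ ∈ ({1 / 6, 1 / 2, 5 / 2} : Finset ℝ), ∀ T : ℝ, 1 ≤ T → ∀ τ : ℝ,
    ‖gamA 0 (pw_w σ τ)‖ ≤ M * (if σ = 5 / 2 then T ^ 4 else 1) * Real.exp (|τ| / T) := by
  obtain ⟨C1, hC1, h1⟩ := Po.norm_Gamma_le_shift (σ := 1 / 6) (a := 2 / 3) (by norm_num) (by norm_num)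
  obtain ⟨C2, hC2, h2⟩ := Po.pow_mul_exp_le 4 one_pos 5 (by norm_num)
  refine ⟨1 + C1 + C2, by positivity, fun σ hσ T hT τ => ?_⟩
  have hT0 : 0 < T := by linarith
  have ht : 0 ≤ |τ| / T := by positivity
  have he : 1 ≤ Real.exp (|τ| / T) := Real.one_le_exp ht
  simp only [Finset.mem_insert, Finset.mem_singleton] at hσ
  rcases hσ with rfl | rfl | rfl
  · rw [if_neg (by norm_num), mul_one]
    have e1 : 1 - pw_w (1 / 6) τ = ((1 / 6 : ℝ) : ℂ) + τ * Complex.I := by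
      unfold pw_w; push_cast; ring
    have e2 : pw_w (1 / 6) τ = conj (((1 / 6 : ℝ) : ℂ) + ((2 / 3 : ℝ) : ℂ) + τ * Complex.I) := by
      rw [map_add, map_add, map_mul, Complex.conj_ofReal, Complex.conj_ofReal, Complex.conj_ofReal,
        Complex.conj_I]
      unfold pw_w; push_cast; ring
    have h3 : ‖gamA 0 (pw_w (1 / 6) τ)‖ ≤ C1 := by
      rw [pw_gamA, e1, e2, Complex.Gamma_conj, norm_mul, norm_inv, Complex.norm_conj]
      exact mul_inv_le_of_le_mul₀ (norm_nonneg _) hC1 (h1 τ)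
    nlinarith
  · rw [if_neg (by norm_num), mul_one]
    have h3 := norm_gamA_left 0 0 (s := pw_w (1 / 2) τ) (by rw [pw_w_re]; norm_num)
    rw [mul_zero, pow_zero] at h3
    nlinarith
  · rw [if_pos rfl]
    have h3 := norm_gamA_left 0 2 (s := pw_w (5 / 2) τ) (by rw [pw_w_re]; norm_num)
    rw [pw_w_im, abs_neg] at h3
    have h4 : (2 * ((2 : ℕ) : ℝ) + ((0 : ℤ).natAbs : ℝ) + 1 + |τ|) ≤ T * (5 + |τ| / T) := by
      rw [mul_add, mul_div_cancel₀ _ hT0.ne']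
      norm_num
      linarith
    have h5 : (5 + |τ| / T) ^ 4 ≤ C2 * Real.exp (|τ| / T) := by
      have := h2 _ ht
      rwa [one_mul, Real.exp_neg, mul_inv_le_iff₀ (Real.exp_pos _)] at this
    calc _ ≤ (T * (5 + |τ| / T)) ^ (2 * 2) := h3.trans (pow_le_pow_left₀ (by positivity) h4 _)
      _ = T ^ 4 * (5 + |τ| / T) ^ 4 := by ring
      _ ≤ T ^ 4 * (C2 * Real.exp (|τ| / T)) := by gcongr
      _ = C2 * T ^ 4 * Real.exp (|τ| / T) := by ring
      _ ≤ _ := by gcongr; linarith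

/-- `win_fe` with `ang_fe 0` (no pole since `gs q φ 0 = 0`; note `ε = 1` is not needed if you use
`Lf_fe` directly: `E = Lf φ`, `γ s = Γ(1-s)/Γ(s)`, `ρ = N q/c0²`, `b = gs q φ/√N q`), `s = 0`.
With `x = D N k/N q`: `κ x = (c0 x)⁻¹ kernT γ T σ' 0 (log (c0² x))`, independent of `σ' < 1`
(`kernT_shift`); on `σ' = 1 - σ`, `τ ↦ -τ`:
`μ σ τ = (2π c0)⁻¹ Γ(σ+iτ)/Γ(1-σ-iτ) (√π/T) exp((1-σ-iτ)²/(4T²)) c0^{2(1-σ-iτ)}`.
`‖Γ(σ+iτ)/Γ(1-σ-iτ)‖ ≤ C` for `σ = 1/6` (`norm_Gamma_le_shift`, `Complex.Gamma_conj`), `≤ 1` for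
`σ = 1/2`, `≤ (2+|τ|)⁴` for `σ = 5/2` (`norm_Gamma_ratio`).  Total mass: `an`. -/
theorem pw_Vw : ∃ C : ℝ, 0 ≤ C ∧ ∀ D T : ℝ, 1 ≤ D → 1 ≤ T → PW (Vw D T) D T C := by
  obtain ⟨C0, hC0, h0⟩ := an
  obtain ⟨M, hM0, hM⟩ := pw_gam
  have hc0 := c0_pos
  refine ⟨C0 + M * Real.exp (5 + 2 * Real.log c0), by positivity, fun D T hD hT => ?_⟩
  have hD0 : 0 < D := by linarith
  have hT0 : 0 < T := by linarith
  refine ⟨fun d => ?_, summable_an _ hT, ?_,
    fun x => ((c0 * x : ℝ) : ℂ)⁻¹ * kernT (gamA 0) T (1 / 2) 0 (Real.log (c0 ^ 2 * x)), pw_mu T,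
    fun q φ hq hφ hg _ => pw_sum hD0 hT hq hφ hg, fun σ hσ => ?_⟩
  · unfold Vw
    split_ifs
    · exact le_rfl
    · exact (gw_pos _).le
  · refine (h0 (Real.log D) T hT).1.trans ?_
    rw [Real.exp_half, Real.exp_log hD0]
    exact mul_le_mul_of_nonneg_right (le_add_of_nonneg_right (by positivity)) (by positivity)
  · have hσ0 : 0 < σ ∧ σ ≤ 5 / 2 := by
      simp only [Finset.mem_insert, Finset.mem_singleton] at hσ
      rcases hσ with rfl | rfl | rfl <;> norm_num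
    refine ⟨pw_mu_cont T hσ0.1, fun τ => ?_, fun x hx => pw_mellin hT0 hσ0.1 hx⟩
    have h1 := hM σ hσ T hT τ
    have h2 : 0 ≤ (if σ = 5 / 2 then T ^ 4 else 1) := by split_ifs <;> positivity
    generalize (if σ = 5 / 2 then T ^ 4 else 1) = A at h1 h2
    have hl : 0 ≤ Real.log c0 := Real.log_nonneg one_lt_c0.le
    have h3 : ((1 - σ) ^ 2 - τ ^ 2) / (4 * T ^ 2) + (1 - σ) * (2 * Real.log c0) ≤
        (5 + 2 * Real.log c0) + -(|τ| / T) + -(|τ| / T) := by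
      have e1 : τ ^ 2 / (4 * T ^ 2) = (|τ| / T) ^ 2 / 4 := by rw [div_pow, sq_abs]; field_simp
      have e2 : (1 - σ) ^ 2 / (4 * T ^ 2) ≤ 1 := by
        rw [div_le_one (by positivity)]
        nlinarith [hσ0.1, hσ0.2]
      rw [sub_div, e1]
      nlinarith [sq_nonneg (|τ| / T / 2 - 2), hσ0.1]
    have h4 : (2 * Real.pi * c0)⁻¹ * Real.sqrt Real.pi ≤ 1 := by
      rw [inv_mul_le_iff₀ (by positivity), mul_one, Real.sqrt_le_left (by positivity)]
      have := one_lt_c0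
      have h5 : 1 ≤ 2 * Real.pi * c0 := by nlinarith [Real.pi_gt_three]
      have h6 : Real.pi ≤ 2 * Real.pi * c0 := by nlinarith [Real.pi_gt_three]
      nlinarith
    rw [pw_mu_norm hT0, mT]
    calc _ ≤ 1 * T⁻¹ * (M * A * Real.exp (|τ| / T)) *
          Real.exp ((5 + 2 * Real.log c0) + -(|τ| / T) + -(|τ| / T)) := by gcongr
      _ = M * Real.exp (5 + 2 * Real.log c0) * A * (T⁻¹ * Real.exp (-(|τ| / T))) *
          (Real.exp (|τ| / T) * Real.exp (-(|τ| / T))) := by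
          rw [Real.exp_add, Real.exp_add]; ring
      _ = M * Real.exp (5 + 2 * Real.log c0) * A * (T⁻¹ * Real.exp (-(|τ| / T))) := by
          rw [← Real.exp_add, add_neg_cancel, Real.exp_zero, mul_one]
      _ ≤ _ := by gcongr; linarith

end Crest.Agent.R12
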