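import Crest.Agent.R12.PStep
import Crest.Agent.R12.PW
import Crest.Agent.R12.LS0

/-!
# R12 / CLS : Heath-Brown's cubic large sieve
-/

set_option autoImplicit false

noncomputable section

open scoped Classical ComplexConjugate Topology
open MeasureTheory Filter

namespace Crest.Agent.R12

open Crest.Agent.R17

/-- the hypothesis `(E_ξ)` -/
def HypE (ξ : ℝ) : Prop := ∀ ε : ℝ, 0 < ε → ∃ C : ℝ, 0 ≤ C ∧ ∀ (K M : ℝ) (S : Finset O)
    (x : O → ℂ), 1 ≤ K → 1 ≤ M → S ⊆ sfb M → ∑ k ∈ sfb K, ‖cs S x k‖ ^ 2 ≤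
      C * (K * M) ^ ε * (K + M ^ ξ + (K * M) ^ (2 / 3 : ℝ)) * n2 S x

theorem cl_n2 (S : Finset O) (x : O → ℂ) : 0 ≤ n2 S x := Finset.sum_nonneg fun _ _ => by positivity

theorem cl_sub (X : ℝ) : sfb X ⊆ ball X := Finset.filter_subset _ _

theorem cl_rows {R R' : Finset O} (h : R ⊆ R') (F : O → ℂ) : ∑ k ∈ R, ‖F k‖ ^ 2 ≤ ∑ k ∈ R', ‖F k‖ ^ 2 :=
  Finset.sum_le_sum_of_subset_of_nonneg h fun _ _ _ => by positivity

theorem cl_cub_le {n : O} (hn : Prim n) (k : O) : ‖cub n k‖ ≤ 1 := (rcub_isChar hn).norm_le hn.ne_zero k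

/-- `ls1` -/
theorem hypE_two : HypE 2 := fun ε hε => by
  obtain ⟨C, hC, h⟩ := ls1
  refine ⟨C, hC, fun K M S x hK hM hS => ((cl_rows (cl_sub K) _).trans
    (h M K S x hM (by linarith) hS)).trans ?_⟩
  have := cl_n2 S x
  have h1 : 1 ≤ (K * M) ^ ε := Real.one_le_rpow (by nlinarith) hε.le
  have h2 : 0 ≤ (K * M) ^ (2 / 3 : ℝ) := by positivity
  rw [Real.rpow_two]
  exact mul_le_mul_of_nonneg_right (mul_le_mul (le_mul_of_one_le_right hC h1) (by linarith) (by positivity)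
    (by positivity)) this

theorem cl_dual {ξ : ℝ} (h : HypE ξ) (ε : ℝ) (hε : 0 < ε) : ∃ C : ℝ, 0 ≤ C ∧ ∀ (X M : ℝ) (S : Finset O)
    (x : O → ℂ), 1 ≤ X → 1 ≤ M → S ⊆ sfb M → ∑ k ∈ sfb X, ‖cs S x k‖ ^ 2 ≤
      C * (X * M) ^ ε * (M + X ^ ξ + (X * M) ^ (2 / 3 : ℝ)) * n2 S x := by
  obtain ⟨C, hC, h⟩ := h ε hε
  refine ⟨C, hC, fun X M S x hX hM hS => ?_⟩
  have h1 := ls_dual S (sfb X) (fun n k => cub k n) (by positivity)
    (fun y => (cl_rows hS _).trans (h M X (sfb X) y hM hX subset_rfl)) x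
  rw [mul_comm M X] at h1
  refine (Finset.sum_congr rfl fun k hk => ?_).trans_le h1
  rw [cs, Finset.sum_congr rfl fun n hn => by rw [cub_rec (mem_sfb.1 (hS hn)).1.1 (mem_sfb.1 hk).1.1]]

theorem cl_cover {ι : Type*} {A : Finset O} {I : Finset ι} (f : ι → O) (F : O → ℂ)
    (h : ∀ k ∈ A, ∃ i ∈ I, f i = k) : ∑ k ∈ A, ‖F k‖ ^ 2 ≤ ∑ i ∈ I, ‖F (f i)‖ ^ 2 := by
  refine le_trans (Finset.sum_le_sum fun k hk => ?_) (Finset.sum_fiberwise_le_sum_of_sum_fiber_nonneg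
    (g := f) (t := A) fun _ _ => Finset.sum_nonneg fun _ _ => by positivity)
  obtain ⟨i, hi, rfl⟩ := h k hk
  exact Finset.single_le_sum (f := fun i => ‖F (f i)‖ ^ 2) (fun _ _ => by positivity)
    (Finset.mem_filter.2 ⟨hi, rfl⟩)

theorem cl_num {ξ Y M t : ℝ} (h1 : 1 ≤ ξ) (hM : 0 ≤ M) (ht : 1 ≤ t) (h3 : t ^ 3 ≤ Y) :
    M + √(Y ^ 2 / t ^ 3) ^ ξ + (√(Y ^ 2 / t ^ 3) * M) ^ (2 / 3 : ℝ) ≤
      (Y ^ (1 / 3 : ℝ) * M + Y ^ ξ + (Y * M) ^ (2 / 3 : ℝ)) * t⁻¹ := by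
  obtain ⟨τ, rfl⟩ : ∃ τ, Real.exp τ = t := ⟨_, Real.exp_log (by linarith)⟩
  obtain ⟨y, rfl⟩ : ∃ y, Real.exp y = Y := ⟨_, Real.exp_log (lt_of_lt_of_le (by positivity) h3)⟩
  rw [Real.one_le_exp_iff] at ht
  rw [← Real.exp_nat_mul, Real.exp_le_exp] at h3
  rw [Real.sqrt_eq_rpow, Real.mul_rpow (by positivity) hM, Real.mul_rpow (by positivity) hM, add_mul, add_mul,
    mul_right_comm _ M, mul_right_comm _ (M ^ _)]
  simp only [← Real.exp_nat_mul, ← Real.exp_sub, ← Real.exp_mul, ← Real.exp_neg, ← Real.exp_add]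
  push_cast at h3 ⊢
  gcongr
  · exact le_mul_of_one_le_left hM (Real.one_le_exp (by linarith))
  · nlinarith
  · linarith

theorem cl_inv {δ : ℝ} (hδ : 0 < δ) : ∃ C : ℝ, 0 ≤ C ∧ ∀ Y : ℝ, 1 ≤ Y →
    ∑ n ∈ ball Y, (N n)⁻¹ ≤ C * Y ^ δ := by
  obtain ⟨C, h⟩ := sum_ball_rpow (σ := 1 - δ) (by linarith)
  refine ⟨|C|, abs_nonneg _, fun Y hY => (Finset.sum_le_sum fun n hn => ?_).trans ((h Y hY).trans ?_)⟩
  · rw [← Real.rpow_neg_one]
    exact Real.rpow_le_rpow_of_exponent_le (one_le_N (mem_ball.1 hn).1) (by linarith)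
  · rw [sub_sub_cancel]
    gcongr
    exact le_abs_self C

/-- rows `c k` and `c k²` -/
theorem cl_tw {R S : Finset O} {M Λ : ℝ} (hΛ : 0 ≤ Λ) (hS : S ⊆ sfb M)
    (h : ∀ x, ∑ k ∈ R, ‖cs S x k‖ ^ 2 ≤ Λ * n2 S x) (x : O → ℂ) (c : O) (b : Bool) :
    ∑ k ∈ R, ‖cs S x (c * if b then k else k ^ 2)‖ ^ 2 ≤ Λ * n2 S x := by
  have hp := fun n hn => (mem_sfb.1 (hS hn : n ∈ _)).1.1
  refine le_trans (Finset.sum_congr rfl fun k _ => ?_).le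
    ((h fun n => if b then x n * cub n c else conj (x n * cub n c)).trans
      (mul_le_mul_of_nonneg_left (Finset.sum_le_sum fun n hn => ?_) hΛ))
  · cases b
    · rw [← Complex.norm_conj, cs, cs, map_sum, Finset.sum_congr rfl fun n hn => ?_]
      simp [(rcub_isChar (hp n hn)).mul, cub_sq (hp n hn), mul_assoc]
    · rw [cs, cs, Finset.sum_congr rfl fun n hn => ?_]
      simp [(rcub_isChar (hp n hn)).mul, mul_assoc]
  · have h1 : ‖x n * cub n c‖ ≤ ‖x n‖ := by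
      rw [norm_mul]
      exact mul_le_of_le_one_right (norm_nonneg _) (cl_cub_le (hp n hn) c)
    refine pow_le_pow_left₀ (norm_nonneg _) ?_ 2
    split_ifs
    exacts [h1, (Complex.norm_conj _).trans_le h1]

theorem cl_dec {Y : ℝ} {k : O} (hk : k ∈ ball Y) : ∃ (b : Bool) (c a m k' : O), c ∈ ball 9 ∧ a ≠ 0 ∧ m ≠ 0 ∧
    (N a * N m) ^ 3 ≤ Y ∧ k' ∈ sfb √(Y ^ 2 / (N a * N m) ^ 3) ∧
    (c * (if b then a ^ 2 else a) * m ^ 3 * if b then k' else k' ^ 2) = k := by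
  obtain ⟨h0, hY⟩ := mem_ball.1 hk
  obtain ⟨k1, u, j, k2, m, hu, hj, h1, h2, -, rfl⟩ := exists_dec h0
  have hm : m ≠ 0 := by rintro rfl; simp at h0
  have hc0 : u * lam ^ j ≠ 0 := fun h => by simp [h] at h0
  have hc : u * lam ^ j ∈ ball 9 := mem_ball.2 ⟨hc0, by
    rw [N_mul, N_pow, N, N, isUnit_iff_nm.1 hu, nm_lam, Nat.cast_one, one_mul]
    exact (pow_le_pow_right₀ (by norm_num) (Nat.le_of_lt_succ hj)).trans (by norm_num)⟩
  have a1 := one_le_N h1.1.ne_zero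
  have a2 := one_le_N h2.1.ne_zero
  have a3 := one_le_N hm
  have a4 : N k1 * N k2 ^ 2 * N m ^ 3 ≤ Y := by
    rw [N_mul, N_mul, N_mul _ k1, N_pow, N_pow, mul_assoc, mul_assoc, ← mul_assoc (N k1)] at hY
    exact (le_mul_of_one_le_left (by positivity) (one_le_N hc0)).trans hY
  have a5 := a4.trans' (one_le_mul_of_one_le_of_one_le (one_le_mul_of_one_le_of_one_le a1
    (one_le_pow₀ a2)) (one_le_pow₀ a3))
  have a6 := pow_le_pow_left₀ (by positivity) a4 2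
  rcases le_total (N k2) (N k1) with h | h
  · refine ⟨true, _, k2, m, k1, hc, h2.1.ne_zero, hm, le_trans ?_ a4, mem_sfb.2 ⟨h1, Real.le_sqrt_of_sq_le
      ((le_div_iff₀ (by positivity)).2 (le_trans ?_ a6))⟩, by simp only [if_true]; ring⟩
    · calc _ = N k2 * N k2 ^ 2 * N m ^ 3 := by ring
        _ ≤ _ := by gcongr
    · calc _ = N k1 ^ 2 * (N k2 * N m) ^ 3 * (1 * 1 ^ 3) := by ring
        _ ≤ N k1 ^ 2 * (N k2 * N m) ^ 3 * (N k2 * N m ^ 3) := by gcongr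
        _ = _ := by ring
  · refine ⟨false, _, k1, m, k2, hc, h1.1.ne_zero, hm, le_trans ?_ a4, mem_sfb.2 ⟨h2, Real.le_sqrt_of_sq_le
      ((le_div_iff₀ (by positivity)).2 (le_trans ?_ a6))⟩, by simp; ring⟩
    · calc _ = N k1 * N k1 ^ 2 * N m ^ 3 := by ring
        _ ≤ _ := by gcongr
    · calc _ = N k2 ^ 2 * N k1 ^ 2 * N m ^ 3 * (N k1 * 1 * 1 ^ 3) := by ring
        _ ≤ N k2 ^ 2 * N k1 ^ 2 * N m ^ 3 * (N k2 * N k2 * N m ^ 3) := by gcongr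
        _ = _ := by ring

/-- All rows from squarefree rows.  By `ls_dual` and `cub_rec`, `(E_ξ)` also gives the constant
`Λ(X) = M + X^ξ + (XM)^{2/3}` for rows `sfb X`, columns `sfb M`.  Write `k = uλ^j k₁k₂²m³`
(`exists_dec`), dyadic `N k₁ ~ X₁`, `N k₂ ~ X₂` (`O(log² Y)` boxes), `N m ≤ (Y/(X₁X₂²))^{1/3}`.
If `X₁ ≥ X₂` fix `(u,j,k₂,m)` and use `Λ(2X₁)`, else fix `(u,j,k₁,m)` and use `Λ(2X₂)` (conjugate,
`cub_sq`).  With `X₁X₂² ≤ Y`:  `Y^{1/3} X₂^{1/3}X₁^{-1/3} Λ(X₁)` resp.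
`Y^{1/3} X₁^{2/3}X₂^{-2/3} Λ(X₂)` is `≤ C (Y^{1/3} M + Y^ξ + (YM)^{2/3})`. -/
theorem all_of_hypE {ξ : ℝ} (h1 : 1 ≤ ξ) (h2 : ξ ≤ 2) (h : HypE ξ) (ε : ℝ) (hε : 0 < ε) :
    ∃ C : ℝ, 0 ≤ C ∧ ∀ (Y M : ℝ) (S : Finset O) (x : O → ℂ), 1 ≤ Y → 1 ≤ M → S ⊆ sfb M →
    ∑ k ∈ ball Y, ‖cs S x k‖ ^ 2 ≤
      C * (Y * M) ^ ε * (Y ^ (1 / 3 : ℝ) * M + Y ^ ξ + (Y * M) ^ (2 / 3 : ℝ)) * n2 S x := by
  obtain ⟨C, hC, h⟩ := cl_dual h (ε / 3) (by positivity)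
  obtain ⟨C', hC', h'⟩ := cl_inv (δ := ε / 3) (by positivity)
  refine ⟨2 * (18 * 9) * C' ^ 2 * C, by positivity, fun Y M S x hY hM hS => ?_⟩
  obtain ⟨Λ, hΛ⟩ : ∃ Λ, Λ = C * (Y * M) ^ (ε / 3) *
    (Y ^ (1 / 3 : ℝ) * M + Y ^ ξ + (Y * M) ^ (2 / 3 : ℝ)) * n2 S x := ⟨_, rfl⟩
  have h0 := cl_n2 S x
  have hΛ0 : 0 ≤ Λ := by rw [hΛ]; positivity
  refine (cl_cover (I := (((Finset.univ : Finset Bool) ×ˢ ball 9 ×ˢ ball Y ×ˢ ball Y).filter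
      fun p => (N p.2.2.1 * N p.2.2.2) ^ 3 ≤ Y).sigma fun p => sfb √(Y ^ 2 / (N p.2.2.1 * N p.2.2.2) ^ 3))
    (fun q => q.1.2.1 * (if q.1.1 then q.1.2.2.1 ^ 2 else q.1.2.2.1) * q.1.2.2.2 ^ 3 *
      if q.1.1 then q.2 else q.2 ^ 2) _ fun k hk => ?_).trans ?_
  · obtain ⟨b, c, a, m, k', e1, e2, e3, e4, e5, e6⟩ := cl_dec hk
    have a1 := one_le_N e2
    have a2 := one_le_N e3
    have a3 := (le_self_pow₀ (one_le_mul_of_one_le_of_one_le a1 a2) (by norm_num)).trans e4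
    refine ⟨⟨(b, c, a, m), k'⟩, ?_, e6⟩
    simp only [Finset.mem_sigma, Finset.mem_filter, Finset.mem_product, Finset.mem_univ, true_and]
    exact ⟨⟨⟨e1, mem_ball.2 ⟨e2, by nlinarith⟩, mem_ball.2 ⟨e3, by nlinarith⟩⟩, e4⟩, e5⟩
  rw [Finset.sum_sigma]
  refine (Finset.sum_le_sum (g := fun p => Λ * ((N p.2.2.1)⁻¹ * (N p.2.2.2)⁻¹)) fun p hp => ?_).trans
    ((Finset.sum_le_sum_of_subset_of_nonneg (Finset.filter_subset _ _) fun p _ _ => ?_).trans ?_)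
  · simp only [Finset.mem_filter, Finset.mem_product, mem_ball] at hp
    obtain ⟨⟨-, -, ⟨e2, -⟩, e3, -⟩, e4⟩ := hp
    have a1 := one_le_mul_of_one_le_of_one_le (one_le_N e2) (one_le_N e3)
    have a2 := one_le_pow₀ (n := 3) a1
    have a3 : 1 ≤ √(Y ^ 2 / (N p.2.2.1 * N p.2.2.2) ^ 3) :=
      Real.one_le_sqrt.2 ((one_le_div (by linarith)).2 (by nlinarith))
    have a4 : √(Y ^ 2 / (N p.2.2.1 * N p.2.2.2) ^ 3) ≤ Y :=
      Real.sqrt_le_iff.2 ⟨by linarith, div_le_self (by positivity) a2⟩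
    refine (cl_tw (by positivity) hS (fun y => h _ M S y a3 hM hS) x
      (p.2.1 * (if p.1 then p.2.2.1 ^ 2 else p.2.2.1) * p.2.2.2 ^ 3) p.1).trans ?_
    rw [← mul_inv, hΛ, mul_right_comm _ (n2 S x), mul_assoc (C * (Y * M) ^ _)]
    gcongr
    exact cl_num h1 (by linarith) a1 e4
  · have := N_nonneg p.2.2.1
    have := N_nonneg p.2.2.2
    positivity
  simp only [Finset.sum_product, ← Finset.mul_sum, ← Finset.sum_mul, Finset.sum_const, nsmul_eq_mul,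
    Finset.card_univ, Fintype.card_bool]
  have a1 := card_ball_le (X := 9) (by norm_num)
  have a2 : ∑ n ∈ ball Y, (N n)⁻¹ ≤ C' * (Y * M) ^ (ε / 3) := (h' Y hY).trans (by
    gcongr; exact le_mul_of_one_le_right (by linarith) hM)
  have a3 : 0 ≤ ∑ n ∈ ball Y, (N n)⁻¹ := Finset.sum_nonneg fun n _ => inv_nonneg.2 (N_nonneg n)
  have a4 : (Y * M) ^ ε = ((Y * M) ^ (ε / 3)) ^ 3 := by
    rw [← Real.rpow_mul_natCast (by positivity)]; norm_num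
  calc _ ≤ Λ * (C' * (Y * M) ^ (ε / 3) * (18 * 9 * (((2 : ℕ) : ℝ) * (C' * (Y * M) ^ (ε / 3))))) := by gcongr
    _ = _ := by rw [hΛ, a4]; push_cast; ring

/-- `all_of_hypE` without the factor `Y ^ ε` -/
theorem cl_all {ξ : ℝ} (h1 : 1 ≤ ξ) (h2 : ξ ≤ 2) (h : HypE ξ) (ε : ℝ) (hε : 0 < ε) :
    ∃ C : ℝ, 0 ≤ C ∧ ∀ (Y M : ℝ) (S : Finset O) (x : O → ℂ), 0 < Y → 1 ≤ M → S ⊆ sfb M →
    ∑ k ∈ ball Y, ‖cs S x k‖ ^ 2 ≤
      C * M ^ ε * (Y ^ (1 / 3 : ℝ) * M + Y ^ ξ + (Y * M) ^ (2 / 3 : ℝ)) * n2 S x := by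
  obtain ⟨C, hC, h⟩ := all_of_hypE h1 h2 h (ε / 3) (by positivity)
  obtain ⟨C', hC', h'⟩ := ls1
  refine ⟨C + 2 * C', by positivity, fun Y M S x hY hM hS => ?_⟩
  have h0 := cl_n2 S x
  rcases lt_or_ge Y 1 with a1 | a1
  · rw [ball_eq_empty a1, Finset.sum_empty]
    positivity
  rcases le_total Y (M ^ 2) with a2 | a2
  · have : (Y * M) ^ (ε / 3) ≤ M ^ ε :=
      calc _ ≤ (M ^ 3) ^ (ε / 3) := by gcongr; nlinarith
        _ = _ := by rw [← Real.rpow_natCast_mul (by linarith)]; congr 1; push_cast; ring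
    refine (h Y M S x a1 hM hS).trans ?_
    gcongr
    linarith
  · have a3 : Y ≤ Y ^ ξ := Real.self_le_rpow_of_one_le a1 h1
    have a4 : 1 ≤ M ^ ε := Real.one_le_rpow hM hε.le
    have a5 : 0 ≤ Y ^ (1 / 3 : ℝ) * M := by positivity
    have a6 : 0 ≤ (Y * M) ^ (2 / 3 : ℝ) := by positivity
    calc _ ≤ C' * (Y + Y) * n2 S x := (h' M Y S x hM hY.le hS).trans (by gcongr)
      _ = 2 * C' * 1 * Y * n2 S x := by ring
      _ ≤ _ := by gcongr <;> linarith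

theorem cl_dyad {ε : ℝ} (hε : 0 < ε) {R S : Finset O} {M Λ : ℝ} (hM : 1 ≤ M)
    (hS : S ⊆ sfb M) (x : O → ℂ) (h : ∀ (B : ℝ) (S' : Finset O), S' ⊆ S → 1 ≤ B → B ≤ M → In S' B →
      ∑ k ∈ R, ‖cs S' x k‖ ^ 2 ≤ Λ * n2 S' x) :
    ∑ k ∈ R, ‖cs S x k‖ ^ 2 ≤ (1 + 1 / ε) * M ^ ε * (Λ * n2 S x) := by
  have h1 : ∀ n ∈ S, Nat.log 16 (nm n) ∈ Finset.range (Nat.log 16 ⌊M⌋₊ + 1) := fun n hn =>
    Finset.mem_range.2 (Nat.lt_succ_of_le (Nat.log_mono_right (Nat.le_floor (mem_sfb.1 (hS hn)).2)))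
  have h2 : (16 : ℝ) ^ Nat.log 16 ⌊M⌋₊ ≤ M := le_trans (by
    exact_mod_cast Nat.pow_log_le_self 16 (Nat.floor_pos.2 hM).ne') (Nat.floor_le (by linarith))
  have h3 : ((Finset.range (Nat.log 16 ⌊M⌋₊ + 1)).card : ℝ) ≤ (1 + 1 / ε) * M ^ ε := by
    have a1 := Real.log_le_log (by positivity) h2
    have a2 := Real.log_le_rpow_div (by linarith : 0 ≤ M) hε
    have a3 : 1 ≤ Real.log 16 := by
      rw [Real.le_log_iff_exp_le (by norm_num)]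
      linarith [Real.exp_one_lt_d9]
    have a4 := mul_le_mul_of_nonneg_left a3 (Nat.cast_nonneg (α := ℝ) (Nat.log 16 ⌊M⌋₊))
    rw [Real.log_pow] at a1
    rw [Finset.card_range, Nat.cast_succ, add_mul, one_div_mul_eq_div]
    linarith [Real.one_le_rpow hM hε.le]
  have h0 := cl_n2 S x
  calc _ ≤ ∑ k ∈ R, (1 + 1 / ε) * M ^ ε * ∑ i ∈ Finset.range (Nat.log 16 ⌊M⌋₊ + 1),
        ‖cs (S.filter fun n => Nat.log 16 (nm n) = i) x k‖ ^ 2 := Finset.sum_le_sum fun k _ => by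
        rw [cs, ← Finset.sum_fiberwise_of_maps_to h1]
        exact (pow_le_pow_left₀ (norm_nonneg _) (norm_sum_le _ _) 2).trans (sq_sum_le_card_mul_sum_sq.trans
          (mul_le_mul_of_nonneg_right h3 (Finset.sum_nonneg fun _ _ => by positivity)))
    _ ≤ _ := by
      rw [← Finset.mul_sum, Finset.sum_comm, n2, ← Finset.sum_fiberwise_of_maps_to h1, Finset.mul_sum _ _ Λ]
      refine mul_le_mul_of_nonneg_left (Finset.sum_le_sum fun i hi => h (16 ^ i) _ (Finset.filter_subset _ _)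
        (one_le_pow₀ (by norm_num)) ((pow_le_pow_right₀ (by norm_num)
          (Nat.le_of_lt_succ (Finset.mem_range.1 hi))).trans h2) fun n hn => ?_) (by positivity)
      obtain ⟨a1, rfl⟩ := Finset.mem_filter.1 hn
      have a2 := (mem_sfb.1 (hS a1)).1
      unfold N
      refine ⟨a2, ?_, ?_⟩
      · exact_mod_cast Nat.pow_log_le_self 16 (nm_pos a2.1.ne_zero).ne'
      · rw [← pow_succ']
        exact_mod_cast (Nat.lt_pow_succ_log_self (b := 16) (by norm_num) (nm n)).le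

theorem cl_Xs {S : Finset O} {B : ℝ} (hB : 0 < B) (hS : In S B) (c : O → ℂ) {g : O} (hg : Prim g) (r : O)
    {s : ℂ} (hs : s.re ≤ 2) : ∃ (S' : Finset O) (y : O → ℂ), S' ⊆ sfb (16 * B / N g) ∧
      n2 S' y ≤ 16 ^ 4 * n2 (S.filter fun n => g * r ∣ n) c ∧ ∀ k, ‖Xs S c B g r k s‖ = ‖cs S' y k‖ := by
  have h1 : ∀ n ∈ S.filter fun n => g * r ∣ n, g * (n / g) = n := fun n hn =>
    EuclideanDomain.mul_div_cancel' hg.ne_zero (dvd_of_mul_right_dvd (Finset.mem_filter.1 hn).2)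
  have h2 : Set.InjOn (fun n => n / g) (S.filter fun n => g * r ∣ n) := fun a ha b hb h => by
    rw [← h1 a ha, ← h1 b hb, show a / g = b / g from h]
  have h3 : ∀ n ∈ S.filter fun n => g * r ∣ n, SF (n / g) := fun n hn => ((hS n (Finset.mem_filter.1 hn).1).1.div
    hg (dvd_of_mul_right_dvd (Finset.mem_filter.1 hn).2)).1
  refine ⟨(S.filter fun n => g * r ∣ n).image fun n => n / g,
    fun n => conj (c (g * n) * g3 n * pw B (g * n) s), fun m hm => ?_, ?_, fun k => ?_⟩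
  · obtain ⟨n, hn, rfl⟩ := Finset.mem_image.1 hm
    refine mem_sfb.2 ⟨h3 n hn, (le_div_iff₀' (N_pos hg.ne_zero)).2 ?_⟩
    rw [← N_mul, h1 n hn]
    exact (hS n (Finset.mem_filter.1 hn).1).2.2
  · rw [n2, n2, Finset.sum_image h2, Finset.mul_sum]
    refine Finset.sum_le_sum fun n hn => ?_
    obtain ⟨-, a1, a2⟩ := hS n (Finset.mem_filter.1 hn).1
    have a3 : ‖pw B n s‖ ≤ 16 ^ 2 := by
      rw [pw, Complex.norm_cpow_eq_rpow_re_of_pos (div_pos (by linarith) hB)]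
      refine (Real.rpow_le_rpow_of_exponent_le ((one_le_div hB).2 a1) hs).trans ?_
      rw [Real.rpow_two]
      exact pow_le_pow_left₀ (div_pos (by linarith) hB).le ((div_le_iff₀ hB).2 a2) 2
    have a4 := norm_g3_le (h3 n hn).1
    rw [h1 n hn, Complex.norm_conj, norm_mul, norm_mul]
    calc _ ≤ (‖c n‖ * 1 * 16 ^ 2) ^ 2 := by gcongr
      _ = _ := by ring
  · rw [← Complex.norm_conj, Xs, cs, Finset.sum_image h2, map_sum, Finset.sum_congr rfl fun n hn => ?_]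
    simp only [h1 n hn, map_mul, Complex.conj_conj]
    ring

theorem cl_num2 {ξ K Y M : ℝ} (h1 : 1 ≤ ξ) (h2 : ξ ≤ 2) (hK : 0 < K) (hY : 0 < Y) (hM : 0 ≤ M) :
    Y ^ (1 / 3 : ℝ) * M + Y ^ ξ + (Y * M) ^ (2 / 3 : ℝ) ≤
      (K ^ (1 / 3 : ℝ) * M + K ^ ξ + (K * M) ^ (2 / 3 : ℝ)) * ((Y / K) ^ (1 / 3 : ℝ) + (Y / K) ^ 2) := by
  obtain ⟨z, hz, rfl⟩ : ∃ z, 0 < z ∧ K * z = Y := ⟨Y / K, by positivity, mul_div_cancel₀ _ hK.ne'⟩
  have h3 : ∀ a : ℝ, 1 / 3 ≤ a → a ≤ 2 → z ^ a ≤ z ^ (1 / 3 : ℝ) + z ^ 2 := fun a a1 a2 => by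
    rcases le_total z 1 with h | h
    · exact (Real.rpow_le_rpow_of_exponent_ge hz h a1).trans (le_add_of_nonneg_right (by positivity))
    · exact ((Real.rpow_le_rpow_of_exponent_le h a2).trans_eq (Real.rpow_two z)).trans
        (le_add_of_nonneg_left (by positivity))
  rw [mul_div_cancel_left₀ _ hK.ne', mul_right_comm K, Real.mul_rpow hK.le hz.le, Real.mul_rpow hK.le hz.le,
    Real.mul_rpow (by positivity) hz.le, mul_right_comm, add_mul, add_mul]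
  gcongr <;> exact h3 _ (by linarith) (by linarith)

theorem cl_num3 {ξ K B M g : ℝ} (h1 : 1 ≤ ξ) (hK : 1 ≤ K) (hB : 1 ≤ B) (hM : B ≤ M) (hg : 1 ≤ g) :
    K / B * g * ((B ^ 2 / (K * g ^ 2)) ^ (1 / 3 : ℝ) * (16 * B / g) + (B ^ 2 / (K * g ^ 2)) ^ ξ +
      (B ^ 2 / (K * g ^ 2) * (16 * B / g)) ^ (2 / 3 : ℝ)) ≤
      16 * ((K * M) ^ (2 / 3 : ℝ) + K ^ (1 - ξ) * M ^ (2 * ξ - 1) + K ^ (1 / 3 : ℝ) * M) := by
  obtain ⟨κ, rfl⟩ : ∃ τ, Real.exp τ = K := ⟨_, Real.exp_log (by linarith)⟩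
  obtain ⟨β, rfl⟩ : ∃ τ, Real.exp τ = B := ⟨_, Real.exp_log (by linarith)⟩
  obtain ⟨μ, rfl⟩ : ∃ τ, Real.exp τ = M := ⟨_, Real.exp_log (by linarith)⟩
  obtain ⟨γ, rfl⟩ : ∃ τ, Real.exp τ = g := ⟨_, Real.exp_log (by linarith)⟩
  obtain ⟨l, hl, e⟩ : ∃ τ, 0 ≤ τ ∧ Real.exp τ = 16 :=
    ⟨_, Real.log_nonneg (by norm_num), Real.exp_log (by norm_num)⟩
  rw [Real.one_le_exp_iff] at hK hB hg
  rw [Real.exp_le_exp] at hM
  rw [← e]
  rw [mul_add, mul_add, mul_add, mul_add]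
  simp only [← Real.exp_nat_mul, ← Real.exp_sub, ← Real.exp_mul, ← Real.exp_add]
  push_cast
  refine add_le_add_three (Real.exp_le_exp.2 ?_) (Real.exp_le_exp.2 ?_) (Real.exp_le_exp.2 ?_)
  · linarith
  · nlinarith
  · linarith

theorem cl_div {S R : Finset O} (hR : ∀ g ∈ R, Prim g) {D : ℝ} (hS : ∀ n ∈ S, n ≠ 0 ∧ dv n ≤ D) (x : O → ℂ) :
    ∑ g ∈ R, ∑ r ∈ R, n2 (S.filter fun n => g * r ∣ n) x ≤ D ^ 2 * n2 S x := by
  simp only [n2, Finset.sum_filter]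
  rw [Finset.sum_congr rfl fun g _ => Finset.sum_comm, Finset.sum_comm, Finset.mul_sum]
  refine Finset.sum_le_sum fun n hn => ?_
  have h1 : ∑ g ∈ R, (if g ∣ n then 1 else 0 : ℝ) ≤ D := by
    rw [Finset.sum_boole]
    exact le_trans (Nat.cast_le.2 (Finset.card_le_card fun g hg => (mem_pdiv (hS n hn).1).2
      ⟨hR g (Finset.mem_filter.1 hg).1, (Finset.mem_filter.1 hg).2⟩)) (hS n hn).2
  refine le_trans ?_ (mul_le_mul_of_nonneg_right (pow_le_pow_left₀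
    (Finset.sum_nonneg fun _ _ => by positivity) h1 2) (by positivity))
  rw [sq (∑ g ∈ R, _), Finset.sum_mul_sum, Finset.sum_mul]
  refine Finset.sum_le_sum fun g _ => ?_
  rw [Finset.sum_mul]
  refine Finset.sum_le_sum fun r _ => ?_
  by_cases h : g * r ∣ n
  · simp [h, dvd_of_mul_right_dvd h, dvd_of_mul_left_dvd h]
  · rw [if_neg h]
    positivity

/-- One Poisson step.  Split `S` dyadically (`In S_i B`, `O(log M)` pieces, Cauchy–Schwarz); rows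
`sfb K ⊆ ball K` are dominated by `e^{c0} Vo K`; `pstep3` with `T = 1`, `D = K`.  `Xs g r k` is
`conj (cs)` of a sequence on `n' = n/(gr)`, `N n' ≤ M' = 16B/N(gr)`, times `cub r k`
(norm `≤ 16² ‖c 1_{gr ∣ ·}‖`).  With `K_g = B²/(K N g²)` and `all_of_hypE`, for `Y ≥ 1`:
`Y^{a+ε} ≤ K_g^{a+ε}((Y/K_g)^{1/3} + (Y/K_g)²)` for `1/3 ≤ a + ε ≤ 2`... (if `ξ + ε > 2` use
instead `ls1`; or treat `ξ = 2` by `ls1` + `maj_one`-type bound: any correct route is fine), and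
`(K/B) N g [K_g^{1/3}M' + K_g^ξ + (K_gM')^{2/3}] ≤ C[(KB)^{2/3} + K^{1-ξ}B^{2ξ-1} + K^{1/3}B]`;
`∑_{g,r} ‖c 1_{gr ∣ ·}‖² ≤ C M^ε ‖c‖²` (`card_pdiv_le`).  Since `B ≤ M`, all terms increase in `B`. -/
theorem step_raw {ξ : ℝ} (h1 : 4 / 3 ≤ ξ) (h2 : ξ ≤ 2) (h : HypE ξ) (ε : ℝ) (hε : 0 < ε) :
    ∃ C : ℝ, 0 ≤ C ∧ ∀ (K M : ℝ) (S : Finset O) (x : O → ℂ), 1 ≤ K → 1 ≤ M → S ⊆ sfb M →
    ∑ k ∈ ball K, ‖cs S x k‖ ^ 2 ≤ C * (K * M) ^ ε *
      (K + (K * M) ^ (2 / 3 : ℝ) + K ^ (1 / 3 : ℝ) * M + K ^ (1 - ξ) * M ^ (2 * ξ - 1)) *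
      n2 S x := by
  obtain ⟨C0, -, hV⟩ := pw_Vo
  obtain ⟨C1, hC1, hP⟩ := pstep3 C0
  obtain ⟨C2, hC2, hA⟩ := cl_all (by linarith) h2 h (ε / 4) (by positivity)
  obtain ⟨C3, hD⟩ := card_pdiv_le (ε := ε / 4) (by positivity)
  refine ⟨(1 + 1 / (ε / 4)) * (Real.exp c0 * C1 * (2 + 4 * C2 * 16 ^ (ε / 4) * 16 ^ 5 * C3 ^ 2)),
    by positivity, fun K M S x hK hM hS => ?_⟩
  obtain ⟨W, hW⟩ : ∃ W, W = (K * M) ^ (2 / 3 : ℝ) + K ^ (1 - ξ) * M ^ (2 * ξ - 1) + K ^ (1 / 3 : ℝ) * M :=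
    ⟨_, rfl⟩
  have hW0 : 0 ≤ W := by rw [hW]; positivity
  have hμ := Real.one_le_rpow hM (by positivity : 0 ≤ ε / 4)
  refine (cl_dyad (ε := ε / 4) (Λ := Real.exp c0 * C1 * (2 + 4 * C2 * 16 ^ (ε / 4) * 16 ^ 5 * C3 ^ 2) *
    (M ^ (ε / 4)) ^ 3 * (K + W)) (by positivity) hM hS x
    fun B S' hS' hB hBM hI => ?_).trans ?_
  swap
  · have a1 : (M ^ (ε / 4)) ^ 4 ≤ (K * M) ^ ε := by
      rw [← Real.rpow_mul_natCast (by linarith), show ε / 4 * (4 : ℕ) = ε by push_cast; ring]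
      gcongr
      exact le_mul_of_one_le_left (by linarith) hK
    have := cl_n2 S x
    calc _ = (1 + 1 / (ε / 4)) * (Real.exp c0 * C1 * (2 + 4 * C2 * 16 ^ (ε / 4) * 16 ^ 5 * C3 ^ 2)) *
          (M ^ (ε / 4)) ^ 4 * (K + W) * n2 S x := by ring
      _ ≤ _ := mul_le_mul_of_nonneg_right (mul_le_mul (by gcongr) (by linarith) (by positivity)
        (by positivity)) this
  have hB0 : 0 < B := by linarith
  have hK0 : 0 < K := by linarith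
  have hp := fun n hn => mem_sfb.1 (hS (hS' hn : n ∈ S))
  have hs : Summable fun d => Om (N d / K) * ‖cs S' x d‖ ^ 2 := by
    refine Summable.of_nonneg_of_le (fun d => mul_nonneg (Om_pos _).le (by positivity)) (fun d => ?_)
      (Summable.mul_right ((∑ n ∈ S', ‖x n‖) ^ 2) (by simpa using summable_Om hK0 0))
    refine mul_le_mul_of_nonneg_left (pow_le_pow_left₀ (norm_nonneg _) ((norm_sum_le _ _).trans
      (Finset.sum_le_sum fun n hn => ?_)) 2) (Om_pos _).le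
    rw [norm_mul]
    exact mul_le_of_le_one_right (norm_nonneg _) (cl_cub_le (hp n hn).1.1 d)
  obtain ⟨Λ, hΛ⟩ : ∃ Λ : O → ℝ, ∀ g, Λ g = (B ^ 2 / (K * N g ^ 2)) ^ (1 / 3 : ℝ) * (16 * B / N g) +
    (B ^ 2 / (K * N g ^ 2)) ^ ξ + (B ^ 2 / (K * N g ^ 2) * (16 * B / N g)) ^ (2 / 3 : ℝ) := ⟨_, fun _ => rfl⟩
  have hΛ0 : ∀ g, 0 ≤ Λ g := fun g => by have := N_nonneg g; rw [hΛ]; positivity
  obtain ⟨E, hE⟩ : ∃ E : O → O → ℝ, ∀ g r, E g r =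
    C2 * (16 * M) ^ (ε / 4) * Λ g * (16 ^ 4 * n2 (S'.filter fun n => g * r ∣ n) x) := ⟨_, fun _ _ => rfl⟩
  have hE0 : ∀ g r, 0 ≤ E g r := fun g r => by
    have := hΛ0 g
    have := cl_n2 (S'.filter fun n => g * r ∣ n) x
    rw [hE]
    positivity
  have h3 := hP (Vo K) K 1 B (hV K hK) le_rfl (by simpa using hK) hB0 S' x hI (fun g r _ => E g r)
    (fun g r _ => E g r) (fun g r _ => ⟨hE0 g r, hE0 g r⟩)
    (fun g r => ⟨(integrable_mT one_pos).mul_const _, (integrable_mT one_pos).mul_const _⟩)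
    fun g hg r _ σ hσ τ Y hY => by
      obtain ⟨g1, g2⟩ := mem_sfb.1 hg
      have g3 := one_le_N g1.1.ne_zero
      obtain ⟨S₁, y, a1, a2, a3⟩ := cl_Xs hB0 hI x g1.1 r (s := σ - 1 / 2 + τ * Complex.I) (by
        simp only [Finset.mem_insert, Finset.mem_singleton] at hσ
        rcases hσ with rfl | rfl | rfl <;> norm_num)
      have a4 := cl_num2 (M := 16 * B / N g) (by linarith) h2
        (show 0 < B ^ 2 / (K * N g ^ 2) by positivity) hY (by positivity)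
      have a5 : 16 * B / N g ≤ 16 * M := (div_le_self (by positivity) g3).trans (by linarith)
      have := hΛ0 g
      have := cl_n2 S₁ y
      simp only [a3]
      refine (hA Y _ S₁ y hY ((one_le_div (by linarith)).2 g2) a1).trans ?_
      rw [← mul_add, hE, mul_right_comm _ (16 ^ 4 * _), mul_assoc _ (Λ g), hΛ]
      gcongr
  have h4 := cl_div (R := sfb (16 * B)) (fun g hg => (mem_sfb.1 hg).1.1) (D := |C3| * M ^ (ε / 4))
    (fun n hn => ⟨(hp n hn).1.1.ne_zero, (hD n (hp n hn).1.1.ne_zero).trans (mul_le_mul (le_abs_self _)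
      (Real.rpow_le_rpow (N_nonneg n) (hp n hn).2 (by positivity)) (Real.rpow_nonneg (N_nonneg n) _)
      (abs_nonneg _))⟩) x
  have h5 : K / B * ∑ g ∈ sfb (16 * B), ∑ r ∈ sfb (16 * B), N g * ∫ τ : ℝ, mT 1 τ * (E g r + 1 ^ 3 * E g r) ≤
      4 * C2 * (16 * M) ^ (ε / 4) * 16 ^ 5 * W * ((|C3| * M ^ (ε / 4)) ^ 2 * n2 S' x) := by
    refine le_trans ?_ (mul_le_mul_of_nonneg_left h4 (by positivity))
    simp only [Finset.mul_sum]
    refine Finset.sum_le_sum fun g hg => Finset.sum_le_sum fun r _ => ?_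
    have a1 := cl_num3 (by linarith : 1 ≤ ξ) hK hB hBM (one_le_N (mem_sfb.1 hg).1.1.ne_zero)
    have := cl_n2 (S'.filter fun n => g * r ∣ n) x
    rw [← hΛ, ← hW] at a1
    rw [integral_mul_const, integral_mT one_pos, hE]
    calc _ = 4 * C2 * (16 * M) ^ (ε / 4) * 16 ^ 4 * (K / B * N g * Λ g) *
          n2 (S'.filter fun n => g * r ∣ n) x := by ring
      _ ≤ 4 * C2 * (16 * M) ^ (ε / 4) * 16 ^ 4 * (16 * W) * n2 (S'.filter fun n => g * r ∣ n) x := by gcongr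
      _ = _ := by ring
  have h6 : √K ≤ K := Real.sqrt_le_iff.2 ⟨hK0.le, by nlinarith⟩
  have h0 := cl_n2 S' x
  rw [mul_assoc C1 (K / B), div_one] at h3
  rw [Real.mul_rpow (by norm_num) (by linarith), mul_pow, sq_abs] at h5
  calc _ ≤ _ := sum_ball_le_tsum hK0 (fun _ => by positivity) hs
    _ ≤ Real.exp c0 * (C1 * (K + K) * n2 S' x + C1 * (4 * C2 * (16 ^ (ε / 4) * M ^ (ε / 4)) * 16 ^ 5 * W *
        (C3 ^ 2 * (M ^ (ε / 4)) ^ 2 * n2 S' x))) :=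
      mul_le_mul_of_nonneg_left (h3.trans (by gcongr)) (Real.exp_pos _).le
    _ = Real.exp c0 * C1 * (2 * 1 ^ 3 * K +
        4 * C2 * 16 ^ (ε / 4) * 16 ^ 5 * C3 ^ 2 * (M ^ (ε / 4)) ^ 3 * W) * n2 S' x := by ring
    _ ≤ Real.exp c0 * C1 * (2 * (M ^ (ε / 4)) ^ 3 * (K + W) +
        4 * C2 * 16 ^ (ε / 4) * 16 ^ 5 * C3 ^ 2 * (M ^ (ε / 4)) ^ 3 * (K + W)) * n2 S' x := by
      gcongr <;> linarith
    _ = _ := by ring

theorem cl_num4 {ξ K M : ℝ} (h1 : 4 / 3 ≤ ξ) (hK : 1 ≤ K) (hM : 1 ≤ M) : ∃ K' : ℝ, K ≤ K' ∧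
    K' * M ≤ (K * M) ^ 3 ∧ K' + (K' * M) ^ (2 / 3 : ℝ) + K' ^ (1 / 3 : ℝ) * M + K' ^ (1 - ξ) * M ^ (2 * ξ - 1) ≤
      4 * (K + M ^ ((6 * ξ - 4) / (3 * ξ - 1)) + (K * M) ^ (2 / 3 : ℝ)) := by
  obtain ⟨κ, rfl⟩ : ∃ τ, Real.exp τ = K := ⟨_, Real.exp_log (by linarith)⟩
  obtain ⟨μ, rfl⟩ : ∃ τ, Real.exp τ = M := ⟨_, Real.exp_log (by linarith)⟩
  rw [Real.one_le_exp_iff] at hK hM
  obtain ⟨ν, hν, rfl⟩ : ∃ ν, 0 ≤ ν ∧ (3 * ξ - 1) * ν = μ :=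
    ⟨μ / (3 * ξ - 1), div_nonneg hM (by linarith), mul_div_cancel₀ _ (by linarith)⟩
  have h2 : ∀ k, (6 * ξ - 5) * ν ≤ k → Real.exp k ^ (1 / 3 : ℝ) * Real.exp ((3 * ξ - 1) * ν) +
      Real.exp k ^ (1 - ξ) * Real.exp ((3 * ξ - 1) * ν) ^ (2 * ξ - 1) ≤
      (Real.exp k * Real.exp ((3 * ξ - 1) * ν)) ^ (2 / 3 : ℝ) +
        (Real.exp k * Real.exp ((3 * ξ - 1) * ν)) ^ (2 / 3 : ℝ) := fun k hk => by
    simp only [← Real.exp_mul, ← Real.exp_add]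
    gcongr
    · nlinarith
    · nlinarith [mul_le_mul_of_nonneg_left hk (by linarith : 0 ≤ 3 * ξ - 1)]
  have h3 : Real.exp ((3 * ξ - 1) * ν) ^ ((6 * ξ - 4) / (3 * ξ - 1)) = Real.exp ((6 * ξ - 4) * ν) := by
    rw [← Real.exp_mul, mul_right_comm, mul_div_cancel₀ _ (by linarith)]
  have h4 := Real.exp_pos κ
  have h5 := Real.exp_pos ((6 * ξ - 4) * ν)
  have h6 : 0 < (Real.exp κ * Real.exp ((3 * ξ - 1) * ν)) ^ (2 / 3 : ℝ) := by positivity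
  rw [h3]
  rcases le_total ((6 * ξ - 5) * ν) κ with h | h
  · refine ⟨_, le_rfl, le_self_pow₀ ?_ (by norm_num), by linarith [h2 κ h]⟩
    rw [← Real.exp_add]
    exact Real.one_le_exp (by linarith)
  · refine ⟨Real.exp ((6 * ξ - 5) * ν), Real.exp_le_exp.2 h, ?_, ?_⟩
    · simp only [← Real.exp_add, ← Real.exp_nat_mul, Real.exp_le_exp]
      push_cast
      nlinarith
    · have h7 := h2 _ le_rfl
      have h8 : (Real.exp ((6 * ξ - 5) * ν) * Real.exp ((3 * ξ - 1) * ν)) ^ (2 / 3 : ℝ) =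
          Real.exp ((6 * ξ - 4) * ν) := by
        rw [← Real.exp_add, ← Real.exp_mul]
        congr 1
        ring
      have h9 : Real.exp ((6 * ξ - 5) * ν) ≤ Real.exp ((6 * ξ - 4) * ν) := Real.exp_le_exp.2 (by linarith)
      linarith

/-- `K₀ = M^{(6ξ-5)/(3ξ-1)} ≥ M`.  For `K ≥ K₀` the last two terms of `step_raw` are
`≤ (KM)^{2/3}`; for `K < K₀` enlarge the rows to `K₀`: all terms are `≤ M^{ξ'}`. -/
theorem hypE_step {ξ : ℝ} (h1 : 4 / 3 ≤ ξ) (h2 : ξ ≤ 2) (h : HypE ξ) :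
    HypE ((6 * ξ - 4) / (3 * ξ - 1)) := fun ε hε => by
  obtain ⟨C, hC, h⟩ := step_raw h1 h2 h (ε / 3) (by positivity)
  refine ⟨C * 4, by positivity, fun K M S x hK hM hS => ?_⟩
  obtain ⟨K', a1, a2, a3⟩ := cl_num4 h1 hK hM
  have a4 : (K' * M) ^ (ε / 3) ≤ (K * M) ^ ε :=
    (Real.rpow_le_rpow (by nlinarith) a2 (by positivity)).trans_eq
      (by rw [← Real.rpow_natCast_mul (by positivity)]; congr 1; push_cast; ring)
  have := cl_n2 S x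
  have hK' : 0 ≤ K' := by linarith
  refine ((cl_rows ((cl_sub K).trans (ball_mono a1)) _).trans (h K' M S x (by linarith) hM hS)).trans ?_
  rw [mul_right_comm C 4, mul_assoc _ 4]
  gcongr

theorem cl_mono {ξ ξ' : ℝ} (h : HypE ξ) (h' : ξ ≤ ξ') : HypE ξ' := fun ε hε => by
  obtain ⟨C, hC, h⟩ := h ε hε
  refine ⟨C, hC, fun K M S x hK hM hS => (h K M S x hK hM hS).trans ?_⟩
  have := cl_n2 S x
  gcongr

/-- `ξ' - 4/3 = 2(ξ - 4/3)/(3ξ - 1) ≤ (2/3)(ξ - 4/3)`; iterate and absorb in `ε` -/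
theorem hypE_lim : HypE (4 / 3) := fun ε hε => by
  have h1 : ∀ n : ℕ, HypE (4 / 3 + (2 / 3) ^ (n + 1)) := fun n => by
    induction n with
    | zero => exact cl_mono hypE_two (by norm_num)
    | succ n ih =>
      have a1 : (0 : ℝ) < (2 / 3) ^ n := by positivity
      have a2 : (2 / 3 : ℝ) ^ n ≤ 1 := pow_le_one₀ (by norm_num) (by norm_num)
      rw [pow_succ] at ih
      refine cl_mono (hypE_step (by linarith) (by linarith) ih) ((div_le_iff₀ (by linarith)).2 ?_)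
      rw [pow_succ, pow_succ]
      nlinarith
  obtain ⟨n, hn⟩ := exists_pow_lt_of_lt_one (half_pos hε) (show (2 / 3 : ℝ) < 1 by norm_num)
  obtain ⟨C, hC, h⟩ := cl_mono (h1 n) (show _ ≤ 4 / 3 + ε / 2 by
    rw [pow_succ]; linarith) (ε / 2) (half_pos hε)
  refine ⟨C, hC, fun K M S x hK hM hS => (h K M S x hK hM hS).trans ?_⟩
  have := cl_n2 S x
  have a1 : 1 ≤ (K * M) ^ (ε / 2) := Real.one_le_rpow (by nlinarith) (half_pos hε).le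
  have a2 : M ^ (ε / 2) ≤ (K * M) ^ (ε / 2) := by gcongr; exact le_mul_of_one_le_left (by linarith) hK
  have a3 : K + M ^ (4 / 3 + ε / 2) + (K * M) ^ (2 / 3 : ℝ) ≤
      (K * M) ^ (ε / 2) * (K + M ^ (4 / 3 : ℝ) + (K * M) ^ (2 / 3 : ℝ)) := by
    rw [mul_add, mul_add, Real.rpow_add (by linarith), mul_comm (M ^ _)]
    exact add_le_add_three (le_mul_of_one_le_left (by linarith) a1) (by gcongr)
      (le_mul_of_one_le_left (by positivity) a1)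
  rw [show (K * M) ^ ε = (K * M) ^ (ε / 2) * (K * M) ^ (ε / 2) by
    rw [← Real.rpow_add (by positivity), add_halves], ← mul_assoc C, mul_assoc (C * _) ((K * M) ^ (ε / 2))]
  gcongr

/-- **Cubic large sieve.**  If `M ≤ K`, `M^{4/3} ≤ (KM)^{2/3}`; otherwise dualise. -/
theorem cls (ε : ℝ) (hε : 0 < ε) : ∃ C : ℝ, 0 ≤ C ∧ ∀ (K M : ℝ) (S : Finset O) (x : O → ℂ),
    1 ≤ K → 1 ≤ M → S ⊆ sfb M → ∑ k ∈ sfb K, ‖cs S x k‖ ^ 2 ≤
      C * (K * M) ^ ε * (K + M + (K * M) ^ (2 / 3 : ℝ)) * n2 S x := by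
  obtain ⟨C, hC, h⟩ := hypE_lim ε hε
  obtain ⟨C', hC', h'⟩ := cl_dual hypE_lim ε hε
  have h1 : ∀ K M : ℝ, 0 ≤ M → M ≤ K → M ^ (4 / 3 : ℝ) ≤ (K * M) ^ (2 / 3 : ℝ) := fun K M a1 a2 =>
    calc _ = (M ^ 2) ^ (2 / 3 : ℝ) := by rw [← Real.rpow_natCast_mul a1]; norm_num
      _ ≤ _ := by gcongr; nlinarith
  refine ⟨(C + C') * 2, by positivity, fun K M S x hK hM hS => ?_⟩
  have := cl_n2 S x
  have a1 : 0 ≤ (K * M) ^ (2 / 3 : ℝ) := by positivity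
  rw [mul_right_comm _ 2, mul_assoc _ 2]
  rcases le_total M K with a2 | a2
  · refine (h K M S x hK hM hS).trans ?_
    gcongr <;> linarith [h1 K M (by linarith) a2]
  · refine (h' K M S x hK hM hS).trans ?_
    have a3 := h1 M K (by linarith) a2
    rw [mul_comm M] at a3
    gcongr <;> linarith

/-- `cls` and `ls_dual` give `HypE 1`... precisely: the dual constant used in `all_of_hypE` is
`M + X + (XM)^{2/3}`.  (`HypE 1` is exactly `cls`.) -/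
theorem cls_all (ε : ℝ) (hε : 0 < ε) : ∃ C : ℝ, 0 ≤ C ∧ ∀ (Y M : ℝ) (S : Finset O) (x : O → ℂ),
    1 ≤ Y → 1 ≤ M → S ⊆ sfb M → ∑ k ∈ ball Y, ‖cs S x k‖ ^ 2 ≤
      C * (Y * M) ^ ε * (Y + Y ^ (1 / 3 : ℝ) * M + (Y * M) ^ (2 / 3 : ℝ)) * n2 S x := by
  obtain ⟨C, hC, h⟩ := all_of_hypE le_rfl (by norm_num) (fun ε hε => by simpa only [Real.rpow_one] using cls ε hε)
    ε hε
  refine ⟨C, hC, fun Y M S x hY hM hS => ?_⟩
  simpa only [Real.rpow_one, add_comm Y] using h Y M S x hY hM hS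

/-- bilinear forms in `GG`: `GG_mul`, Cauchy–Schwarz, `cls` -/
theorem bil (ε : ℝ) (hε : 0 < ε) : ∃ C : ℝ, 0 ≤ C ∧ ∀ (A B : ℝ) (SA SB : Finset O)
    (α β : O → ℂ), 1 ≤ A → 1 ≤ B → SA ⊆ sfb A → SB ⊆ sfb B →
    ‖∑ a ∈ SA, ∑ b ∈ SB, α a * β b * GG (a * b)‖ ^ 2 ≤
      C * (A * B) ^ ε * (A + B + (A * B) ^ (2 / 3 : ℝ)) * n2 SA α * n2 SB β := by
  obtain ⟨C, hC, h⟩ := cls ε hε
  refine ⟨C, hC, fun A B SA SB α β hA hB hSA hSB => ?_⟩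
  have h1 : ∀ a ∈ SA, ‖∑ b ∈ SB, α a * β b * GG (a * b)‖ =
      ‖α a‖ * ‖cs SB (fun b => conj (β b * GG b)) a‖ := fun a ha => by
    have a1 := (mem_sfb.1 (hSA ha)).1
    rw [← Complex.norm_conj (cs _ _ _), ← mul_one ‖α a‖, ← norm_GG a1, ← norm_mul, ← norm_mul, cs, map_sum,
      Finset.mul_sum, Finset.sum_congr rfl fun b hb => ?_]
    rw [GG_mul a1 (mem_sfb.1 (hSB hb)).1.1]
    simp only [map_mul, Complex.conj_conj]
    ring
  have h2 : n2 SB (fun b => conj (β b * GG b)) = n2 SB β := Finset.sum_congr rfl fun b hb => by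
    rw [Complex.norm_conj, norm_mul, norm_GG (mem_sfb.1 (hSB hb)).1, mul_one]
  have h3 := (cl_rows hSA _).trans (h A B SB (fun b => conj (β b * GG b)) hA hB hSB)
  refine (pow_le_pow_left₀ (norm_nonneg _) ((norm_sum_le _ _).trans_eq (Finset.sum_congr rfl h1)) 2).trans
    ((Finset.sum_mul_sq_le_sq_mul_sq _ _ _).trans ?_)
  rw [mul_right_comm _ (n2 SA α), mul_comm _ (n2 SA α), ← h2]
  exact mul_le_mul_of_nonneg_left h3 (cl_n2 SA α)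

end Crest.Agent.R12
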