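import Crest.Agent.R12.Defs

/-!
# R12 / ConstN : the numerical inequalities for `resid_const`
-/

set_option autoImplicit false

noncomputable section

open scoped Classical ComplexConjugate Topology
open MeasureTheory Filter

namespace Crest.Agent.R12

open Crest.Agent.R17 Crest.Agent.R17.Vor

/-- substitute `t = q s`; `q e^{-qX} ≤ e^{-X}` for `X = s + a²/s ≥ 2a ≥ 1` -/
theorem cn_Vr_mono {q y : ℝ} (hq : 1 ≤ q) (hy : 1 ≤ 2 * (c0 * y)) :
    q ^ (2 / 3 : ℝ) * Vr (q * y) ≤ Vr y := by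
  have hq0 : 0 < q := by linarith
  set a := c0 * y with ha
  have ha0 : 0 < a := by linarith
  set f : ℝ → ℝ := fun t => t ^ (-(2 / 3 : ℝ)) * Real.exp (-t - c0 ^ 2 * (q * y) ^ 2 / t) with hf
  have h1 := integral_comp_mul_left_Ioi f 0 hq0
  rw [mul_zero, smul_eq_mul] at h1
  have h2 : ∫ t in Set.Ioi (0 : ℝ), f t = q * ∫ t in Set.Ioi (0 : ℝ), f (q * t) := by
    rw [h1]; field_simp
  have h3 : IntegrableOn (fun t => f (q * t)) (Set.Ioi 0) := by
    rw [integrableOn_Ioi_comp_mul_left_iff f 0 hq0, mul_zero]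
    exact integrableOn_Vr (q * y)
  unfold Vr
  rw [mul_left_comm]
  refine mul_le_mul_of_nonneg_left ?_ VoVr_K.le
  change q ^ (2 / 3 : ℝ) * ∫ t in Set.Ioi (0 : ℝ), f t ≤ _
  rw [h2, ← mul_assoc, ← integral_const_mul]
  refine setIntegral_mono_on (h3.const_mul _) (integrableOn_Vr y) measurableSet_Ioi fun t ht => ?_
  have ht0 : 0 < t := ht
  set Y := t + a ^ 2 / t with hY
  have hY1 : 1 ≤ Y := by
    have : 2 * a ≤ Y := by
      rw [hY, add_div' _ _ _ ht0.ne', le_div_iff₀ ht0]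
      nlinarith [sq_nonneg (t - a)]
    linarith
  have e1 : -(q * t) - c0 ^ 2 * (q * y) ^ 2 / (q * t) = -Y - (q - 1) * Y := by
    rw [hY, ha]; field_simp; ring
  have e2 : -t - c0 ^ 2 * y ^ 2 / t = -Y := by rw [hY, ha]; ring
  have e3 : q ^ (2 / 3 : ℝ) * (q * t) ^ (-(2 / 3 : ℝ)) = t ^ (-(2 / 3 : ℝ)) := by
    rw [Real.mul_rpow hq0.le ht0.le, ← mul_assoc, ← Real.rpow_add hq0]
    simp
  have h4 : q * Real.exp (-Y - (q - 1) * Y) ≤ Real.exp (-Y) := by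
    rw [Real.exp_sub, mul_div_assoc', div_le_iff₀ (Real.exp_pos _), mul_comm]
    refine mul_le_mul_of_nonneg_left ?_ (Real.exp_pos _).le
    have := Real.add_one_le_exp ((q - 1) * Y)
    nlinarith
  simp only [hf]
  rw [e1, e2]
  calc _ = (q ^ (2 / 3 : ℝ) * (q * t) ^ (-(2 / 3 : ℝ))) * (q * Real.exp (-Y - (q - 1) * Y)) := by ring
    _ ≤ _ := by rw [e3]; exact mul_le_mul_of_nonneg_left h4 (Real.rpow_nonneg ht0.le _)

theorem cn_exp {x : ℝ} (hx : 0 < x) : Real.exp (-x) ≤ 27 / 20 / x ^ 3 := by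
  have h1 : x / 3 ≤ Real.exp (x / 3 - 1) := by linarith [Real.add_one_le_exp (x / 3 - 1)]
  have h2 := pow_le_pow_left₀ (by positivity) h1 3
  rw [← Real.exp_nat_mul] at h2
  have h3 : (20 : ℝ) ≤ Real.exp 3 := by
    have h4 := Real.exp_one_gt_d9
    have h5 : Real.exp 3 = Real.exp 1 ^ 3 := by rw [← Real.exp_nat_mul]; norm_num
    rw [h5]
    exact le_trans (by norm_num) (pow_le_pow_left₀ (by norm_num) h4.le 3)
  have h4 : Real.exp ((3 : ℕ) * (x / 3 - 1)) * Real.exp 3 * Real.exp (-x) = 1 := by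
    rw [← Real.exp_add, ← Real.exp_add, Real.exp_eq_one_iff]
    push_cast; ring
  rw [le_div_iff₀ (by positivity)]
  have h5 : (x / 3) ^ 3 * 20 * Real.exp (-x) ≤ 1 := by
    rw [← h4]; gcongr
  linarith

/-- `e^{-a²/t} ≤ (27/20) (t/a²)³`, `Γ(10/3) = (28/9) Γ(4/3)` -/
theorem cn_Vr_le {y : ℝ} (hy : 0 < y) : Vr y ≤ 21 / 5 * Real.pi / (c0 * y) ^ 6 := by
  have hc : 0 < c0 := lt_trans one_pos one_lt_c0
  set a := c0 * y with ha
  have ha0 : 0 < a := by positivity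
  have hG : Real.Gamma (10 / 3) = 28 / 9 * Real.Gamma (4 / 3) := by
    rw [show (10 / 3 : ℝ) = 7 / 3 + 1 by norm_num, Real.Gamma_add_one (by norm_num),
      show (7 / 3 : ℝ) = 4 / 3 + 1 by norm_num, Real.Gamma_add_one (by norm_num)]
    ring
  have hI := Real.Gamma_eq_integral (s := 10 / 3) (by norm_num)
  have hi := Real.GammaIntegral_convergent (s := 10 / 3) (by norm_num)
  have h1 : ∫ t in Set.Ioi (0 : ℝ), t ^ (-(2 / 3 : ℝ)) * Real.exp (-t - c0 ^ 2 * y ^ 2 / t) ≤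
      27 / 20 / a ^ 6 * Real.Gamma (10 / 3) := by
    rw [hI, ← integral_const_mul]
    refine setIntegral_mono_on (integrableOn_Vr y) (hi.const_mul _) measurableSet_Ioi fun t ht => ?_
    have ht0 : 0 < t := ht
    have h2 := cn_exp (x := a ^ 2 / t) (by positivity)
    have e1 : Real.exp (-t - c0 ^ 2 * y ^ 2 / t) = Real.exp (-t) * Real.exp (-(a ^ 2 / t)) := by
      rw [← Real.exp_add, ha]; congr 1; ring
    have e2 : t ^ ((10 / 3 : ℝ) - 1) = t ^ (-(2 / 3 : ℝ)) * t ^ 3 := by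
      rw [← Real.rpow_natCast, ← Real.rpow_add ht0]; norm_num
    rw [e1, e2]
    calc _ ≤ t ^ (-(2 / 3 : ℝ)) * (Real.exp (-t) * (27 / 20 / (a ^ 2 / t) ^ 3)) := by gcongr
      _ = _ := by field_simp
  have hΓ : 0 < Real.Gamma (4 / 3) := Real.Gamma_pos_of_pos (by norm_num)
  unfold Vr
  refine (mul_le_mul_of_nonneg_left h1 VoVr_K.le).trans (le_of_eq ?_)
  rw [hG]
  field_simp
  norm_num

/-- reflection formula -/
theorem cn_refl : 3 * Real.Gamma (4 / 3) * Real.Gamma (2 / 3) = c0 := by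
  have h := Real.Gamma_mul_Gamma_one_sub (1 / 3)
  rw [show Real.pi * (1 / 3) = Real.pi / 3 by ring, Real.sin_pi_div_three,
    show (1 - 1 / 3 : ℝ) = 2 / 3 by norm_num] at h
  rw [show (4 / 3 : ℝ) = 1 / 3 + 1 by norm_num, Real.Gamma_add_one (by norm_num), c0]
  have h3 : Real.sqrt 3 ≠ 0 := by positivity
  calc _ = Real.Gamma (1 / 3) * Real.Gamma (2 / 3) := by ring
    _ = _ := by rw [h]; field_simp

theorem cn_c0 : 13.14 ≤ c0 ^ 2 := by
  unfold c0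
  rw [div_pow, Real.sq_sqrt (by norm_num), le_div_iff₀ (by norm_num)]
  have := Real.pi_gt_d2
  nlinarith

theorem cn_cP_pos : 0 < cP := by
  have := Real.Gamma_pos_of_pos (s := 2 / 3) (by norm_num)
  have := Real.pi_pos
  unfold cP
  positivity

/-- convexity of `Γ` between `1` and `3/2` -/
theorem cn_cP_le : cP ≤ 7 / 8 := by
  have h1 := Real.convexOn_Gamma.2 (Set.mem_Ioi.2 (one_pos : (0 : ℝ) < 1))
    (Set.mem_Ioi.2 (by norm_num : (0 : ℝ) < 1 / 2 + 1)) (by norm_num : (0 : ℝ) ≤ 1 / 3)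
    (by norm_num : (0 : ℝ) ≤ 2 / 3) (by norm_num)
  simp only [smul_eq_mul] at h1
  rw [Real.Gamma_one, Real.Gamma_add_one (by norm_num), Real.Gamma_one_half_eq,
    show (1 / 3 * 1 + 2 / 3 * (1 / 2 + 1) : ℝ) = 4 / 3 by norm_num] at h1
  have hπ := Real.pi_lt_d2
  have h2 : Real.sqrt Real.pi ≤ 1.775 := by
    rw [Real.sqrt_le_left (by norm_num)]; linarith
  have h3 := cn_refl
  have hΓ := Real.Gamma_pos_of_pos (s := 2 / 3) (by norm_num)
  have hc : 3.62 ≤ c0 := by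
    have := cn_c0
    have := one_lt_c0
    nlinarith
  have h4 : 1.304 ≤ Real.Gamma (2 / 3) := by nlinarith
  have h5 : (2 * Real.pi) ^ ((2 : ℝ) / 3) ≤ 3.42 := by
    have h6 : ((2 * Real.pi) ^ ((2 : ℝ) / 3)) ^ 3 = (2 * Real.pi) ^ 2 := by
      rw [← Real.rpow_natCast, ← Real.rpow_mul (by positivity), ← Real.rpow_natCast]; norm_num
    refine le_of_pow_le_pow_left₀ (n := 3) (by norm_num) (by norm_num) ?_
    rw [h6]
    have := Real.pi_pos
    nlinarith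
  unfold cP
  rw [div_le_iff₀ (by positivity)]
  linarith

/-- the square of the constant -/
theorem cn_sq : (cP * c0 / 9) ^ 2 = cres * (9 : ℝ) ^ (-(2 / 3 : ℝ)) * c0 / 81 := by
  have hΓ := Real.Gamma_pos_of_pos (s := 2 / 3) (by norm_num)
  have hπ := Real.pi_pos
  have h1 : 3 * Real.Gamma (4 / 3) = c0 / Real.Gamma (2 / 3) := by
    rw [eq_div_iff hΓ.ne', cn_refl]
  have h2 : c0 ^ (4 / 3 : ℝ) * (9 : ℝ) ^ (-(2 / 3 : ℝ)) = ((2 * Real.pi) ^ ((2 : ℝ) / 3)) ^ 2 / 9 := by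
    have e1 : Real.sqrt 3 ^ (4 / 3 : ℝ) = (3 : ℝ) ^ (2 / 3 : ℝ) := by
      rw [Real.sqrt_eq_rpow, ← Real.rpow_mul (by norm_num)]; norm_num
    have e2 : (9 : ℝ) ^ (-(2 / 3 : ℝ)) = (3 : ℝ) ^ (-(4 / 3 : ℝ)) := by
      rw [show (9 : ℝ) = 3 ^ (2 : ℝ) by norm_num, ← Real.rpow_mul (by norm_num)]; norm_num
    have e3 : (3 : ℝ) ^ (-(4 / 3 : ℝ)) / (3 : ℝ) ^ (2 / 3 : ℝ) = 1 / 9 := by
      rw [← Real.rpow_sub (by norm_num), show (-(4 / 3) - 2 / 3 : ℝ) = -(2 : ℕ) by norm_num,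
        Real.rpow_neg (by norm_num), Real.rpow_natCast]
      norm_num
    have e4 : ((2 * Real.pi) ^ ((2 : ℝ) / 3)) ^ 2 = (2 * Real.pi) ^ (4 / 3 : ℝ) := by
      rw [← Real.rpow_natCast, ← Real.rpow_mul (by positivity)]; norm_num
    rw [c0, Real.div_rpow (by positivity) (by positivity), e1, e2, e4, div_mul_eq_mul_div,
      mul_div_assoc, e3]
    ring
  unfold cres cP
  rw [h1]
  calc _ = c0 ^ 2 / Real.Gamma (2 / 3) ^ 2 / 81 * (((2 * Real.pi) ^ ((2 : ℝ) / 3)) ^ 2 / 9) := by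
        field_simp; ring
    _ = _ := by rw [← h2]; field_simp

/-! ## the lattice sum -/

theorem cn_int {P : ℤ → ℝ} {c : ℝ} (hc : 0 < c) (hP : ∀ a : ℤ, P a = 1 / ((|(a : ℝ)| + c) * (|(a : ℝ)| + c + 1)))
    (A : Finset ℤ) : ∑ a ∈ A, P a ≤ 2 / c := by
  have h0 : ∀ a, 0 ≤ P a := fun a => by rw [hP]; positivity
  have h1 : ∀ K : ℕ, ∑ k ∈ Finset.range K, 1 / (((k : ℝ) + c) * (k + c + 1)) = 1 / c - 1 / (K + c) := by
    intro K
    induction K with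
    | zero => simp
    | succ K ih =>
      rw [Finset.sum_range_succ, ih]
      push_cast
      field_simp
      ring
  have h2 : ∀ K : ℕ, ∑ k ∈ Finset.range K, 1 / (((k : ℝ) + c) * (k + c + 1)) ≤ 1 / c := fun K => by
    rw [h1]
    have : 0 ≤ 1 / ((K : ℝ) + c) := by positivity
    linarith
  obtain ⟨K, hK⟩ : ∃ K : ℕ, ∀ a ∈ A, a.natAbs < K :=
    ⟨A.sup Int.natAbs + 1, fun a ha => Nat.lt_succ_of_le (Finset.le_sup (f := Int.natAbs) ha)⟩
  have hsub : A ⊆ (Finset.range K).image (fun k : ℕ => (k : ℤ)) ∪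
      (Finset.range K).image (fun k : ℕ => -(k : ℤ)) := by
    intro a ha
    have := hK a ha
    simp only [Finset.mem_union, Finset.mem_image, Finset.mem_range]
    rcases le_total 0 a with h | h
    · exact Or.inl ⟨a.natAbs, this, by omega⟩
    · exact Or.inr ⟨a.natAbs, this, by omega⟩
  refine (Finset.sum_le_sum_of_subset_of_nonneg hsub fun a _ _ => h0 a).trans ?_
  have h3 := Finset.sum_union_inter (s₁ := (Finset.range K).image (fun k : ℕ => (k : ℤ)))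
    (s₂ := (Finset.range K).image (fun k : ℕ => -(k : ℤ))) (f := P)
  have h4 := Finset.sum_nonneg (s := (Finset.range K).image (fun k : ℕ => (k : ℤ)) ∩
    (Finset.range K).image (fun k : ℕ => -(k : ℤ))) fun a _ => h0 a
  rw [Finset.sum_image (fun x _ y _ h => by exact_mod_cast h),
    Finset.sum_image (fun x _ y _ h => by simpa using h)] at h3
  simp only [hP, Int.cast_neg, Int.cast_natCast, abs_neg, Nat.abs_cast] at h3 h4 ⊢
  have := h2 K
  rw [show 2 / c = 1 / c + 1 / c by ring]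
  linarith

/-- the terms of the lattice sum -/
def cnG (p : ℤ × ℤ) : ℚ :=
  if p.2 = 0 ∧ p.1.natAbs ≤ 1 then 0 else 1 / ((p.1 ^ 2 - 3 * p.1 * p.2 + 9 * p.2 ^ 2 : ℤ) : ℚ) ^ 3

theorem cn_fin : ∑ p ∈ Finset.Icc (-11 : ℤ) 11 ×ˢ Finset.Icc (-3 : ℤ) 3, cnG p ≤ 7 / 125 := by
  decide +kernel

theorem cn_form (a b : ℤ) : 0 ≤ a ^ 2 - 3 * a * b + 9 * b ^ 2 := by
  nlinarith [sq_nonneg (2 * a - 3 * b), sq_nonneg b]

theorem cnG_nonneg (p : ℤ × ℤ) : 0 ≤ cnG p := by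
  unfold cnG
  split_ifs
  · exact le_rfl
  · have : (0 : ℚ) ≤ ((p.1 ^ 2 - 3 * p.1 * p.2 + 9 * p.2 ^ 2 : ℤ) : ℚ) := by
      exact_mod_cast cn_form p.1 p.2
    positivity

theorem cn_out {p : ℤ × ℤ} (h : p ∉ Finset.Icc (-11 : ℤ) 11 ×ˢ Finset.Icc (-3 : ℤ) 3) :
    (cnG p : ℝ) ≤ 1 / 64 * (1 / ((|(p.1 : ℝ)| + 6) * (|(p.1 : ℝ)| + 6 + 1)) *
      (1 / ((|(p.2 : ℝ)| + 3) * (|(p.2 : ℝ)| + 3 + 1)))) := by
  obtain ⟨a, b⟩ := p
  simp only [Finset.mem_product, Finset.mem_Icc] at h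
  unfold cnG
  split_ifs
  · rw [Rat.cast_zero]; positivity
  have h1 : (108 : ℤ) ≤ a ^ 2 - 3 * a * b + 9 * b ^ 2 := by
    have : 12 ≤ a ∨ a ≤ -12 ∨ 4 ≤ b ∨ b ≤ -4 := by omega
    rcases this with h | h | h | h <;> nlinarith [sq_nonneg (2 * a - 3 * b), sq_nonneg (a - 6 * b)]
  simp only
  push_cast
  have h2 : (108 : ℝ) ≤ (a : ℝ) ^ 2 - 3 * a * b + 9 * b ^ 2 := by exact_mod_cast h1
  set M : ℝ := (a : ℝ) ^ 2 - 3 * a * b + 9 * b ^ 2 with hM
  have h3 : 3 * |(a : ℝ)| ^ 2 ≤ 4 * M := by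
    rw [sq_abs]; nlinarith [sq_nonneg ((a : ℝ) - 6 * b)]
  have h4 : 27 * |(b : ℝ)| ^ 2 ≤ 4 * M := by
    rw [sq_abs]; nlinarith [sq_nonneg (2 * (a : ℝ) - 3 * b)]
  have ha := abs_nonneg (a : ℝ)
  have hb := abs_nonneg (b : ℝ)
  generalize |(a : ℝ)| = s at *
  generalize |(b : ℝ)| = t at *
  have h5 : (s + 6) * (s + 6 + 1) ≤ 16 / 5 * M := by nlinarith [sq_nonneg (s - 12)]
  have h6 : (t + 3) * (t + 3 + 1) ≤ 13 / 25 * M := by nlinarith [sq_nonneg (t - 4)]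
  have h7 := mul_le_mul h5 h6 (by positivity) (by positivity)
  rw [one_div_mul_one_div, one_div_mul_one_div]
  refine one_div_le_one_div_of_le (by positivity) ?_
  nlinarith [mul_le_mul_of_nonneg_right h2 (sq_nonneg M)]

theorem cn_lat2 (S : Finset (ℤ × ℤ)) : ∑ p ∈ S, (cnG p : ℝ) ≤ 3 / 50 := by
  set F := Finset.Icc (-11 : ℤ) 11 ×ˢ Finset.Icc (-3 : ℤ) 3 with hF
  set P : ℤ → ℝ := fun a => 1 / ((|(a : ℝ)| + 6) * (|(a : ℝ)| + 6 + 1)) with hP
  set Q : ℤ → ℝ := fun a => 1 / ((|(a : ℝ)| + 3) * (|(a : ℝ)| + 3 + 1)) with hQ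
  have hP0 : ∀ a, 0 ≤ P a := fun a => by simp only [hP]; positivity
  have hQ0 : ∀ a, 0 ≤ Q a := fun a => by simp only [hQ]; positivity
  have h1 : ∑ p ∈ S.filter (· ∈ F), (cnG p : ℝ) ≤ 7 / 125 := by
    refine (Finset.sum_le_sum_of_subset_of_nonneg (t := F) (fun p hp => (Finset.mem_filter.1 hp).2)
      fun p _ _ => by exact_mod_cast cnG_nonneg p).trans ?_
    have := (Rat.cast_le (K := ℝ)).2 cn_fin
    rw [Rat.cast_sum] at this
    exact this.trans (by norm_num)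
  have h2 : ∑ p ∈ S.filter (· ∉ F), (cnG p : ℝ) ≤ 1 / 64 * (2 / 6 * (2 / 3)) := by
    refine (Finset.sum_le_sum fun p hp => cn_out (Finset.mem_filter.1 hp).2).trans ?_
    rw [← Finset.mul_sum]
    refine mul_le_mul_of_nonneg_left ?_ (by norm_num)
    refine (Finset.sum_le_sum_of_subset_of_nonneg (f := fun p : ℤ × ℤ => P p.1 * Q p.2)
      (Finset.subset_product (s := S.filter (· ∉ F)))
      fun p _ _ => mul_nonneg (hP0 _) (hQ0 _)).trans ?_
    rw [Finset.sum_product' (f := fun x y => P x * Q y), ← Finset.sum_mul_sum]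
    exact mul_le_mul (cn_int (by norm_num) (fun _ => rfl) _) (cn_int (by norm_num) (fun _ => rfl) _)
      (Finset.sum_nonneg fun _ _ => hQ0 _) (by norm_num)
  rw [← Finset.sum_filter_add_sum_filter_not S (· ∈ F)]
  linarith

/-- the majorant on `O` -/
def cnO (n : O) : ℝ := if (3 : ℤ) ∣ n.im ∧ n ≠ 0 ∧ n ≠ 1 ∧ n ≠ -1 then 1 / N n ^ 3 else 0

theorem cnO_nonneg (n : O) : 0 ≤ cnO n := by
  unfold cnO
  split_ifs
  · have := N_nonneg n
    positivity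
  · exact le_rfl

theorem cn_lat (S : Finset O) : ∑ n ∈ S, cnO n ≤ 3 / 50 := by
  have h1 : ∑ n ∈ S, cnO n = ∑ n ∈ S.filter (fun n => (3 : ℤ) ∣ n.im), cnO n := by
    rw [Finset.sum_filter_of_ne]
    intro n _ h
    by_contra h'
    exact h (if_neg fun h2 => h' h2.1)
  have hinj : Set.InjOn (fun n : O => (n.re, n.im / 3)) (S.filter (fun n => (3 : ℤ) ∣ n.im)) := by
    intro x hx y hy h
    have hx' := (Finset.mem_filter.1 hx).2
    have hy' := (Finset.mem_filter.1 hy).2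
    simp only [Prod.mk.injEq] at h
    exact QuadraticAlgebra.ext h.1 (by omega)
  refine le_trans (le_of_eq ?_) (cn_lat2 ((S.filter (fun n => (3 : ℤ) ∣ n.im)).image
    (fun n : O => (n.re, n.im / 3))))
  rw [h1, Finset.sum_image hinj]
  refine Finset.sum_congr rfl fun n hn => ?_
  obtain ⟨b, hb⟩ := (Finset.mem_filter.1 hn).2
  obtain ⟨a, c⟩ := n
  simp only at hb
  subst hb
  have e : 3 * b / 3 = b := by omega
  have e0 : (⟨a, 3 * b⟩ : O) = 0 ↔ a = 0 ∧ 3 * b = 0 := QuadraticAlgebra.ext_iff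
  have e1 : (⟨a, 3 * b⟩ : O) = 1 ↔ a = 1 ∧ 3 * b = 0 := QuadraticAlgebra.ext_iff
  have e2 : (⟨a, 3 * b⟩ : O) = -1 ↔ a = -1 ∧ 3 * b = 0 := QuadraticAlgebra.ext_iff
  unfold cnO cnG
  simp only [e, ne_eq, e0, e1, e2]
  by_cases h : b = 0 ∧ a.natAbs ≤ 1
  · rw [if_pos h, if_neg (by omega), Rat.cast_zero]
  · rw [if_neg h, if_pos (by omega), b2_N]
    push_cast
    ring

end Crest.Agent.R12
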