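import Crest.Agent.R12.ConstB
import Crest.Agent.R12.ConstN

/-!
# R12 / Const : the exact residue (Patterson's constant).  SUB-LEAD task.

`R r := resid 0 (phr r)` is the residue at `5/6` of `∑_{m primary} τ(m) (r/m)₃ N m^{-s}`.
Target: `R λ = cP · c0 / 9 = (2π)^{5/3} / (3^{7/2} Γ(2/3))`.  Plan (checked numerically by helper54):

**A (link).**  For `r = u λ^j`: `gs c (cub c) r = conj (cub c r) · g3 c · √N c` for `c` primary squarefree,
`0` or a cube-type value otherwise; hence `∑ τ(m) cub m r N m^{-s} = conj (psi0 r (conj s + 1/2)) ·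
Zp(3 s - 1/2)`, `Zp = dser (prim 1)` (no cube terms in `psi0 r` since `r` is coprime to `c`;
`cub (c³) r = 1`).  `s = 5/6 ↔ 4/3`, `Zp(2) = Z2`.  With `rho0_link` (`HasRes`), the identity theorem on
`Omg` and `IsRes` (`vor_div`):  `R r = Z2 · conj (rho0 r)`.  Realness of `R λ`/`x := xth = rho0 9`:
the conjugation automorphism of `O` (`g3 (star c) = conj`-type symmetry), `Z2` real `≥ 1`.
Note `9 = -λ⁴·(unit)`, so `rho0 9 = rho0 (unit·λ)` (`rho0_lam_cube`, `rho0_neg`).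
**B (square).**  Class functions `F_i = (1/3) ∑_{j ∈ {-1,0,1}} ζ^{-ij} θ ∘ n(jω)` cut the coefficients
`ath n` (support `3 ∣ n.im`) into `n ≡ i mod 3`-type classes.  The constant terms of `θ ∘ n(±ω) S`
vanish (a stabiliser element of the cusp has `kap = conj ω ≠ 1`: `b = ∓3`, `d = 1 - 3ω`).
`fe_abstract` with `M1 = 3, M2 = 9` gives `kth · xth · R λ = cres · 9^{-2/3} · ath 0 / 3`
(primary class; `ath_prim`) and the same residue for the class `0`.  With A and `rho0_zero`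
(`ath 0 = kth · c0 / (27 Z2)`):  `|R λ|² = (2π)^{10/3} / (3^7 Γ(2/3)²)`.
**C (other coefficients).**  The class-`0` identity reads
`(8/9) R = ∑_{u, i ∈ {2,3,4}} 3^{-2i/3} · kth · Z2 · |rho0 (9 u λ^i)|²`-type (Hecke relation
`rho0_hecke`, geometric series from `rho0_lam_cube`), which bounds `|rho0 u|² ≤ (8/9) 3^{4/3} x²`.
**D (sign).**  `phi_fe` (`ℓ = 0`, `M1 = M2 = 3`, `theta_S`, `theta_exp3`) at `v = (9/8)³`:
`3π (v^{4/3} - 1) ath 0 = ∑_{n ≠ 0} ath n [Vr(|n|/3v) - v^{4/3} Vr(|n| v/3)]`; the bracket lies in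
`[0, Vr(|n|/3v)]` (`I(a₂) ≤ (a₂/a₁)^{1/3} e^{-2(a₂-a₁)} I(a₁)`), `Vr y ≤ (π/Γ(4/3)) √π a^{-1/6}
e^{1/(36a) - 2a}`, `a = c0 y`.  The terms `n = ±1` have the sign of `x`.  If `x < 0` the left side
(`5.67` in units `|ath 0|`; `|x|/rho0 0 = (2π)^{2/3}/Γ(2/3)`-type ratio from B) is at most the sum over
`N n ≥ 4` (`≈ 2.80`: `N = 4: 0.977, 7: 0.62, 9: 0.982, 13: 0.115, …`), contradiction.
As formalised (helper85): A = `ConstA`, B, C = `ConstB` (uniform bound `|rho0 (9n)| ≤ 1.21 |x|`),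
D = `ConstN` and this file, with `v = (17/16)³`, `Vr y ≤ (21/5) π (c0 y)^{-6}` and the lattice sum
`∑ N(n)^{-3} ≤ 3/50` over `3 ∣ n.im`, `n ≠ 0, ±1`.
-/

set_option autoImplicit false

noncomputable section

open scoped Classical ComplexConjugate Topology
open MeasureTheory Filter

namespace Crest.Agent.R12

open Crest.Agent.R17 Crest.Agent.R17.Vor

/-- the bracket of the inversion formula -/
def cdB (n : O) : ℝ := Vr (‖toC n / toC 3‖ * (1 / (17 / 16) ^ 3)) -
  (17 / 16) ^ 4 * Vr (‖toC n / toC 3‖ * (17 / 16) ^ 3)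

theorem cd_sum : HasSum (fun n : O => rho0 (9 * n) * (cdB n : ℂ)) 0 := by
  have hv : (0 : ℝ) < (17 / 16) ^ 3 := by positivity
  have h := phi_fe 0 volink_three volink_three theta_exp3 theta_exp3 cb_poly_ath cb_poly_ath
    (fun w => (theta_S w).symm) hv
  have e : (((17 / 16) ^ 3 : ℝ)) ^ (2 * (((0 : ℤ).natAbs : ℕ) : ℝ) + 4 / 3) = (17 / 16) ^ 4 := by
    rw [← Real.rpow_natCast, ← Real.rpow_mul (by norm_num), ← Real.rpow_natCast]
    norm_num
  rw [e, neg_zero] at h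
  have h1 := ((voc4_hasSum_Phi 0 volink_three cb_poly_ath (one_div_pos.2 hv)).sub
    ((voc4_hasSum_Phi 0 volink_three cb_poly_ath hv).mul_left
      (((17 / 16) ^ 4 : ℝ) : ℂ))).mul_left kth⁻¹
  rw [h, sub_self, mul_zero] at h1
  refine voc0_hasSum_congr h1 fun n => ?_
  have := kth_ne
  simp only [cdB, ath, hp, le_refl, if_true, Int.natAbs_zero, pow_zero, mul_one, Complex.ofReal_sub,
    Complex.ofReal_mul]
  field_simp

theorem cd_B {n : O} (hn : n ≠ 0) :
    0 ≤ cdB n ∧ cdB n ≤ 21 / 5 * Real.pi * (957 / 1000) * (1 / N n ^ 3) := by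
  have h1 := c5_one_le hn
  have h2 : ‖toC n / toC 3‖ = ‖toC n‖ / 3 := by rw [norm_div, map_ofNat]; simp
  have hc := cn_c0
  have hc1 := one_lt_c0
  have hc2 : 3.62 ≤ c0 := by nlinarith
  have hN := N_pos hn
  unfold cdB
  rw [h2]
  constructor
  · have h3 := cn_Vr_mono (q := (17 / 16) ^ 6) (y := ‖toC n‖ / 3 * (1 / (17 / 16) ^ 3))
      (by norm_num) (by nlinarith)
    have e1 : ((17 / 16) ^ 6 : ℝ) ^ (2 / 3 : ℝ) = (17 / 16) ^ 4 := by
      rw [← Real.rpow_natCast, ← Real.rpow_mul (by norm_num), ← Real.rpow_natCast]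
      norm_num
    rw [e1, show (17 / 16 : ℝ) ^ 6 * (‖toC n‖ / 3 * (1 / (17 / 16) ^ 3)) =
      ‖toC n‖ / 3 * (17 / 16) ^ 3 by ring] at h3
    linarith
  · have h3 := cn_Vr_le (y := ‖toC n‖ / 3 * (1 / (17 / 16) ^ 3)) (by positivity)
    have h4 := Vr_pos (‖toC n‖ / 3 * (17 / 16) ^ 3)
    have h5 : (c0 * (‖toC n‖ / 3 * (1 / (17 / 16) ^ 3))) ^ 6 =
        (c0 ^ 2) ^ 3 / (729 * (17 / 16) ^ 18) * N n ^ 3 := by
      rw [← norm_toC_sq]; ring
    have h6 : (13.14 : ℝ) ^ 3 ≤ (c0 ^ 2) ^ 3 := pow_le_pow_left₀ (by norm_num) hc 3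
    have h7 : 1000 / 957 * N n ^ 3 ≤ (c0 ^ 2) ^ 3 / (729 * (17 / 16) ^ 18) * N n ^ 3 := by
      refine mul_le_mul_of_nonneg_right ?_ (by positivity)
      rw [le_div_iff₀ (by positivity)]
      exact le_trans (by norm_num) h6
    have h8 := div_le_div_of_nonneg_left (a := 21 / 5 * Real.pi) (by positivity) (by positivity) h7
    rw [h5] at h3
    have e : 21 / 5 * Real.pi / (1000 / 957 * N n ^ 3) =
        21 / 5 * Real.pi * (957 / 1000) * (1 / N n ^ 3) := by field_simp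
    linarith

/-- **D.** -/
theorem cd_sign {x A : ℝ} (hx : xth = x) (hA : rho0 0 = A) (h : x < 0) : A ≤ 9 / 25 * (-x) := by
  have hπ := Real.pi_pos
  have h1 := (Complex.hasSum_re cd_sum).add
    (hasSum_ite_eq (0 : O) (A * (3 * Real.pi * ((17 / 16) ^ 4 - 1))))
  have hx' : ‖xth‖ = -x := by rw [hx, Complex.norm_real, Real.norm_eq_abs, abs_of_neg h]
  set K : ℝ := 121 / 100 * (-x) * (21 / 5 * Real.pi * (957 / 1000)) with hK
  have hK0 : 0 ≤ K := mul_nonneg (by linarith) (by positivity)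
  have h2 : ∀ n : O, (rho0 (9 * n) * (cdB n : ℂ)).re +
      (if n = 0 then A * (3 * Real.pi * ((17 / 16) ^ 4 - 1)) else 0) ≤ K * cnO n := by
    intro n
    have h0 := mul_nonneg hK0 (cnO_nonneg n)
    rw [Complex.re_mul_ofReal]
    by_cases hn : n = 0
    · subst hn
      refine le_trans (le_of_eq ?_) h0
      simp only [cdB, mul_zero, hA, map_zero, zero_div, norm_zero, zero_mul, Vr_zero, if_true,
        Complex.ofReal_re]
      ring
    rw [if_neg hn, add_zero]
    obtain ⟨b1, b2⟩ := cd_B hn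
    by_cases h3 : n = 1 ∨ n = -1
    · have : rho0 (9 * n) = x := by
        rcases h3 with rfl | rfl
        · rw [mul_one]; exact hx
        · rw [mul_neg, mul_one, rho0_neg]; exact hx
      rw [this, Complex.ofReal_re]
      exact (mul_nonpos_of_nonpos_of_nonneg h.le b1).trans h0
    by_cases h4 : (3 : ℤ) ∣ n.im
    · rw [cnO, if_pos ⟨h4, hn, fun e => h3 (Or.inl e), fun e => h3 (Or.inr e)⟩, hK, mul_assoc]
      have h5 := ((Complex.re_le_norm _).trans (cc_ath hn)).trans_eq (by rw [hx'])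
      exact (mul_le_mul_of_nonneg_right h5 b1).trans (mul_le_mul_of_nonneg_left b2 (by linarith))
    · have h5 : rho0 (9 * n) = 0 := by
        by_contra h5
        exact h4 (ath_supp (mul_ne_zero kth_ne h5))
      rw [h5, Complex.zero_re, zero_mul]
      exact h0
  have h3 := hasSum_le_of_sum_le h1 (c := K * (3 / 50)) fun S => by
    refine (Finset.sum_le_sum fun n _ => h2 n).trans ?_
    rw [← Finset.mul_sum]
    exact mul_le_mul_of_nonneg_left (cn_lat S) hK0
  rw [Complex.zero_re, zero_add, hK] at h3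
  refine le_of_mul_le_mul_left ?_ hπ
  nlinarith [mul_pos hπ (neg_pos.2 h)]

/-- **the residue is Patterson's constant** -/
theorem resid_const : resid 0 (phr lam) = ((cP * c0 / 9 : ℝ) : ℂ) := by
  rw [resid_eq cb_res]
  have h1 := ca_link cb_res
  rw [ca_real cb_res] at h1
  obtain ⟨r, hr⟩ := Complex.conj_eq_iff_real.1 (ca_real cb_res)
  obtain ⟨z, hz, hZ⟩ := ca_Z2
  have hz' : (z : ℂ) ≠ 0 := by exact_mod_cast hz.ne'
  have h0 : rho0 0 = ((c0 / 27 / z : ℝ) : ℂ) := by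
    have := rho0_zero
    change _ * Z2 = _ at this
    rw [hZ] at this
    push_cast
    rw [eq_div_iff hz', this]
  have hx : xth = ((r / z : ℝ) : ℂ) := by
    rw [hr, hZ] at h1
    push_cast
    rw [eq_div_iff hz', h1, mul_comm]
  have h2 : r ^ 2 = (cP * c0 / 9) ^ 2 := by
    have h3 := (inv_mul_eq_iff_eq_mul₀ (mul_ne_zero kth_ne xth_ne)).1 hr
    rw [Rf, ath, mul_zero, h0, hx] at h3
    have h4 : ((cres * (9 : ℝ) ^ (-(2 / 3 : ℝ)) * (c0 / 27 / z) / 3 : ℝ) : ℂ) =
        ((r / z * r : ℝ) : ℂ) := by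
      apply mul_left_cancel₀ kth_ne
      rw [Complex.ofReal_div, Complex.ofReal_mul, Complex.ofReal_mul (r / z), Complex.ofReal_ofNat]
      linear_combination h3
    have h5 := Complex.ofReal_injective h4
    rw [cn_sq]
    field_simp at h5
    linarith
  rw [hr]
  have hc : 0 < c0 := lt_trans one_pos one_lt_c0
  have hP := cn_cP_pos
  rcases sq_eq_sq_iff_eq_or_eq_neg.1 h2 with h | h
  · rw [h]
  · exfalso
    have h3 := cd_sign hx h0 (div_neg_of_neg_of_pos (by rw [h]; exact neg_neg_of_pos (by positivity)) hz)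
    rw [h, neg_div, neg_neg, ← mul_div_assoc, div_le_div_iff_of_pos_right hz] at h3
    nlinarith [mul_le_mul_of_nonneg_right cn_cP_le hc.le]

end Crest.Agent.R12
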