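import Crest.Agent.R12.VoDiv

/-!
# R12 / ConstA : the link between the residues at `5/6` and `rho0`; realness
-/

set_option autoImplicit false

noncomputable section

open scoped Classical ComplexConjugate Topology
open MeasureTheory Filter

namespace Crest.Agent.R12

open Crest.Agent.R17 Crest.Agent.R17.Vor

theorem ca_dser_conj (a : O → ℂ) (s : ℂ) :
    conj (dser a s) = dser (fun n => conj (a n)) (conj s) := by
  unfold dser
  rw [Complex.conj_tsum]
  refine tsum_congr fun n => ?_
  split_ifs with hn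
  · simp
  · rw [map_mul, LM.cpow_eq (N_pos hn), LM.cpow_eq (N_pos hn), ← Complex.exp_conj]
    simp

theorem IsRes.conj {a : O → ℂ} {R : ℂ} (h : IsRes a R) : IsRes (fun n => conj (a n)) (conj R) := by
  obtain ⟨E, hE, σ0, h1⟩ := h
  refine ⟨fun s => conj (E (conj s)), fun s => ?_, σ0, fun s hs => ?_⟩
  · have := (hE (conj s)).conj_conj
    rw [Complex.conj_conj] at this
    exact this
  · have h2 := congrArg conj (h1 (conj s) (by simpa using hs))
    rw [ca_dser_conj, Complex.conj_conj] at h2
    rw [← h2]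
    simp [map_ofNat]

theorem IsRes.smul {a : O → ℂ} {R : ℂ} (h : IsRes a R) (c : ℂ) :
    IsRes (fun n => c * a n) (c * R) := by
  obtain ⟨E, hE, σ0, h1⟩ := h
  refine ⟨fun s => c * E s, by fun_prop, σ0, fun s hs => ?_⟩
  rw [vh1_mul, ← h1 s hs]
  ring

theorem IsRes.congr {a b : O → ℂ} {R : ℂ} (h : IsRes a R) (e : ∀ n, n ≠ 0 → a n = b n) :
    IsRes b R := by
  obtain ⟨E, hE, σ0, h1⟩ := h
  exact ⟨E, hE, σ0, fun s hs => (h1 s hs).trans (vh1_congr e s)⟩

theorem ca_isRes {ℓ : ℤ} {a b : O → ℂ} {ρ : ℝ} {R : ℂ} (h : HasFE ℓ a b ρ R) : IsRes a R := by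
  obtain ⟨E, hE, -, h1, -⟩ := h
  exact ⟨E, hE, h1⟩

/-- identity theorem on `Re s > 2` -/
theorem ca_hasRes {A F : ℂ → ℂ} (hA : Differentiable ℂ A)
    (hF : DifferentiableOn ℂ F {s | 2 < s.re}) {σ0 : ℝ}
    (h : ∀ s : ℂ, σ0 < s.re → A s = (s - 4 / 3) * F s) : HasRes F (A (4 / 3)) := by
  have hU : IsOpen {s : ℂ | 2 < s.re} := isOpen_lt continuous_const Complex.continuous_re
  have h1 : AnalyticOnNhd ℂ A {s | 2 < s.re} := hA.differentiableOn.analyticOnNhd hU
  have h2 : AnalyticOnNhd ℂ (fun s => (s - 4 / 3) * F s) {s | 2 < s.re} :=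
    DifferentiableOn.analyticOnNhd (DifferentiableOn.mul (by fun_prop) hF) hU
  have h3 := h1.eqOn_of_preconnected_of_eventuallyEq h2 (convex_halfSpace_re_gt 2).isPreconnected
    (z₀ := ((max σ0 2 + 1 : ℝ) : ℂ)) (by
      have := le_max_right σ0 2
      simp only [Set.mem_ofPred_eq, Complex.ofReal_re]
      linarith) (by
      have h4 : {s : ℂ | σ0 < s.re} ∈ 𝓝 ((max σ0 2 + 1 : ℝ) : ℂ) := by
        refine (isOpen_lt continuous_const Complex.continuous_re).mem_nhds ?_
        have := le_max_left σ0 2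
        simp only [Set.mem_ofPred_eq, Complex.ofReal_re]
        linarith
      filter_upwards [h4] with s hs using h s hs)
  refine (hasRes_pole hA.differentiableOn).congr fun s _ hs => ?_
  have h2 : s - 4 / 3 ≠ 0 := by
    intro e
    have := congrArg Complex.re e
    norm_num at this
    linarith
  rw [h3 hs, mul_div_cancel_left₀ _ h2]

/-- a pole at `5/6` becomes a pole at `4/3` -/
theorem IsRes.hasRes {b : O → ℂ} {R : ℂ} (h : IsRes b R) {B F : ℂ → ℂ} (hB : Differentiable ℂ B)
    (hF : DifferentiableOn ℂ F {s | 2 < s.re})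
    (e : ∀ s : ℂ, 3 < s.re → B s * dser b (s - 1 / 2) = F s) : HasRes F (B (4 / 3) * R) := by
  obtain ⟨E, hE, σ0, h1⟩ := h
  have key := ca_hasRes (A := fun s => B s * ((s - 4 / 3) * E (s - 1 / 2) + R)) (by fun_prop) hF
    (σ0 := max (σ0 + 1 / 2) 3) fun s hs => by
      have a1 := (le_max_left _ _).trans_lt hs
      have a2 := (le_max_right _ _).trans_lt hs
      have h2 : s - 4 / 3 ≠ 0 := by
        intro e
        have := congrArg Complex.re e
        norm_num at this
        linarith
      rw [← e s a2, ← h1 (s - 1 / 2) (by norm_num; linarith),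
        show s - 1 / 2 - 5 / 6 = s - 4 / 3 by ring, mul_left_comm, mul_add (s - 4 / 3),
        mul_div_cancel₀ R h2]
  simpa using key

/-- conjugate twisted theta coefficients -/
def tcj (r : O) : O → ℂ := prim (fun m => conj (tau m * cub m r))

def Lk (r : O) (s : ℂ) : ℂ := dser (prim (fun _ => 1)) (3 * s - 2) * psi0 r s

theorem ca_Zp_diff : DifferentiableOn ℂ (fun s : ℂ => dser (prim (fun _ => 1)) (3 * s - 2))
    {s | 1 < s.re} := by
  have h1 : DifferentiableOn ℂ (dser (prim (fun _ => 1))) {s | 1 + 0 < s.re} :=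
    differentiableOn_dser (C := 1) fun n _ => by
      rw [Real.rpow_zero, mul_one]
      unfold prim
      split_ifs <;> simp
  refine h1.comp (by fun_prop) fun s hs => ?_
  simp only [Set.mem_ofPred_eq] at hs ⊢
  simp
  linarith

theorem Lk_diff (r : O) : DifferentiableOn ℂ (Lk r) {s | 2 < s.re} := by
  refine (ca_Zp_diff.mono fun s hs => ?_).mul ?_
  · simp only [Set.mem_ofPred_eq] at hs ⊢
    linarith
  · have h1 := differentiableOn_dser (a := prim (fun c => gs c (cub c) r)) (C := 1) (α := 1)
      fun n hn => by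
        rw [Real.rpow_one, one_mul]
        unfold prim
        split_ifs with h
        · exact norm_gs_le hn ((rcub_isChar h).norm_le hn) r
        · rw [norm_zero]; exact N_nonneg n
    rw [one_add_one_eq_two] at h1
    exact h1

theorem Lk_res (r : O) : HasRes (Lk r) (Z2 * rho0 r) := by
  have h := (rho0_link r).hol_mul ca_Zp_diff
  rw [show (3 : ℂ) * (4 / 3) - 2 = 2 by ring] at h
  exact h

theorem ca_tau {m : O} (hm : Prim m) : conj (tau m) =
    ∑ c ∈ pdiv m, if c ^ 3 ∣ m then g3 (m / c ^ 3) * (Real.sqrt (N c) : ℂ) else 0 := by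
  rw [tau, map_sum]
  refine Finset.sum_congr rfl fun c hc => ?_
  have hc' := ((mem_pdiv hm.ne_zero).1 hc).1
  by_cases h1 : c ^ 3 ∣ m
  · by_cases h2 : Squarefree (m / c ^ 3)
    · rw [if_pos ⟨h1, h2⟩, if_pos h1]; simp
    · rw [if_neg fun h => h2 h.2, if_pos h1, g3_eq_zero (hm.div (hc'.pow 3) h1) h2]; simp
  · rw [if_neg fun h => h1 h.1, if_neg h1, map_zero]

/-- the Dirichlet convolution -/
theorem ca_conv {r : O} (hr : ∀ m, Prim m → IsCoprime r m) {s : ℂ} (hs : 3 < s.re) :
    dser (tcj r) (s - 1 / 2) = Lk r s := by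
  let H : O → O → ℂ := fun n e =>
    if Prim e then (if Prim n ∧ e ^ 3 ∣ n then
      g3 (n / e ^ 3) * (Real.sqrt (N e) : ℂ) * conj (cub n r) * (N n : ℂ) ^ (-(s - 1 / 2))
      else 0) else 0
  have hfin : ∀ n e, e ∉ pdiv n → H n e = 0 := by
    intro n e he
    simp only [H]
    split_ifs with h2 h3
    · exact absurd ((mem_pdiv h3.1.ne_zero).2
        ⟨h2, (dvd_pow_self e (by norm_num)).trans h3.2⟩) he
    · rfl
    · rfl
  have hHb : ∀ n e, ‖H n e‖ ≤ N n ^ (-(3 / 2 : ℝ)) * N e ^ (-(3 / 2 : ℝ)) := by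
    intro n e
    have h0 := mul_nonneg (Real.rpow_nonneg (N_nonneg n) (-(3 / 2 : ℝ)))
      (Real.rpow_nonneg (N_nonneg e) (-(3 / 2 : ℝ)))
    simp only [H]
    split_ifs with h2 h3
    · have hn := h3.1.ne_zero
      have hN := N_pos hn
      have hE := N_pos h2.ne_zero
      have h5 : N e ^ (2 : ℝ) ≤ N n := by
        rw [Real.rpow_two, ← N_pow]
        exact N_le_of_dvd hn ((pow_dvd_pow e (by norm_num)).trans h3.2)
      rw [norm_mul, norm_mul, norm_mul, Complex.norm_cpow_eq_rpow_re_of_pos hN, Complex.norm_real,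
        Real.norm_of_nonneg (Real.sqrt_nonneg _), Complex.norm_conj]
      have h6 : (-(s - 1 / 2)).re = -(s.re - 1 / 2) := by simp
      rw [h6]
      have h7 := norm_g3_le (h3.1.div (h2.pow 3) h3.2)
      have h8 := (rcub_isChar h3.1).norm_le hn r
      have h9 : N n ^ (-(s.re - 1 / 2)) ≤ N n ^ (-(3 / 2 : ℝ)) * N n ^ (-1 : ℝ) := by
        rw [← Real.rpow_add hN]
        exact Real.rpow_le_rpow_of_exponent_le (one_le_N hn) (by linarith)
      have h10 : N n ^ (-1 : ℝ) ≤ N e ^ (-2 : ℝ) := by
        rw [show (-2 : ℝ) = 2 * (-1) by norm_num, Real.rpow_mul hE.le]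
        exact Real.rpow_le_rpow_of_nonpos (by positivity) h5 (by norm_num)
      calc _ ≤ 1 * Real.sqrt (N e) * 1 * (N n ^ (-(3 / 2 : ℝ)) * N e ^ (-2 : ℝ)) := by
            gcongr
            exact h9.trans (by gcongr)
        _ = N n ^ (-(3 / 2 : ℝ)) * (N e ^ (1 / 2 : ℝ) * N e ^ (-2 : ℝ)) := by
            rw [Real.sqrt_eq_rpow]; ring
        _ = _ := by rw [← Real.rpow_add hE]; norm_num
    · simpa using h0
    · simpa using h0
  have hsum : Summable (Function.uncurry H) := by
    have h := summable_N_rpow (σ := 3 / 2) (by norm_num)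
    exact Summable.of_norm_bounded (h.mul_of_nonneg h (fun n => Real.rpow_nonneg (N_nonneg n) _)
      (fun n => Real.rpow_nonneg (N_nonneg n) _)) fun x => hHb x.1 x.2
  have h2 : Lk r s = ∑' e, ∑' n, H n e := by
    rw [Lk, LM.dser_prim (fun _ => 1), ← tsum_mul_right]
    refine tsum_congr fun e => ?_
    simp only [H]
    split_ifs with he
    · rw [tsum_prim_dvd (he.pow 3) (fun n => g3 (n / e ^ 3) * (Real.sqrt (N e) : ℂ) *
        conj (cub n r) * (N n : ℂ) ^ (-(s - 1 / 2))), psi0, LM.dser_prim, ← tsum_mul_left]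
      refine tsum_congr fun m => ?_
      split_ifs with hm
      · have e1 : cub (e ^ 3 * m) r = cub m r := by
          rw [rkub_mul_left (he.pow 3) hm, vorho1_cub_pow he]
          simp only
          rw [rcub_cube he (hr e he), one_mul]
        have e2 : gs m (cub m) r = conj (cub m r) * (g3 m * (Real.sqrt (N m) : ℂ)) := by
          have hs' : ((Real.sqrt (N m) : ℝ) : ℂ) ≠ 0 := by
            exact_mod_cast (Real.sqrt_pos.2 (N_pos hm.ne_zero)).ne'
          rw [g3, div_mul_cancel₀ _ hs', ← gs_mul_unit hm.ne_zero (rcub_isChar hm) (hr m hm), mul_one]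
        have hE := N_pos he.ne_zero
        have hM := N_pos hm.ne_zero
        rw [mul_div_cancel_left₀ _ (he.pow 3).ne_zero, e1, e2, Real.sqrt_eq_rpow, Real.sqrt_eq_rpow,
          c5_rpow hE, c5_rpow hM, LM.cpow_eq hE, LM.cpow_eq hM,
          LM.cpow_eq (N_pos ((he.pow 3).mul hm).ne_zero), N_mul, N_pow,
          Real.log_mul (by positivity) hM.ne', Real.log_pow]
        have e3 : ∀ a b c d e x y : ℂ, a + b + c = d + e →
            1 * Complex.exp a * (x * (y * Complex.exp b) * Complex.exp c) =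
              y * Complex.exp d * x * Complex.exp e := by
          intro a b c d e x y h
          have := congrArg Complex.exp h
          rw [Complex.exp_add, Complex.exp_add, Complex.exp_add] at this
          linear_combination x * y * this
        refine e3 _ _ _ _ _ _ _ ?_
        push_cast
        ring
      · simp
    · simp
  rw [h2, hsum.tsum_comm, tcj, LM.dser_prim]
  refine tsum_congr fun n => ?_
  rw [tsum_eq_sum (s := pdiv n) (fun e he => hfin n e he)]
  split_ifs with hn
  · rw [map_mul, ca_tau hn, Finset.sum_mul, Finset.sum_mul]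
    refine Finset.sum_congr rfl fun e he => ?_
    have h1 := ((mem_pdiv hn.ne_zero).1 he).1
    simp only [H]
    rw [if_pos h1]
    by_cases h3 : e ^ 3 ∣ n
    · rw [if_pos h3, if_pos ⟨hn, h3⟩]
    · rw [if_neg h3, if_neg fun h => h3 h.2]; simp
  · refine (Finset.sum_eq_zero fun e _ => ?_).symm
    simp [H, hn]

theorem ca_th3 (r n : O) : conj (prim (th3 0 (phr r)) n) = tcj r n := by
  unfold tcj prim th3 phr
  split_ifs <;> simp

/-- **A.** the link -/
theorem ca_link {R : ℂ} (h : IsRes (prim (th3 0 (phr lam))) R) : conj R = Z2 * xth := by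
  have h1 := (h.conj.congr fun n _ => ca_th3 lam n).hasRes (B := fun _ => 1) (by fun_prop)
    (Lk_diff lam) fun s hs => by
      rw [one_mul, ca_conv (fun m hm => hm.isCoprime_lam.symm) hs]
  have h2 := h1.unique (Lk_res lam)
  rw [one_mul] at h2
  rw [h2, xth, ← rho0_lam_cube lam]
  congr 2

theorem ca_g3_star {n : O} (hn : Prim n) : g3 (star n) = conj (g3 n) := by
  have h0 := hn.ne_zero
  have h3 : IsCoprime n ((3 : ℕ) : O) := by exact_mod_cast hn.isCoprime_three
  have hs : ∀ d, cub (star n) (star d) = conj (cub n d) :=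
    sym_star (k := 3) (Or.inr (Or.inl rfl)) h3
  have h1 : gs (star n) (cub (star n)) 1 = conj (gs n (cub n) 1) := by
    rw [gs, ← b4_sum_res_map (star_ne_zero.2 h0)
      ((rcub_isChar (rcub_star_prim hn)).per.mul (ad_per (star n) 1)) (res n) star, gs, map_sum]
    · refine Finset.sum_congr rfl fun x _ => ?_
      rw [map_mul, ← hs, one_mul, one_mul, ad, ad, toC_star, toC_star, ← map_div₀, ← ee_neg]
      rw [ee, ee, Complex.conj_im, Complex.neg_im]
    · intro x
      obtain ⟨r, hr, h⟩ := exists_res h0 (star x)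
      exact ⟨r, hr, by simpa using s1_star_dvd h⟩
    · intro i hi j hj h
      exact res_inj h0 hi hj (by simpa using s1_star_dvd h)
  have h4 : N (star n) = N n := by rw [N, N, nm_star]
  rw [g3, g3, h1, h4, map_div₀, Complex.conj_ofReal]

theorem ca_tau_star {m : O} (hm : Prim m) : tau (star m) = conj (tau m) := by
  have key : ∀ m, Prim m → tau m ≠ 0 → tau (star m) = conj (tau m) := by
    intro m hm h
    obtain ⟨m0, c, h1, h2, h3, rfl⟩ := tau_ne_zero hm h
    have h4 : Squarefree (star m0) := fun x hx => by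
      have h5 := h2 (star x) (by simpa [mul_comm] using s1_star_dvd hx)
      simpa using h5.star
    rw [star_mul', star_pow, tau_eq (rcub_star_prim h1) h4 (rcub_star_prim h3), tau_eq h1 h2 h3,
      ca_g3_star h1, map_mul, Complex.conj_ofReal, N, N, nm_star]
  by_cases h : tau m = 0
  · by_contra h1
    rw [h, map_zero] at h1
    have h2 := key _ (rcub_star_prim hm) h1
    rw [star_star, h] at h2
    exact h1 (by simpa using h2.symm)
  · exact key m hm h

/-- **A.** realness -/
theorem ca_real {R : ℂ} (h : IsRes (prim (th3 0 (phr lam))) R) : conj R = R := by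
  have e : ∀ n, prim (th3 0 (phr lam)) (star n) = conj (prim (th3 0 (phr lam)) n) := by
    intro n
    unfold prim th3 phr
    by_cases hn : Prim n
    · have h3 : IsCoprime n ((3 : ℕ) : O) := by exact_mod_cast hn.isCoprime_three
      have hs : ∀ d, cub (star n) (star d) = conj (cub n d) :=
        sym_star (k := 3) (Or.inr (Or.inl rfl)) h3
      have h2 : cub (star n) lam = conj (cub n lam) := by
        rw [show lam = star (-1 * lam) by decide, hs, (rcub_isChar hn).mul,
          cub_neg_one hn.isCoprime_three, one_mul, show star (-1 * lam) = lam by decide]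
      simp only [if_pos hn, if_pos (rcub_star_prim hn), ca_tau_star hn, h2, zpow_zero, mul_one,
        map_mul]
    · have : ¬ Prim (star n) := fun h => hn (by simpa using rcub_star_prim h)
      simp only [if_neg hn, if_neg this, map_zero]
  obtain ⟨E, hE, σ0, h1⟩ := h.conj
  refine IsRes.unique ⟨E, hE, σ0, fun s hs => (h1 s hs).trans ?_⟩ h
  unfold dser
  rw [← (star_involutive.toPerm (star : O → O)).tsum_eq
    (fun n => if n = 0 then 0 else prim (th3 0 (phr lam)) n * (N n : ℂ) ^ (-s))]
  refine tsum_congr fun n => ?_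
  simp only [Function.Involutive.coe_toPerm, star_eq_zero, e, N, nm_star]

theorem ca_Z2 : ∃ z : ℝ, 0 < z ∧ Z2 = z := by
  have hs := summable_N_rpow (σ := 2) one_lt_two
  have h1 : Summable fun n : O => if Prim n then N n ^ (-(2 : ℝ)) else 0 :=
    Summable.of_nonneg_of_le (fun n => by split_ifs; exacts [Real.rpow_nonneg (N_nonneg n) _, le_rfl])
      (fun n => by split_ifs; exacts [le_rfl, Real.rpow_nonneg (N_nonneg n) _]) hs
  refine ⟨∑' n : O, if Prim n then N n ^ (-(2 : ℝ)) else 0, h1.tsum_pos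
    (fun n => by split_ifs; exacts [Real.rpow_nonneg (N_nonneg n) _, le_rfl]) 1
    (by rw [if_pos Prim.one]; exact Real.rpow_pos_of_pos (N_pos one_ne_zero) _), ?_⟩
  rw [Z2, LM.dser_prim, Complex.ofReal_tsum]
  refine tsum_congr fun n => ?_
  split_ifs
  · rw [Complex.ofReal_cpow (N_nonneg n), one_mul]; norm_num
  · simp

end Crest.Agent.R12
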