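import Crest.Agent.R12.ConstA

/-!
# R12 / ConstB : the residues of the full series and of the primary class
-/

set_option autoImplicit false

noncomputable section

open scoped Classical ComplexConjugate Topology
open MeasureTheory Filter

namespace Crest.Agent.R12

open Crest.Agent.R17 Crest.Agent.R17.Vor

theorem cb_add {F G : X → ℂ} {M : O} {a b : O → ℂ} (h : HasExp F M a) (h' : HasExp G M b) :
    HasExp (fun w => F w + G w) M (fun n => a n + b n) := fun z v hv => by
  have := (h z v hv).add (h' z v hv)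
  simpa only [add_mul] using this

theorem cb_N3 : N 3 = 9 := by
  have : nm 3 = 9 := by decide
  rw [N, this]; norm_num

theorem cb_poly_ath : PolyBd ath := by
  obtain ⟨C, hC⟩ := voexp_rho0_le
  refine polyBd_of_le (M := ‖kth‖ * C) fun n => ?_
  rw [ath, norm_mul]
  exact mul_le_mul_of_nonneg_left (hC _) (norm_nonneg _)

theorem cb_exp (σ : SL O) : ∃ a, HasExp (fun w => theta (act (ι σ) w)) 9 a ∧ PolyBd a := by
  obtain ⟨C, hC⟩ := theta_exp
  obtain ⟨a, h1, h2, h3⟩ := hC σ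
  refine ⟨a, h1, C, 0, fun n hn => ?_⟩
  obtain ⟨u, j, m, hu, hm, rfl⟩ := exists_eq_unit_lam_prim hn
  refine (h3 u j m hu hm).trans ?_
  have hN := N_pos hm.ne_zero
  rw [mul_assoc, pow_zero]
  refine mul_le_mul_of_nonneg_left ?_ ((norm_nonneg _).trans h2)
  refine (mul_le_mul_of_nonneg_right (norm_tau_le hm) (Real.rpow_nonneg hN.le _)).trans ?_
  rw [← Real.rpow_add hN]
  simp

/-- the constant term vanishes at a cusp whose stabiliser has non-trivial character -/
theorem cb_zero {σ γ : SL O} {t : O} (hγ : γ ∈ Gam 1) (hk : kap γ ≠ 1) (e : σ * nn t = γ * σ)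
    {a : O → ℂ} (h : HasExp (fun w => theta (act (ι σ) w)) 9 a) : a 0 = 0 := by
  have h1 := HasExp.unique (by decide) ((h.transl (toC t)).congr (fun w => by
    rw [← ι_nn, ← act_mul, ← map_mul, e, voexp_aut hγ]) fun _ => rfl) (h.smul (conj (kap γ)))
  have h2 := congrFun h1 0
  simp only [map_zero, zero_mul, zero_div, ee_zero, mul_one] at h2
  by_contra h3
  have h4 := (mul_eq_right₀ h3).1 h2.symm
  exact hk (by simpa using congrArg conj h4)

theorem cb_cub : cub (1 + 3 * om) (-3) ≠ 1 := by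
  rw [← lam_sq, rkub_pow vosym_p2, vosym_lam2, ← pow_mul, show 2 * 2 = 3 + 1 from rfl, pow_succ,
    rkub_omC_cube, one_mul]
  exact rcub_omC_ne.1

/-- `e^{2πi/3}` -/
def z3 : ℂ := Complex.exp (2 * Real.pi * ((1 / 3 : ℝ) : ℂ) * Complex.I)

theorem z3_ne : z3 ≠ 0 := Complex.exp_ne_zero _

theorem cb_class (m : ℤ) : 1 + z3 ^ m + z3 ^ (-m) = if (3 : ℤ) ∣ m then 3 else 0 := by
  have h3 : z3 ^ (3 : ℕ) = 1 := by
    rw [z3, ← Complex.exp_nat_mul, ← Complex.exp_two_pi_mul_I]
    congr 1; push_cast; ring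
  have h1 : z3 ≠ 1 := fun h => by
    obtain ⟨k, hk⟩ := b4_exp_eq_one h
    have : (1 : ℝ) = 3 * k := by linarith
    have : (1 : ℤ) = 3 * k := by exact_mod_cast this
    omega
  have h2 : 1 + z3 + z3 ^ 2 = 0 :=
    mul_left_cancel₀ (sub_ne_zero.2 h1) (by linear_combination h3)
  have h4 : ∀ (q : ℤ) (r : ℕ), z3 ^ (3 * q + r) = z3 ^ r := fun q r => by
    rw [zpow_add₀ z3_ne, zpow_mul, zpow_natCast, show (3 : ℤ) = ((3 : ℕ) : ℤ) from rfl,
      zpow_natCast, h3, one_zpow, one_mul]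
  have h5 : m % 3 = 0 ∨ m % 3 = 1 ∨ m % 3 = 2 := by omega
  rcases h5 with h | h | h
  · rw [if_pos (by omega), show -m = 3 * (-(m / 3)) + (0 : ℕ) by omega,
      show m = 3 * (m / 3) + (0 : ℕ) by omega, h4, h4]
    norm_num
  · rw [if_neg (by omega), show -m = 3 * (-(m / 3) - 1) + (2 : ℕ) by omega,
      show m = 3 * (m / 3) + (1 : ℕ) by omega, h4, h4]
    linear_combination h2
  · rw [if_neg (by omega), show -m = 3 * (-(m / 3) - 1) + (1 : ℕ) by omega,
      show m = 3 * (m / 3) + (2 : ℕ) by omega, h4, h4]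
    linear_combination h2

theorem cb_ee (x : O) : ee (toC x / toC 3) = z3 ^ x.im := by
  have h3 : toC x / toC 3 = ((x.re / 3 : ℝ) : ℂ) + ((x.im / 3 : ℝ) : ℂ) * omC := by
    rw [toC_apply x, map_ofNat]
    push_cast
    ring
  rw [h3, ee_real_om, z3, ← Complex.exp_int_mul]
  congr 1; push_cast; ring

/-- the residue of the full series -/
def Rf : ℂ := ((cres * (9 : ℝ) ^ (-(2 / 3 : ℝ)) : ℝ) : ℂ) * ath 0

theorem cb_full : IsRes (fun n => ath n * ((N n ^ (1 / 6 : ℝ) : ℝ) : ℂ)) Rf := by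
  have h := ca_isRes (fe_abstract 0 volink_three volink_three theta_exp3 theta_exp3 cb_poly_ath
    cb_poly_ath fun w => (theta_S w).symm)
  rw [if_pos rfl, cb_N3] at h
  exact h.congr fun n _ => by simp

theorem cb_prim : IsRes (prim (fun n => ath n * ((N n ^ (1 / 6 : ℝ) : ℝ) : ℂ))) (Rf / 3) := by
  obtain ⟨a0, e0, p0⟩ := cb_exp SS⁻¹
  obtain ⟨a1, e1, p1⟩ := cb_exp (nn om * SS⁻¹)
  obtain ⟨a2, e2, p2⟩ := cb_exp (nn (-om) * SS⁻¹)
  have hS : ∀ w, theta (act (ι SS⁻¹) w) = theta w := fun w => by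
    rw [← theta_S, ← ι_SS, ← act_mul, ← map_mul, mul_inv_cancel, map_one, act_one]
  have h0 : a0 0 = ath 0 := by
    have h1 := (theta_exp3.upperTri (M' := 9) (k := 3) 1 rfl volink_three (by
      simp only [SL.one_a, map_ofNat]; norm_num)).congr (G := fun w => theta (act (ι SS⁻¹) w))
      (fun w => by rw [act_one, hS]) fun _ => rfl
    have h2 := congrFun (HasExp.unique (by decide) e0 h1) 0
    simpa [ee_zero] using h2
  have h1 : a1 0 = 0 := by
    refine cb_zero (γ := ⟨1 - 3 * om, 3 * om ^ 2, -3, 1 + 3 * om, by ring⟩) (t := 3)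
      ⟨⟨-om, by ring⟩, dvd_mul_right _ _, by simp, vosym_p2, one_dvd _⟩ cb_cub ?_ e1
    ext : 1 <;> simp [nn, SS] <;> ring
  have h2 : a2 0 = 0 := by
    refine cb_zero (γ := ⟨1 - 3 * om, -(3 * om ^ 2), 3, 1 + 3 * om, by ring⟩) (t := -3)
      ⟨⟨-om, by ring⟩, (dvd_neg).2 (dvd_mul_right _ _), dvd_rfl, vosym_p2, one_dvd _⟩
      (fun h => cb_cub ((voar_cub_neg vosym_p2 3).trans h)) ?_ e2
    ext : 1 <;> simp [nn, SS] <;> ring
  have f1 := ((cb_add (cb_add theta_exp3 ((theta_exp3.transl (toC om)).smul z3⁻¹))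
    ((theta_exp3.transl (toC (-om))).smul z3)).smul (1 / 3)).congr (fun _ => rfl)
    (b := prim ath) fun n => by
      by_cases hn : ath n = 0
      · unfold prim
        simp [hn]
      have h3 := ath_supp hn
      have h4 := cb_class (n.re - n.im - 1)
      have e1 : (n * om).im = n.re - n.im := by simp [om]; ring
      have e2 : (n * -om).im = -(n.re - n.im) := by simp [om]; ring
      rw [← map_mul, ← map_mul, cb_ee, cb_ee, e1, e2]
      rw [neg_sub, zpow_sub₀ z3_ne, zpow_sub₀ z3_ne 1, zpow_one] at h4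
      rw [zpow_neg]
      unfold prim
      by_cases h5 : Prim n
      · rw [if_pos h5]
        rw [b1_prim_iff] at h5
        rw [if_pos (by omega)] at h4
        linear_combination (ath n / 3) * h4
      · rw [if_neg h5]
        rw [b1_prim_iff] at h5
        rw [if_neg (by omega)] at h4
        linear_combination (ath n / 3) * h4
  have f2 := (cb_add (cb_add e0 (e1.smul z3⁻¹)) (e2.smul z3)).smul (1 / 3)
  have q1 : PolyBd (prim ath) := by
    obtain ⟨C, j, h⟩ := cb_poly_ath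
    refine ⟨C, j, fun n hn => le_trans ?_ (h n hn)⟩
    unfold prim
    split_ifs <;> simp
  have h := ca_isRes (fe_abstract 0 volink_three (by decide) f1 f2 q1
    (vd_poly_smul _ (vd_poly_add (vd_poly_add p0 (vd_poly_smul _ p1)) (vd_poly_smul _ p2)))
    fun w => by
      simp only [← ι_SS, ← act_mul, ← map_mul, inv_mul_cancel, inv_mul_cancel_right, map_one,
        act_one, ι_nn])
  rw [if_pos rfl, cb_N3, h0, h1, h2] at h
  rw [show Rf / 3 = ((cres * (9 : ℝ) ^ (-(2 / 3 : ℝ)) : ℝ) : ℂ) *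
    (1 / 3 * (ath 0 + z3⁻¹ * 0 + z3 * 0)) by rw [Rf]; ring]
  refine h.congr fun n _ => ?_
  unfold prim
  split_ifs <;> simp

/-- **B.** -/
theorem cb_res : IsRes (prim (th3 0 (phr lam))) ((kth * xth)⁻¹ * (Rf / 3)) := by
  refine (cb_prim.smul _).congr fun n _ => ?_
  unfold prim th3 phr
  split_ifs with hn
  · have := mul_ne_zero kth_ne xth_ne
    beta_reduce
    rw [ath_prim hn, zpow_zero, mul_assoc (kth * xth), inv_mul_cancel_left₀ this]
    ring
  · simp

/-! ## C : the other coefficients -/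

/-- `3^{2/3 - s}` -/
def w3 (s : ℂ) : ℂ := Complex.exp ((2 / 3 - s) * Real.log 3)

theorem cc_term (s : ℂ) {n : O} (hn : n ≠ 0) (j : ℕ) :
    ((N (n * lam ^ j) ^ (1 / 6 : ℝ) : ℝ) : ℂ) * (N (n * lam ^ j) : ℂ) ^ (-(s - 1 / 2)) =
      w3 s ^ j * (((N n ^ (1 / 6 : ℝ) : ℝ) : ℂ) * (N n : ℂ) ^ (-(s - 1 / 2))) := by
  have h1 := N_pos hn
  have h2 := N_pos (mul_ne_zero hn (pow_ne_zero j va2_lam_ne))
  have h3 : N lam = 3 := by rw [N, nm_lam]; norm_num
  rw [c5_rpow h1, c5_rpow h2, LM.cpow_eq h1, LM.cpow_eq h2, w3, ← Complex.exp_nat_mul,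
    ← Complex.exp_add, ← Complex.exp_add, ← Complex.exp_add, N_mul, N_pow, h3,
    Real.log_mul h1.ne' (by positivity), Real.log_pow]
  congr 1
  push_cast
  ring

theorem cc_nine : (9 : O) = lam ^ 4 := by decide

theorem cc_split {s : ℂ} (hs : 3 < s.re) :
    (1 - w3 s ^ 3) * dser (fun n => conj (ath n * ((N n ^ (1 / 6 : ℝ) : ℝ) : ℂ))) (s - 1 / 2) =
      ∑ u ∈ units6, ∑ j ∈ Finset.range 3,
        w3 s ^ j * conj (kth * rho0 (u * lam ^ (j + 4))) * Lk (u * lam ^ (j + 4)) s := by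
  obtain ⟨C, hC⟩ := voexp_rho0_le
  set F : O → ℂ := fun n => if n = 0 then 0 else
    conj (ath n * ((N n ^ (1 / 6 : ℝ) : ℝ) : ℂ)) * (N n : ℂ) ^ (-(s - 1 / 2)) with hF
  have hsum : Summable F := by
    refine Summable.of_norm (summable_dser (C := ‖kth‖ * C) (α := 1 / 6) (fun n _ => ?_) ?_)
    · rw [Complex.norm_conj, norm_mul, ath, norm_mul, Complex.norm_real,
        Real.norm_of_nonneg (Real.rpow_nonneg (N_nonneg n) _)]
      exact mul_le_mul_of_nonneg_right (mul_le_mul_of_nonneg_left (hC _) (norm_nonneg _))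
        (Real.rpow_nonneg (N_nonneg n) _)
    · norm_num; linarith
  have hl3 : lam ^ 3 ≠ 0 := pow_ne_zero 3 va2_lam_ne
  have h1 : Summable fun n => if lam ^ 3 ∣ n then F n else 0 :=
    Summable.of_norm_bounded hsum.norm fun n => by split_ifs <;> simp
  have h2 : Summable fun n => if lam ^ 3 ∣ n then 0 else F n :=
    Summable.of_norm_bounded hsum.norm fun n => by split_ifs <;> simp
  have h3 : ∑' n, F n = (∑' n, if lam ^ 3 ∣ n then F n else 0) +
      ∑' n, if lam ^ 3 ∣ n then 0 else F n := by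
    rw [← h1.tsum_add h2]
    exact tsum_congr fun n => by split_ifs <;> simp
  have h4 : (∑' n, if lam ^ 3 ∣ n then F n else 0) = w3 s ^ 3 * ∑' n, F n := by
    rw [tsum_dvd hl3, ← tsum_mul_left]
    refine tsum_congr fun m => ?_
    by_cases hm : m = 0
    · simp [hF, hm]
    · simp only [hF]
      rw [if_neg hm, if_neg (mul_ne_zero hl3 hm), mul_comm (lam ^ 3), ath, ath, ← mul_assoc 9,
        rho0_lam_cube, map_mul, map_mul _ (kth * _), Complex.conj_ofReal, Complex.conj_ofReal,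
        mul_assoc, cc_term s hm]
      ring
  change (1 - w3 s ^ 3) * ∑' n, F n = _
  have h5 : (1 - w3 s ^ 3) * ∑' n, F n = ∑' n, if lam ^ 3 ∣ n then 0 else F n := by
    linear_combination h3 + h4
  rw [h5, va2_tsum h2 (by simp)]
  refine Finset.sum_congr rfl fun u hu => ?_
  have hu' := isUnit_iff_mem_units6.2 hu
  rw [tsum_eq_sum (s := Finset.range 3) fun i hi => by
    have : lam ^ 3 ∣ lam ^ i := pow_dvd_pow _ (by simpa using hi)
    simp only [if_pos ((this.mul_left u).mul_left _), tsum_zero]]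
  refine Finset.sum_congr rfl fun j hj => ?_
  rw [← ca_conv (fun m hm => va2_coprime_ul hm hu' _) hs, tcj, LM.dser_prim, ← tsum_mul_left,
    tsum_subtype {a : O | Prim a} fun a => if lam ^ 3 ∣ a * (u * lam ^ j) then 0
      else F (a * (u * lam ^ j))]
  refine tsum_congr fun a => ?_
  by_cases ha : Prim a
  · have h6 : ¬ lam ^ 3 ∣ a * (u * lam ^ j) := fun ⟨c, hc⟩ => by
      have := va2_le (a' := c) (u' := 1) (i' := 3) ha hu' (by rw [hc]; ring)
      have := Finset.mem_range.1 hj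
      omega
    have h7 : a * u ≠ 0 := mul_ne_zero ha.ne_zero hu'.ne_zero
    have h8 := rho0_hecke hu' (j + 4) ha
    have h9 : N (a * u) = N a := by rw [N_mul, va2_N_unit hu', mul_one]
    rw [Set.indicator_of_mem (show a ∈ {a | Prim a} from ha), if_neg h6, if_pos ha]
    simp only [hF]
    rw [← mul_assoc a, if_neg (mul_ne_zero h7 (pow_ne_zero j va2_lam_ne)), map_mul,
      Complex.conj_ofReal, mul_assoc, cc_term s h7, h9, ath,
      show 9 * (a * u * lam ^ j) = u * lam ^ (j + 4) * a by rw [cc_nine]; ring]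
    have h10 := congrArg conj h8
    simp only [map_mul, Complex.conj_ofReal] at h10 ⊢
    linear_combination (conj kth * w3 s ^ j * (N a : ℂ) ^ (-(s - 1 / 2))) * h10
  · rw [Set.indicator_of_notMem (show a ∉ {a | Prim a} from ha), if_neg ha, mul_zero]

theorem cc_kth : conj kth = kth := Complex.conj_ofReal _

theorem cc_Rf : conj Rf = 3 * kth * Z2 * (conj xth * xth) := by
  have h := ca_link cb_res
  have h1 := mul_ne_zero kth_ne xth_ne
  have h2 : conj (kth * xth) ≠ 0 := by simpa using h1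
  rw [map_mul, map_inv₀, inv_mul_eq_iff_eq_mul₀ h2, map_div₀, map_ofNat, map_mul, cc_kth] at h
  linear_combination 3 * h

theorem cc_id : ∃ ρ : ℝ, 12 / 25 ≤ ρ ∧ ∑ u ∈ units6, ∑ j ∈ Finset.range 3,
    ρ ^ j * ‖rho0 (u * lam ^ (j + 4))‖ ^ 2 = 8 / 3 * ‖xth‖ ^ 2 := by
  have hw : Differentiable ℂ w3 := by unfold w3; fun_prop
  have h1 := cb_full.conj.hasRes (B := fun s => 1 - w3 s ^ 3) (by fun_prop)
    (F := fun s => ∑ u ∈ units6, ∑ j ∈ Finset.range 3,
      w3 s ^ j * conj (kth * rho0 (u * lam ^ (j + 4))) * Lk (u * lam ^ (j + 4)) s)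
    (DifferentiableOn.fun_sum fun u _ => DifferentiableOn.fun_sum fun j _ =>
      DifferentiableOn.mul (by fun_prop) (Lk_diff _)) fun s hs => cc_split hs
  have h2 := HasRes.sum units6 fun u _ => HasRes.sum (Finset.range 3) fun j _ =>
    (Lk_res (u * lam ^ (j + 4))).hol_mul
      (A := fun s => w3 s ^ j * conj (kth * rho0 (u * lam ^ (j + 4)))) (by fun_prop)
  have h3 := h1.unique h2
  set ρ : ℝ := Real.exp (-(2 / 3) * Real.log 3) with hρ
  have e1 : w3 (4 / 3) = ρ := by
    rw [w3, hρ, Complex.ofReal_exp]; congr 1; push_cast; ring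
  have e2 : ρ ^ 3 = 1 / 9 := by
    rw [hρ, ← Real.exp_nat_mul, show ((3 : ℕ) : ℝ) * (-(2 / 3) * Real.log 3) =
      -(Real.log 3 + Real.log 3) by push_cast; ring, Real.exp_neg, Real.exp_add,
      Real.exp_log (by norm_num)]
    norm_num
  refine ⟨ρ, le_of_pow_le_pow_left₀ (n := 3) (by norm_num) (Real.exp_pos _).le
    (by rw [e2]; norm_num), ?_⟩
  obtain ⟨z, hz, hZ⟩ := ca_Z2
  have hne : kth * Z2 ≠ 0 := mul_ne_zero kth_ne (by rw [hZ]; exact_mod_cast hz.ne')
  have e3 : (ρ : ℂ) ^ 3 = 1 / 9 := by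
    rw [← Complex.ofReal_pow, e2]; push_cast; rfl
  simp only [e1, e3, cc_Rf, map_mul, cc_kth] at h3
  apply Complex.ofReal_injective
  apply mul_left_cancel₀ hne
  push_cast
  simp only [← Complex.conj_mul', Finset.mul_sum]
  refine Eq.trans (Finset.sum_congr rfl fun u _ => Finset.sum_congr rfl fun j _ => ?_)
    (h3.symm.trans (by ring))
  ring

/-- **C.** -/
theorem cc_bound {u : O} (hu : IsUnit u) (j : ℕ) : ‖rho0 (u * lam ^ j)‖ ≤ 121 / 100 * ‖xth‖ := by
  obtain ⟨ρ, hρ, h⟩ := cc_id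
  have hper : ∀ k i, rho0 (u * lam ^ (i + 3 * k)) = rho0 (u * lam ^ i) := by
    intro k i
    induction k with
    | zero => rfl
    | succ k ih => rw [← ih, ← rho0_lam_cube (u * lam ^ (i + 3 * k))]; congr 1; ring
  have e : rho0 (u * lam ^ j) = rho0 (u * lam ^ ((j + 2) % 3 + 4)) := by
    rw [← hper 2 j, ← hper ((j + 2) / 3) ((j + 2) % 3 + 4)]
    congr 3
    omega
  have hi : (j + 2) % 3 < 3 := Nat.mod_lt _ (by norm_num)
  rw [e]
  generalize (j + 2) % 3 = i at hi
  set T : O → ℕ → ℝ := fun u j => ‖rho0 (u * lam ^ (j + 4))‖ ^ 2 with hT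
  have hneg : ∀ u j, T (-u) j = T u j := fun u j => by simp only [hT, neg_mul, rho0_neg]
  have h0 : ∀ u j, 0 ≤ T u j := fun u j => by positivity
  have hx : T 1 0 = ‖xth‖ ^ 2 := by simp only [hT, one_mul, xth, cc_nine]
  change ∑ u ∈ units6, ∑ j ∈ Finset.range 3, ρ ^ j * T u j = _ at h
  rw [units6, Finset.sum_insert (by decide), Finset.sum_insert (by decide),
    Finset.sum_insert (by decide), Finset.sum_insert (by decide), Finset.sum_insert (by decide),
    Finset.sum_singleton] at h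
  simp only [Finset.sum_range_succ, Finset.sum_range_zero, hneg, pow_zero, pow_one] at h
  have key : T u i ≤ (121 / 100 * ‖xth‖) ^ 2 := by
    have a1 := mul_le_mul_of_nonneg_right hρ
      (add_nonneg (add_nonneg (h0 1 1) (h0 om 1)) (h0 (om ^ 2) 1))
    have a2 := mul_le_mul_of_nonneg_right (pow_le_pow_left₀ (by norm_num) hρ 2)
      (add_nonneg (add_nonneg (h0 1 2) (h0 om 2)) (h0 (om ^ 2) 2))
    have := h0 1 0
    have := h0 om 0
    have := h0 (om ^ 2) 0
    have := h0 1 1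
    have := h0 om 1
    have := h0 (om ^ 2) 1
    have := h0 1 2
    have := h0 om 2
    have := h0 (om ^ 2) 2
    have h1 := isUnit_iff_mem_units6.1 hu
    simp only [units6, Finset.mem_insert, Finset.mem_singleton] at h1
    rw [mul_pow, ← hx]
    rw [← hx] at h
    rcases h1 with rfl | rfl | rfl | rfl | rfl | rfl <;> interval_cases i <;>
      (try simp only [hneg]) <;> linarith
  exact le_of_pow_le_pow_left₀ (n := 2) (by norm_num) (by positivity) key

theorem cc_ath {n : O} (hn : n ≠ 0) : ‖rho0 (9 * n)‖ ≤ 121 / 100 * ‖xth‖ := by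
  obtain ⟨u, j, m, hu, hm, rfl⟩ := exists_eq_unit_lam_prim hn
  have h8 := congrArg norm (rho0_hecke hu (j + 4) hm)
  have hN := Real.rpow_pos_of_pos (N_pos hm.ne_zero) (1 / 6)
  rw [norm_mul, norm_mul, norm_mul, Complex.norm_real, Real.norm_of_nonneg hN.le] at h8
  rw [show 9 * (u * lam ^ j * m) = u * lam ^ (j + 4) * m by rw [cc_nine]; ring]
  refine le_of_mul_le_mul_left ?_ hN
  rw [h8, mul_comm (N m ^ _)]
  refine mul_le_mul ?_ (norm_tau_le hm) (norm_nonneg _) (by positivity)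
  exact (mul_le_of_le_one_right (norm_nonneg _) ((rcub_isChar hm).norm_le hm.ne_zero _)).trans
    (cc_bound hu _)

end Crest.Agent.R12
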