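import Crest.Agent.R12.Disp1Aux

/-!
# R12 / Disp1 : the basic dispersion estimate and annihilation by `t`-averaging
(`norm_Xs_le`, `Sdiv`, `fam1_eq_cs`, `in_Sdiv`, `sum_pairs_le` are in `Disp1Aux`)
-/

set_option autoImplicit false

noncomputable section

open scoped Classical ComplexConjugate Topology
open MeasureTheory Filter

namespace Crest.Agent.R12

open Crest.Agent.R17

theorem d1_Sg_le {σ : ℝ} (h : σ ∈ Sg) : σ ≤ 2 := by
  simp only [Sg, Finset.mem_insert, Finset.mem_singleton] at h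
  rcases h with h | h | h | h | h | h <;> rw [h] <;> norm_num

theorem d1_int_one {S : Finset O} {B T : ℝ} (hS : In S B) (hT : 0 < T) (γ : O → ℂ) (h k : O) {σ : ℝ}
    (hσ : σ ≤ 2) : Integrable fun τ : ℝ => mT T τ * ‖fam1 S γ B h k (σ + τ * Complex.I)‖ ^ 2 := by
  refine (integrable_mT hT).mul_bdd
    (c := (∑ b ∈ S.filter (fun b => h ∣ b), ‖γ b * cub (b / h) k‖ * 256) ^ 2) ?_
    (Eventually.of_forall fun τ => ?_)
  · refine Continuous.aestronglyMeasurable (Continuous.pow (Continuous.norm ?_) 2)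
    refine continuous_finsetSum _ fun b hb => continuous_const.mul ?_
    have hb' := (Finset.mem_filter.1 hb).1
    refine Continuous.const_cpow (by fun_prop) (Or.inl (Complex.ofReal_ne_zero.2 ?_))
    exact (div_pos (N_pos (hS b hb').1.1.ne_zero) (d1_B_pos hS hb')).ne'
  · rw [norm_pow, norm_norm]
    refine pow_le_pow_left₀ (norm_nonneg _) ((norm_sum_le _ _).trans
      (Finset.sum_le_sum fun b hb => ?_)) 2
    rw [norm_mul]
    exact mul_le_mul_of_nonneg_left (d1_norm_pw hS (Finset.mem_filter.1 hb).1 (by simpa using hσ))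
      (norm_nonneg _)

/-- the integrand of `N1` -/
def d1F (S : Finset O) (γ : O → ℂ) (B H τ : ℝ) : ℝ :=
  ∑ h ∈ sfb H, ∑ k ∈ ball H, ∑ σ ∈ Sg, ‖fam1 S γ B h k (σ + τ * Complex.I)‖ ^ 2

theorem d1F_nonneg (S : Finset O) (γ : O → ℂ) (B H τ : ℝ) : 0 ≤ d1F S γ B H τ :=
  Finset.sum_nonneg fun _ _ => Finset.sum_nonneg fun _ _ => Finset.sum_nonneg fun _ _ => sq_nonneg _

theorem d1F0_le (S : Finset O) (γ : O → ℂ) (B H τ : ℝ) {σ : ℝ} (hσ : σ ∈ Sg) :
    d1F0 S γ B H (σ + τ * Complex.I) ≤ d1F S γ B H τ :=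
  Finset.sum_le_sum fun h _ => Finset.sum_le_sum fun k _ =>
    Finset.single_le_sum (f := fun σ : ℝ => ‖fam1 S γ B h k (σ + τ * Complex.I)‖ ^ 2)
      (fun _ _ => sq_nonneg _) hσ

theorem d1F_int {S : Finset O} {B T : ℝ} (hS : In S B) (hT : 0 < T) (γ : O → ℂ) (H : ℝ) :
    Integrable (fun τ => mT T τ * d1F S γ B H (-τ)) ∧
      ∫ τ, mT T τ * d1F S γ B H (-τ) = N1 S γ B H T := by
  have hi := fun h k σ (hσ : σ ∈ Sg) => d1_int_one hS hT γ h k (d1_Sg_le hσ)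
  have e : (fun τ => mT T τ * d1F S γ B H (-τ)) = fun τ => (fun τ => mT T τ * d1F S γ B H τ) (-τ) := by
    funext τ; simp only [ps_mT_neg]
  rw [e, integral_neg_eq_self (fun τ => mT T τ * d1F S γ B H τ)]
  refine ⟨Integrable.comp_neg (f := fun τ => mT T τ * d1F S γ B H τ) ?_, ?_⟩
  · simp only [d1F, Finset.mul_sum]
    exact integrable_finsetSum _ fun h _ => integrable_finsetSum _ fun k _ =>
      integrable_finsetSum _ fun σ hσ => hi h k σ hσ
  · simp only [d1F, Finset.mul_sum, N1]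
    rw [integral_finsetSum _ fun h _ => integrable_finsetSum _ fun k _ =>
      integrable_finsetSum _ fun σ hσ => hi h k σ hσ]
    refine Finset.sum_congr rfl fun h _ => ?_
    rw [integral_finsetSum _ fun k _ => integrable_finsetSum _ fun σ hσ => hi h k σ hσ]
    refine Finset.sum_congr rfl fun k _ => ?_
    rw [integral_finsetSum _ fun σ hσ => hi h k σ hσ]

theorem d1_N1_nonneg (S : Finset O) (γ : O → ℂ) (B H : ℝ) {T : ℝ} (hT : 0 < T) :
    0 ≤ N1 S γ B H T :=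
  Finset.sum_nonneg fun _ _ => Finset.sum_nonneg fun _ _ => Finset.sum_nonneg fun _ _ =>
    integral_nonneg fun τ => mul_nonneg (ps_mT_nonneg hT τ) (sq_nonneg _)

theorem d1_int_E {T : ℝ} (hT : 0 < T) {F : ℝ → ℝ} (hF : Integrable fun τ => mT T τ * F τ)
    (a b c : ℝ) : Integrable (fun τ => mT T τ * (a + b * F τ)) ∧
      ∫ τ, mT T τ * (a + b * F τ + c) = 2 * (a + c) + b * ∫ τ, mT T τ * F τ := by
  constructor
  · have e : (fun τ => mT T τ * (a + b * F τ)) = fun τ => mT T τ * a + b * (mT T τ * F τ) := by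
      funext τ; ring
    rw [e]
    exact ((integrable_mT hT).mul_const a).add (hF.const_mul b)
  · have e : (fun τ => mT T τ * (a + b * F τ + c)) =
        fun τ => mT T τ * (a + c) + b * (mT T τ * F τ) := by
      funext τ; ring
    rw [e, integral_add ((integrable_mT hT).mul_const _) (hF.const_mul b), integral_mul_const,
      integral_const_mul, integral_mT hT]

theorem d1_cube {x : ℝ} (hx : 0 ≤ x) : (x ^ 3) ^ (1 / 3 : ℝ) = x := by
  rw [← Real.rpow_natCast, ← Real.rpow_mul hx]; norm_num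

theorem d1_r1 {B D G : ℝ} (hB : 0 < B) (hD : 0 < D) (hG : 0 < G) :
    G * (B ^ 2 / (D * G ^ 2)) ^ (1 / 3 : ℝ) = (B ^ 2 / D) ^ (1 / 3 : ℝ) * G ^ (1 / 3 : ℝ) := by
  rw [← Real.mul_rpow (by positivity) hG.le]
  nth_rewrite 1 [← d1_cube hG.le]
  rw [← Real.mul_rpow (by positivity) (by positivity)]
  congr 1
  field_simp

theorem d1_r2 {B D : ℝ} (hB : 0 < B) (hD : 0 < D) :
    D * (B ^ 2 / D) ^ (1 / 3 : ℝ) = (D * B) ^ (2 / 3 : ℝ) := by
  nth_rewrite 1 [← d1_cube hD.le]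
  rw [← Real.mul_rpow (by positivity) (by positivity),
    show D ^ 3 * (B ^ 2 / D) = (D * B) ^ 2 by field_simp, ← Real.rpow_natCast,
    ← Real.rpow_mul (by positivity)]
  norm_num

theorem d1_r3 {B D : ℝ} (hB : 0 < B) (hD : 0 < D) :
    D / B * (B ^ 2 / D) ^ (1 / 3 : ℝ) = D ^ (2 / 3 : ℝ) * B ^ (-(1 / 3 : ℝ)) := by
  rw [div_mul_eq_mul_div, d1_r2 hB hD, Real.mul_rpow hD.le hB.le,
    show (-(1 / 3 : ℝ)) = 2 / 3 - 1 by norm_num, Real.rpow_sub_one hB.ne']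
  ring

theorem d1_r4 {G R H : ℝ} (hG : 1 ≤ G) (hR : 1 ≤ R) (hH : 1 ≤ H) :
    G ^ (1 / 3 : ℝ) / (G * R) * (if G * R ≤ H then H ^ (-(1 / 3 : ℝ)) else 1) ≤
      H ^ (-(1 / 3 : ℝ)) := by
  have h1 : G ≤ G * R := le_mul_of_one_le_right (by linarith) hR
  have h0 : 0 < G * R := by linarith
  split_ifs with h
  · refine mul_le_of_le_one_left (by positivity) ((div_le_one h0).2 (le_trans ?_ h1))
    calc G ^ (1 / 3 : ℝ) ≤ G ^ (1 : ℝ) := Real.rpow_le_rpow_of_exponent_le hG (by norm_num)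
      _ = G := Real.rpow_one G
  · rw [mul_one]
    calc _ ≤ (G * R) ^ (1 / 3 : ℝ) / (G * R) := by gcongr
      _ = (G * R) ^ (-(2 / 3 : ℝ)) := by
          rw [show (-(2 / 3 : ℝ)) = 1 / 3 - 1 by norm_num, Real.rpow_sub_one h0.ne']
      _ ≤ H ^ (-(2 / 3 : ℝ)) :=
          Real.rpow_le_rpow_of_nonpos (by linarith) (not_le.1 h).le (by norm_num)
      _ ≤ _ := Real.rpow_le_rpow_of_exponent_le hH (by norm_num)

theorem d1_card_le {H : ℝ} (hH : 0 ≤ H) (X : ℝ) :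
    ∑ g ∈ sfb X, (if N g ≤ H then (1 : ℝ) else 0) ≤ 18 * H := by
  rw [Finset.sum_boole]
  refine le_trans (Nat.cast_le.2 (Finset.card_le_card fun g hg => ?_)) (card_ball_le hH)
  obtain ⟨hg, hgb⟩ := Finset.mem_filter.1 hg
  exact mem_ball.2 ⟨(mem_sfb.1 hg).1.1.ne_zero, hgb⟩

theorem d1_pairs {H : ℝ} (hH : 1 ≤ H) (X : ℝ) : ∑ g ∈ sfb X, ∑ r ∈ sfb X,
    N g ^ (1 / 3 : ℝ) * (if N (g * r) ≤ H then H ^ (4 / 3 : ℝ) else 0) ≤ 324 * H ^ 4 := by
  have hH0 : 0 < H := by linarith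
  have h1 := d1_card_le hH0.le X
  have h2 : 0 ≤ ∑ g ∈ sfb X, (if N g ≤ H then (1 : ℝ) else 0) :=
    Finset.sum_nonneg fun g _ => by split_ifs <;> norm_num
  calc _ ≤ ∑ g ∈ sfb X, ∑ r ∈ sfb X,
        H ^ 2 * ((if N g ≤ H then (1 : ℝ) else 0) * (if N r ≤ H then (1 : ℝ) else 0)) := by
        refine Finset.sum_le_sum fun g hg => Finset.sum_le_sum fun r hr => ?_
        have hp := ((mem_sfb.1 hg).1.1.mul (mem_sfb.1 hr).1.1).ne_zero
        by_cases h : N (g * r) ≤ H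
        · have hg' := (N_le_of_dvd hp (dvd_mul_right _ _)).trans h
          rw [if_pos h, if_pos hg', if_pos ((N_le_of_dvd hp (dvd_mul_left _ _)).trans h), mul_one,
            mul_one]
          calc _ ≤ H ^ (1 / 3 : ℝ) * H ^ (4 / 3 : ℝ) := by gcongr; exact N_nonneg g
            _ = H ^ (5 / 3 : ℝ) := by rw [← Real.rpow_add hH0]; norm_num
            _ ≤ H ^ (2 : ℝ) := Real.rpow_le_rpow_of_exponent_le hH (by norm_num)
            _ = _ := Real.rpow_two H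
        · rw [if_neg h, mul_zero]
          exact mul_nonneg (sq_nonneg _)
            (mul_nonneg (by split_ifs <;> norm_num) (by split_ifs <;> norm_num))
    _ = H ^ 2 * ((∑ g ∈ sfb X, (if N g ≤ H then (1 : ℝ) else 0)) *
        ∑ r ∈ sfb X, (if N r ≤ H then (1 : ℝ) else 0)) := by
        rw [Finset.sum_mul_sum]
        simp only [Finset.mul_sum]
    _ ≤ H ^ 2 * (18 * H * (18 * H)) :=
        mul_le_mul_of_nonneg_left (mul_le_mul h1 h1 h2 (by positivity)) (by positivity)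
    _ = _ := by ring

/-- one term of the sum over `(g, r)` -/
theorem d1_term {B D T H G R W I C e : ℝ} (hB : 0 < B) (hD : 0 < D) (hT : 0 < T) (hG : 1 ≤ G)
    (hR : 1 ≤ R) (hH : 1 ≤ H) (hW : 0 ≤ W) (hC : 0 ≤ C) :
    D / B * (G * (2 * ((B ^ 2 / (D * G ^ 2)) ^ (1 / 3 : ℝ) * C *
        (B / (G * R) * (if G * R ≤ H then H ^ (-(1 / 3 : ℝ)) else 1) * W) +
        T ^ 3 * ((B ^ 2 / (D * G ^ 2)) ^ 2 * C * W)) +
      (B ^ 2 / (D * G ^ 2)) ^ (1 / 3 : ℝ) * C * e * I)) ≤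
    2 * C * (T ^ 3 * B ^ 3 / D + (D * B) ^ (2 / 3 : ℝ) * H ^ (-(1 / 3 : ℝ))) * W +
      C * (D ^ (2 / 3 : ℝ) * B ^ (-(1 / 3 : ℝ)) * I) * (G ^ (1 / 3 : ℝ) * e) := by
  have hG0 : 0 < G := by linarith
  have h1 := d1_r1 hB hD hG0
  have h4 := d1_r4 hG hR hH
  rw [← d1_r2 hB hD, ← d1_r3 hB hD]
  have hu : 0 ≤ (B ^ 2 / D) ^ (1 / 3 : ℝ) := by positivity
  generalize (B ^ 2 / (D * G ^ 2)) ^ (1 / 3 : ℝ) = K at h1 ⊢
  generalize (B ^ 2 / D) ^ (1 / 3 : ℝ) = u at h1 hu ⊢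
  generalize (if G * R ≤ H then H ^ (-(1 / 3 : ℝ)) else 1) = i at h4 ⊢
  generalize H ^ (-(1 / 3 : ℝ)) = η at h4 ⊢
  generalize G ^ (1 / 3 : ℝ) = a at h1 h4 ⊢
  have e1 : D / B * (G * (2 * (K * C * (B / (G * R) * i * W) +
        T ^ 3 * ((B ^ 2 / (D * G ^ 2)) ^ 2 * C * W)) + K * C * e * I)) =
      2 * C * (T ^ 3 * B ^ 3 / D * (1 / G ^ 3) + D * (G * K / (G * R) * i)) * W +
        C * (D / B * I) * (G * K * e) := by
    field_simp
    ring
  rw [e1, h1]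
  refine add_le_add (mul_le_mul_of_nonneg_right (mul_le_mul_of_nonneg_left (add_le_add ?_ ?_)
    (by positivity)) hW) (le_of_eq (by ring))
  · exact mul_le_of_le_one_right (by positivity)
      ((div_le_one (by positivity)).2 (one_le_pow₀ hG))
  · rw [mul_div_assoc, mul_assoc u, mul_assoc D]
    exact mul_le_mul_of_nonneg_left (mul_le_mul_of_nonneg_left h4 hu) hD.le

/-- `pstep3` with `pw_Vw`, `c b = conj (γ b GG b)`; `h = g r`, `K_g = B²/(D N g²)`, `M_h = 16B/N h`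
(if `h` is not squarefree or `N h > 16B` there is nothing).  Frequencies `k ∈ ball Y` (all are
`Maj Y`).  `N h ≤ H`: `mid_bound` (`Q = Y`) and `maj_bound` (`Q = H`, `D₀ = H^{4/3}`; the inner sum is
`cub d (..) · fam1 S γ B (h d) (k₀ g² λ²)`, `(d, k₀) ↦ (h d, k₀g²λ²)` is injective).  `N h > H`:
`maj_one` and `mid_bound` with `H = 1`; `N g · K_g^{1/3} M_h ≤ 16 (B²/D)^{1/3} B (N h)^{-2/3}`.
`E₂ = C K_g² ‖γ 1_{h ∣ ·}‖²`.  `σ - 1/2 ∈ Sg`, `mT` is even, `sum_pairs_le`. -/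
theorem disp0 : ∃ C : ℝ, 0 ≤ C ∧ ∀ (S : Finset O) (γ : O → ℂ) (B D T H : ℝ), 1 ≤ B → In S B → 1 ≤ T →
    T ^ 2 ≤ D → 1 ≤ H →
    Disp S γ D T ≤ C * ((D / T + Real.sqrt D + T ^ 3 * B ^ 3 / D +
        (D * B) ^ (2 / 3 : ℝ) * H ^ (-(1 / 3 : ℝ))) * nt S γ +
      D ^ (2 / 3 : ℝ) * B ^ (-(1 / 3 : ℝ)) * H ^ 4 * N1 S γ B (9 * H ^ 3) T) := by
  obtain ⟨C0, -, hpw⟩ := pw_Vw
  obtain ⟨C1, hC1, hps⟩ := pstep3 C0
  obtain ⟨C, hC, key⟩ := d1_key
  refine ⟨C1 * (1 + 324 * C), by positivity, fun S γ B D T H hB hS hT hD hH => ?_⟩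
  have hB0 : 0 < B := by linarith
  have hT0 : 0 < T := by linarith
  have hH0 : 0 < H := by linarith
  have hD1 : 1 ≤ D := (one_le_pow₀ hT).trans hD
  have hD0 : 0 < D := by linarith
  obtain ⟨hFi, hFe⟩ := d1F_int hS hT0 γ (9 * H ^ 3)
  have hW := d1W_nonneg S γ
  have hi1 : ∀ h : O, 0 ≤ (if N h ≤ H then H ^ (-(1 / 3 : ℝ)) else 1) := fun h => by
    split_ifs <;> positivity
  have hi2 : ∀ h : O, 0 ≤ (if N h ≤ H then H ^ (4 / 3 : ℝ) else 0) := fun h => by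
    split_ifs <;> positivity
  have main := hps (Vw D T) D T B (hpw D T hD1 hT) hT hD hB0 S (fun b => conj (γ b * GG b)) hS
    (fun g r τ => (B ^ 2 / (D * N g ^ 2)) ^ (1 / 3 : ℝ) * C *
        (B / N (g * r) * (if N (g * r) ≤ H then H ^ (-(1 / 3 : ℝ)) else 1) * d1W S γ (g * r)) +
      (B ^ 2 / (D * N g ^ 2)) ^ (1 / 3 : ℝ) * C * (if N (g * r) ≤ H then H ^ (4 / 3 : ℝ) else 0) *
        d1F S γ B (9 * H ^ 3) (-τ))
    (fun g r _ => (B ^ 2 / (D * N g ^ 2)) ^ 2 * C * d1W S γ (g * r))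
    (fun g r τ => by
      have := hW (g * r)
      have := hi1 (g * r)
      have := hi2 (g * r)
      have := d1F_nonneg S γ B (9 * H ^ 3) (-τ)
      have := N_nonneg (g * r)
      exact ⟨by positivity, by positivity⟩)
    (fun g r => ⟨(d1_int_E hT0 hFi _ _ 0).1, (integrable_mT hT0).mul_const _⟩)
    (fun g hg r hr σ hσ τ Y hY => by
      have hg' := (mem_sfb.1 hg).1
      have hr' := (mem_sfb.1 hr).1
      have hσ' : σ - 1 / 2 ∈ Sg := by
        simp only [Finset.mem_insert, Finset.mem_singleton] at hσ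
        simp only [Sg, Finset.mem_insert, Finset.mem_singleton]
        rcases hσ with h | h | h <;> rw [h] <;> norm_num
      have e : conj ((σ : ℂ) - 1 / 2 + τ * Complex.I) =
          ((σ - 1 / 2 : ℝ) : ℂ) + ((-τ : ℝ) : ℂ) * Complex.I := by
        apply Complex.ext <;> simp
      have hK : 0 < B ^ 2 / (D * N g ^ 2) := by
        have := N_pos hg'.1.ne_zero
        positivity
      refine (Finset.sum_le_sum fun k _ =>
        pow_le_pow_left₀ (norm_nonneg _) (norm_Xs_le hS γ hg' hr' k _) 2).trans ?_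
      rw [e]
      refine (key S γ B H Y g r _ hB0 hS hH hY hg' hr' (by simpa using d1_Sg_le hσ')).trans ?_
      have h1 := d1F0_le S γ B (9 * H ^ 3) (-τ) hσ'
      have h2 : (if N (g * r) ≤ H then H ^ (4 / 3 : ℝ) * d1F0 S γ B (9 * H ^ 3)
          (((σ - 1 / 2 : ℝ) : ℂ) + ((-τ : ℝ) : ℂ) * Complex.I) else 0) ≤
          (if N (g * r) ≤ H then H ^ (4 / 3 : ℝ) else 0) * d1F S γ B (9 * H ^ 3) (-τ) := by
        split_ifs
        · exact mul_le_mul_of_nonneg_left h1 (by positivity)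
        · rw [zero_mul]
      rw [Real.div_rpow hY.le hK.le]
      have hK3 : 0 < (B ^ 2 / (D * N g ^ 2)) ^ (1 / 3 : ℝ) := by positivity
      generalize (B ^ 2 / (D * N g ^ 2)) ^ (1 / 3 : ℝ) = K3 at hK3 ⊢
      generalize B ^ 2 / (D * N g ^ 2) = K at hK ⊢
      refine (mul_le_mul_of_nonneg_left (add_le_add (mul_le_mul_of_nonneg_left
        (add_le_add le_rfl h2) (by positivity)) le_rfl) hC).trans (le_of_eq ?_)
      field_simp)
  have e0 : Disp S γ D T = ∑' d : O, Vw D T d * ‖∑ n ∈ S, conj (γ n * GG n) * cub n d‖ ^ 2 := by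
    refine tsum_congr fun d => ?_
    rw [← Complex.norm_conj, map_sum]
    simp only [map_mul, Complex.conj_conj]
  have hn2 : n2 S (fun b => conj (γ b * GG b)) ≤ nt S γ := by
    refine le_trans (le_of_eq (Finset.sum_congr rfl fun b hb => ?_))
      (n2_le_nt (fun b hb => (hS b hb).1.1.ne_zero) γ)
    rw [Complex.norm_conj, norm_mul, norm_GG (hS b hb).1, mul_one]
  have hN1 := d1_N1_nonneg S γ B (9 * H ^ 3) hT0
  have hnt : 0 ≤ nt S γ := le_trans (Finset.sum_nonneg fun _ _ => sq_nonneg _) hn2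
  rw [e0]
  refine main.trans ?_
  simp only [(d1_int_E hT0 hFi _ _ _).2, hFe]
  rw [mul_assoc C1 (D / B), Finset.mul_sum]
  simp only [Finset.mul_sum (a := D / B)]
  have hsum := Finset.sum_le_sum fun g (hg : g ∈ sfb (16 * B)) =>
    Finset.sum_le_sum fun r (hr : r ∈ sfb (16 * B)) => d1_term (C := C)
      (I := N1 S γ B (9 * H ^ 3) T) (e := if N (g * r) ≤ H then H ^ (4 / 3 : ℝ) else 0)
      hB0 hD0 hT0 (one_le_N (mem_sfb.1 hg).1.1.ne_zero) (one_le_N (mem_sfb.1 hr).1.1.ne_zero) hH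
      (hW (g * r)) hC
  simp only [← N_mul] at hsum
  refine (add_le_add (mul_le_mul_of_nonneg_left hn2 (by positivity))
    (mul_le_mul_of_nonneg_left hsum hC1)).trans ?_
  simp only [Finset.sum_add_distrib, ← Finset.mul_sum]
  have h1 : ∑ g ∈ sfb (16 * B), ∑ r ∈ sfb (16 * B), d1W S γ (g * r) ≤ nt S γ :=
    sum_pairs_le (fun b hb => (hS b hb).1) γ _
  have h2 := d1_pairs hH (16 * B)
  simp only [← Finset.mul_sum] at h2
  have ha : 0 ≤ D / T + Real.sqrt D := by positivity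
  have hb : 0 ≤ T ^ 3 * B ^ 3 / D + (D * B) ^ (2 / 3 : ℝ) * H ^ (-(1 / 3 : ℝ)) := by positivity
  have hc : 0 ≤ D ^ (2 / 3 : ℝ) * B ^ (-(1 / 3 : ℝ)) * N1 S γ B (9 * H ^ 3) T := by positivity
  refine le_trans (add_le_add le_rfl (mul_le_mul_of_nonneg_left (add_le_add
    (mul_le_mul_of_nonneg_left h1 (mul_nonneg (mul_nonneg zero_le_two hC) hb))
    (mul_le_mul_of_nonneg_left h2 (mul_nonneg hC hc))) hC1)) ?_
  rw [add_assoc (D / T + Real.sqrt D), mul_right_comm _ (H ^ 4)]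
  have hH4 : 0 ≤ H ^ 4 := by positivity
  generalize D / T + Real.sqrt D = a at ha ⊢
  generalize T ^ 3 * B ^ 3 / D + (D * B) ^ (2 / 3 : ℝ) * H ^ (-(1 / 3 : ℝ)) = b at hb ⊢
  generalize D ^ (2 / 3 : ℝ) * B ^ (-(1 / 3 : ℝ)) * N1 S γ B (9 * H ^ 3) T = c at hc ⊢
  generalize H ^ 4 = h at hH4 ⊢
  generalize nt S γ = n at hnt ⊢
  have e : C1 * (1 + 324 * C) * ((a + b) * n + c * h) -
      (C1 * a * n + C1 * (2 * C * b * n + C * c * (324 * h))) =
      C1 * (324 * C * a * n + (1 + 322 * C) * b * n + c * h) := by ring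
  have : 0 ≤ C1 * (324 * C * a * n + (1 + 322 * C) * b * n + c * h) := by positivity
  linarith

theorem d1_N1_le : ∃ C : ℝ, 0 ≤ C ∧ ∀ (S : Finset O) (γ : O → ℂ) (B T H : ℝ), 1 ≤ B → In S B →
    1 ≤ T → 0 ≤ H → N1 S γ B H T ≤ C * H ^ 2 * (B / T + Real.sqrt B) * nt S γ := by
  obtain ⟨C, hC, h⟩ := tavg
  refine ⟨18 * 18 * 6 * 65536 * C, by positivity, fun S γ B T H hB hS hT hH => ?_⟩
  have hn := n2_le_nt (fun b hb => (hS b hb).1.1.ne_zero) γ
  have hn0 : 0 ≤ n2 S γ := Finset.sum_nonneg fun _ _ => sq_nonneg _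
  have ha : 0 ≤ B / T + Real.sqrt B := by positivity
  have h1 : ∀ g ∈ sfb H, ∀ k, ∀ σ ∈ Sg,
      ∫ τ : ℝ, mT T τ * ‖fam1 S γ B g k (σ + τ * Complex.I)‖ ^ 2 ≤
        C * (B / T + Real.sqrt B) * (65536 * nt S γ) := by
    intro g hg k σ hσ
    have e : ∀ τ : ℝ, fam1 S γ B g k (σ + τ * Complex.I) = ∑ b ∈ S.filter (fun b => g ∣ b),
        γ b * pw B b σ * cub (b / g) k * pw B b (τ * Complex.I) := fun τ => by
      refine Finset.sum_congr rfl fun b hb => ?_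
      have hb' := (Finset.mem_filter.1 hb).1
      have h0 : ((N b / B : ℝ) : ℂ) ≠ 0 := Complex.ofReal_ne_zero.2
        (div_pos (N_pos (hS b hb').1.1.ne_zero) (d1_B_pos hS hb')).ne'
      rw [pw, pw, pw, Complex.cpow_add _ _ h0]
      ring
    simp only [e]
    refine (h B T _ (fun b => γ b * pw B b σ * cub (b / g) k) hB hT
      fun b hb => (hS b (Finset.mem_filter.1 hb).1).2).trans
      (mul_le_mul_of_nonneg_left ?_ (by positivity))
    calc _ ≤ ∑ b ∈ S.filter (fun b => g ∣ b), 65536 * ‖γ b‖ ^ 2 := by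
          refine Finset.sum_le_sum fun b hb => ?_
          obtain ⟨hb, hgb⟩ := Finset.mem_filter.1 hb
          exact d1_coef (d1_norm_pw hS hb (by simpa using d1_Sg_le hσ))
            (ps_cub_le ((hS b hb).1.1.div (mem_sfb.1 hg).1.1 hgb) k)
      _ ≤ ∑ b ∈ S, 65536 * ‖γ b‖ ^ 2 := Finset.sum_le_sum_of_subset_of_nonneg
          (Finset.filter_subset _ _) fun _ _ _ => by positivity
      _ = 65536 * n2 S γ := by rw [n2, Finset.mul_sum]
      _ ≤ _ := by linarith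
  have hX : 0 ≤ C * (B / T + Real.sqrt B) * (65536 * nt S γ) :=
    mul_nonneg (mul_nonneg hC ha) (by linarith)
  have c1 : ((ball H).card : ℝ) ≤ 18 * H := card_ball_le hH
  have c2 : ((sfb H).card : ℝ) ≤ 18 * H :=
    (Nat.cast_le.2 (Finset.card_filter_le _ _)).trans c1
  have c3 : (Sg.card : ℝ) ≤ 6 := by exact_mod_cast Finset.card_le_six
  calc N1 S γ B H T ≤ ∑ g ∈ sfb H, ∑ k ∈ ball H, ∑ σ ∈ Sg,
        C * (B / T + Real.sqrt B) * (65536 * nt S γ) :=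
        Finset.sum_le_sum fun g hg => Finset.sum_le_sum fun k _ =>
          Finset.sum_le_sum fun σ hσ => h1 g hg k σ hσ
    _ = (sfb H).card * ((ball H).card * (Sg.card *
        (C * (B / T + Real.sqrt B) * (65536 * nt S γ)))) := by
        simp only [Finset.sum_const, nsmul_eq_mul]
    _ ≤ 18 * H * (18 * H * (6 * (C * (B / T + Real.sqrt B) * (65536 * nt S γ)))) := by gcongr
    _ = _ := by ring

/-- `tavg`: `N1 S γ B H' T ≤ C H'² (B/T + √B) n2`;  `H = min(T, √B)^{1/14}` -/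
theorem ann : ∃ C : ℝ, 0 ≤ C ∧ ∀ (S : Finset O) (γ : O → ℂ) (B D T : ℝ), 1 ≤ B → In S B → 1 ≤ T →
    T ^ 2 ≤ D →
    Disp S γ D T ≤ C * (D / T + Real.sqrt D + T ^ 3 * B ^ 3 / D +
        (D * B) ^ (2 / 3 : ℝ) * (T ^ (-(1 / 42 : ℝ)) + B ^ (-(1 / 84 : ℝ)))) * nt S γ := by
  obtain ⟨C1, hC1, h1⟩ := disp0
  obtain ⟨C2, hC2, h2⟩ := d1_N1_le
  refine ⟨C1 * (1 + 162 * C2), by positivity, fun S γ B D T hB hS hT hD => ?_⟩
  have hB0 : 0 < B := by linarith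
  have hT0 : 0 < T := by linarith
  have hD0 : 0 < D := lt_of_lt_of_le (by positivity) hD
  have hs1 : 1 ≤ Real.sqrt B := Real.one_le_sqrt.2 hB
  obtain ⟨m, hm⟩ : ∃ m, m = min T (Real.sqrt B) := ⟨_, rfl⟩
  have hm1 : 1 ≤ m := hm ▸ le_min hT hs1
  have hmT : m ≤ T := hm ▸ min_le_left _ _
  have hmB : m ≤ Real.sqrt B := hm ▸ min_le_right _ _
  have hm0 : 0 < m := by linarith
  have hH : 1 ≤ m ^ (1 / 14 : ℝ) := Real.one_le_rpow hm1 (by norm_num)
  have hnt : 0 ≤ nt S γ := le_trans (Finset.sum_nonneg fun _ _ => sq_nonneg _)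
    (n2_le_nt (fun b hb => (hS b hb).1.1.ne_zero) γ)
  have h3 := h2 S γ B T (9 * (m ^ (1 / 14 : ℝ)) ^ 3) hB hS hT (by positivity)
  have e1 : (m ^ (1 / 14 : ℝ)) ^ (-(1 / 3 : ℝ)) = m ^ (-(1 / 42 : ℝ)) := by
    rw [← Real.rpow_mul hm0.le]; norm_num
  have h4 : m ^ (-(1 / 42 : ℝ)) ≤ T ^ (-(1 / 42 : ℝ)) + B ^ (-(1 / 84 : ℝ)) := by
    rcases min_choice T (Real.sqrt B) with h | h
    · rw [hm, h]; exact le_add_of_nonneg_right (by positivity)
    · rw [hm, h, Real.sqrt_eq_rpow, ← Real.rpow_mul hB0.le,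
        show (1 / 2 : ℝ) * -(1 / 42) = -(1 / 84) by norm_num]
      exact le_add_of_nonneg_left (by positivity)
  have h5 : B / T + Real.sqrt B ≤ 2 * (B / m) := by
    have a1 : B / T ≤ B / m := div_le_div_of_nonneg_left hB0.le hm0 hmT
    have a2 : Real.sqrt B ≤ B / m := by
      rw [le_div_iff₀ hm0]
      calc _ ≤ Real.sqrt B * Real.sqrt B := mul_le_mul_of_nonneg_left hmB (by positivity)
        _ = B := Real.mul_self_sqrt hB0.le
    linarith
  have h6 : (m ^ (1 / 14 : ℝ)) ^ 10 / m ≤ m ^ (-(1 / 42 : ℝ)) := by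
    rw [← Real.rpow_natCast, ← Real.rpow_mul hm0.le, ← Real.rpow_sub_one hm0.ne']
    exact Real.rpow_le_rpow_of_exponent_le hm1 (by norm_num)
  have e2 : D ^ (2 / 3 : ℝ) * B ^ (-(1 / 3 : ℝ)) * B = (D * B) ^ (2 / 3 : ℝ) := by
    rw [← d1_r3 hB0 hD0, ← d1_r2 hB0 hD0]
    field_simp
  have h7 : D ^ (2 / 3 : ℝ) * B ^ (-(1 / 3 : ℝ)) * (m ^ (1 / 14 : ℝ)) ^ 4 *
      N1 S γ B (9 * (m ^ (1 / 14 : ℝ)) ^ 3) T ≤
      162 * C2 * ((D * B) ^ (2 / 3 : ℝ) * (T ^ (-(1 / 42 : ℝ)) + B ^ (-(1 / 84 : ℝ)))) * nt S γ := by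
    calc _ ≤ D ^ (2 / 3 : ℝ) * B ^ (-(1 / 3 : ℝ)) * (m ^ (1 / 14 : ℝ)) ^ 4 *
          (C2 * (9 * (m ^ (1 / 14 : ℝ)) ^ 3) ^ 2 * (2 * (B / m)) * nt S γ) :=
          mul_le_mul_of_nonneg_left (h3.trans (by gcongr)) (by positivity)
      _ = 162 * C2 * (D ^ (2 / 3 : ℝ) * B ^ (-(1 / 3 : ℝ)) * B *
          ((m ^ (1 / 14 : ℝ)) ^ 10 / m)) * nt S γ := by ring
      _ ≤ _ := by
          rw [e2]
          gcongr
          exact h6.trans h4
  refine (h1 S γ B D T _ hB hS hT hD hH).trans ?_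
  rw [e1, mul_assoc C1, mul_assoc C1]
  refine mul_le_mul_of_nonneg_left ?_ hC1
  have h8 := mul_le_mul_of_nonneg_right (mul_le_mul_of_nonneg_left h4
    (by positivity : 0 ≤ (D * B) ^ (2 / 3 : ℝ))) hnt
  have ha : 0 ≤ C2 * ((D / T + Real.sqrt D + T ^ 3 * B ^ 3 / D) * nt S γ) := by positivity
  generalize (D * B) ^ (2 / 3 : ℝ) * (T ^ (-(1 / 42 : ℝ)) + B ^ (-(1 / 84 : ℝ))) = b at h7 h8 ⊢
  generalize D / T + Real.sqrt D + T ^ 3 * B ^ 3 / D = a at ha ⊢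
  nlinarith

end Crest.Agent.R12
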