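import Crest.Agent.R12.CLS

/-!
# R12 / MLS : the large sieve on minor frequencies
-/

set_option autoImplicit false

noncomputable section

open scoped Classical ComplexConjugate Topology
open MeasureTheory Filter

namespace Crest.Agent.R12

open Crest.Agent.R17

theorem mls_log (k : ℕ) {ε : ℝ} (hε : 0 < ε) :
    ∃ C : ℝ, 0 ≤ C ∧ ∀ Z : ℝ, 1 ≤ Z → (1 + Real.log Z) ^ k ≤ C * Z ^ ε := by
  have hk : (0 : ℝ) < k + 1 := by positivity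
  obtain ⟨η, hη⟩ : ∃ η : ℝ, η = ε / (k + 1) := ⟨_, rfl⟩
  have h0 : 0 < η := by rw [hη]; positivity
  refine ⟨(1 + η⁻¹) ^ k, by positivity, fun Z hZ => ?_⟩
  have hZ0 : 0 < Z := by linarith
  have h1 : 1 ≤ Z ^ η := Real.one_le_rpow hZ h0.le
  have h2 : Real.log Z ≤ Z ^ η / η := Real.log_le_rpow_div hZ0.le h0
  have h3 : 1 + Real.log Z ≤ (1 + η⁻¹) * Z ^ η := by
    rw [div_eq_mul_inv] at h2
    nlinarith
  have h4 : (Z ^ η) ^ k ≤ Z ^ ε := by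
    rw [← Real.rpow_natCast, ← Real.rpow_mul hZ0.le]
    refine Real.rpow_le_rpow_of_exponent_le hZ ?_
    rw [hη, div_mul_eq_mul_div, div_le_iff₀ hk]
    nlinarith
  have h5 : 0 ≤ 1 + Real.log Z := by linarith [Real.log_nonneg hZ]
  calc (1 + Real.log Z) ^ k ≤ ((1 + η⁻¹) * Z ^ η) ^ k := pow_le_pow_left₀ h5 h3 k
    _ = (1 + η⁻¹) ^ k * (Z ^ η) ^ k := mul_pow _ _ _
    _ ≤ _ := mul_le_mul_of_nonneg_left h4 (by positivity)

theorem mls_inv : ∃ C : ℝ, 0 ≤ C ∧ ∀ X : ℝ, 1 ≤ X →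
    ∑ n ∈ ball X, (N n)⁻¹ ≤ C * (1 + Real.log X) := by
  obtain ⟨C, hC⟩ := sum_ball_inv
  refine ⟨C, ?_, hC⟩
  have h := hC 1 le_rfl
  rw [Real.log_one, add_zero, mul_one] at h
  exact (Finset.sum_nonneg fun n _ => inv_nonneg.2 (N_nonneg n)).trans h

theorem mls_card : ∃ C : ℝ, 0 ≤ C ∧ ∀ (𝒦 : Finset (O × O)) (P : ℝ), 1 ≤ P →
    (∀ k ∈ 𝒦, k.1 ≠ 0 ∧ k.2 ≠ 0 ∧ N k.1 * N k.2 ≤ P) →
    (𝒦.card : ℝ) ≤ C * P * (1 + Real.log P) := by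
  obtain ⟨C, hC0, hC⟩ := mls_inv
  refine ⟨18 * C, by positivity, fun 𝒦 P hP h => ?_⟩
  have hs : 𝒦 ⊆ (ball P).biUnion fun k1 => (ball (P / N k1)).image (Prod.mk k1) := by
    intro k hk
    obtain ⟨h1, h2, h3⟩ := h k hk
    have h4 := one_le_N h1
    have h5 := one_le_N h2
    rw [Finset.mem_biUnion]
    refine ⟨k.1, mem_ball.2 ⟨h1, by nlinarith⟩, Finset.mem_image.2 ⟨k.2, mem_ball.2 ⟨h2, ?_⟩, rfl⟩⟩
    rw [le_div_iff₀ (by linarith)]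
    linarith
  have h1 : (𝒦.card : ℝ) ≤ ∑ k1 ∈ ball P, (((ball (P / N k1)).image (Prod.mk k1)).card : ℝ) := by
    exact_mod_cast (Finset.card_le_card hs).trans Finset.card_biUnion_le
  have h2 : ∑ k1 ∈ ball P, (((ball (P / N k1)).image (Prod.mk k1)).card : ℝ) ≤
      ∑ k1 ∈ ball P, 18 * P * (N k1)⁻¹ := by
    refine Finset.sum_le_sum fun k1 _ => ?_
    have h3 : (((ball (P / N k1)).image (Prod.mk k1)).card : ℝ) ≤ (ball (P / N k1)).card := by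
      exact_mod_cast Finset.card_image_le
    have h4 := card_ball_le (X := P / N k1) (div_nonneg (by linarith) (N_nonneg _))
    refine h3.trans (h4.trans (le_of_eq ?_))
    rw [div_eq_mul_inv, mul_assoc]
  rw [← Finset.mul_sum] at h2
  have h3 := mul_le_mul_of_nonneg_left (hC P hP) (show 0 ≤ 18 * P by linarith)
  linarith

theorem mls_amp {C0 : ℝ} (h0 : ∀ (𝒦 : Finset (O × O)) (P D : ℝ), 1 ≤ D →
    (∀ k ∈ 𝒦, SF k.1 ∧ SF k.2 ∧ IsCoprime k.1 k.2 ∧ N k.1 * N k.2 ≤ P) →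
    ∀ (S : Finset O) (x : O → ℂ), S ⊆ ball D →
    ∑ k ∈ 𝒦, ‖∑ n ∈ S, x n * (cub k.1 n * conj (cub k.2 n))‖ ^ 2 ≤
      C0 * (D + P * 𝒦.card) * n2 S x)
    (𝒦 : Finset (O × O)) {P M L : ℝ} (hP : 1 ≤ P) (hM : 1 ≤ M) (hL : 1 ≤ L)
    (h𝒦 : ∀ k ∈ 𝒦, SF k.1 ∧ SF k.2 ∧ IsCoprime k.1 k.2 ∧ N k.1 * N k.2 ≤ P)
    (𝓛 : Finset O) (h𝓛 : ∀ p ∈ 𝓛, Prime p ∧ Prim p ∧ N p ≤ L)
    (hh : 3 * (1 + Real.log P) ≤ 𝓛.card) (S : Finset O) (x : O → ℂ) (hS : S ⊆ sfb M) :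
    (𝓛.card : ℝ) * ∑ k ∈ 𝒦, ‖∑ n ∈ S, x n * (cub k.1 n * conj (cub k.2 n))‖ ^ 2 ≤
      4 * C0 * (M * L ^ 3 + P * 𝒦.card) * n2 S x := by
  obtain ⟨φ, hφ⟩ : ∃ φ : O × O → O, φ = fun q => q.1 * q.2 ^ 3 := ⟨_, rfl⟩
  have hinj : Set.InjOn φ (S ×ˢ 𝓛 : Finset (O × O)) := by
    rintro ⟨n, p⟩ hq ⟨n', p'⟩ hq' e
    rw [Finset.mem_coe, Finset.mem_product] at hq hq'
    rw [hφ] at e
    have hn := (mem_sfb.1 (hS hq.1)).1
    have hn' := (mem_sfb.1 (hS hq'.1)).1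
    obtain ⟨a, ha, e1, e2⟩ := rkey_cube (h𝓛 p hq.2).2.1 (h𝓛 p' hq'.2).2.1 hn'.2 e
    have hu : IsUnit a := hn.2 a ⟨n' * a, by rw [show n = n' * a ^ 3 from e2]; ring⟩
    have := ha.eq_one_of_isUnit hu
    subst this
    simp only [mul_one, one_pow] at e1 e2
    simp only [Prod.mk.injEq]
    exact ⟨e2, e1.symm⟩
  obtain ⟨x', hx'⟩ : ∃ x' : O → ℂ, ∀ q ∈ S ×ˢ 𝓛, x' (φ q) = x q.1 :=
    ⟨fun m => x (Function.invFunOn φ (S ×ˢ 𝓛 : Finset (O × O)) m).1, fun q hq => by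
      simp only [hinj.leftInvOn_invFunOn (Finset.mem_coe.2 hq)]⟩
  have hsub : (S ×ˢ 𝓛).image φ ⊆ ball (M * L ^ 3) := by
    intro m hm
    obtain ⟨q, hq, rfl⟩ := Finset.mem_image.1 hm
    rw [Finset.mem_product] at hq
    have hn := mem_sfb.1 (hS hq.1)
    have hp := h𝓛 _ hq.2
    rw [hφ, mem_ball]
    refine ⟨mul_ne_zero hn.1.1.ne_zero (pow_ne_zero _ hp.1.ne_zero), ?_⟩
    rw [N_mul, N_pow]
    exact mul_le_mul hn.2 (pow_le_pow_left₀ (N_nonneg _) hp.2.2 3) (pow_nonneg (N_nonneg _) _)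
      (by linarith)
  have hD : 1 ≤ M * L ^ 3 := one_le_mul_of_one_le_of_one_le hM (one_le_pow₀ hL)
  have h1 := h0 𝒦 P _ hD h𝒦 _ x' hsub
  have h2 : n2 ((S ×ˢ 𝓛).image φ) x' = 𝓛.card * n2 S x := by
    unfold n2
    rw [Finset.sum_image hinj, Finset.sum_congr rfl fun q hq => by rw [hx' q hq],
      Finset.sum_product, Finset.mul_sum]
    refine Finset.sum_congr rfl fun n _ => ?_
    simp only [Finset.sum_const, nsmul_eq_mul]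
  have h3 : ∀ k ∈ 𝒦, (𝓛.card / 2 : ℝ) ^ 2 *
      ‖∑ n ∈ S, x n * (cub k.1 n * conj (cub k.2 n))‖ ^ 2 ≤
      ‖∑ n ∈ (S ×ˢ 𝓛).image φ, x' n * (cub k.1 n * conj (cub k.2 n))‖ ^ 2 := by
    intro k hk
    obtain ⟨k1, k2, -, k3⟩ := h𝒦 k hk
    have e : ∑ n ∈ (S ×ˢ 𝓛).image φ, x' n * (cub k.1 n * conj (cub k.2 n)) =
        ((𝓛.filter fun p => IsCoprime k.1 p ∧ IsCoprime k.2 p).card : ℂ) *
          ∑ n ∈ S, x n * (cub k.1 n * conj (cub k.2 n)) := by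
      rw [Finset.sum_image hinj, Finset.sum_congr rfl fun q hq => by rw [hx' q hq],
        Finset.sum_product, Finset.mul_sum]
      refine Finset.sum_congr rfl fun n _ => ?_
      rw [Finset.card_filter]
      push_cast
      rw [Finset.sum_mul]
      refine Finset.sum_congr rfl fun p _ => ?_
      simp only [hφ, cub_cube k1.1, cub_cube k2.1]
      by_cases c1 : IsCoprime k.1 p <;> by_cases c2 : IsCoprime k.2 p <;> simp [c1, c2]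
    have hk0 : k.1 * k.2 ≠ 0 := mul_ne_zero k1.1.ne_zero k2.1.ne_zero
    have hs : 𝓛 ⊆ (𝓛.filter fun p => IsCoprime k.1 p ∧ IsCoprime k.2 p) ∪ pf (k.1 * k.2) := by
      intro p hp
      obtain ⟨p1, p2, -⟩ := h𝓛 p hp
      rw [Finset.mem_union, Finset.mem_filter, mem_pf hk0]
      by_cases c : p ∣ k.1 * k.2
      · exact Or.inr ⟨p1, p2, c⟩
      · exact Or.inl ⟨hp, (p1.coprime_iff_not_dvd.2 fun h => c (h.mul_right _)).symm,
          (p1.coprime_iff_not_dvd.2 fun h => c (h.mul_left _)).symm⟩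
    have h4 : (𝓛.card : ℝ) ≤ (𝓛.filter fun p => IsCoprime k.1 p ∧ IsCoprime k.2 p).card +
        (pf (k.1 * k.2)).card := by
      exact_mod_cast (Finset.card_le_card hs).trans (Finset.card_union_le _ _)
    have h5 := card_pf_le hk0
    have h6 : lg (k.1 * k.2) ≤ Real.log P := by
      unfold lg
      exact Real.log_le_log (N_pos hk0) (by rw [N_mul]; exact k3)
    have h7 := Real.log_two_gt_d9
    have h8 : (0 : ℝ) ≤ (pf (k.1 * k.2)).card := Nat.cast_nonneg _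
    have h9 : (𝓛.card / 2 : ℝ) ≤ (𝓛.filter fun p => IsCoprime k.1 p ∧ IsCoprime k.2 p).card := by
      nlinarith
    rw [e, norm_mul, mul_pow, Complex.norm_natCast]
    exact mul_le_mul_of_nonneg_right (pow_le_pow_left₀ (by positivity) h9 2) (by positivity)
  have h4 := (Finset.sum_le_sum h3).trans h1
  rw [← Finset.mul_sum, h2] at h4
  have h5 : (0 : ℝ) < 𝓛.card := by linarith [Real.log_nonneg hP]
  refine le_of_mul_le_mul_left ?_ (show (0 : ℝ) < 𝓛.card / 4 by positivity)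
  calc _ = (𝓛.card / 2 : ℝ) ^ 2 *
      ∑ k ∈ 𝒦, ‖∑ n ∈ S, x n * (cub k.1 n * conj (cub k.2 n))‖ ^ 2 := by ring
    _ ≤ _ := h4
    _ = _ := by ring

/-- Amplified classical large sieve.  `L = max(L₀, (P²/M)^{1/3})`, `𝓛` from `many_primes`.  Put
`x'(nℓ³) = x(n)` (`(n,ℓ) ↦ nℓ³` is injective: `rkey_cube`), so that
`∑ x' χ_k = w_k ∑ x χ_k`, `w_k = #{ℓ ∤ k₁k₂} ≥ #𝓛 - log₂ P`.  If `#𝓛 ≥ 2 log₂ P`, `ls0` with
`D = M L³` gives `C (M L³ + P #𝒦)/#𝓛`; otherwise (`L ≤ C P^{ε'}`) use `ls0` directly.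
`#𝒦 ≤ C P^{1+ε'}`. -/
theorem ls_amp (ε : ℝ) (hε : 0 < ε) : ∃ C : ℝ, 0 ≤ C ∧ ∀ (𝒦 : Finset (O × O)) (P M : ℝ), 1 ≤ P →
    1 ≤ M → (∀ k ∈ 𝒦, SF k.1 ∧ SF k.2 ∧ IsCoprime k.1 k.2 ∧ N k.1 * N k.2 ≤ P) →
    ∀ (S : Finset O) (x : O → ℂ), S ⊆ sfb M →
    ∑ k ∈ 𝒦, ‖∑ n ∈ S, x n * (cub k.1 n * conj (cub k.2 n))‖ ^ 2 ≤
      C * (P * M) ^ ε * (M + P ^ (4 / 3 : ℝ) * M ^ (1 / 3 : ℝ)) * n2 S x := by
  obtain ⟨c, L0, hc, hpr⟩ := many_primes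
  obtain ⟨C0, hC0, h0⟩ := ls0
  obtain ⟨C1, hC1, h1⟩ := mls_card
  obtain ⟨C2, hC2, h2⟩ := mls_log 5 hε
  obtain ⟨s, s1, s2, s3⟩ : ∃ s : ℝ, L0 ≤ s ∧ 2 ≤ s ∧ 15 ≤ c * s := by
    refine ⟨max (max L0 2) (15 / c), le_max_of_le_left (le_max_left _ _),
      le_max_of_le_left (le_max_right _ _), ?_⟩
    have := le_max_right (max L0 2) (15 / c)
    rw [div_le_iff₀ hc] at this
    linarith
  refine ⟨4 * C0 * (s ^ 6 + C1) * C2, by positivity, fun 𝒦 P M hP hM h𝒦 S x hS => ?_⟩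
  have hP0 : 0 < P := by linarith
  have hM0 : 0 < M := by linarith
  obtain ⟨l, hl⟩ : ∃ l : ℝ, l = 1 + Real.log P := ⟨_, rfl⟩
  have l1 : 1 ≤ l := by rw [hl]; linarith [Real.log_nonneg hP]
  obtain ⟨a, ha⟩ : ∃ a : ℝ, a = P ^ (1 / 3 : ℝ) := ⟨_, rfl⟩
  obtain ⟨b, hb⟩ : ∃ b : ℝ, b = M ^ (1 / 3 : ℝ) := ⟨_, rfl⟩
  have a1 : 1 ≤ a := by rw [ha]; exact Real.one_le_rpow hP (by norm_num)
  have b1 : 1 ≤ b := by rw [hb]; exact Real.one_le_rpow hM (by norm_num)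
  have a3 : a ^ 3 = P := by
    rw [ha, ← Real.rpow_natCast, ← Real.rpow_mul hP0.le]; norm_num
  have b3 : b ^ 3 = M := by
    rw [hb, ← Real.rpow_natCast, ← Real.rpow_mul hM0.le]; norm_num
  have a4 : P ^ (4 / 3 : ℝ) = a ^ 4 := by
    rw [ha, ← Real.rpow_natCast, ← Real.rpow_mul hP0.le]; norm_num
  rw [a4, ← hb]
  obtain ⟨R, R1, R2, R3, R4⟩ : ∃ R : ℝ, 1 ≤ R ∧ R ≤ P ∧ a ^ 2 ≤ R * b ∧
      M * R ^ 2 ≤ M + a ^ 4 * b := by
    by_cases h : a ^ 2 ≤ b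
    · exact ⟨1, le_rfl, hP, by linarith, by
        have : 0 ≤ a ^ 4 * b := by positivity
        linarith⟩
    · push Not at h
      have b0 : 0 < b := by linarith
      refine ⟨a ^ 2 / b, by rw [le_div_iff₀ b0]; linarith, ?_, by rw [div_mul_cancel₀ _ b0.ne'],
        ?_⟩
      · rw [div_le_iff₀ b0, ← a3]
        have : a ^ 2 ≤ a ^ 3 := pow_le_pow_right₀ a1 (by norm_num)
        have : 0 ≤ a ^ 3 := by positivity
        nlinarith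
      · have : M * (a ^ 2 / b) ^ 2 = a ^ 4 * b := by rw [← b3]; field_simp
        linarith
  obtain ⟨L, hL⟩ : ∃ L : ℝ, L = s ^ 2 * l ^ 2 * R := ⟨_, rfl⟩
  have l2 : 1 ≤ l ^ 2 * R := one_le_mul_of_one_le_of_one_le (one_le_pow₀ l1) R1
  have L1 : s ^ 2 ≤ L := by rw [hL, mul_assoc]; nlinarith
  have L2 : 0 < Real.log L := Real.log_pos (by nlinarith)
  have L3 : Real.log L ≤ 5 * s * l := by
    rw [hL, Real.log_mul (by positivity) (by positivity), Real.log_mul (by positivity)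
      (by positivity), Real.log_pow, Real.log_pow]
    have e1 := Real.log_le_sub_one_of_pos (show 0 < s by linarith)
    have e2 := Real.log_le_sub_one_of_pos (show 0 < l by linarith)
    have e3 := Real.log_le_log (show 0 < R by linarith) R2
    push_cast
    nlinarith
  obtain ⟨𝓛, h𝓛, hcard⟩ := hpr L (by nlinarith)
  have hh : 3 * l * R ≤ 𝓛.card := by
    refine le_trans ?_ hcard
    rw [le_div_iff₀ L2, hL]
    have e1 : 0 ≤ s * l ^ 2 * R := by positivity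
    calc 3 * l * R * Real.log (s ^ 2 * l ^ 2 * R) ≤ 3 * l * R * (5 * s * l) :=
          mul_le_mul_of_nonneg_left (hL ▸ L3) (by positivity)
      _ = 15 * (s * l ^ 2 * R) := by ring
      _ ≤ (c * s) * (s * l ^ 2 * R) := mul_le_mul_of_nonneg_right s3 e1
      _ = _ := by ring
  have h3 := mls_amp h0 𝒦 hP hM (show 1 ≤ L by nlinarith) h𝒦 𝓛 h𝓛 (by rw [← hl]; nlinarith) S x hS
  have h4 := h1 𝒦 P hP fun k hk =>
    ⟨(h𝒦 k hk).1.1.ne_zero, (h𝒦 k hk).2.1.1.ne_zero, (h𝒦 k hk).2.2.2⟩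
  rw [← hl] at h4
  have n0 : 0 ≤ n2 S x := Finset.sum_nonneg fun n _ => by positivity
  obtain ⟨A, hA⟩ : ∃ A : ℝ, A = ∑ k ∈ 𝒦, ‖∑ n ∈ S, x n * (cub k.1 n * conj (cub k.2 n))‖ ^ 2 :=
    ⟨_, rfl⟩
  have A0 : 0 ≤ A := by rw [hA]; exact Finset.sum_nonneg fun n _ => by positivity
  rw [← hA] at h3 ⊢
  obtain ⟨E, hE⟩ : ∃ E : ℝ, E = M + a ^ 4 * b := ⟨_, rfl⟩
  have E0 : a ^ 4 * b ≤ E := by rw [hE]; linarith
  have E1 : 0 ≤ E := le_trans (by positivity) E0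
  rw [← hE] at R4 ⊢
  have h5 : M * L ^ 3 + P * 𝒦.card ≤ l * R * ((s ^ 6 + C1) * l ^ 5 * E) := by
    have e1 : M * L ^ 3 ≤ l * R * (s ^ 6 * l ^ 5 * E) := by
      calc M * L ^ 3 = l * R * (s ^ 6 * l ^ 5 * (M * R ^ 2)) := by rw [hL]; ring
        _ ≤ _ := by gcongr
    have e2 : P * 𝒦.card ≤ l * R * (C1 * l ^ 5 * E) := by
      calc P * 𝒦.card ≤ P * (C1 * P * l) := mul_le_mul_of_nonneg_left h4 hP0.le
        _ = C1 * l * a ^ 4 * a ^ 2 := by rw [← a3]; ring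
        _ ≤ C1 * l * a ^ 4 * (R * b) := by gcongr
        _ = l * R * (C1 * 1 * (a ^ 4 * b)) := by ring
        _ ≤ _ := by gcongr; exact one_le_pow₀ l1
    linarith
  have h6 : l ^ 5 ≤ C2 * (P * M) ^ ε := by
    rw [hl]
    refine (h2 P hP).trans (mul_le_mul_of_nonneg_left ?_ hC2)
    exact Real.rpow_le_rpow hP0.le (by nlinarith) hε.le
  refine le_of_mul_le_mul_left ?_ (show 0 < l * R by positivity)
  calc l * R * A ≤ 𝓛.card * A := mul_le_mul_of_nonneg_right (by nlinarith) A0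
    _ ≤ _ := h3
    _ ≤ 4 * C0 * (l * R * ((s ^ 6 + C1) * (C2 * (P * M) ^ ε) * E)) * n2 S x := by
        gcongr
        exact h5.trans (by gcongr)
    _ = _ := by ring

theorem mls_rp {x : ℝ} (hx : 0 ≤ x) {r : ℝ} {n m : ℕ} (h : r * n = m) : (x ^ r) ^ n = x ^ m := by
  rw [← Real.rpow_natCast, ← Real.rpow_mul hx, h, Real.rpow_natCast]

theorem mls_cover {ι κ α : Type*} (s : Finset α) (I : Finset ι) (T : ι → Finset κ)
    (g : ι → κ → α) (F : α → ℝ) (hF : ∀ a, 0 ≤ F a)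
    (h : ∀ a ∈ s, ∃ i ∈ I, ∃ j ∈ T i, g i j = a) :
    ∑ a ∈ s, F a ≤ ∑ i ∈ I, ∑ j ∈ T i, F (g i j) := by
  rw [Finset.sum_sigma']
  refine le_trans (Finset.sum_le_sum_of_subset_of_nonneg (fun a ha => ?_) fun a _ _ => hF a)
    (Finset.sum_image_le_of_nonneg (s := I.sigma T)
      (g := fun p : (_ : ι) × κ => g p.1 p.2) (f := F) fun a _ => hF a)
  obtain ⟨i, hi, j, hj, e⟩ := h a ha
  exact Finset.mem_image.2 ⟨⟨i, j⟩, Finset.mem_sigma.2 ⟨hi, hj⟩, e⟩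

theorem mls_n2 {M : ℝ} {S : Finset O} (hS : S ⊆ sfb M) (x : O → ℂ) (c : O) :
    n2 S (fun n => x n * cub n c) ≤ n2 S x := by
  refine Finset.sum_le_sum fun n hn => ?_
  have h := (mem_sfb.1 (hS hn)).1.1
  have h1 := (rcub_isChar h).norm_le h.ne_zero c
  refine pow_le_pow_left₀ (norm_nonneg _) ?_ 2
  rw [norm_mul]
  exact mul_le_of_le_one_right (norm_nonneg _) h1

theorem mls_A {ε : ℝ} (hε : 0 < ε) : ∃ C : ℝ, 0 ≤ C ∧ ∀ (Y M X E : ℝ) (S : Finset O) (x : O → ℂ),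
    1 ≤ M → 1 ≤ X → S ⊆ sfb M → ∀ c k2 m : O, k2 ≠ 0 → m ≠ 0 → N k2 ^ 2 * N m ^ 3 ≤ Y →
    M * (N k2 * N m) ≤ E →
    ∑ k1 ∈ sfb (min X (Y / (N k2 ^ 2 * N m ^ 3))), ‖cs S x (c * k1 * k2 ^ 2 * m ^ 3)‖ ^ 2 ≤
      C * (Y * M) ^ ε * (Y + E + Y ^ (1 / 2 : ℝ) * M ^ (2 / 3 : ℝ) * X ^ (1 / 6 : ℝ)) * n2 S x *
        ((N k2)⁻¹ * (N m)⁻¹) := by
  obtain ⟨C, hC, h⟩ := cls ε hε
  refine ⟨C, hC, fun Y M X E S x hM hX hS c k2 m h2 hm hY hE => ?_⟩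
  have A1 := one_le_N h2
  have B1 := one_le_N hm
  generalize N k2 = A at *
  generalize N m = B at *
  have D1 : 1 ≤ A ^ 2 * B ^ 3 := one_le_mul_of_one_le_of_one_le (one_le_pow₀ A1) (one_le_pow₀ B1)
  obtain ⟨K, hK⟩ : ∃ K : ℝ, K = min X (Y / (A ^ 2 * B ^ 3)) := ⟨_, rfl⟩
  have K1 : 1 ≤ K := by
    rw [hK]
    exact le_min hX ((one_le_div (by linarith)).2 hY)
  have K2 : K ≤ X := hK ▸ min_le_left _ _
  have K3 : K * (A ^ 2 * B ^ 3) ≤ Y := (le_div_iff₀ (by linarith)).1 (hK ▸ min_le_right _ _)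
  have Y1 : 1 ≤ Y := by linarith
  rw [← hK]
  have h1 := h K M S (fun n => x n * cub n (c * k2 ^ 2 * m ^ 3)) K1 hM hS
  have e : ∀ k1, cs S x (c * k1 * k2 ^ 2 * m ^ 3) =
      cs S (fun n => x n * cub n (c * k2 ^ 2 * m ^ 3)) k1 := by
    intro k1
    refine Finset.sum_congr rfl fun n hn => ?_
    have hn' := (mem_sfb.1 (hS hn)).1.1
    rw [mul_assoc (x n), ← (rcub_isChar hn').mul]
    congr 2
    ring
  simp only [e]
  refine h1.trans ?_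
  have AB : 0 < A * B := by positivity
  have h3 : (K * M) ^ ε ≤ (Y * M) ^ ε :=
    Real.rpow_le_rpow (by positivity) (mul_le_mul_of_nonneg_right (by nlinarith) (by linarith)) hε.le
  have h4 : K * (A * B) ≤ Y := by
    refine le_trans (mul_le_mul_of_nonneg_left ?_ (by linarith)) K3
    exact mul_le_mul (le_self_pow₀ A1 (by norm_num)) (le_self_pow₀ B1 (by norm_num)) (by linarith)
      (by positivity)
  have h5 : (K * M) ^ (2 / 3 : ℝ) * (A * B) ≤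
      Y ^ (1 / 2 : ℝ) * M ^ (2 / 3 : ℝ) * X ^ (1 / 6 : ℝ) := by
    refine le_of_pow_le_pow_left₀ (n := 6) (by norm_num) (by positivity) ?_
    rw [mul_pow, mul_pow (_ * _), mul_pow (Y ^ _), mls_rp (m := 4) (by positivity) (by norm_num),
      mls_rp (m := 3) (by linarith) (by norm_num), mls_rp (m := 4) (by linarith) (by norm_num),
      mls_rp (m := 1) (by linarith) (by norm_num)]
    have B3 : 1 ≤ B ^ 3 := one_le_pow₀ B1
    calc (K * M) ^ 4 * (A * B) ^ 6 = (K ^ 3 * A ^ 6 * B ^ 6 * 1) * M ^ 4 * K := by ring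
      _ ≤ (K ^ 3 * A ^ 6 * B ^ 6 * B ^ 3) * M ^ 4 * K := by gcongr
      _ = (K * (A ^ 2 * B ^ 3)) ^ 3 * M ^ 4 * K := by ring
      _ ≤ Y ^ 3 * M ^ 4 * X := by gcongr
      _ = _ := by ring
  have h6 : K + M + (K * M) ^ (2 / 3 : ℝ) ≤
      (Y + E + Y ^ (1 / 2 : ℝ) * M ^ (2 / 3 : ℝ) * X ^ (1 / 6 : ℝ)) * (A⁻¹ * B⁻¹) := by
    rw [← mul_inv, ← div_eq_mul_inv, le_div_iff₀ AB]
    linarith
  have n0 : 0 ≤ n2 S (fun n => x n * cub n (c * k2 ^ 2 * m ^ 3)) :=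
    Finset.sum_nonneg fun n _ => by positivity
  calc _ ≤ C * (Y * M) ^ ε * ((Y + E + Y ^ (1 / 2 : ℝ) * M ^ (2 / 3 : ℝ) * X ^ (1 / 6 : ℝ)) *
        (A⁻¹ * B⁻¹)) * n2 S x := by
        refine mul_le_mul (mul_le_mul (mul_le_mul_of_nonneg_left h3 hC) h6 (by positivity)
          (by positivity)) (mls_n2 hS x _) n0 ?_
        exact mul_nonneg (by positivity) (le_trans (by positivity) h6)
    _ = _ := by ring

theorem mls_B {ε : ℝ} (hε : 0 < ε) : ∃ C : ℝ, 0 ≤ C ∧ ∀ (P M : ℝ) (S : Finset O) (x : O → ℂ),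
    1 ≤ P → 1 ≤ M → S ⊆ sfb M → ∀ (c m : O) (𝒦 : Finset (O × O)),
    (∀ k ∈ 𝒦, SF k.1 ∧ SF k.2 ∧ IsCoprime k.1 k.2 ∧ N k.1 * N k.2 ≤ P) →
    ∑ k ∈ 𝒦, ‖cs S x (c * k.1 * k.2 ^ 2 * m ^ 3)‖ ^ 2 ≤
      C * (P * M) ^ ε * (M + P ^ (4 / 3 : ℝ) * M ^ (1 / 3 : ℝ)) * n2 S x := by
  obtain ⟨C, hC, h⟩ := ls_amp ε hε
  refine ⟨C, hC, fun P M S x hP hM hS c m 𝒦 h𝒦 => ?_⟩
  have h1 := h 𝒦 P M hP hM h𝒦 S (fun n => x n * cub n (c * m ^ 3)) hS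
  refine le_trans (le_of_eq ?_) (h1.trans (mul_le_mul_of_nonneg_left (mls_n2 hS x _)
    (by positivity)))
  refine Finset.sum_congr rfl fun k hk => ?_
  congr 2
  refine Finset.sum_congr rfl fun n hn => ?_
  have hn' := (mem_sfb.1 (hS hn)).1.1
  rw [← cub_rec hn' (h𝒦 k hk).1.1, ← cub_rec hn' (h𝒦 k hk).2.1.1, ← cub_sq hn',
    mul_assoc (x n), ← (rcub_isChar hn').mul, ← (rcub_isChar hn').mul]
  congr 2
  ring

theorem mls_numA {y t q A B M : ℝ} (hq : 1 ≤ q) (hy : q ≤ y) (ht : y ≤ t) (hA : 1 ≤ A) (hB : 1 ≤ B)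
    (h : A ^ 2 * B ^ 3 * t ^ 12 ≤ y ^ 30) (hM : M ≤ t ^ 30) :
    M * (A * B) ≤ y ^ 10 * t ^ 30 * q⁻¹ := by
  have q0 : 0 < q := by linarith
  have y0 : 0 < y := by linarith
  have t0 : 0 < t := by linarith
  have h1 : A * B * t ^ 6 ≤ y ^ 15 := by
    refine le_of_pow_le_pow_left₀ (n := 2) (by norm_num) (by positivity) ?_
    calc (A * B * t ^ 6) ^ 2 = A ^ 2 * (B ^ 2 * 1) * t ^ 12 := by ring
      _ ≤ A ^ 2 * (B ^ 2 * B) * t ^ 12 := by gcongr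
      _ = A ^ 2 * B ^ 3 * t ^ 12 := by ring
      _ ≤ y ^ 30 := h
      _ = _ := by ring
  rw [← div_eq_mul_inv, le_div_iff₀ q0]
  refine le_of_mul_le_mul_right ?_ (show 0 < t ^ 6 by positivity)
  calc M * (A * B) * q * t ^ 6 = M * (A * B * t ^ 6) * q := by ring
    _ ≤ t ^ 30 * y ^ 15 * q := by gcongr
    _ = t ^ 30 * y ^ 10 * (y ^ 5 * q) := by ring
    _ ≤ t ^ 30 * y ^ 10 * (t ^ 5 * t) := by gcongr; linarith
    _ = _ := by ring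

theorem mls_numB {y t q B M : ℝ} (hq : 1 ≤ q) (hy : q ≤ y) (ht : y ≤ t) (hB : 1 ≤ B)
    (h : B ^ 3 ≤ y ^ 30) (h' : q ^ 30 * B ^ 3 ≤ 9 * y ^ 30) (hM0 : 0 ≤ M) (hM : M ≤ t ^ 30) :
    1 ≤ t ^ 6 * y ^ 15 / B ∧
      M + (t ^ 6 * y ^ 15 / B) ^ (4 / 3 : ℝ) * M ^ (1 / 3 : ℝ) ≤
        4 * (y ^ 10 * t ^ 30 * q⁻¹) * B⁻¹ := by
  have q0 : 0 < q := by linarith
  have y1 : 1 ≤ y := by linarith
  have t1 : 1 ≤ t := by linarith
  have B0 : 0 < B := by linarith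
  have h1 : B ≤ y ^ 10 :=
    le_of_pow_le_pow_left₀ (n := 3) (by norm_num) (by positivity) (h.trans (le_of_eq (by ring)))
  have h2 : q * B ≤ 3 * y ^ 10 := by
    refine le_of_pow_le_pow_left₀ (n := 3) (by norm_num) (by positivity) ?_
    have : 0 ≤ y ^ 30 := by positivity
    calc (q * B) ^ 3 = q ^ 3 * B ^ 3 := by ring
      _ ≤ q ^ 30 * B ^ 3 := by gcongr; norm_num
      _ ≤ 27 * y ^ 30 := by linarith
      _ = _ := by ring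
  constructor
  · rw [one_le_div B0]
    calc B ≤ 1 * y ^ 10 := by linarith
      _ ≤ t ^ 6 * y ^ 15 := by gcongr; exacts [one_le_pow₀ t1, by norm_num]
  · have h3 : M * (q * B) ≤ t ^ 30 * (3 * y ^ 10) := by gcongr
    have h4 : (t ^ 6 * y ^ 15 / B) ^ (4 / 3 : ℝ) * M ^ (1 / 3 : ℝ) * (q * B) ≤ y ^ 10 * t ^ 30 := by
      refine le_of_pow_le_pow_left₀ (n := 3) (by norm_num) (by positivity) ?_
      rw [mul_pow, mul_pow, mls_rp (m := 4) (by positivity) (by norm_num),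
        mls_rp (m := 1) hM0 (by norm_num)]
      calc (t ^ 6 * y ^ 15 / B) ^ 4 * M ^ 1 * (q * B) ^ 3 =
            (t ^ 6 * y ^ 15 / B) ^ 4 * (B ^ 3 * 1) * M * q ^ 3 := by ring
        _ ≤ (t ^ 6 * y ^ 15 / B) ^ 4 * (B ^ 3 * B) * t ^ 30 * t ^ 3 := by gcongr; linarith
        _ = y ^ 30 * t ^ 57 * y ^ 30 * 1 := by field_simp
        _ ≤ y ^ 30 * t ^ 57 * t ^ 30 * t ^ 3 := by gcongr; exact one_le_pow₀ t1
        _ = _ := by ring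
    have e : 4 * (y ^ 10 * t ^ 30 * q⁻¹) * B⁻¹ = 4 * (y ^ 10 * t ^ 30) / (q * B) := by field_simp
    rw [e, le_div_iff₀ (by positivity)]
    linarith

theorem mls_cover2 {ι κ ι' κ' α : Type*} (s : Finset α) (I : Finset ι) (T : ι → Finset κ)
    (g : ι → κ → α) (I' : Finset ι') (T' : ι' → Finset κ') (g' : ι' → κ' → α) (F : α → ℝ)
    (hF : ∀ a, 0 ≤ F a) (h : ∀ a ∈ s, (¬ ∃ i ∈ I, ∃ j ∈ T i, g i j = a) →
      ∃ i ∈ I', ∃ j ∈ T' i, g' i j = a) :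
    ∑ a ∈ s, F a ≤ ∑ i ∈ I, ∑ j ∈ T i, F (g i j) + ∑ i ∈ I', ∑ j ∈ T' i, F (g' i j) := by
  rw [← Finset.sum_filter_add_sum_filter_not s fun a => ∃ i ∈ I, ∃ j ∈ T i, g i j = a]
  exact add_le_add (mls_cover _ I T g F hF fun a ha => (Finset.mem_filter.1 ha).2)
    (mls_cover _ I' T' g' F hF fun a ha =>
      h a (Finset.mem_filter.1 ha).1 (Finset.mem_filter.1 ha).2)

theorem mls_s2 {α β : Type*} (I : Finset α) (J : Finset β) (a : ℝ) (f : β → ℝ) :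
    ∑ i ∈ I ×ˢ J, a * f i.2 = I.card * (a * ∑ n ∈ J, f n) := by
  rw [Finset.sum_product, Finset.mul_sum]
  simp only [Finset.sum_const, nsmul_eq_mul]

theorem mls_s3 (I J : Finset O) (a : ℝ) (f : O → ℝ) :
    ∑ i ∈ I ×ˢ J ×ˢ J, a * (f i.2.1 * f i.2.2) =
      I.card * (a * ((∑ n ∈ J, f n) * ∑ n ∈ J, f n)) := by
  rw [mls_s2 I (J ×ˢ J) a fun i => f i.1 * f i.2, Finset.sum_mul_sum, Finset.sum_product]

theorem mls_split {Y Q X y t : ℝ} (y30 : y ^ 30 = Y) (y1 : 1 ≤ y) (t1 : 1 ≤ t) {k : O}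
    (k0 : k ≠ 0) (kY : N k ≤ Y) (hmaj : ¬ Maj Q k) (hlow : Low X k)
    (hnA : ¬ ∃ i ∈ (ball 9 ×ˢ ball Y ×ˢ ball Y).filter
      (fun i => N i.2.1 ^ 2 * N i.2.2 ^ 3 * t ^ 12 ≤ Y),
      ∃ k1 ∈ sfb (min X (Y / (N i.2.1 ^ 2 * N i.2.2 ^ 3))),
        i.1 * k1 * i.2.1 ^ 2 * i.2.2 ^ 3 = k) :
    ∃ i ∈ (ball 9 ×ˢ ball Y).filter (fun i => N i.2 ^ 3 ≤ Y ∧ Q * N i.2 ^ 3 ≤ 9 * Y),
      ∃ j ∈ (ball Y ×ˢ ball Y).filter (fun k : O × O => SF k.1 ∧ SF k.2 ∧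
        IsCoprime k.1 k.2 ∧ N k.1 * N k.2 ≤ t ^ 6 * y ^ 15 / N i.2),
        i.1 * j.1 * j.2 ^ 2 * i.2 ^ 3 = k := by
  obtain ⟨k1, ⟨u, j, k2, m, hu, hj, s1, s2, cop, e⟩, kX⟩ := hlow
  have c0 : u * lam ^ j ≠ 0 := fun h => k0 (by rw [e, h]; ring)
  have m0 : m ≠ 0 := fun h => k0 (by rw [e, h]; ring)
  have c9 : N (u * lam ^ j) ≤ 9 := by
    have e1 : N u = 1 := by unfold N; rw [isUnit_iff_nm.1 hu]; norm_num
    have e2 : N lam = 3 := by unfold N; rw [nm_lam]; norm_num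
    rw [N_mul, N_pow, e1, e2, one_mul]
    exact (pow_le_pow_right₀ (by norm_num) (show j ≤ 2 by omega)).trans (by norm_num)
  have c1 := one_le_N c0
  have K1 := one_le_N s1.1.ne_zero
  have A1 := one_le_N s2.1.ne_zero
  have B1 := one_le_N m0
  have hQ' : Q < N (u * lam ^ j) * N k1 * N k2 ^ 2 := by
    rw [← N_pow, ← N_mul, ← N_mul]
    exact lt_of_not_ge fun h => hmaj ⟨_, m, e, h⟩
  have hY' : N k1 * (N k2 ^ 2 * N m ^ 3) ≤ Y := by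
    rw [e, N_mul, N_mul, N_mul, N_pow, N_pow] at kY
    calc N k1 * (N k2 ^ 2 * N m ^ 3) = 1 * N k1 * N k2 ^ 2 * N m ^ 3 := by ring
      _ ≤ N (u * lam ^ j) * N k1 * N k2 ^ 2 * N m ^ 3 := by gcongr
      _ ≤ Y := kY
  have A2 : N k2 ≤ N k2 ^ 2 := le_self_pow₀ A1 (by norm_num)
  have B3 : N m ≤ N m ^ 3 := le_self_pow₀ B1 (by norm_num)
  have D1 : 1 ≤ N k2 ^ 2 * N m ^ 3 := one_le_mul_of_one_le_of_one_le (by linarith) (by linarith)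
  have DY : N k2 ^ 2 * N m ^ 3 ≤ Y := (le_mul_of_one_le_left (by linarith) K1).trans hY'
  have AY : N k2 ^ 2 ≤ Y := (le_mul_of_one_le_right (by linarith) (by linarith)).trans DY
  have BY : N m ^ 3 ≤ Y := (le_mul_of_one_le_left (by linarith) (by linarith)).trans DY
  have KY : N k1 ≤ Y := (le_mul_of_one_le_right (by linarith) D1).trans hY'
  have hK : N k1 < t ^ 12 := by
    refine lt_of_not_ge fun h => hnA ⟨(u * lam ^ j, k2, m), ?_, k1, ?_, e.symm⟩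
    · rw [Finset.mem_filter, Finset.mem_product, Finset.mem_product, mem_ball, mem_ball,
        mem_ball]
      refine ⟨⟨⟨c0, c9⟩, ⟨s2.1.ne_zero, A2.trans AY⟩, m0, B3.trans BY⟩, le_trans ?_ hY'⟩
      rw [mul_comm (N k1)]
      exact mul_le_mul_of_nonneg_left h (by linarith)
    · exact mem_sfb.2 ⟨s1, le_min kX ((le_div_iff₀ (by linarith)).2 hY')⟩
  refine ⟨(u * lam ^ j, m), ?_, (k1, k2), ?_, e.symm⟩
  · rw [Finset.mem_filter, Finset.mem_product, mem_ball, mem_ball]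
    refine ⟨⟨⟨c0, c9⟩, m0, B3.trans BY⟩, BY, ?_⟩
    calc Q * N m ^ 3 ≤ 9 * N k1 * N k2 ^ 2 * N m ^ 3 := by
          gcongr
          exact hQ'.le.trans (by gcongr)
      _ = 9 * (N k1 * (N k2 ^ 2 * N m ^ 3)) := by ring
      _ ≤ _ := by linarith
  · rw [Finset.mem_filter, Finset.mem_product, mem_ball, mem_ball]
    refine ⟨⟨⟨s1.1.ne_zero, KY⟩, s2.1.ne_zero, A2.trans AY⟩, s1, s2, cop, ?_⟩
    rw [le_div_iff₀ (by linarith)]
    refine le_of_pow_le_pow_left₀ (n := 2) (by norm_num) (by positivity) ?_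
    calc (N k1 * N k2 * N m) ^ 2 = N k1 * (N k1 * (N k2 ^ 2 * (N m ^ 2 * 1))) := by ring
      _ ≤ N k1 * (N k1 * (N k2 ^ 2 * (N m ^ 2 * N m))) := by gcongr
      _ = N k1 * (N k1 * (N k2 ^ 2 * N m ^ 3)) := by ring
      _ ≤ t ^ 12 * y ^ 30 := by rw [y30]; gcongr
      _ = _ := by ring
/-- **Minor frequencies.**  If `Q ≥ Y` the set is empty (`k = k · 1³`).  `M₂ = M + Y`.  Use the
decomposition given by `Low`; `3 X₁X₂² ·(8·…) ≥ N(uλ^jk₁k₂²) > Q`; dyadic boxes `X₁, X₂`,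
`N m ≤ (Y/(X₁X₂²))^{1/3} =: R`.  If `X₁ ≥ M₂^{2/5}`: fix `(u,j,k₂,m)`, `cls`:
`X₂R(X₁ + M + (X₁M)^{2/3})` with `X₁X₂R ≤ CY`, `X₂/X₁ ≤ C M₂^{-1/10}`,
`X₂R X₁^{2/3} = Y^{1/3}(X₁X₂)^{1/3} ≤ Y^{1/3}(Y X₁)^{1/6}`.  If `X₁ < M₂^{2/5}`: fix `(u,j,m)`,
`ls_amp` with `M₂`: `R M₂ ≤ C Y^{1/3} M₂ Q^{-1/3}`,
`R (X₁X₂)^{4/3}M₂^{1/3} = Y^{1/3}X₁X₂^{2/3}M₂^{1/3} ≤ Y^{1/3} M₂^{14/15}`. -/
theorem mls (ε : ℝ) (hε : 0 < ε) : ∃ C : ℝ, 0 ≤ C ∧ ∀ (Y M Q X : ℝ) (S : Finset O) (x : O → ℂ),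
    1 ≤ Y → 1 ≤ M → 1 ≤ Q → 1 ≤ X → S ⊆ sfb M →
    ∑ k ∈ (ball Y).filter (fun k => ¬ Maj Q k ∧ Low X k), ‖cs S x k‖ ^ 2 ≤
      C * (Y * M) ^ ε * (Y + Y ^ (1 / 3 : ℝ) * (M + Y) * Q ^ (-(1 / 30 : ℝ)) +
        Y ^ (1 / 2 : ℝ) * M ^ (2 / 3 : ℝ) * X ^ (1 / 6 : ℝ)) * n2 S x := by
  obtain ⟨CA, hCA, hA⟩ := mls_A (half_pos hε)
  obtain ⟨CB, hCB, hB⟩ := mls_B (show 0 < ε / 4 by positivity)
  obtain ⟨C1, hC1, h1⟩ := mls_inv
  obtain ⟨C2, hC2, h2⟩ := mls_log 2 (half_pos hε)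
  refine ⟨162 * (CA * C1 ^ 2 + CB * 2 ^ (ε / 4) * 4 * C1) * C2, by positivity,
    fun Y M Q X S x hY hM hQ hX hS => ?_⟩
  have n0 : 0 ≤ n2 S x := Finset.sum_nonneg fun n _ => by positivity
  have Y0 : 0 < Y := by linarith
  have M0 : 0 < M := by linarith
  have Q0 : 0 < Q := by linarith
  by_cases hQY : Y ≤ Q
  · rw [Finset.filter_eq_empty_iff.2 fun k hk h => h.1 ⟨k, 1, by ring, (mem_ball.1 hk).2.trans hQY⟩,
      Finset.sum_empty]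
    positivity
  push Not at hQY
  obtain ⟨y, hy⟩ : ∃ y : ℝ, y = Y ^ (1 / 30 : ℝ) := ⟨_, rfl⟩
  obtain ⟨t, ht⟩ : ∃ t : ℝ, t = (M + Y) ^ (1 / 30 : ℝ) := ⟨_, rfl⟩
  obtain ⟨q, hq⟩ : ∃ q : ℝ, q = Q ^ (1 / 30 : ℝ) := ⟨_, rfl⟩
  have q1 : 1 ≤ q := by rw [hq]; exact Real.one_le_rpow hQ (by norm_num)
  have qy : q ≤ y := by rw [hq, hy]; exact Real.rpow_le_rpow Q0.le hQY.le (by norm_num)
  have yt : y ≤ t := by rw [ht, hy]; exact Real.rpow_le_rpow Y0.le (by linarith) (by norm_num)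
  have y30 : y ^ 30 = Y := by rw [hy, mls_rp (m := 1) Y0.le (by norm_num), pow_one]
  have t30 : t ^ 30 = M + Y := by rw [ht, mls_rp (m := 1) (by positivity) (by norm_num), pow_one]
  have q30 : q ^ 30 = Q := by rw [hq, mls_rp (m := 1) Q0.le (by norm_num), pow_one]
  have y10 : Y ^ (1 / 3 : ℝ) = y ^ 10 := by
    rw [hy, ← Real.rpow_natCast, ← Real.rpow_mul Y0.le]; norm_num
  have y1 : 1 ≤ y := by linarith
  have t1 : 1 ≤ t := by linarith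
  rw [y10, Real.rpow_neg Q0.le, ← hq, ← t30]
  obtain ⟨E, hE⟩ : ∃ E : ℝ, E = y ^ 10 * t ^ 30 * q⁻¹ := ⟨_, rfl⟩
  have E0 : 0 ≤ E := by rw [hE]; positivity
  rw [← hE]
  obtain ⟨W, hW⟩ : ∃ W : ℝ, W = Y + E + Y ^ (1 / 2 : ℝ) * M ^ (2 / 3 : ℝ) * X ^ (1 / 6 : ℝ) :=
    ⟨_, rfl⟩
  have EW : E ≤ W := by
    have : 0 ≤ Y ^ (1 / 2 : ℝ) * M ^ (2 / 3 : ℝ) * X ^ (1 / 6 : ℝ) := by positivity
    linarith
  have W0 : 0 ≤ W := E0.trans EW
  rw [← hW]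
  obtain ⟨l, hl⟩ : ∃ l : ℝ, l = 1 + Real.log Y := ⟨_, rfl⟩
  have l1 : 1 ≤ l := by rw [hl]; linarith [Real.log_nonneg hY]
  have h3 := h1 Y hY
  rw [← hl] at h3
  have s0 : 0 ≤ ∑ n ∈ ball Y, (N n)⁻¹ := Finset.sum_nonneg fun n _ => inv_nonneg.2 (N_nonneg n)
  have c9 : ((ball 9).card : ℝ) ≤ 162 := (card_ball_le (X := 9) (by norm_num)).trans (by norm_num)
  obtain ⟨z, hz⟩ : ∃ z : ℝ, z = (Y * M) ^ (ε / 2) := ⟨_, rfl⟩
  have z0 : 0 ≤ z := by rw [hz]; positivity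
  have zz : (Y * M) ^ ε = z * z := by rw [hz, ← Real.rpow_add (by positivity), add_halves]
  have lz : l ^ 2 ≤ C2 * z := by
    rw [hl, hz]
    refine (h2 Y hY).trans (mul_le_mul_of_nonneg_left ?_ hC2)
    exact Real.rpow_le_rpow Y0.le (le_mul_of_one_le_right Y0.le hM) (half_pos hε).le
  -- the two index sets
  obtain ⟨IA, hIA⟩ : ∃ IA : Finset (O × O × O), IA = (ball 9 ×ˢ ball Y ×ˢ ball Y).filter
    fun i => N i.2.1 ^ 2 * N i.2.2 ^ 3 * t ^ 12 ≤ Y := ⟨_, rfl⟩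
  obtain ⟨IB, hIB⟩ : ∃ IB : Finset (O × O), IB = (ball 9 ×ˢ ball Y).filter
    fun i => N i.2 ^ 3 ≤ Y ∧ Q * N i.2 ^ 3 ≤ 9 * Y := ⟨_, rfl⟩
  have SA : ∑ i ∈ IA, ∑ k1 ∈ sfb (min X (Y / (N i.2.1 ^ 2 * N i.2.2 ^ 3))),
      ‖cs S x (i.1 * k1 * i.2.1 ^ 2 * i.2.2 ^ 3)‖ ^ 2 ≤ 162 * (CA * C1 ^ 2) * l ^ 2 * z * W * n2 S x := by
    calc _ ≤ ∑ i ∈ IA, CA * z * W * n2 S x * ((N i.2.1)⁻¹ * (N i.2.2)⁻¹) := by
          refine Finset.sum_le_sum fun i hi => ?_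
          rw [hIA, Finset.mem_filter, Finset.mem_product, Finset.mem_product, mem_ball, mem_ball,
            mem_ball] at hi
          obtain ⟨⟨-, ⟨i1, -⟩, i2, -⟩, i3⟩ := hi
          rw [hz, hW]
          refine hA Y M X E S x hM hX hS _ _ _ i1 i2 (le_trans (le_mul_of_one_le_right
            (mul_nonneg (pow_nonneg (N_nonneg _) _) (pow_nonneg (N_nonneg _) _))
            (one_le_pow₀ t1)) i3) ?_
          rw [hE]
          exact mls_numA q1 qy yt (one_le_N i1) (one_le_N i2) (by rw [y30]; exact i3)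
            (by rw [t30]; linarith)
      _ ≤ ∑ i ∈ ball 9 ×ˢ ball Y ×ˢ ball Y, CA * z * W * n2 S x * ((N i.2.1)⁻¹ * (N i.2.2)⁻¹) := by
          rw [hIA]
          refine Finset.sum_le_sum_of_subset_of_nonneg (Finset.filter_subset _ _) fun i _ _ => ?_
          have := N_nonneg i.2.1
          have := N_nonneg i.2.2
          positivity
      _ = (ball 9).card * (CA * z * W * n2 S x *
            ((∑ n ∈ ball Y, (N n)⁻¹) * ∑ n ∈ ball Y, (N n)⁻¹)) :=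
          mls_s3 _ _ _ fun n => (N n)⁻¹
      _ ≤ 162 * (CA * z * W * n2 S x * ((C1 * l) * (C1 * l))) :=
          mul_le_mul c9 (mul_le_mul_of_nonneg_left (mul_self_le_mul_self s0 h3) (by positivity))
            (by positivity) (by norm_num)
      _ = _ := by ring
  have SB : ∑ i ∈ IB, ∑ k ∈ (ball Y ×ˢ ball Y).filter (fun k : O × O => SF k.1 ∧ SF k.2 ∧
      IsCoprime k.1 k.2 ∧ N k.1 * N k.2 ≤ t ^ 6 * y ^ 15 / N i.2),
      ‖cs S x (i.1 * k.1 * k.2 ^ 2 * i.2 ^ 3)‖ ^ 2 ≤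
        162 * (CB * 2 ^ (ε / 4) * 4 * C1) * l ^ 2 * z * W * n2 S x := by
    calc _ ≤ ∑ i ∈ IB, CB * (2 ^ (ε / 4) * z) * (4 * W) * n2 S x * (N i.2)⁻¹ := by
          refine Finset.sum_le_sum fun i hi => ?_
          rw [hIB, Finset.mem_filter, Finset.mem_product, mem_ball, mem_ball] at hi
          obtain ⟨⟨-, i1, -⟩, i2, i3⟩ := hi
          have B1 := one_le_N i1
          obtain ⟨P1, P2⟩ := mls_numB (M := M) q1 qy yt B1 (by rw [y30]; exact i2)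
            (by rw [y30, q30]; exact i3) M0.le (by rw [t30]; linarith)
          rw [← hE] at P2
          refine (hB _ M S x P1 hM hS i.1 i.2 _ fun k hk => (Finset.mem_filter.1 hk).2).trans ?_
          have P3 : t ^ 6 * y ^ 15 / N i.2 * M ≤ 2 * (Y * M) ^ 2 := by
            have e1 : t ^ 6 ≤ 2 * (Y * M) := by
              have : t ^ 6 ≤ t ^ 30 := pow_le_pow_right₀ t1 (by norm_num)
              linarith [le_mul_of_one_le_left M0.le hY, le_mul_of_one_le_right Y0.le hM]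
            have e2 : y ^ 15 ≤ Y := y30 ▸ pow_le_pow_right₀ y1 (by norm_num)
            calc t ^ 6 * y ^ 15 / N i.2 * M ≤ t ^ 6 * y ^ 15 * M :=
                  mul_le_mul_of_nonneg_right (div_le_self (by positivity) B1) M0.le
              _ ≤ 2 * (Y * M) * Y * M := by gcongr
              _ = _ := by ring
          have P4 : (t ^ 6 * y ^ 15 / N i.2 * M) ^ (ε / 4) ≤ 2 ^ (ε / 4) * z := by
            refine (Real.rpow_le_rpow (by positivity) P3 (by positivity)).trans (le_of_eq ?_)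
            rw [Real.mul_rpow (by norm_num) (by positivity), hz, ← Real.rpow_natCast,
              ← Real.rpow_mul (by positivity)]
            congr 2
            push_cast
            ring
          calc _ ≤ CB * (2 ^ (ε / 4) * z) * (4 * W * (N i.2)⁻¹) * n2 S x := by
                gcongr
                exact P2.trans (by gcongr)
            _ = _ := by ring
      _ ≤ ∑ i ∈ ball 9 ×ˢ ball Y, CB * (2 ^ (ε / 4) * z) * (4 * W) * n2 S x * (N i.2)⁻¹ := by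
          rw [hIB]
          refine Finset.sum_le_sum_of_subset_of_nonneg (Finset.filter_subset _ _) fun i _ _ => ?_
          have := N_nonneg i.2
          positivity
      _ = (ball 9).card * (CB * (2 ^ (ε / 4) * z) * (4 * W) * n2 S x * ∑ n ∈ ball Y, (N n)⁻¹) :=
          mls_s2 _ _ _ fun n => (N n)⁻¹
      _ ≤ 162 * (CB * (2 ^ (ε / 4) * z) * (4 * W) * n2 S x * (C1 * l ^ 2)) :=
          mul_le_mul c9 (mul_le_mul_of_nonneg_left (h3.trans (mul_le_mul_of_nonneg_left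
            (le_self_pow₀ l1 (by norm_num)) hC1)) (by positivity)) (by positivity) (by norm_num)
      _ = _ := by ring
  refine le_trans (mls_cover2 _ IA (fun i => sfb (min X (Y / (N i.2.1 ^ 2 * N i.2.2 ^ 3))))
    (fun i k1 => i.1 * k1 * i.2.1 ^ 2 * i.2.2 ^ 3) IB
    (fun i => (ball Y ×ˢ ball Y).filter (fun k : O × O => SF k.1 ∧ SF k.2 ∧
      IsCoprime k.1 k.2 ∧ N k.1 * N k.2 ≤ t ^ 6 * y ^ 15 / N i.2))
    (fun i k => i.1 * k.1 * k.2 ^ 2 * i.2 ^ 3) (fun k => ‖cs S x k‖ ^ 2) (fun _ => by positivity)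
    fun k hk hn => ?_) ((add_le_add SA SB).trans ?_)
  · rw [Finset.mem_filter, mem_ball] at hk
    rw [hIA] at hn
    rw [hIB]
    exact mls_split y30 y1 t1 hk.1.1 hk.1.2 hk.2.1 hk.2.2 hn
  · rw [zz]
    calc _ = 162 * (CA * C1 ^ 2 + CB * 2 ^ (ε / 4) * 4 * C1) * l ^ 2 * z * W * n2 S x := by ring
      _ ≤ 162 * (CA * C1 ^ 2 + CB * 2 ^ (ε / 4) * 4 * C1) * (C2 * z) * z * W * n2 S x := by gcongr
      _ = _ := by ring

end Crest.Agent.R12
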