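import Crest.Agent.R12.VA3
import Crest.Agent.R12.Disp1
import Crest.Agent.R12.MLS

/-!
# R12 / Core1 : duality, amplification, and the major frequencies of the dual sums
-/

set_option autoImplicit false

noncomputable section

open scoped Classical ComplexConjugate Topology
open MeasureTheory Filter

namespace Crest.Agent.R12

open Crest.Agent.R17

/-- total correlation with `conj GG` -/
def F2 (S : Finset O) (x : O → ℂ) (M Q : ℝ) : ℝ :=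
  ∑ q ∈ ball Q, ∑ a ∈ res q, ‖fam2 S x M q a (-1 / 6)‖ ^ 2

theorem F2_mono (S : Finset O) (x : O → ℂ) (M : ℝ) {Q Q' : ℝ} (h : Q ≤ Q') :
    F2 S x M Q ≤ F2 S x M Q' :=
  Finset.sum_le_sum_of_subset_of_nonneg (ball_mono h) fun _ _ _ => Finset.sum_nonneg fun _ _ => by positivity

theorem c1_inj (S : Finset O) (x : O → ℂ) (M : ℝ) {R : Finset O} {c : O} {Q : ℝ} (hc : c ≠ 0)
    (h : ∀ d ∈ R, d ≠ 0 ∧ N (c * d) ≤ Q) :
    ∑ d ∈ R, ∑ a ∈ res (c * d), ‖fam2 S x M (c * d) a (-1 / 6)‖ ^ 2 ≤ F2 S x M Q := by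
  rw [← Finset.sum_image (f := fun q => ∑ a ∈ res q, ‖fam2 S x M q a (-1 / 6)‖ ^ 2)
    fun _ _ _ _ e => mul_left_cancel₀ hc e]
  refine Finset.sum_le_sum_of_subset_of_nonneg (fun q hq => ?_)
    fun _ _ _ => Finset.sum_nonneg fun _ _ => by positivity
  obtain ⟨d, hd, rfl⟩ := Finset.mem_image.1 hq
  exact mem_ball.2 ⟨mul_ne_zero hc (h d hd).1, (h d hd).2⟩

theorem c1_split (S : Finset O) (x : O → ℂ) (M : ℝ) {c q : O} (hc : c ≠ 0) (hq : q ≠ 0) {ψ : O → ℂ}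
    (hψ : Per c ψ) (a : O) (s : ℂ) : fam2 S (fun n => x n * ψ n) M q a s =
      ∑ t ∈ res c, ψ (a + q * t) * fam2 S x M (q * c) (a + q * t) s := by
  simp only [fam2, Finset.sum_filter, Finset.mul_sum]
  rw [Finset.sum_comm]
  refine Finset.sum_congr rfl fun b _ => ?_
  split_ifs with h
  · obtain ⟨u, hu⟩ := h
    obtain ⟨t, ht, h1⟩ := exists_res hc u
    have h2 : ∀ t, q * c ∣ b - (a + q * t) ↔ c ∣ u - t := fun t => by
      rw [← sub_sub, hu, ← mul_sub, mul_dvd_mul_iff_left hq]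
    rw [Finset.sum_eq_single_of_mem t ht fun t' ht' h => by
      rw [if_neg fun h3 => h (res_inj hc ht' ht (by simpa using h1.sub ((h2 t').1 h3))), mul_zero],
      if_pos ((h2 t).2 h1), hψ.congr (dvd_of_mul_left_dvd ((h2 t).2 h1))]
    ring
  · refine (Finset.sum_eq_zero fun t _ => ?_).symm
    rw [if_neg fun h3 => h ?_, mul_zero]
    simpa [← sub_sub] using (dvd_of_mul_right_dvd h3).add (dvd_mul_right q t)

/-- twisting by a periodic function: split each class mod `q` into the `N c` classes mod `q c`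
(Cauchy–Schwarz); `q ↦ q c` is injective -/
theorem F2_twist (S : Finset O) (x : O → ℂ) (M Q : ℝ) {c : O} (hc : c ≠ 0) {ψ : O → ℂ} (hψ : Per c ψ)
    (h1 : ∀ m, ‖ψ m‖ ≤ 1) : F2 S (fun n => x n * ψ n) M Q ≤ N c * F2 S x M (Q * N c) := by
  refine le_trans ?_ (mul_le_mul_of_nonneg_left (c1_inj S x M (R := ball Q) hc fun d hd =>
    ⟨(mem_ball.1 hd).1, by
      rw [N_mul, mul_comm]; exact mul_le_mul_of_nonneg_right (mem_ball.1 hd).2 (N_nonneg c)⟩) (N_nonneg c))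
  rw [F2, Finset.mul_sum]
  refine Finset.sum_le_sum fun q hq => ?_
  have h0 := (mem_ball.1 hq).1
  have h2 := sum_res_tower h0 hc (f := fun a => ((‖fam2 S x M (q * c) a (-1 / 6)‖ ^ 2 : ℝ) : ℂ)) fun a t => by
    simp only [fam2, ← sub_sub, dvd_sub_left (dvd_mul_right (q * c) t)]
  simp only [← Complex.ofReal_sum, Complex.ofReal_inj] at h2
  rw [mul_comm c, h2, Finset.mul_sum]
  refine Finset.sum_le_sum fun a _ => ?_
  rw [c1_split S x M hc h0 hψ, N, ← card_res hc]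
  refine (pow_le_pow_left₀ (norm_nonneg _) (norm_sum_le_of_le _ fun t _ => ?_) 2).trans sq_sum_le_card_mul_sum_sq
  rw [norm_mul]
  exact mul_le_of_le_one_left (norm_nonneg _) (h1 _)

theorem c1_dual {ι : Type*} {D : ℝ} (hD : 0 < D) {𝒦 : Finset O} (h𝒦 : ∀ k ∈ 𝒦, Prim k) (w : O → ℂ)
    {T : Finset ι} {φ : ι → O} (hφ : Set.InjOn φ T) (hT : ∀ i ∈ T, N (φ i) ≤ 16 * D) (y : ι → ℂ) :
    ‖∑ i ∈ T, y i * ∑ k ∈ 𝒦, w k * cub k (φ i)‖ ^ 2 ≤ Real.exp (16 * c0) * (∑ i ∈ T, ‖y i‖ ^ 2) *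
      ∑' d : O, Vo D d * ‖∑ k ∈ 𝒦, w k * cub k d‖ ^ 2 := by
  have hs : Summable fun d => Vo D d * ‖∑ k ∈ 𝒦, w k * cub k d‖ ^ 2 := by
    refine Summable.of_nonneg_of_le (fun d => mul_nonneg (Om_pos _).le (by positivity)) (fun d => ?_)
      (Summable.mul_right ((∑ n ∈ 𝒦, ‖w n‖) ^ 2) (by simpa using summable_Om hD 0))
    refine mul_le_mul_of_nonneg_left (pow_le_pow_left₀ (norm_nonneg _) (norm_sum_le_of_le _ fun n hn => ?_) 2)
      (Om_pos _).le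
    rw [norm_mul]
    exact mul_le_of_le_one_right (norm_nonneg _) (cl_cub_le (h𝒦 n hn) d)
  have h1 := hs.sum_le_tsum (T.image φ) fun d _ => mul_nonneg (Om_pos _).le (by positivity)
  rw [Finset.sum_image hφ] at h1
  refine (pow_le_pow_left₀ (norm_nonneg _) (norm_sum_le_of_le _ fun i _ => (norm_mul _ _).le) 2).trans
    ((Finset.sum_mul_sq_le_sq_mul_sq _ _ _).trans ?_)
  rw [mul_comm (Real.exp _), mul_assoc]
  refine mul_le_mul_of_nonneg_left (le_trans ?_ (mul_le_mul_of_nonneg_left h1 (Real.exp_pos _).le))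
    (Finset.sum_nonneg fun _ _ => by positivity)
  rw [Finset.mul_sum]
  refine Finset.sum_le_sum fun i hi => ?_
  unfold Om
  rw [← mul_assoc (Real.exp _), ← Real.exp_add]
  refine le_mul_of_one_le_left (by positivity) (Real.one_le_exp ?_)
  nlinarith [(div_le_iff₀ hD).2 (hT i hi), one_lt_c0]

theorem c1_rec {S : Finset O} {M : ℝ} (hS : In S M) (x : O → ℂ) {k : O} (hk : Prim k) :
    ∑ n ∈ S, x n * (conj (cs S x k) * cub k n) = ((‖cs S x k‖ ^ 2 : ℝ) : ℂ) := by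
  rw [Complex.ofReal_pow, ← Complex.conj_mul', cs, Finset.mul_sum]
  exact Finset.sum_congr rfl fun n hn => by rw [cub_rec hk (hS n hn).1.1, mul_left_comm]

/-- `∑ |X_k|² = ∑_n x n ∑_k conj X_k cub k n` (reciprocity), Cauchy–Schwarz, `Vo M n ≥ e^{-16 c0}` -/
theorem dual_one : ∃ C : ℝ, 0 ≤ C ∧ ∀ (M : ℝ) (S 𝒦 : Finset O) (x : O → ℂ), 0 < M → In S M →
    (∀ k ∈ 𝒦, Prim k) → (∑ k ∈ 𝒦, ‖cs S x k‖ ^ 2) ^ 2 ≤
      C * n2 S x * ∑' d : O, Vo M d * ‖∑ k ∈ 𝒦, conj (cs S x k) * cub k d‖ ^ 2 := by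
  refine ⟨Real.exp (16 * c0), (Real.exp_pos _).le, fun M S 𝒦 x hM hS h𝒦 => ?_⟩
  refine le_trans (le_of_eq ?_) (c1_dual hM h𝒦 (fun k => conj (cs S x k)) (T := S) (φ := id)
    (Set.injOn_id _) (fun n hn => (hS n hn).2.2) x)
  simp only [Finset.mul_sum, id]
  rw [Finset.sum_comm, Finset.sum_congr rfl fun k hk => c1_rec hS x (h𝒦 k hk), ← Complex.ofReal_sum,
    Complex.norm_real, Real.norm_eq_abs, sq_abs]

/-- the same with `d = n ℓ³` (`(n, ℓ) ↦ n ℓ³` is injective, `cub_cube`):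
`∑_ℓ ∑_n x n ∑_k conj X_k cub k (nℓ³) = ∑_k |X_k|² #{ℓ ∤ k} ≥ (#𝓛/2) ∑ |X_k|²` -/
theorem dual_amp : ∃ C : ℝ, 0 ≤ C ∧ ∀ (M L : ℝ) (S 𝒦 𝓛 : Finset O) (x : O → ℂ), 0 < M → 0 < L →
    In S M → (∀ k ∈ 𝒦, Prim k ∧ 2 * (pf k).card ≤ 𝓛.card) →
    (∀ l ∈ 𝓛, Prime l ∧ Prim l ∧ N l ≤ L) → 0 < 𝓛.card →
    (∑ k ∈ 𝒦, ‖cs S x k‖ ^ 2) ^ 2 ≤ C / 𝓛.card * n2 S x *
      ∑' d : O, Vo (M * L ^ 3) d * ‖∑ k ∈ 𝒦, conj (cs S x k) * cub k d‖ ^ 2 := by
  refine ⟨4 * Real.exp (16 * c0), by positivity, fun M L S 𝒦 𝓛 x hM hL hS h𝒦 h𝓛 h0 => ?_⟩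
  have h1 := c1_dual (D := M * L ^ 3) (by positivity) (fun k hk => (h𝒦 k hk).1) (fun k => conj (cs S x k))
    (T := 𝓛 ×ˢ S) (φ := fun q => q.2 * q.1 ^ 3) (by
      rintro ⟨p, n⟩ hq ⟨p', n'⟩ hq' e
      rw [Finset.mem_coe, Finset.mem_product] at hq hq'
      obtain ⟨a, ha, e1, e2⟩ := rkey_cube (h𝓛 p hq.1).2.1 (h𝓛 p' hq'.1).2.1 (hS n' hq'.2).1.2 e
      obtain rfl := ha.eq_one_of_isUnit
        ((hS n hq.2).1.2 a ⟨n' * a, by rw [show n = n' * a ^ 3 from e2]; ring⟩)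
      simp only [mul_one, one_pow] at e1 e2
      exact Prod.ext e1.symm e2) (fun q hq => by
      obtain ⟨a1, a2⟩ := Finset.mem_product.1 hq
      rw [N_mul, N_pow, ← mul_assoc]
      exact mul_le_mul (hS _ a2).2.2 (pow_le_pow_left₀ (N_nonneg _) (h𝓛 _ a1).2.2 3)
        (pow_nonneg (N_nonneg _) _) (by positivity)) fun q => x q.2
  have h2 : ∑ q ∈ 𝓛 ×ˢ S, x q.2 * ∑ k ∈ 𝒦, conj (cs S x k) * cub k (q.2 * q.1 ^ 3) =
      ((∑ k ∈ 𝒦, (𝓛.filter fun l => IsCoprime k l).card * ‖cs S x k‖ ^ 2 : ℝ) : ℂ) := by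
    simp only [Finset.mul_sum]
    rw [Finset.sum_comm, Complex.ofReal_sum]
    refine Finset.sum_congr rfl fun k hk => ?_
    rw [Finset.sum_product, Complex.ofReal_mul, ← c1_rec hS x (h𝒦 k hk).1, Complex.ofReal_natCast,
      ← nsmul_eq_mul, ← Finset.sum_const, Finset.sum_filter]
    refine Finset.sum_congr rfl fun l _ => ?_
    simp only [cub_cube (h𝒦 k hk).1]
    split_ifs <;> simp
  have h3 : 𝓛.card / 2 * ∑ k ∈ 𝒦, ‖cs S x k‖ ^ 2 ≤
      ∑ k ∈ 𝒦, ((𝓛.filter fun l => IsCoprime k l).card : ℝ) * ‖cs S x k‖ ^ 2 := by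
    rw [Finset.mul_sum]
    refine Finset.sum_le_sum fun k hk => mul_le_mul_of_nonneg_right ?_ (by positivity)
    have a1 := Finset.card_filter_add_card_filter_not (s := 𝓛) fun l => IsCoprime k l
    have a2 : (𝓛.filter fun l => ¬ IsCoprime k l).card ≤ (pf k).card := Finset.card_le_card fun l hl => by
      obtain ⟨b1, b2⟩ := Finset.mem_filter.1 hl
      obtain ⟨c1, c2, -⟩ := h𝓛 l b1
      exact (mem_pf (h𝒦 k hk).1.ne_zero).2 ⟨c1, c2, not_not.1 fun h => b2 (c1.coprime_iff_not_dvd.2 h).symm⟩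
    rw [div_le_iff₀ two_pos]
    exact_mod_cast (by have := (h𝒦 k hk).2; omega : 𝓛.card ≤ (𝓛.filter fun l => IsCoprime k l).card * 2)
  have h4 : (0 : ℝ) < 𝓛.card := by exact_mod_cast h0
  rw [h2, Complex.norm_real, Real.norm_eq_abs, sq_abs, Finset.sum_product] at h1
  simp only [Finset.sum_const, nsmul_eq_mul] at h1
  have h5 := (pow_le_pow_left₀ (mul_nonneg (by positivity) (Finset.sum_nonneg fun _ _ => by positivity))
    h3 2).trans h1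
  rw [div_mul_eq_mul_div, div_mul_eq_mul_div, le_div_iff₀ h4, n2]
  refine le_of_mul_le_mul_left ?_ h4
  linarith

theorem c1_mem {S : Finset O} {h n : O} (hh : h ≠ 0) : n ∈ Sdiv S h ↔ h * n ∈ S := by
  simp only [Sdiv, Finset.mem_image, Finset.mem_filter]
  refine ⟨?_, fun a => ⟨_, ⟨a, dvd_mul_right _ _⟩, mul_div_cancel_left₀ n hh⟩⟩
  rintro ⟨b, ⟨a1, a2⟩, rfl⟩
  rwa [EuclideanDomain.mul_div_cancel' hh a2]

theorem c1_sum {A : Type*} [AddCommMonoid A] (S : Finset O) {h : O} (hh : h ≠ 0) (F : O → A) :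
    ∑ b ∈ S.filter (fun b => h ∣ b), F b = ∑ n ∈ Sdiv S h, F (h * n) := by
  refine (Finset.sum_nbij' (fun n => h * n) (fun b => b / h) (fun n hn => ?_) (fun b hb => ?_)
    (fun n _ => mul_div_cancel_left₀ n hh)
    (fun b hb => EuclideanDomain.mul_div_cancel' hh (Finset.mem_filter.1 hb).2) fun _ _ => rfl).symm
  · exact Finset.mem_filter.2 ⟨(c1_mem hh).1 hn, dvd_mul_right _ _⟩
  · exact Finset.mem_image_of_mem _ hb

/-- `j = g r j'`, `g3 (r j') = g3 r g3 j' conj (cub j' r)` -/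
theorem norm_Xs_le_cs {𝒥 : Finset O} (h𝒥 : ∀ j ∈ 𝒥, SF j) (W : O → ℂ) {X : ℝ} (hX : 0 ≤ X) {g r : O}
    (hg : SF g) (hr : SF r) (m : O) (s : ℂ) :
    ‖Xs 𝒥 (fun j => conj (W j)) X g r m s‖ ≤
      ‖cs (Sdiv 𝒥 (g * r)) (fun j => W (g * r * j) * conj (g3 j) * phr r j *
        pw X (g * r * j) (conj s)) m‖ := by
  have h0 := mul_ne_zero hg.1.ne_zero hr.1.ne_zero
  have h1 : conj (Xs 𝒥 (fun j => conj (W j)) X g r m s) = conj (g3 r) * cub r m *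
      cs (Sdiv 𝒥 (g * r)) (fun j => W (g * r * j) * conj (g3 j) * phr r j * pw X (g * r * j) (conj s)) m := by
    rw [Xs, c1_sum _ h0, map_sum, cs, Finset.mul_sum]
    refine Finset.sum_congr rfl fun j hj => ?_
    have hj' : Prim j := (h𝒥 _ ((c1_mem h0).1 hj)).1.of_mul_left (hg.1.mul hr.1)
    have h2 : conj (pw X (g * r * j) s) = pw X (g * r * j) (conj s) := by
      rw [pw, pw, Complex.cpow_conj _ _ (by
        rw [Complex.arg_ofReal_of_nonneg (div_nonneg (N_nonneg _) hX)]; exact Real.pi_pos.ne), Complex.conj_ofReal]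
    rw [mul_assoc g, mul_div_cancel_left₀ _ hg.1.ne_zero, ← mul_assoc g, g3_mul' hr hj', rkub_mul_left hr.1 hj', phr,
      if_pos hj']
    simp only [map_mul, Complex.conj_conj, h2]
    ring
  rw [← Complex.norm_conj, h1, norm_mul, norm_mul, Complex.norm_conj]
  exact mul_le_of_le_one_left (norm_nonneg _) (mul_le_one₀ (norm_g3_le hr.1) (norm_nonneg _) (cl_cub_le hr.1 m))

theorem c1_pw {x : ℝ} (hx : 0 < x) {n : O} (h1 : x ≤ N n) (h2 : N n ≤ 2 * x) {s : ℂ} (hs : |s.re| ≤ 4) :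
    ‖pw x n s‖ ≤ 16 := by
  rw [pw, Complex.norm_cpow_eq_rpow_re_of_pos (div_pos (by linarith) hx)]
  refine (Real.rpow_le_rpow_of_exponent_le ((one_le_div hx).2 h1)
    ((le_abs_self _).trans (hs.trans_eq (Nat.cast_ofNat (n := 4)).symm))).trans ?_
  rw [Real.rpow_natCast]
  exact (pow_le_pow_left₀ (div_pos (by linarith) hx).le ((div_le_iff₀ hx).2 h2) 4).trans (by norm_num)

theorem c1_re (X : ℝ) {h d : O} (hh : Prim h) (hd : Prim d) (F : O → ℂ) :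
    ∑ n ∈ (Sdiv (sfI X (2 * X)) h).filter (fun n => d ∣ n), F n = if Squarefree (h * d) then
      ∑ j ∈ sfI (X / N (h * d)) (2 * (X / N (h * d))), if IsCoprime j (h * d) then F (d * j) else 0 else 0 := by
  have h0 := N_pos (hh.mul hd).ne_zero
  rw [c1_sum _ hd.ne_zero]
  split_ifs with h1
  · rw [← Finset.sum_filter]
    refine Finset.sum_congr (Finset.ext fun j => ?_) fun _ _ => rfl
    rw [c1_mem hd.ne_zero, c1_mem hh.ne_zero, ← mul_assoc, Finset.mem_filter, mem_sfI, mem_sfI, div_lt_iff₀' h0,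
      ← mul_div_assoc, le_div_iff₀' h0, ← N_mul]
    refine ⟨fun a => ?_, fun a => ⟨b1_sf_mul ⟨hh.mul hd, h1⟩ a.1.1 a.2.symm, a.1.2⟩⟩
    exact ⟨⟨⟨a.1.1.of_mul_left (hh.mul hd), a.1.2.of_mul_right⟩, a.2⟩,
      (squarefree_mul_iff.1 a.1.2).1.isCoprime.symm⟩
  · refine Finset.sum_eq_zero fun j hj => (h1 ?_).elim
    rw [c1_mem hd.ne_zero, c1_mem hh.ne_zero, ← mul_assoc] at hj
    exact (mem_sfI.1 hj).1.2.of_mul_left

set_option maxHeartbeats 600000 in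
theorem c1_sq : ∃ B : ℕ, ∀ ε : ℝ, 0 < ε → ∃ C : ℝ, 0 ≤ C ∧ ∀ (q : O), q ≠ 0 → (9 : O) ∣ q →
    ∀ φ0 ψ : O → ℂ, Per q φ0 → (∀ m, ‖φ0 m‖ ≤ 1) → Per q ψ → (∀ m, ‖ψ m‖ ≤ 1) →
    ∀ (X' X M T Δ P : ℝ) (s : ℂ) (S : Finset O) (x : O → ℂ), 1 ≤ M → 16 * M ≤ X' ^ 2 → 0 < X' → X' ≤ X →
    1 ≤ T → 1 ≤ Δ → |s.re| ≤ 4 → In S M → N q ≤ P →
    ‖∑ n ∈ S, x n * ψ n * ∑ j ∈ sfI X' (2 * X'), conj (g3 j) * cub n j * φ0 j * pw X' j s‖ ^ 2 ≤
      C * P ^ B * (Δ ^ 2 * X ^ (5 / 3 : ℝ) * M ^ (-(1 / 3 : ℝ)) * F2 S x M (P ^ 2 * Δ) +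
        (X * M) ^ ε * n2 S x * ((T + |s.im|) ^ (B + 2) * (M * X) * (X / Real.sqrt M) ^ (2 / 5 : ℝ) +
          M ^ (2 / 3 : ℝ) * X ^ (5 / 3 : ℝ) / Δ ^ 2 +
          (X + M + (X * M) ^ (2 / 3 : ℝ)) * (X / T + Real.sqrt X))) := by
  obtain ⟨B, h⟩ := va_sharp'
  refine ⟨2 * B + 2, fun ε hε => ?_⟩
  obtain ⟨C, hC, h⟩ := h (ε / 2) (half_pos hε)
  refine ⟨36 * C ^ 2, by positivity,
    fun q hq h9 φ0 ψ a1 a2 a3 a4 X' X M T Δ P s S x hM hX' h0 hX hT hΔ hs hS hP => ?_⟩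
  have h1 : 1 ≤ X' := by nlinarith
  have hP1 := (one_le_N hq).trans hP
  have hq0 := N_nonneg q
  have hX0 : 0 < X := by linarith
  have hM0 : 0 < M := by linarith
  have ht : 1 ≤ T + |s.im| := by linarith [abs_nonneg s.im]
  obtain ⟨Z, hZ⟩ : ∃ Z, Z = ∑ d ∈ ball Δ, ∑ a ∈ res (q ^ 2 * d), ‖fam2 S x M (q ^ 2 * d) a (-1 / 6)‖ := ⟨_, rfl⟩
  have hZ0 : 0 ≤ Z := hZ ▸ Finset.sum_nonneg fun _ _ => Finset.sum_nonneg fun _ _ => norm_nonneg _
  have hN : ∀ d ∈ ball Δ, N (q ^ 2 * d) ≤ P ^ 2 * Δ := fun d hd => by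
    rw [N_mul, N_pow]
    exact mul_le_mul (pow_le_pow_left₀ hq0 hP 2) (mem_ball.1 hd).2 (N_nonneg d) (by positivity)
  have hF : 0 ≤ F2 S x M (P ^ 2 * Δ) := Finset.sum_nonneg fun _ _ => Finset.sum_nonneg fun _ _ => by positivity
  have h2 : Z ^ 2 ≤ 18 * Δ * (P ^ 2 * Δ * F2 S x M (P ^ 2 * Δ)) := by
    rw [hZ]
    refine sq_sum_le_card_mul_sum_sq.trans (mul_le_mul (card_ball_le (by linarith)) (le_trans ?_
      (mul_le_mul_of_nonneg_left (c1_inj S x M (pow_ne_zero 2 hq) fun d hd => ⟨(mem_ball.1 hd).1, hN d hd⟩)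
        (by positivity))) (Finset.sum_nonneg fun _ _ => by positivity) (by positivity))
    rw [Finset.mul_sum]
    refine Finset.sum_le_sum fun d hd => sq_sum_le_card_mul_sum_sq.trans (mul_le_mul_of_nonneg_right ?_
      (Finset.sum_nonneg fun _ _ => by positivity))
    rw [card_res (mul_ne_zero (pow_ne_zero 2 hq) (mem_ball.1 hd).1)]
    exact hN d hd
  have h3 := h q hq h9 φ0 ψ a1 a2 a3 a4 X' M T Δ s S x hM hX' h1 hT hΔ hs hS
  have hn := cl_n2 S x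
  have e : ∀ {y : ℝ} (a b : ℝ), 0 < y → a * 2 = b → (y ^ a) ^ 2 = y ^ b := fun a b hy hb => by
    rw [← Real.rpow_mul_natCast hy.le, ← hb, Nat.cast_ofNat]
  have h4 : ∀ a b c : ℝ, (a + b + c) ^ 2 ≤ 3 * (a ^ 2 + b ^ 2 + c ^ 2) := fun a b c => by
    nlinarith [sq_nonneg (a - b), sq_nonneg (b - c), sq_nonneg (a - c)]
  rw [← hZ] at h3
  calc _ ≤ (C * P ^ B * X ^ (5 / 6 : ℝ) * M ^ (-(1 / 6 : ℝ)) * Z + C * (X * M) ^ (ε / 2) * P ^ B * √(n2 S x) *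
        ((T + |s.im|) ^ B * √(M * X) * (X / √M) ^ (1 / 5 : ℝ) + M ^ (1 / 3 : ℝ) * X ^ (5 / 6 : ℝ) / Δ +
          √(X + M + (X * M) ^ (2 / 3 : ℝ)) * √(X / T + √X))) ^ 2 :=
        pow_le_pow_left₀ (norm_nonneg _) (h3.trans (by gcongr)) 2
    _ ≤ 2 * ((C * P ^ B * X ^ (5 / 6 : ℝ) * M ^ (-(1 / 6 : ℝ))) ^ 2 * (18 * Δ * (P ^ 2 * Δ * F2 S x M (P ^ 2 * Δ))) +
        (C * (X * M) ^ (ε / 2) * P ^ B * √(n2 S x)) ^ 2 * (3 * (((T + |s.im|) ^ B * √(M * X) *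
          (X / √M) ^ (1 / 5 : ℝ)) ^ 2 + (M ^ (1 / 3 : ℝ) * X ^ (5 / 6 : ℝ) / Δ) ^ 2 +
          (√(X + M + (X * M) ^ (2 / 3 : ℝ)) * √(X / T + √X)) ^ 2))) := by
        refine add_sq_le.trans ?_
        rw [mul_pow _ Z, mul_pow _ (_ + _)]
        exact mul_le_mul_of_nonneg_left (add_le_add (mul_le_mul_of_nonneg_left h2 (sq_nonneg _))
          (mul_le_mul_of_nonneg_left (h4 _ _ _) (sq_nonneg _))) zero_le_two
    _ = 36 * C ^ 2 * P ^ (2 * B + 2) * (Δ ^ 2 * X ^ (5 / 3 : ℝ) * M ^ (-(1 / 3 : ℝ)) * F2 S x M (P ^ 2 * Δ)) +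
        6 * C ^ 2 * P ^ (2 * B) * ((X * M) ^ ε * n2 S x * ((T + |s.im|) ^ (2 * B) * (M * X) *
          (X / √M) ^ (2 / 5 : ℝ) + M ^ (2 / 3 : ℝ) * X ^ (5 / 3 : ℝ) / Δ ^ 2 +
          (X + M + (X * M) ^ (2 / 3 : ℝ)) * (X / T + √X))) := by
        simp only [mul_pow, div_pow]
        rw [e _ (5 / 3) hX0 (by norm_num), e _ (-(1 / 3)) hM0 (by norm_num), e _ ε (by positivity) (by ring),
          e _ (2 / 5) (by positivity) (by norm_num), e _ (2 / 3) hM0 (by norm_num), Real.sq_sqrt hn,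
          Real.sq_sqrt (by positivity), Real.sq_sqrt (by positivity), Real.sq_sqrt (by positivity)]
        ring
    _ ≤ _ := by
        have b1 : (T + |s.im|) ^ (2 * B) ≤ (T + |s.im|) ^ (2 * B + 2 + 2) := pow_le_pow_right₀ ht (by omega)
        have b2 : 6 * C ^ 2 * P ^ (2 * B) ≤ 36 * C ^ 2 * P ^ (2 * B + 2) :=
          mul_le_mul (by linarith [sq_nonneg C]) (pow_le_pow_right₀ hP1 (by omega)) (by positivity) (by positivity)
        rw [mul_add (36 * _ * _)]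
        exact add_le_add le_rfl (mul_le_mul b2 (by gcongr) (by positivity) (by positivity))

/-- **major frequencies.**  `norm_Xs_le_cs`, `maj_bound`.  For `k₀ ∈ ball Q`, `d ∈ sfb D₀` (`h d`
squarefree, else empty) write `j = h d j'`, `X' = X/N(hd)`; the inner sum is, up to a factor of norm
`≤ 1`, the left side of `va_sharp` with `ψ = phr (h d)`, `φ₀ = [coprime to h d] · phr (r d k₀)`,
`q = 9 h d k₀`, `N q ≤ P`; the error terms are increasing in `X'`.  Cauchy–Schwarz on the main term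
(`≤ 18 P² Δ²` terms; `d' ↦ q²d'` is injective). -/
theorem maj_va : ∃ B0 : ℕ, ∀ ε : ℝ, 0 < ε → ∃ C : ℝ, 0 ≤ C ∧ ∀ (S : Finset O) (x : O → ℂ)
    (M X Y Q D0 T Δ P : ℝ) (g r : O) (s : ℂ), 1 ≤ M → In S M → SF g → SF r → 0 ≤ Y → 1 ≤ Q → 1 ≤ D0 →
    1 ≤ T → 1 ≤ Δ → 0 < X → 16 * M * (N (g * r) * D0) ^ 2 ≤ X ^ 2 → 81 * N (g * r) * D0 * Q ≤ P →
    |s.re| ≤ 4 →
    ∑ m ∈ (ball Y).filter (Maj Q), ‖Xs (sfI X (2 * X)) (fun j => conj (cs S x j)) X g r m s‖ ^ 2 ≤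
      C * Y ^ (1 / 3 : ℝ) * (P ^ B0 * (Δ ^ 2 * X ^ (5 / 3 : ℝ) * M ^ (-(1 / 3 : ℝ)) *
          F2 S x M (P ^ 2 * Δ) + (X * M) ^ ε * n2 S x *
          ((T + |s.im|) ^ B0 * (M * X) * (X / Real.sqrt M) ^ (2 / 5 : ℝ) +
            M ^ (2 / 3 : ℝ) * X ^ (5 / 3 : ℝ) / Δ ^ 2 +
            (X + M + (X * M) ^ (2 / 3 : ℝ)) * (X / T + Real.sqrt X))) +
        Q * (X / N (g * r)) / D0 *
          ∑ j ∈ (sfI X (2 * X)).filter (fun j => g * r ∣ j), ‖cs S x j‖ ^ 2 * dv j) := by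
  obtain ⟨B, h⟩ := c1_sq
  refine ⟨B + 2, fun ε hε => ?_⟩
  obtain ⟨C, hC, h⟩ := h ε hε
  obtain ⟨C', hC', h'⟩ := maj_bound
  refine ⟨C' * (324 * C + 512), by positivity,
    fun S x M X Y Q D0 T Δ P g r s hM hS hg hr hY hQ hD hT hΔ hX h1 h2 hs => ?_⟩
  have hh := hg.1.mul hr.1
  have hN := one_le_N hh.ne_zero
  have hs' : |(conj s).re| ≤ 4 := hs
  obtain ⟨E, hE⟩ : ∃ E, E = Δ ^ 2 * X ^ (5 / 3 : ℝ) * M ^ (-(1 / 3 : ℝ)) * F2 S x M (P ^ 2 * Δ) +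
    (X * M) ^ ε * n2 S x * ((T + |s.im|) ^ (B + 2) * (M * X) * (X / Real.sqrt M) ^ (2 / 5 : ℝ) +
      M ^ (2 / 3 : ℝ) * X ^ (5 / 3 : ℝ) / Δ ^ 2 +
      (X + M + (X * M) ^ (2 / 3 : ℝ)) * (X / T + Real.sqrt X)) := ⟨_, rfl⟩
  have hE0 : 0 ≤ E := by
    have : 0 ≤ F2 S x M (P ^ 2 * Δ) := Finset.sum_nonneg fun _ _ => Finset.sum_nonneg fun _ _ => by positivity
    have := cl_n2 S x
    rw [hE]
    positivity
  have hP : D0 * Q ≤ P := by nlinarith [mul_pos (by linarith : 0 < D0) (by linarith : 0 < Q)]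
  have hP' : D0 ≤ P := le_trans (by nlinarith) hP
  have hP0 : 0 < P := by linarith
  obtain ⟨y, hy⟩ : ∃ y : O → ℂ, y = fun j => cs S x (g * r * j) * conj (g3 j) * phr r j *
    pw X (g * r * j) (conj s) := ⟨_, rfl⟩
  have k1 : ∀ k ∈ ball Q, ∀ d ∈ sfb D0, ‖∑ n ∈ (Sdiv (sfI X (2 * X)) (g * r)).filter (fun n => d ∣ n),
      y n * cub n k‖ ^ 2 ≤ C * P ^ B * E := fun k hk d hd => by
    obtain ⟨a1, a2⟩ := mem_ball.1 hk
    obtain ⟨b1, b2⟩ := mem_sfb.1 hd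
    have b3 := (hh.mul b1.1).ne_zero
    have b4 := one_le_N b3
    rw [c1_re X hh b1.1]
    split_ifs
    swap
    · rw [norm_zero, zero_pow two_ne_zero]
      positivity
    have h3 := h (9 * (g * r * d) * k) (mul_ne_zero (mul_ne_zero (by decide) b3) a1) ⟨g * r * d * k, by ring⟩
      (fun j => if IsCoprime j (g * r * d) then phr (d * r * k) j else 0) (phr (g * r * d)) (fun j t => by
        simp only
        rw [(phr_per (mul_ne_zero (mul_ne_zero b1.1.ne_zero hr.1.ne_zero) a1)).of_dvd ⟨g, by ring⟩ j t,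
          show 9 * (g * r * d) * k * t = g * r * d * (9 * k * t) by ring]
        simp only [IsCoprime.add_mul_left_left_iff])
      (fun m => by split_ifs; exacts [norm_phr_le _ _, by simp]) ((phr_per b3).of_dvd (dvd_mul_right _ _))
      (norm_phr_le _) (X / N (g * r * d)) X M T Δ P (conj s) S x hM (by
        rw [div_pow, le_div_iff₀ (by positivity), N_mul _ d]
        refine le_trans ?_ h1
        have := N_nonneg d
        gcongr) (by positivity) (div_le_self hX.le b4) hT hΔ hs' hS (by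
        rw [N_mul, N_mul, N_mul _ d, show N 9 = 81 by norm_num [N, show nm 9 = 81 by decide], ← mul_assoc]
        refine le_trans ?_ h2
        have := N_nonneg d
        have := N_nonneg k
        gcongr)
    rw [Complex.conj_im, abs_neg, ← hE] at h3
    refine le_trans (pow_le_pow_left₀ (norm_nonneg _) ?_ 2) h3
    refine le_trans (le_of_eq ?_) (mul_le_of_le_one_left (norm_nonneg _)
      (show ‖conj (g3 d) * cub d (r * k)‖ ≤ 1 by
        rw [norm_mul, Complex.norm_conj]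
        exact mul_le_one₀ (norm_g3_le b1.1) (norm_nonneg _) (cl_cub_le b1.1 _)))
    rw [← norm_mul]
    simp only [Finset.mul_sum]
    rw [Finset.sum_comm (s := S)]
    refine congrArg _ (Finset.sum_congr rfl fun j hj => ?_)
    have c1 := (mem_sfI.1 hj).1.1
    split_ifs
    · simp only [hy, cs, Finset.sum_mul]
      refine Finset.sum_congr rfl fun n hn => ?_
      have c2 := (hS n hn).1.1
      simp only [phr, if_pos c1, if_pos c2, if_pos (b1.1.mul c1), g3_mul' b1 c1, rkub_mul_left b1.1 c1, pw,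
        ← mul_assoc, N_mul _ j, div_div_eq_mul_div, mul_comm (N j), (rcub_isChar c1).mul, (rcub_isChar c2).mul,
        (rcub_isChar b1.1).mul, map_mul, Complex.conj_conj]
      ring
    · simp
  have k2 : ∑ n ∈ Sdiv (sfI X (2 * X)) (g * r), ‖y n‖ ^ 2 * dv n ≤
      256 * ∑ j ∈ (sfI X (2 * X)).filter (fun j => g * r ∣ j), ‖cs S x j‖ ^ 2 * dv j := by
    rw [c1_sum _ hh.ne_zero, Finset.mul_sum]
    refine Finset.sum_le_sum fun n hn => ?_
    obtain ⟨a1, a2, a3⟩ := mem_sfI.1 ((c1_mem hh.ne_zero).1 hn)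
    have a4 := norm_g3_le (a1.1.of_mul_left hh)
    have a5 := norm_phr_le r n
    have a6 := c1_pw hX a2.le a3 hs'
    have a7 := dv_le_of_dvd a1.1.ne_zero (dvd_mul_left n _)
    have a8 : 0 ≤ dv n := Nat.cast_nonneg _
    simp only [hy, norm_mul, Complex.norm_conj]
    calc _ ≤ (‖cs S x (g * r * n)‖ * 1 * 1 * 16) ^ 2 * dv (g * r * n) := by gcongr
      _ = _ := by ring
  have k3 : ∑ k ∈ ball Q, ∑ d ∈ sfb D0, ‖∑ n ∈ (Sdiv (sfI X (2 * X)) (g * r)).filter (fun n => d ∣ n),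
      y n * cub n k‖ ^ 2 ≤ 18 * Q * (18 * D0 * (C * P ^ B * E)) := by
    refine (Finset.sum_le_sum fun k hk => Finset.sum_le_sum (k1 k hk)).trans ?_
    have a1 := card_ball_le (X := Q) (by linarith)
    have a2 : ((sfb D0).card : ℝ) ≤ 18 * D0 :=
      (Nat.cast_le.2 (Finset.card_le_card (cl_sub D0))).trans (card_ball_le (by linarith))
    simp only [Finset.sum_const, nsmul_eq_mul]
    gcongr
  have k4 : 0 ≤ ∑ j ∈ (sfI X (2 * X)).filter (fun j => g * r ∣ j), ‖cs S x j‖ ^ 2 * dv j :=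
    Finset.sum_nonneg fun j _ => mul_nonneg (by positivity) (Nat.cast_nonneg _)
  refine (Finset.sum_le_sum fun m _ => pow_le_pow_left₀ (norm_nonneg _)
    (norm_Xs_le_cs (fun j hj => (mem_sfI.1 hj).1) _ hX.le hg hr m s) 2).trans ?_
  rw [← hy, ← hE]
  refine (h' (2 * X / N (g * r)) Y Q D0 _ y (by positivity) hY hQ hD fun n hn => ?_).trans ?_
  · obtain ⟨a1, -, a3⟩ := mem_sfI.1 ((c1_mem hh.ne_zero).1 hn)
    exact mem_sfb.2 ⟨⟨a1.1.of_mul_left hh, a1.2.of_mul_right⟩, (le_div_iff₀' (by linarith)).2 (N_mul _ n ▸ a3)⟩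
  generalize ∑ j ∈ (sfI X (2 * X)).filter (fun j => g * r ∣ j), ‖cs S x j‖ ^ 2 * dv j = W at k2 k4 ⊢
  have k5 : 0 ≤ Q * (X / N (g * r)) / D0 * W := by positivity
  have k6 : P ^ B * (D0 * Q * D0) * E ≤ P ^ B * (P * P) * E := by gcongr
  have k7 : 0 ≤ P ^ B * (P * P) * E := by positivity
  calc _ ≤ C' * Y ^ (1 / 3 : ℝ) * (D0 * (18 * Q * (18 * D0 * (C * P ^ B * E))) + Q * (2 * X / N (g * r)) / D0 *
        (256 * W)) := mul_le_mul_of_nonneg_left (add_le_add (mul_le_mul_of_nonneg_left k3 (by linarith))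
          (mul_le_mul_of_nonneg_left k2 (by positivity))) (by positivity)
    _ = C' * Y ^ (1 / 3 : ℝ) * (324 * C * (P ^ B * (D0 * Q * D0) * E) +
        512 * (Q * (X / N (g * r)) / D0 * W)) := by ring
    _ ≤ C' * Y ^ (1 / 3 : ℝ) * ((324 * C + 512) * (P ^ B * (P * P) * E) + (324 * C + 512) *
        (Q * (X / N (g * r)) / D0 * W)) := mul_le_mul_of_nonneg_left (add_le_add
          (mul_le_mul (by linarith) k6 (by positivity) (by positivity))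
          (mul_le_mul_of_nonneg_right (by linarith) k5)) (by positivity)
    _ = _ := by ring

end Crest.Agent.R12
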