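import Mathlib

/-!
# R12 / Core2Num : exponent bookkeeping for the third Poisson step
-/

set_option autoImplicit false

noncomputable section

namespace Crest.Agent.R12

theorem c2_le {a b : ℝ} (ha : 0 < a) (hb : 0 < b) (h : Real.log a ≤ Real.log b) : a ≤ b :=
  (Real.log_le_log_iff ha hb).1 h

/-- compare two positive monomials through their logarithms -/
local macro "c2log" : tactic => `(tactic| (
  refine c2_le (by positivity) (by positivity) ?_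
  simp (disch := positivity) only [Real.log_mul, Real.log_div, Real.log_rpow, Real.log_pow,
    Real.log_sqrt, Real.log_one]
  push_cast
  linarith))

theorem c2_rho {ρ a : ℝ} (hρ : 0 < ρ) (h1 : 1 / 3 ≤ a) (h2 : a ≤ 2) :
    ρ ^ a ≤ ρ ^ (1 / 3 : ℝ) + ρ ^ 2 := by
  rcases le_total ρ 1 with h | h
  · have := Real.rpow_le_rpow_of_exponent_ge hρ h h1
    linarith [sq_nonneg ρ]
  · have := Real.rpow_le_rpow_of_exponent_le h h2
    rw [Real.rpow_two] at this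
    linarith [Real.rpow_pos_of_pos hρ (1 / 3 : ℝ)]

/-- the ranges of the parameters -/
structure c2H (Z la M X : ℝ) : Prop where
  la0 : 0 < la
  la1 : la ≤ 1 / 2000
  Z1 : 1 ≤ Z
  big : 81 ≤ Z ^ (la / 1000)
  M1 : Z ^ (1 - 4 * la) ≤ M
  M2 : M ≤ Z ^ (1 + la / 100)
  X1 : Z ^ (1 - 10 * la) ≤ X
  X2 : X ≤ Z ^ (1 - la / 2)

theorem c2H.Z0 {Z la M X : ℝ} (h : c2H Z la M X) : 0 < Z := by linarith [h.Z1]

theorem c2H.M0 {Z la M X : ℝ} (h : c2H Z la M X) : 1 ≤ M :=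
  (Real.one_le_rpow h.Z1 (by linarith [h.la1])).trans h.M1

theorem c2H.X0 {Z la M X : ℝ} (h : c2H Z la M X) : 1 ≤ X :=
  (Real.one_le_rpow h.Z1 (by linarith [h.la1])).trans h.X1

theorem c2H.logs {Z la M X : ℝ} (h : c2H Z la M X) : 0 < Z ∧ 0 < M ∧ 0 < X ∧ 0 < la ∧
    la * Real.log Z ≤ Real.log Z / 2000 ∧ 4000 ≤ la * Real.log Z ∧
    (1 - 4 * la) * Real.log Z ≤ Real.log M ∧ Real.log M ≤ (1 + la / 100) * Real.log Z ∧
    (1 - 10 * la) * Real.log Z ≤ Real.log X ∧ Real.log X ≤ (1 - la / 2) * Real.log Z ∧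
    0 < Real.log 2 ∧ Real.log 2 < 1 := by
  have hZ := h.Z0
  have hM : 0 < M := by linarith [h.M0]
  have hX : 0 < X := by linarith [h.X0]
  have hz := Real.log_nonneg h.Z1
  have a1 := Real.log_le_log (by positivity) h.M1
  have a2 := Real.log_le_log hM h.M2
  have a3 := Real.log_le_log (by positivity) h.X1
  have a4 := Real.log_le_log hX h.X2
  have a5 := Real.log_le_log (by norm_num) (le_trans (by norm_num : (2 : ℝ) ^ 6 ≤ 81) h.big)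
  rw [Real.log_rpow hZ] at a1 a2 a3 a4 a5
  rw [Real.log_pow] at a5
  have a6 := mul_le_mul_of_nonneg_right h.la1 hz
  have a7 := Real.log_two_gt_d9
  have a8 := Real.log_two_lt_d9
  refine ⟨hZ, hM, hX, h.la0, by linarith, ?_, a1, a2, a3, a4, by linarith, by linarith⟩
  push_cast at a5
  linarith

/-- the main term -/
def c2a (Z la X : ℝ) : ℝ := Z ^ (la / 300) * (X * Z ^ (1 / 3 + la / 100) + Z ^ (4 / 3 - 20 * la))

theorem c2_n1 {Z la M X G H Y : ℝ} (h : c2H Z la M X) (hG : 1 ≤ G) (hH : G ≤ H)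
    (hL : Z ^ (40 * la) ≤ H) (hY : 0 < Y) :
    (Y * (2 * X / H)) ^ (la / 1000) * (Y + Y ^ (1 / 3 : ℝ) * (2 * X / H) +
      (Y * (2 * X / H)) ^ (2 / 3 : ℝ)) ≤ 2 * c2a Z la X * (X / (M * G)) *
      ((Y / (X ^ 2 / (M * G ^ 2))) ^ (1 / 3 : ℝ) + (Y / (X ^ 2 / (M * G ^ 2))) ^ 2) := by
  obtain ⟨hZ, hM, hX, hla, b1, b2, b3, b4, b5, b6, b7, b8⟩ := h.logs
  have hG0 : 0 < G := by linarith
  have hH0 : 0 < H := by linarith
  have g1 := Real.log_nonneg hG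
  have g2 := Real.log_le_log hG0 hH
  have g3 := Real.log_le_log (by positivity) hL
  rw [Real.log_rpow hZ] at g3
  have e := mul_le_mul_of_nonneg_left (show Real.log 2 + 3 * Real.log X - Real.log H - Real.log M -
    2 * Real.log G ≤ 3 * Real.log Z by linarith) hla.le
  have hl := h.la1
  set ρ := Y / (X ^ 2 / (M * G ^ 2)) with hρ
  have hρ0 : 0 < ρ := by positivity
  have r1 := c2_rho (a := 1 + la / 1000) hρ0 (by linarith) (by linarith)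
  have r2 := c2_rho (a := 1 / 3 + la / 1000) hρ0 (by linarith) (by linarith)
  have r3 := c2_rho (a := 2 / 3 + la / 1000) hρ0 (by linarith) (by linarith)
  set R := ρ ^ (1 / 3 : ℝ) + ρ ^ 2
  have t1 : (Y * (2 * X / H)) ^ (la / 1000) * Y ≤
      Z ^ (la / 300) * (X * Z ^ (1 / 3 + la / 100)) * (X / (M * G)) * ρ ^ (1 + la / 1000) := by
    rw [hρ]; c2log
  have t2 : (Y * (2 * X / H)) ^ (la / 1000) * (Y ^ (1 / 3 : ℝ) * (2 * X / H)) ≤
      Z ^ (la / 300) * Z ^ (4 / 3 - 20 * la) * (X / (M * G)) * ρ ^ (1 / 3 + la / 1000) := by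
    rw [hρ]; c2log
  have t3 : (Y * (2 * X / H)) ^ (la / 1000) * (Y * (2 * X / H)) ^ (2 / 3 : ℝ) ≤
      Z ^ (la / 300) * (X * Z ^ (1 / 3 + la / 100)) * (X / (M * G)) * ρ ^ (2 / 3 + la / 1000) := by
    rw [hρ]; c2log
  have p1 : 0 < Z ^ (la / 300) * (X * Z ^ (1 / 3 + la / 100)) * (X / (M * G)) := by positivity
  have p2 : 0 < Z ^ (la / 300) * Z ^ (4 / 3 - 20 * la) * (X / (M * G)) := by positivity
  have s1 := mul_le_mul_of_nonneg_left r1 p1.le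
  have s2 := mul_le_mul_of_nonneg_left r2 p2.le
  have s3 := mul_le_mul_of_nonneg_left r3 p1.le
  have s4 : 0 ≤ Z ^ (la / 300) * Z ^ (4 / 3 - 20 * la) * (X / (M * G)) * R := by positivity
  unfold c2a
  linarith

theorem c2_n2 {Z la M X G H Y : ℝ} (h : c2H Z la M X) (hG : 1 ≤ G) (hH : G ≤ H) (hY : 0 < Y) :
    (Y * (2 * X / H)) ^ (la / 1000) * (Y + Y ^ (1 / 3 : ℝ) * (2 * X / H + Y) *
      (Z ^ (700 * la)) ^ (-(1 / 30 : ℝ)) + Y ^ (1 / 2 : ℝ) * (2 * X / H) ^ (2 / 3 : ℝ) * Y ^ (1 / 6 : ℝ)) ≤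
      2 * c2a Z la X * (X / (M * G)) *
      ((Y / (X ^ 2 / (M * G ^ 2))) ^ (1 / 3 : ℝ) + (Y / (X ^ 2 / (M * G ^ 2))) ^ 2) := by
  obtain ⟨hZ, hM, hX, hla, b1, b2, b3, b4, b5, b6, b7, b8⟩ := h.logs
  have hG0 : 0 < G := by linarith
  have hH0 : 0 < H := by linarith
  have g1 := Real.log_nonneg hG
  have g2 := Real.log_le_log hG0 hH
  have e := mul_le_mul_of_nonneg_left (show Real.log 2 + 3 * Real.log X - Real.log H - Real.log M -
    2 * Real.log G ≤ 3 * Real.log Z by linarith) hla.le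
  have hl := h.la1
  set ρ := Y / (X ^ 2 / (M * G ^ 2)) with hρ
  have hρ0 : 0 < ρ := by positivity
  have r1 := c2_rho (a := 1 + la / 1000) hρ0 (by linarith) (by linarith)
  have r2 := c2_rho (a := 1 / 3 + la / 1000) hρ0 (by linarith) (by linarith)
  have r3 := c2_rho (a := 2 / 3 + la / 1000) hρ0 (by linarith) (by linarith)
  have r4 := c2_rho (a := 4 / 3 + la / 1000) hρ0 (by linarith) (by linarith)
  set R := ρ ^ (1 / 3 : ℝ) + ρ ^ 2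
  have t1 : (Y * (2 * X / H)) ^ (la / 1000) * Y ≤
      Z ^ (la / 300) * (X * Z ^ (1 / 3 + la / 100)) * (X / (M * G)) * ρ ^ (1 + la / 1000) := by
    rw [hρ]; c2log
  have t2 : (Y * (2 * X / H)) ^ (la / 1000) * (Y ^ (1 / 3 : ℝ) * (2 * X / H) *
      (Z ^ (700 * la)) ^ (-(1 / 30 : ℝ))) ≤
      Z ^ (la / 300) * Z ^ (4 / 3 - 20 * la) * (X / (M * G)) * ρ ^ (1 / 3 + la / 1000) := by
    rw [hρ]; c2log
  have t3 : (Y * (2 * X / H)) ^ (la / 1000) *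
      (Y ^ (1 / 2 : ℝ) * (2 * X / H) ^ (2 / 3 : ℝ) * Y ^ (1 / 6 : ℝ)) ≤
      Z ^ (la / 300) * (X * Z ^ (1 / 3 + la / 100)) * (X / (M * G)) * ρ ^ (2 / 3 + la / 1000) := by
    rw [hρ]; c2log
  have t4 : (Y * (2 * X / H)) ^ (la / 1000) * (Y ^ (1 / 3 : ℝ) * Y *
      (Z ^ (700 * la)) ^ (-(1 / 30 : ℝ))) ≤
      Z ^ (la / 300) * Z ^ (4 / 3 - 20 * la) * (X / (M * G)) * ρ ^ (4 / 3 + la / 1000) := by
    rw [hρ]; c2log
  have p1 : 0 < Z ^ (la / 300) * (X * Z ^ (1 / 3 + la / 100)) * (X / (M * G)) := by positivity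
  have p2 : 0 < Z ^ (la / 300) * Z ^ (4 / 3 - 20 * la) * (X / (M * G)) := by positivity
  have s1 := mul_le_mul_of_nonneg_left r1 p1.le
  have s2 := mul_le_mul_of_nonneg_left r2 p2.le
  have s3 := mul_le_mul_of_nonneg_left r3 p1.le
  have s4 := mul_le_mul_of_nonneg_left r4 p2.le
  unfold c2a
  linarith

theorem c2_n3 {Z la M X G H Y : ℝ} (h : c2H Z la M X) (hG : 1 ≤ G) (hH : G ≤ H) (hY : 0 < Y) :
    Y ^ (1 / 3 : ℝ) * (Z ^ (700 * la) * (X / H) / Z ^ (740 * la)) ≤ c2a Z la X * (X / (M * G)) *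
      ((Y / (X ^ 2 / (M * G ^ 2))) ^ (1 / 3 : ℝ) + (Y / (X ^ 2 / (M * G ^ 2))) ^ 2) := by
  obtain ⟨hZ, hM, hX, hla, b1, b2, b3, b4, b5, b6, b7, b8⟩ := h.logs
  have hG0 : 0 < G := by linarith
  have hH0 : 0 < H := by linarith
  have g1 := Real.log_nonneg hG
  have g2 := Real.log_le_log hG0 hH
  set ρ := Y / (X ^ 2 / (M * G ^ 2)) with hρ
  have hρ0 : 0 < ρ := by positivity
  have t : Y ^ (1 / 3 : ℝ) * (Z ^ (700 * la) * (X / H) / Z ^ (740 * la)) ≤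
      Z ^ (la / 300) * Z ^ (4 / 3 - 20 * la) * (X / (M * G)) * ρ ^ (1 / 3 : ℝ) := by
    rw [hρ]; c2log
  refine t.trans ?_
  unfold c2a
  gcongr
  · exact le_add_of_nonneg_left (by positivity)
  · exact le_add_of_nonneg_right (by positivity)

theorem c2_n4 {κ Y : ℝ} (hκ : 0 < κ) (hY : 0 < Y) :
    Y ^ (1 / 3 : ℝ) ≤ κ ^ (1 / 3 : ℝ) * ((Y / κ) ^ (1 / 3 : ℝ) + (Y / κ) ^ 2) := by
  have t : Y ^ (1 / 3 : ℝ) ≤ κ ^ (1 / 3 : ℝ) * (Y / κ) ^ (1 / 3 : ℝ) := by c2log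
  refine t.trans ?_
  gcongr
  exact le_add_of_nonneg_right (by positivity)

theorem c2_n5 {Z la M X G : ℝ} (h : c2H Z la M X) (hG : 1 ≤ G) (hL : G ≤ Z ^ (40 * la)) :
    M / X * G * (X ^ 2 / (M * G ^ 2)) ^ (1 / 3 : ℝ) * (Z ^ (40 * la)) ^ 2 ≤
      Z ^ (1 / 3 + 98 * la) := by
  obtain ⟨hZ, hM, hX, hla, b1, b2, b3, b4, b5, b6, b7, b8⟩ := h.logs
  have hG0 : 0 < G := by linarith
  have g3 := Real.log_le_log hG0 hL
  rw [Real.log_rpow hZ] at g3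
  c2log

theorem c2_n6 {Z la M X H : ℝ} (h : c2H Z la M X) (hH : 1 ≤ H) (hL : H ≤ Z ^ (40 * la)) :
    16 * M * (H * Z ^ (740 * la)) ^ 2 ≤ X ^ 2 ∧
      81 * H * Z ^ (740 * la) * Z ^ (700 * la) ≤ Z ^ (1481 * la) := by
  obtain ⟨hZ, hM, hX, hla, b1, b2, b3, b4, b5, b6, b7, b8⟩ := h.logs
  have hH0 : 0 < H := by linarith
  have g3 := Real.log_le_log hH0 hL
  rw [Real.log_rpow hZ] at g3
  have c1 : Real.log 16 ≤ 16 := (Real.log_le_sub_one_of_pos (by norm_num)).trans (by norm_num)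
  have c2 : Real.log 81 ≤ 81 := (Real.log_le_sub_one_of_pos (by norm_num)).trans (by norm_num)
  constructor
  · c2log
  · c2log

/-- the bracket of `maj_va` at `Im s = 0` -/
def c2G (B : ℕ) (ε P T M X F n : ℝ) : ℝ :=
  P ^ B * (T ^ 2 * X ^ (5 / 3 : ℝ) * M ^ (-(1 / 3 : ℝ)) * F + (X * M) ^ ε * n *
    (T ^ B * (M * X) * (X / Real.sqrt M) ^ (2 / 5 : ℝ) + M ^ (2 / 3 : ℝ) * X ^ (5 / 3 : ℝ) / T ^ 2 +
      (X + M + (X * M) ^ (2 / 3 : ℝ)) * (X / T + Real.sqrt X)))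

theorem c2G_nonneg (B : ℕ) (ε : ℝ) {P T M X F n : ℝ} (hP : 0 ≤ P) (hT : 0 ≤ T) (hM : 0 ≤ M)
    (hX : 0 ≤ X) (hF : 0 ≤ F) (hn : 0 ≤ n) : 0 ≤ c2G B ε P T M X F n := by
  unfold c2G
  positivity

theorem c2G_le (B : ℕ) (ε : ℝ) {P T M X F n t : ℝ} (hP : 0 ≤ P) (hT : 1 ≤ T) (hM : 0 ≤ M)
    (hX : 0 ≤ X) (hF : 0 ≤ F) (hn : 0 ≤ n) (ht : 0 ≤ t) :
    P ^ B * (T ^ 2 * X ^ (5 / 3 : ℝ) * M ^ (-(1 / 3 : ℝ)) * F + (X * M) ^ ε * n *
      ((T + t) ^ B * (M * X) * (X / Real.sqrt M) ^ (2 / 5 : ℝ) +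
        M ^ (2 / 3 : ℝ) * X ^ (5 / 3 : ℝ) / T ^ 2 +
        (X + M + (X * M) ^ (2 / 3 : ℝ)) * (X / T + Real.sqrt X))) ≤
      c2G B ε P T M X F n * (1 + t) ^ B := by
  have hT0 : 0 < T := by linarith
  have h1 : (T + t) ^ B ≤ T ^ B * (1 + t) ^ B := by
    rw [← mul_pow]
    exact pow_le_pow_left₀ (by positivity) (by nlinarith) B
  have h2 : 1 ≤ (1 + t) ^ B := one_le_pow₀ (by linarith)
  generalize (1 + t) ^ B = u at h1 h2
  calc _ ≤ P ^ B * (T ^ 2 * X ^ (5 / 3 : ℝ) * M ^ (-(1 / 3 : ℝ)) * F * u + (X * M) ^ ε * n *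
      (T ^ B * u * (M * X) * (X / Real.sqrt M) ^ (2 / 5 : ℝ) +
        M ^ (2 / 3 : ℝ) * X ^ (5 / 3 : ℝ) / T ^ 2 * u +
        (X + M + (X * M) ^ (2 / 3 : ℝ)) * (X / T + Real.sqrt X) * u)) := by
        refine mul_le_mul_of_nonneg_left (add_le_add (le_mul_of_one_le_right (by positivity) h2)
          (mul_le_mul_of_nonneg_left (add_le_add (add_le_add (by gcongr)
            (le_mul_of_one_le_right (by positivity) h2)) (le_mul_of_one_le_right (by positivity) h2))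
            (by positivity))) (by positivity)
    _ = _ := by unfold c2G; ring

theorem c2_n7 {Z la M X F n : ℝ} (h : c2H Z la M X) (B : ℕ)
    (hB : (1481 * B + 200) * (B + 1) * la ≤ 2 / 15) (hF : 0 ≤ F) (hn : 0 ≤ n) :
    Z ^ (1 / 3 + 98 * la) *
      c2G B (la / 1000) (Z ^ (1481 * la)) (Z ^ ((1481 * B + 200) * la)) M X F n ≤
      Z ^ (5 / 3 + (3 * (1481 * B + 200) - 100) * la) * F + 8 * (Z ^ (4 / 3 - 20 * la)) ^ 2 * n := by
  obtain ⟨hZ, hM, hX, hla, b1, b2, b3, b4, b5, b6, b7, b8⟩ := h.logs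
  have hz := Real.log_nonneg h.Z1
  have e := mul_le_mul_of_nonneg_left (show Real.log X + Real.log M ≤ 3 * Real.log Z by linarith) hla.le
  have e1 := mul_le_mul_of_nonneg_right hB hz
  have e2 : 0 ≤ (B : ℝ) * la * Real.log Z := by positivity
  have e3 : 0 ≤ (B : ℝ) ^ 2 * la * Real.log Z := by positivity
  set P := Z ^ (1481 * la) with hP
  set T := Z ^ ((1481 * B + 200) * la) with hT
  set U := (Z ^ (4 / 3 - 20 * la)) ^ 2 with hU
  set V := Z ^ (1 / 3 + 98 * la) * P ^ B * (X * M) ^ (la / 1000) with hV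
  have t0 : Z ^ (1 / 3 + 98 * la) * P ^ B * (T ^ 2 * X ^ (5 / 3 : ℝ) * M ^ (-(1 / 3 : ℝ))) ≤
      Z ^ (5 / 3 + (3 * (1481 * B + 200) - 100) * la) := by rw [hP, hT]; c2log
  have t1 : V * (T ^ B * (M * X) * (X / Real.sqrt M) ^ (2 / 5 : ℝ)) ≤ U := by
    rw [hV, hP, hT, hU]; c2log
  have t2 : V * (M ^ (2 / 3 : ℝ) * X ^ (5 / 3 : ℝ) / T ^ 2) ≤ U := by rw [hV, hP, hT, hU]; c2log
  have t3 : V * (X * (X / T)) ≤ U := by rw [hV, hP, hT, hU]; c2log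
  have t4 : V * (M * (X / T)) ≤ U := by rw [hV, hP, hT, hU]; c2log
  have t5 : V * ((X * M) ^ (2 / 3 : ℝ) * (X / T)) ≤ U := by rw [hV, hP, hT, hU]; c2log
  have t6 : V * (X * Real.sqrt X) ≤ U := by rw [hV, hP, hU]; c2log
  have t7 : V * (M * Real.sqrt X) ≤ U := by rw [hV, hP, hU]; c2log
  have t8 : V * ((X * M) ^ (2 / 3 : ℝ) * Real.sqrt X) ≤ U := by rw [hV, hP, hU]; c2log
  calc _ = Z ^ (1 / 3 + 98 * la) * P ^ B * (T ^ 2 * X ^ (5 / 3 : ℝ) * M ^ (-(1 / 3 : ℝ))) * F +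
      (V * (T ^ B * (M * X) * (X / Real.sqrt M) ^ (2 / 5 : ℝ)) +
        V * (M ^ (2 / 3 : ℝ) * X ^ (5 / 3 : ℝ) / T ^ 2) + V * (X * (X / T)) + V * (M * (X / T)) +
        V * ((X * M) ^ (2 / 3 : ℝ) * (X / T)) + V * (X * Real.sqrt X) + V * (M * Real.sqrt X) +
        V * ((X * M) ^ (2 / 3 : ℝ) * Real.sqrt X)) * n := by rw [hV]; unfold c2G; ring
    _ ≤ _ := add_le_add (mul_le_mul_of_nonneg_right t0 hF)
      (mul_le_mul_of_nonneg_right (by linarith) hn)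

theorem c2_n8 {Z la M X κ : ℝ} (h : c2H Z la M X) (B : ℕ)
    (hκ : (5 * (1481 * B + 200) + 6000) * la ≤ κ) :
    Z ^ (5 / 3 + (3 * (1481 * B + 200) - 100) * la) *
      ((Z ^ (1481 * la)) ^ 2 * Z ^ ((1481 * B + 200) * la)) ^ 2 * Z ^ (7 / 3 - κ) /
      Z ^ (4 / 3 - 20 * la) ≤ Z ^ (8 / 3 - 50 * la) := by
  obtain ⟨hZ, hM, hX, hla, b1, b2, b3, b4, b5, b6, b7, b8⟩ := h.logs
  have e1 := mul_le_mul_of_nonneg_right hκ (Real.log_nonneg h.Z1)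
  c2log

theorem c2_n9 {Z la M X κ H Q : ℝ} (h : c2H Z la M X) (B : ℕ)
    (hκ : (5 * (1481 * B + 200) + 6000) * la ≤ κ) (hH : 0 < H) (hH' : H ≤ Z ^ (3 * la)) (hQ : 0 < Q)
    (hQ' : Q ≤ Z ^ (20 * la)) :
    81 * H * ((Z ^ (1481 * la)) ^ 2 * Z ^ ((1481 * B + 200) * la)) * Q ≤ Z ^ κ := by
  obtain ⟨hZ, hM, hX, hla, b1, b2, b3, b4, b5, b6, b7, b8⟩ := h.logs
  have hz := Real.log_nonneg h.Z1
  have e1 := mul_le_mul_of_nonneg_right hκ hz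
  have e2 : 0 ≤ (B : ℝ) * la * Real.log Z := by positivity
  have g1 := Real.log_le_log hH hH'
  have g2 := Real.log_le_log hQ hQ'
  rw [Real.log_rpow hZ] at g1 g2
  have c2 : Real.log 81 ≤ 81 := (Real.log_le_sub_one_of_pos (by norm_num)).trans (by norm_num)
  c2log

theorem c2_n10 {Z la M X : ℝ} (h : c2H Z la M X) :
    M ≤ Z ^ (4 / 3 - 20 * la) ∧ ((2 * X) ^ (la / 1000)) ^ 3 * Z ^ (la / 300) ≤ Z ^ (la / 100) := by
  obtain ⟨hZ, hM, hX, hla, b1, b2, b3, b4, b5, b6, b7, b8⟩ := h.logs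
  have e := mul_le_mul_of_nonneg_left (show Real.log 2 + Real.log X ≤ Real.log Z by linarith) hla.le
  constructor
  · c2log
  · c2log

theorem c2_alg {b y a β U c x : ℝ} (hy : 0 ≤ y) (ha : 0 ≤ a) (hβ : 0 ≤ β) (hU : 0 < U)
    (hc : 0 ≤ c) (hx : 0 ≤ x) (h : b ^ 2 ≤ y * (a * b + β * U ^ 2 * y + c * x)) :
    b ≤ (a + (β + 1) * U) * y + c / U * x := by
  by_contra hn
  rw [not_le] at hn
  have h1 : 0 ≤ c / U * x := by positivity
  have h2 : 0 ≤ (β + 1) * U * y := by positivity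
  have h3 : 0 ≤ a * y := by positivity
  have h4 : (β + 1) * U * y * ((β + 1) * U * y + c / U * x) < b * (b - a * y) := by
    rcases h2.eq_or_lt with h5 | h5
    · rw [← h5, zero_mul]
      exact mul_pos (by linarith) (by linarith)
    · exact mul_lt_mul'' (by linarith) (by linarith) h2 (by linarith)
  have h5 : (β + 1) * U * y * ((β + 1) * U * y + c / U * x) =
      (β + 1) ^ 2 * (U ^ 2 * y ^ 2) + (β + 1) * (c * x * y) := by field_simp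
  have h6 : 0 ≤ U ^ 2 * y ^ 2 := by positivity
  have h7 : 0 ≤ c * x * y := by positivity
  nlinarith [mul_nonneg hβ h6, mul_nonneg hβ h7, mul_nonneg (mul_nonneg hβ hβ) h6]

end Crest.Agent.R12
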