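import Crest.Agent.R12.VA3

/-!
# R12 / PV : Pólya–Vinogradov on average
-/

set_option autoImplicit false

noncomputable section

open scoped Classical ComplexConjugate Topology
open MeasureTheory Filter

namespace Crest.Agent.R12

open Crest.Agent.R17

/-! ### the Gauss sum -/

theorem pv_gs {q1 q2 : O} (h1 : q1 ≠ 0) (h2 : Prim q2) (hc : IsCoprime q1 q2) {φ : O → ℂ}
    (hφ : Per q1 φ) (k : O) :
    gs (q1 * q2) (fun m => φ m * cub q2 m) k =
      cub q2 q1 * gs q1 (fun x => φ (x * q2)) k * gs q2 (cub q2) k := by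
  have h0 := h2.ne_zero
  have hψ := rcub_isChar h2
  have hp : Per (q1 * q2) fun m => φ m * cub q2 m :=
    (hφ.of_dvd (dvd_mul_right _ _)).mul (hψ.per.of_dvd (dvd_mul_left _ _))
  rw [gs, sum_res_crt h1 h0 hc (hp.mul (ad_per _ k)), gs, gs, mul_assoc,
    Finset.sum_mul_sum, Finset.mul_sum]
  refine Finset.sum_congr rfl fun x _ => ?_
  rw [Finset.mul_sum]
  refine Finset.sum_congr rfl fun y _ => ?_
  have e1 : φ (x * q2 + y * q1) = φ (x * q2) := by rw [mul_comm y, hφ]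
  have e2 : cub q2 (x * q2 + y * q1) = cub q2 y * cub q2 q1 := by
    rw [add_comm, mul_comm x, hψ.per, hψ.mul]
  have e3 : ad (q1 * q2) (k * (x * q2 + y * q1)) = ad q1 (k * x) * ad q2 (k * y) := by
    rw [show k * (x * q2 + y * q1) = q2 * (k * x) + q1 * (k * y) by ring, ad_add, ad_mul_cancel h1,
      mul_comm q1, ad_mul_cancel h0]
  rw [e1, e2, e3]
  ring

theorem pv_N9 : N 9 = 81 := by
  have : nm 9 = 81 := by decide
  unfold N
  rw [this]
  norm_num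

/-- `n = n₁n₂`, `n₁ = gp n q ∣ q`, `n₂ ≠ 1` coprime to `3q` (as `N n > N q`).  `φ(m) = prim ϑ m · cub m n
= φ₁(m) cub n₂ m` with `φ₁` periodic mod `9q`; the Chinese remainder theorem for `gs (9q n₂)` gives
`‖gs‖ ≤ N(9q) √N n₂` and `gs · 0 = 0`; `lw` with `ℓ = 0`. -/
theorem pv_win : ∃ C : ℝ, 0 ≤ C ∧ ∀ (q n : O) (ϑ : O → ℂ), q ≠ 0 → Per q ϑ → (∀ m, ‖ϑ m‖ ≤ 1) →
    SF n → N q < N n → ∀ (v T : ℝ) (s : ℂ), 1 ≤ T → |s.re| ≤ 4 →
    ‖winS (prim (fun m => ϑ m * cub m n)) v T s‖ ≤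
      C * N q * Real.sqrt (N n) * (T + |s.im|) * Real.exp (-(s.re * v)) := by
  obtain ⟨C, hC, h⟩ := lw 0
  refine ⟨C * 81, by positivity, fun q n ϑ hq hϑ hϑ1 hn hqn v T s hT hs => ?_⟩
  obtain ⟨g1, g2, g3', -, g5⟩ := gp_spec hn q
  obtain ⟨g6, -⟩ := hn.div g1.1 g2
  have e : gp n q * (n / gp n q) = n := EuclideanDomain.mul_div_cancel' g1.1.ne_zero g2
  generalize n / gp n q = n2 at g5 g6 e
  generalize gp n q = n1 at g1 g2 g3' e
  have hq9 : (9 * q : O) ≠ 0 := mul_ne_zero (by norm_num) hq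
  have hc : IsCoprime (9 * q) n2 := by
    refine IsCoprime.mul_left ?_ g5.symm
    have := g6.1.isCoprime_three.symm.pow_left (m := 2)
    rwa [show (3 : O) ^ 2 = 9 by norm_num] at this
  have hφ : Per (9 * q) fun m => ϑ m * phr n1 m :=
    (hϑ.of_dvd (dvd_mul_left _ _)).mul ((phr_per g1.1.ne_zero).of_dvd (mul_dvd_mul_left 9 g3'))
  have hφ1 : ∀ m, ‖ϑ m * phr n1 m‖ ≤ 1 := fun m => by
    rw [norm_mul]
    exact mul_le_one₀ (hϑ1 m) (norm_nonneg _) (norm_phr_le _ _)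
  have e1 : prim (fun m => ϑ m * cub m n) =
      fun m => (ϑ m * phr n1 m * cub n2 m) * ang m ^ (0 : ℤ) := by
    funext m
    unfold prim phr
    split_ifs with hm
    · beta_reduce
      rw [← e, (rcub_isChar hm).mul, cub_rec hm g6.1, zpow_zero]
      ring
    · simp
  have hψ := rcub_isChar g6.1
  have hN2 : N n2 ≤ N n := N_le_of_dvd hn.1.ne_zero ⟨n1, by rw [← e]; ring⟩
  have hG : ∀ k, ‖gs (9 * q * n2) (fun m => ϑ m * phr n1 m * cub n2 m) k‖ ≤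
      81 * N q * Real.sqrt (N n) := fun k => by
    rw [pv_gs hq9 g6.1 hc hφ, gs_cub g6.1.isCoprime_three g6.2, norm_mul, norm_mul, norm_mul,
      s3_norm g6.2.ne_zero hψ (gs_cub g6.1.isCoprime_three g6.2), Complex.norm_conj]
    have a1 := cl_cub_le g6.1 (9 * q)
    have a2 := cl_cub_le g6.1 k
    have a3 := norm_gs_le hq9 (ψ := fun x => ϑ (x * n2) * phr n1 (x * n2)) (fun x => hφ1 _) k
    rw [N_mul, pv_N9] at a3
    have a4 := Real.sqrt_le_sqrt hN2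
    have a5 := N_nonneg q
    calc _ ≤ 1 * (81 * N q) * (1 * Real.sqrt (N n)) := by gcongr
      _ = _ := by ring
  have h0 : gs (9 * q * n2) (fun m => ϑ m * phr n1 m * cub n2 m) 0 = 0 := by
    rw [pv_gs hq9 g6.1 hc hφ, gs_cub g6.1.isCoprime_three g6.2, (hψ.zero_iff 0).2, map_zero,
      zero_mul, mul_zero]
    rw [isCoprime_zero_left]
    intro hu
    have a1 : n2 = 1 := g6.1.eq_one_of_isUnit hu
    rw [a1, mul_one] at e
    have a2 := N_le_of_dvd hq g3'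
    rw [e] at a2
    linarith
  have hp : Per (9 * q * n2) fun m => ϑ m * phr n1 m * cub n2 m :=
    (hφ.of_dvd (dvd_mul_right _ _)).mul (hψ.per.of_dvd (dvd_mul_left _ _))
  have h1 := h (9 * q * n2) _ _ (mul_ne_zero hq9 g6.1.ne_zero) hp (fun k _ => hG k) v T s hT hs
  rw [h0, if_pos rfl, mul_zero, zero_div, zero_mul, sub_zero] at h1
  rw [e1]
  exact h1.trans_eq (by ring)

/-! ### elementary bounds -/

theorem pv_rpow {x B σ : ℝ} (hB : 1 ≤ B) (h1 : B⁻¹ ≤ x) (h2 : x ≤ B) (hσ : |σ| ≤ 4) :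
    x ^ σ ≤ B ^ 4 := by
  have hB0 : 0 < B := by linarith
  have hx : 0 < x := lt_of_lt_of_le (inv_pos.2 hB0) h1
  have a1 : Real.log x ≤ Real.log B := Real.log_le_log hx h2
  have a2 : -Real.log B ≤ Real.log x := by
    rw [← Real.log_inv]; exact Real.log_le_log (inv_pos.2 hB0) h1
  have a3 : |Real.log x| ≤ Real.log B := abs_le.2 ⟨a2, a1⟩
  have a4 : Real.log x * σ ≤ Real.log B * 4 :=
    (le_abs_self _).trans (by
      rw [abs_mul]; exact mul_le_mul a3 hσ (abs_nonneg _) (Real.log_nonneg hB))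
  rw [Real.rpow_def_of_pos hx, ← Real.rpow_natCast, Real.rpow_def_of_pos hB0]
  exact Real.exp_le_exp.2 (by simpa using a4)

theorem pv_pw {K B : ℝ} {k : O} {s : ℂ} (hK : 0 < K) (hk : k ≠ 0) (hB : 1 ≤ B) (h1 : K ≤ B * N k)
    (h2 : N k ≤ B * K) (hs : |s.re| ≤ 4) : ‖pw K k s‖ ≤ B ^ 4 := by
  have hN := N_pos hk
  have hB0 : 0 < B := by linarith
  rw [pw, Complex.norm_cpow_eq_rpow_re_of_pos (by positivity)]
  refine pv_rpow hB ?_ ?_ hs
  · rw [le_div_iff₀ hK, inv_mul_le_iff₀ hB0]; exact h1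
  · rw [div_le_iff₀ hK]; exact h2

theorem pv_rp {u x c r : ℝ} {a b : ℕ} (hu : 1 ≤ u) (hx0 : 0 ≤ x) (hc : 1 ≤ c) (hx : x ≤ c * u ^ a)
    (hr0 : 0 ≤ r) (hr1 : r ≤ 1) (h : a * r ≤ b) : x ^ r ≤ c * u ^ b := by
  have hu0 : 0 ≤ u := by linarith
  refine (Real.rpow_le_rpow hx0 hx hr0).trans ?_
  rw [Real.mul_rpow (by linarith) (by positivity), ← Real.rpow_natCast, ← Real.rpow_mul hu0,
    ← Real.rpow_natCast]
  refine mul_le_mul ?_ (Real.rpow_le_rpow_of_exponent_le hu h) (by positivity) (by linarith)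
  simpa using Real.rpow_le_rpow_of_exponent_le hc hr1

/-- the truncated squarefree detector -/
def pvC (E : ℝ) (k : O) : ℂ := ∑ e ∈ (ball E).filter Prim, if e ^ 2 ∣ k then mu e else 0

/-- the indicator of squarefree elements -/
def pvS (k : O) : ℂ := if Squarefree k then 1 else 0

theorem pvC_le {E : ℝ} (hE : 0 ≤ E) (k : O) : ‖pvC E k‖ ≤ 18 * E := by
  refine (norm_sum_le _ _).trans ((Finset.sum_le_card_nsmul _ _ 1 fun e _ => ?_).trans ?_)
  · split_ifs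
    · exact norm_mu_le e
    · simp
  · rw [nsmul_one]
    exact (Nat.cast_le.2 (Finset.card_filter_le _ _)).trans (card_ball_le hE)

theorem pv_det (E : ℝ) {k : O} (hk : Prim k) :
    ‖pvS k - pvC E k‖ ≤ (((pdiv k).filter fun e => e ^ 2 ∣ k ∧ E < N e).card : ℝ) := by
  have e1 : pvC E k = ∑ e ∈ ((pdiv k).filter fun e => e ^ 2 ∣ k).filter (fun e => N e ≤ E), mu e := by
    rw [pvC, ← Finset.sum_filter]
    refine Finset.sum_congr ?_ fun _ _ => rfl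
    ext e
    simp only [Finset.mem_filter, mem_ball, mem_pdiv hk.ne_zero]
    exact ⟨fun h => ⟨⟨⟨h.1.2, (dvd_pow_self e two_ne_zero).trans h.2⟩, h.2⟩, h.1.1.2⟩,
      fun h => ⟨⟨⟨h.1.1.1.ne_zero, h.2⟩, h.1.1.1⟩, h.1.2⟩⟩
  rw [pvS, ← sum_mu_sq hk, e1,
    ← Finset.sum_filter_add_sum_filter_not _ (fun e => N e ≤ E), add_sub_cancel_left,
    Finset.filter_filter]
  simp only [not_le]
  refine (norm_sum_le _ _).trans ((Finset.sum_le_card_nsmul _ _ 1 fun e _ => norm_mu_le e).trans ?_)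
  rw [nsmul_one]

theorem pv_d2 : ∃ C : ℝ, 0 ≤ C ∧ ∀ (u Y : ℝ) (R : Finset O), 1 ≤ u → 0 ≤ Y → Y ≤ 6 * u ^ 300 →
    (∀ k ∈ R, Prim k ∧ N k ≤ Y) → ∑ k ∈ R, ‖pvS k - pvC (u ^ 15) k‖ ^ 2 ≤ C * u ^ 286 := by
  obtain ⟨C1, h1⟩ := card_pdiv_le (ε := 1 / 300) (by norm_num)
  obtain ⟨C2, hC2, h2⟩ := b2_tail (σ := 2) (by norm_num)
  refine ⟨|C1| * 6 * (18 * 6 * C2), by positivity, fun u Y R hu hY0 hY hR => ?_⟩
  have hu0 : 0 < u := by linarith
  set E := u ^ 15 with hE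
  have hE0 : 0 < E := by positivity
  set L := (ball Y).filter (fun e => E < N e) with hL
  have a1 : ∀ k ∈ R, ‖pvS k - pvC E k‖ ^ 2 ≤
      |C1| * 6 * u * ∑ e ∈ L, if e ^ 2 ∣ k then (1 : ℝ) else 0 := by
    intro k hk
    obtain ⟨hp, hN⟩ := hR k hk
    have b1 := pv_det E hp
    have b2 : (((pdiv k).filter fun e => e ^ 2 ∣ k ∧ E < N e).card : ℝ) ≤ |C1| * 6 * u := by
      refine (Nat.cast_le.2 (Finset.card_filter_le _ _)).trans ((h1 k hp.ne_zero).trans ?_)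
      have := pv_rp (a := 300) (b := 1) (r := 1 / 300) hu (N_nonneg k) (by norm_num) (hN.trans hY)
        (by norm_num) (by norm_num) (by norm_num)
      rw [pow_one] at this
      calc C1 * N k ^ (1 / 300 : ℝ) ≤ |C1| * (6 * u) :=
            mul_le_mul (le_abs_self _) this (Real.rpow_nonneg (N_nonneg k) _) (abs_nonneg _)
        _ = _ := by ring
    have b3 : (((pdiv k).filter fun e => e ^ 2 ∣ k ∧ E < N e).card : ℝ) ≤
        ∑ e ∈ L, if e ^ 2 ∣ k then (1 : ℝ) else 0 := by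
      rw [← Finset.sum_filter, Finset.sum_const, nsmul_one]
      refine Nat.cast_le.2 (Finset.card_le_card fun e he => ?_)
      simp only [hL, Finset.mem_filter, mem_ball, mem_pdiv hp.ne_zero] at he ⊢
      exact ⟨⟨⟨he.1.1.ne_zero, (N_le_of_dvd hp.ne_zero he.1.2).trans hN⟩, he.2.2⟩, he.2.1⟩
    rw [sq]
    exact mul_le_mul (b1.trans b2) (b1.trans b3) (norm_nonneg _) (by positivity)
  refine (Finset.sum_le_sum a1).trans ?_
  rw [← Finset.mul_sum, Finset.sum_comm]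
  have a2 : ∀ e ∈ L, ∑ k ∈ R, (if e ^ 2 ∣ k then (1 : ℝ) else 0) ≤
      18 * Y * (if E < N e then N e ^ (-2 : ℝ) else 0) := by
    intro e he
    obtain ⟨b1, b2⟩ := Finset.mem_filter.1 he
    have he0 := (mem_ball.1 b1).1
    rw [if_pos b2, ← Finset.sum_filter, Finset.sum_const, nsmul_one]
    have b3 := ls0_card_dvd hY0 (pow_ne_zero 2 he0)
    rw [N_pow] at b3
    rw [Real.rpow_neg (N_nonneg e), Real.rpow_two, mul_assoc, ← div_eq_mul_inv]
    refine le_trans (Nat.cast_le.2 (Finset.card_le_card (Finset.filter_subset_filter _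
      fun k hk => mem_ball.2 ⟨(hR k hk).1.ne_zero, (hR k hk).2⟩))) b3
  have a3 := h2 E hE0 L
  rw [show (1 - 2 : ℝ) = -1 by norm_num, Real.rpow_neg_one] at a3
  have a4 : ∑ e ∈ L, ∑ k ∈ R, (if e ^ 2 ∣ k then (1 : ℝ) else 0) ≤ 18 * 6 * C2 * u ^ 285 := by
    refine (Finset.sum_le_sum a2).trans ?_
    rw [← Finset.mul_sum]
    calc _ ≤ 18 * (6 * u ^ 300) * (C2 * E⁻¹) := by
          refine mul_le_mul (by linarith) a3 (Finset.sum_nonneg fun e _ => ?_) (by positivity)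
          split_ifs
          · exact Real.rpow_nonneg (N_nonneg e) _
          · exact le_rfl
      _ = _ := by rw [hE]; field_simp
  calc _ ≤ |C1| * 6 * u * (18 * 6 * C2 * u ^ 285) := by gcongr
    _ = _ := by ring

theorem pv_an : ∃ C : ℝ, 0 ≤ C ∧ ∀ (u X : ℝ) (R : Finset O), 1 ≤ u → 0 < X → X ≤ 2 * u ^ 300 →
    (∀ k ∈ R, k ≠ 0) → ∑ k ∈ R, gw (u ^ 15 * (lg k - Real.log X)) ≤ C * u ^ 285 := by
  obtain ⟨C, hC, h⟩ := an
  refine ⟨C * 4, by positivity, fun u X R hu hX0 hX hR => ?_⟩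
  have hu0 : 0 < u := by linarith
  have hT : 1 ≤ u ^ 15 := one_le_pow₀ hu
  have a1 := (summable_an (Real.log X) hT).sum_le_tsum R fun n _ => lw_nonneg _ _ n
  rw [Finset.sum_congr rfl fun k hk => if_neg (hR k hk)] at a1
  refine a1.trans ((h _ _ hT).1.trans ?_)
  rw [← va2_sqrt hX0, Real.exp_log hX0]
  have a2 : X / u ^ 15 ≤ 2 * u ^ 285 := by
    rw [div_le_iff₀ (by positivity)]
    exact hX.trans_eq (by ring)
  have a3 : Real.sqrt X ≤ 2 * u ^ 285 := by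
    rw [Real.sqrt_eq_rpow]
    exact pv_rp hu hX0.le (by norm_num) hX (by norm_num) (by norm_num) (by norm_num)
  calc _ ≤ C * (2 * u ^ 285 + 2 * u ^ 285) := by gcongr
    _ = _ := by ring

/-! ### the complete smooth sum -/

/-- the coefficients of the complete sum -/
def pvB (E K : ℝ) (ϑ : O → ℂ) (n : O) (s : ℂ) (k : O) : ℂ :=
  pvC E k * prim (fun m => ϑ m * cub m n) k * pw K k s

theorem pv_prim_le {ϑ : O → ℂ} (hϑ : ∀ m, ‖ϑ m‖ ≤ 1) (n k : O) :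
    ‖prim (fun m => ϑ m * cub m n) k‖ ≤ 1 := by
  unfold prim
  split_ifs with h
  · rw [norm_mul]
    exact mul_le_one₀ (hϑ k) (norm_nonneg _) (cl_cub_le h n)
  · simp

theorem pvB_le {E K : ℝ} {ϑ : O → ℂ} {s : ℂ} (hE : 0 ≤ E) (hK : 1 ≤ K) (hϑ : ∀ m, ‖ϑ m‖ ≤ 1)
    (hs : |s.re| ≤ 4) (n : O) {k : O} (hk : k ≠ 0) :
    ‖pvB E K ϑ n s k‖ ≤ 18 * E * K ^ 4 * N k ^ 4 := by
  have hN := one_le_N hk
  have a1 : ‖pw K k s‖ ≤ (K * N k) ^ 4 := by
    refine pv_pw (by linarith) hk (one_le_mul_of_one_le_of_one_le hK hN) ?_ ?_ hs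
    · rw [mul_assoc]
      exact le_mul_of_one_le_right (by linarith) (one_le_mul_of_one_le_of_one_le hN hN)
    · rw [mul_comm K, mul_assoc]
      exact le_mul_of_one_le_right (by linarith) (one_le_mul_of_one_le_of_one_le hK hK)
  rw [pvB, norm_mul, norm_mul]
  have a2 := pvC_le hE k
  have a3 := pv_prim_le hϑ n k
  calc _ ≤ 18 * E * 1 * (K * N k) ^ 4 := by gcongr
    _ = _ := by ring

theorem pv_win_B : ∃ C : ℝ, 0 ≤ C ∧ ∀ (E K T v : ℝ) (q n : O) (ϑ : O → ℂ) (s : ℂ), 0 ≤ E → 1 ≤ K →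
    1 ≤ T → q ≠ 0 → Per q ϑ → (∀ m, ‖ϑ m‖ ≤ 1) → SF n → N q < N n → |s.re| ≤ 4 →
    Real.log K ≤ v → v ≤ Real.log K + 1 →
    ‖win (pvB E K ϑ n s) v T‖ ≤ C * E * N q * Real.sqrt (N n) * (T + |s.im|) := by
  obtain ⟨C, hC, h⟩ := pv_win
  refine ⟨18 * (C * Real.exp 4), by positivity,
    fun E K T v q n ϑ s hE hK hT hq hϑ hϑ1 hn hqn hs hv1 hv2 => ?_⟩
  have hK0 : 0 < K := by linarith
  set φ : O → ℂ := prim fun m => ϑ m * cub m n with hφ
  set κ : ℂ := ((K⁻¹ : ℝ) : ℂ) ^ s with hκ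
  have e1 : pvB E K ϑ n s = fun k => ∑ e ∈ (ball E).filter Prim,
      (mu e * κ) * (dvR (e ^ 2) φ k * (N k : ℂ) ^ (-(-s))) := by
    funext k
    rw [pvB, pvC, Finset.sum_mul, Finset.sum_mul]
    refine Finset.sum_congr rfl fun e _ => ?_
    rw [pw, div_eq_mul_inv, Complex.ofReal_mul,
      Complex.mul_cpow_ofReal_nonneg (N_nonneg k) (inv_nonneg.2 hK0.le), neg_neg, dvR]
    split_ifs
    · ring
    · ring
  have hd : ∀ e k, ‖dvR (e ^ 2) φ k‖ ≤ 1 := fun e k => by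
    unfold dvR
    split_ifs
    · exact pv_prim_le hϑ1 n k
    · simp
  have hP : ∀ e ∈ (ball E).filter Prim,
      PolyBd fun k => (mu e * κ) * (dvR (e ^ 2) φ k * (N k : ℂ) ^ (-(-s))) := fun e _ => by
    refine ⟨‖mu e * κ‖, 4, fun k hk => ?_⟩
    have hN := one_le_N hk
    rw [norm_mul, norm_mul (dvR _ _ _), neg_neg, Complex.norm_cpow_eq_rpow_re_of_pos (N_pos hk)]
    refine mul_le_mul_of_nonneg_left ?_ (norm_nonneg _)
    have a1 : N k ^ s.re ≤ N k ^ 4 :=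
      pv_rpow hN ((inv_le_one_of_one_le₀ hN).trans hN) le_rfl hs
    calc _ ≤ 1 * N k ^ 4 := mul_le_mul (hd e k) a1 (Real.rpow_nonneg (N_nonneg k) _) zero_le_one
      _ = _ := one_mul _
  rw [win_eq_winS, e1, winS_sum _ hP v hT]
  have hA : 0 ≤ C * Real.exp 4 * N q * Real.sqrt (N n) * (T + |s.im|) := by
    have := N_nonneg q
    positivity
  refine (norm_sum_le _ _).trans ((Finset.sum_le_card_nsmul _ _
    (C * Real.exp 4 * N q * Real.sqrt (N n) * (T + |s.im|)) fun e he => ?_).trans ?_)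
  · have he' := (Finset.mem_filter.1 he).2
    have he2 := he'.pow 2
    have e2 : (fun m => φ (e ^ 2 * m)) =
        fun m => cub (e ^ 2) n * prim (fun m => ϑ (e ^ 2 * m) * cub m n) m := by
      funext m
      simp only [hφ, prim]
      by_cases hm : Prim m
      · rw [if_pos hm, if_pos (he2.mul hm), cub, sym_mul_left 3 he2.ne_zero hm.ne_zero, cub, cub]
        ring
      · rw [if_neg hm, if_neg fun h => hm (h.of_mul_left he2), mul_zero]
    rw [winS_smul, winS_shift, zero_add, winS_dvR he2.ne_zero, e2, winS_smul, neg_neg]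
    have a1 := h q n (fun m => ϑ (e ^ 2 * m)) hq (ti1_per hϑ _) (fun m => hϑ1 _) hn hqn
      (v - lg (e ^ 2)) T (-s) hT (by simpa using hs)
    rw [Complex.neg_im, abs_neg, Complex.neg_re, neg_mul, neg_neg] at a1
    rw [norm_mul, norm_mul, norm_mul, norm_mul, hκ, va2_norm_cpow (inv_pos.2 hK0),
      va2_norm_cpow (N_pos he2.ne_zero), Real.log_inv]
    have a2 := norm_mu_le e
    have a3 := cl_cub_le he2 n
    have a4 : Real.exp (s.re * -Real.log K) * Real.exp (s.re * Real.log (N (e ^ 2))) *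
        Real.exp (s.re * (v - lg (e ^ 2))) ≤ Real.exp 4 := by
      rw [← Real.exp_add, ← Real.exp_add, lg]
      refine Real.exp_le_exp.2 ?_
      have b1 := (abs_le.1 hs).2
      nlinarith
    have a5 := N_nonneg q
    calc _ ≤ 1 * Real.exp (s.re * -Real.log K) * (Real.exp (s.re * Real.log (N (e ^ 2))) *
          (1 * (C * N q * Real.sqrt (N n) * (T + |s.im|) * Real.exp (s.re * (v - lg (e ^ 2)))))) := by
          gcongr
      _ = C * (Real.exp (s.re * -Real.log K) * Real.exp (s.re * Real.log (N (e ^ 2))) *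
          Real.exp (s.re * (v - lg (e ^ 2)))) * N q * Real.sqrt (N n) * (T + |s.im|) := by ring
      _ ≤ _ := by gcongr
  · rw [nsmul_eq_mul]
    have a1 : (((ball E).filter Prim).card : ℝ) ≤ 18 * E :=
      (Nat.cast_le.2 (Finset.card_filter_le _ _)).trans (card_ball_le hE)
    exact (mul_le_mul_of_nonneg_right a1 hA).trans_eq (by ring)

/-! ### truncation -/

/-- the finite range -/
def pvR (K : ℝ) : Finset O := (ball (6 * K)).filter fun k => Prim k ∧ K ≤ 3 * N k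
/-- the sharp cutoff -/
def pvW (K : ℝ) (k : O) : ℝ := if Real.log K < lg k ∧ lg k ≤ Real.log (2 * K) then 1 else 0
/-- the smooth cutoff -/
def pvP (K T : ℝ) (k : O) : ℝ := Pl T (Real.log K) (Real.log (2 * K)) (lg k)

theorem pv_log {K : ℝ} (hK : 0 < K) :
    Real.log K ≤ Real.log (2 * K) ∧ Real.log (2 * K) ≤ Real.log K + 1 := by
  rw [Real.log_mul two_ne_zero hK.ne']
  have h1 := Real.log_two_gt_d9
  have h2 := Real.log_two_lt_d9
  constructor <;> linarith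

theorem pv_WP {K T : ℝ} (hK : 0 < K) (hT : 0 < T) (k : O) : |pvW K k - pvP K T k| ≤
    gw (T * (lg k - Real.log K)) + gw (T * (lg k - Real.log (2 * K))) :=
  Pl_sub_le hT (pv_log hK).1 _

theorem pvW_eq {K : ℝ} (hK : 0 < K) {k : O} (hk : k ≠ 0) :
    pvW K k = if K < N k ∧ N k ≤ 2 * K then 1 else 0 := by
  have hN := N_pos hk
  simp only [pvW, lg, Real.log_lt_log_iff hK hN, Real.log_le_log_iff hN (by positivity : 0 < 2 * K)]

theorem pv_tail0 : ∃ C : ℝ, 0 ≤ C ∧ ∀ (u X : ℝ) (S : Finset O), 1 ≤ u → 0 < X → X ≤ 2 * u ^ 300 →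
    (∀ n ∈ S, n ≠ 0 ∧ 1 ≤ |lg n - Real.log X|) →
    u ^ 1215 * ∑ n ∈ S, N n ^ 4 * gw (u ^ 15 * (lg n - Real.log X)) ≤ C := by
  obtain ⟨C, hC, h⟩ := an_tail 4
  refine ⟨C * 32 * (Nat.factorial 91 : ℕ), by positivity, fun u X S hu hX0 hX hS => ?_⟩
  have hu0 : 0 < u := by linarith
  have a1 := h (Real.log X) (u ^ 15) (one_le_pow₀ hu) S hS
  have e : Real.exp ((((4 : ℕ) : ℝ) + 1) * Real.log X - (u ^ 15) ^ 2) = X ^ 5 / Real.exp (u ^ 30) := by
    rw [Real.exp_sub, ← pow_mul, show (((4 : ℕ) : ℝ) + 1) = ((5 : ℕ) : ℝ) by norm_num,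
      Real.exp_nat_mul, Real.exp_log hX0]
  rw [e] at a1
  have a2 := Real.pow_div_factorial_le_exp (u ^ 30) (by positivity) 91
  generalize hF : ((Nat.factorial 91 : ℕ) : ℝ) = F at a2 ⊢
  have hF0 : 0 < F := by rw [← hF]; positivity
  have a3 : X ^ 5 ≤ 32 * u ^ 1500 := by
    refine (pow_le_pow_left₀ hX0.le hX 5).trans_eq ?_
    rw [mul_pow, ← pow_mul]
    norm_num
  have a4 : u ^ 1215 * u ^ 1500 ≤ F * Real.exp (u ^ 30) := by
    rw [div_le_iff₀' hF0, ← pow_mul] at a2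
    rw [← pow_add]
    exact (pow_le_pow_right₀ hu (by norm_num)).trans a2
  have hE := Real.exp_pos (u ^ 30)
  generalize Real.exp (u ^ 30) = Q at a1 a4 hE
  have p1 : 0 < u ^ 1215 := by positivity
  have p2 : 0 < u ^ 1500 := by positivity
  generalize u ^ 1215 = A at a4 p1 ⊢
  generalize u ^ 1500 = B at a3 a4 p2
  calc _ ≤ A * (C * (32 * B / Q)) := by
        refine mul_le_mul_of_nonneg_left (a1.trans ?_) p1.le
        gcongr
    _ = C * 32 * (A * B / Q) := by ring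
    _ ≤ _ := mul_le_mul_of_nonneg_left ((div_le_iff₀ hE).2 a4) (by positivity)

theorem pv_far {K : ℝ} (hK : 0 < K) {k : O} (hk : Prim k) (h : k ∉ pvR K) :
    pvW K k = 0 ∧ 1 ≤ |lg k - Real.log K| ∧ 1 ≤ |lg k - Real.log (2 * K)| := by
  have hN := N_pos hk.ne_zero
  have h3 : 1 ≤ Real.log 3 := by
    rw [Real.le_log_iff_exp_le (by norm_num)]
    linarith [Real.exp_one_lt_d9]
  obtain ⟨l1, -⟩ := pv_log hK
  by_cases h1 : K ≤ 3 * N k
  · have h2 : 6 * K < N k := by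
      by_contra h2
      exact h (Finset.mem_filter.2 ⟨mem_ball.2 ⟨hk.ne_zero, not_lt.1 h2⟩, hk, h1⟩)
    have a1 := Real.log_le_log (by positivity) h2.le
    rw [show 6 * K = 3 * (2 * K) by ring, Real.log_mul (by norm_num) (by positivity)] at a1
    refine ⟨if_neg fun h => ?_, le_abs.2 (Or.inl ?_), le_abs.2 (Or.inl ?_)⟩
    · have := h.2
      unfold lg at this
      linarith
    · unfold lg; linarith
    · unfold lg; linarith
  · have a1 := Real.log_le_log (by positivity) (not_le.1 h1).le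
    rw [Real.log_mul (by norm_num) hN.ne'] at a1
    refine ⟨if_neg fun h => ?_, le_abs.2 (Or.inr ?_), le_abs.2 (Or.inr ?_)⟩
    · have := h.1
      unfold lg at this
      linarith
    · unfold lg; linarith
    · unfold lg; linarith

theorem pv_tail : ∃ C : ℝ, 0 ≤ C ∧ ∀ (u K : ℝ) (ϑ : O → ℂ) (n : O) (s : ℂ), 1 ≤ u → 1 ≤ K →
    K ≤ u ^ 300 → (∀ m, ‖ϑ m‖ ≤ 1) → |s.re| ≤ 4 →
    ‖plS (pvB (u ^ 15) K ϑ n s) (u ^ 15) (Real.log K) (Real.log (2 * K)) -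
      ∑ k ∈ pvR K, pvB (u ^ 15) K ϑ n s k * pvP K (u ^ 15) k‖ ≤ C := by
  obtain ⟨C, hC, h⟩ := pv_tail0
  refine ⟨18 * (C + C), by positivity, fun u K ϑ n s hu hK hKu hϑ hs => ?_⟩
  have hu0 : 0 < u := by linarith
  have hK0 : 0 < K := by linarith
  have hT : 1 ≤ u ^ 15 := one_le_pow₀ hu
  have hT0 : 0 < u ^ 15 := by positivity
  set b := pvB (u ^ 15) K ϑ n s with hb
  have hP : PolyBd b := ⟨_, 4, fun k hk => pvB_le hT0.le hK hϑ hs n hk⟩
  set f : O → ℂ := fun k => if k = 0 then 0 else b k * (pvP K (u ^ 15) k : ℂ) with hf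
  have hfs : Summable f := (sm_hasSum_plS hP hT _ _).summable
  set g : O → ℂ := fun k => if k ∈ pvR K then 0 else f k with hg
  have hgb : ∀ S : Finset O, ∑ k ∈ S, ‖g k‖ ≤ 18 * (C + C) := by
    intro S
    set S' := S.filter (fun k => Prim k ∧ k ∉ pvR K) with hS'
    have a1 : ∑ k ∈ S, ‖g k‖ ≤ ∑ k ∈ S', 18 * (u ^ 1215 *
        (N k ^ 4 * gw (u ^ 15 * (lg k - Real.log K))) +
        u ^ 1215 * (N k ^ 4 * gw (u ^ 15 * (lg k - Real.log (2 * K))))) := by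
      rw [hS', Finset.sum_filter]
      refine Finset.sum_le_sum fun k _ => ?_
      split_ifs with hk
      · obtain ⟨b1, -, -⟩ := pv_far hK0 hk.1 hk.2
        have b2 := pv_WP hK0 hT0 k
        rw [b1, zero_sub, abs_neg] at b2
        have b3 : ‖b k‖ ≤ 18 * u ^ 1215 * N k ^ 4 := by
          refine (pvB_le hT0.le hK hϑ hs n hk.1.ne_zero).trans ?_
          have b4 : K ^ 4 ≤ u ^ 1200 := (pow_le_pow_left₀ hK0.le hKu 4).trans_eq (by rw [← pow_mul])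
          have b5 := N_nonneg k
          calc _ ≤ 18 * u ^ 15 * u ^ 1200 * N k ^ 4 := by gcongr
            _ = _ := by rw [mul_assoc 18, ← pow_add]
        simp only [hg, hf, if_neg hk.2, if_neg hk.1.ne_zero]
        rw [norm_mul, Complex.norm_real, Real.norm_eq_abs]
        refine (mul_le_mul b3 b2 (abs_nonneg _) ((norm_nonneg _).trans b3)).trans_eq ?_
        generalize u ^ 1215 = A
        ring
      · simp only [hg, hf]
        split_ifs with h1 h2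
        · simp
        · simp
        · have : ¬ Prim k := fun h => hk ⟨h, h1⟩
          simp [hb, pvB, prim, this]
    refine a1.trans ?_
    rw [← Finset.mul_sum, Finset.sum_add_distrib, ← Finset.mul_sum, ← Finset.mul_sum]
    have p : 0 < u ^ 300 := by positivity
    have hS : ∀ k ∈ S', Prim k ∧ k ∉ pvR K := fun k hk => (Finset.mem_filter.1 hk).2
    have a2 := h u K S' hu hK0 (by linarith) fun k hk =>
      ⟨(hS k hk).1.ne_zero, (pv_far hK0 (hS k hk).1 (hS k hk).2).2.1⟩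
    have a3 := h u (2 * K) S' hu (by positivity) (by linarith) fun k hk =>
      ⟨(hS k hk).1.ne_zero, (pv_far hK0 (hS k hk).1 (hS k hk).2).2.2⟩
    linarith
  obtain ⟨g1, g2⟩ := ti1_tsum hgb
  have e1 : HasSum (fun k => if k ∈ pvR K then f k else 0)
      (∑ k ∈ pvR K, b k * pvP K (u ^ 15) k) := by
    have := hasSum_sum_of_ne_finset_zero (f := fun k => if k ∈ pvR K then f k else 0) (s := pvR K)
      (L := .unconditional O) fun k hk => if_neg hk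
    rwa [Finset.sum_congr rfl (g := fun k => b k * pvP K (u ^ 15) k) fun k hk => by
      rw [if_pos hk, hf]
      exact if_neg (mem_ball.1 (Finset.mem_filter.1 hk).1).1] at this
  have e2 : g = fun k => f k - if k ∈ pvR K then f k else 0 := by
    funext k
    simp only [hg]
    split_ifs <;> simp
  rw [e2, (hfs.hasSum.sub e1).tsum_eq] at g2
  exact g2

/-- the coefficients that are handled by the large sieve -/
def pvY (K T : ℝ) (ϑ : O → ℂ) (s : ℂ) (k : O) : ℂ :=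
  if k ∈ pvR K then ϑ k * pw K k s *
    (pvS k * ((pvW K k - pvP K T k : ℝ) : ℂ) + (pvS k - pvC T k) * pvP K T k) else 0

theorem pv_split {K : ℝ} (hK : 0 < K) (T : ℝ) (ϑ : O → ℂ) (s : ℂ) {n : O} (hn : Prim n) :
    ∑ k ∈ sfI K (2 * K), ϑ k * pw K k s * cub k n =
      ∑ k ∈ ball (6 * K), pvY K T ϑ s k * cub n k + ∑ k ∈ pvR K, pvB T K ϑ n s k * pvP K T k := by
  have e1 : ∑ k ∈ ball (6 * K), pvY K T ϑ s k * cub n k = ∑ k ∈ pvR K, pvY K T ϑ s k * cub n k :=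
    (Finset.sum_subset (Finset.filter_subset _ _) fun k _ (hk : k ∉ pvR K) => by
      rw [pvY, if_neg hk, zero_mul]).symm
  have e2 : sfI K (2 * K) = (pvR K).filter fun k => Squarefree k ∧ K < N k ∧ N k ≤ 2 * K := by
    ext k
    simp only [mem_sfI, pvR, Finset.mem_filter, mem_ball, SF]
    exact ⟨fun h => ⟨⟨⟨h.1.1.ne_zero, by linarith [h.2.2]⟩, h.1.1, by linarith [h.2.1]⟩,
      h.1.2, h.2⟩, fun h => ⟨⟨h.1.2.1, h.2.1⟩, h.2.2⟩⟩
  rw [e1, e2, Finset.sum_filter, ← Finset.sum_add_distrib]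
  refine Finset.sum_congr rfl fun k hk => ?_
  have hp : Prim k := (Finset.mem_filter.1 hk).2.1
  rw [pvY, if_pos hk, pvB, prim, if_pos hp, cub_rec hn hp, pvW_eq hK hp.ne_zero, pvS]
  by_cases h1 : Squarefree k
  · by_cases h2 : K < N k ∧ N k ≤ 2 * K
    · rw [if_pos ⟨h1, h2⟩, if_pos h1, if_pos h2]
      push_cast
      ring
    · rw [if_neg fun h => h2 h.2, if_pos h1, if_neg h2]
      push_cast
      ring
  · rw [if_neg fun h => h1 h.1, if_neg h1]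
    ring

theorem pv_Y : ∃ C : ℝ, 0 ≤ C ∧ ∀ (u K : ℝ) (ϑ : O → ℂ) (s : ℂ), 1 ≤ u → 1 ≤ K →
    K ≤ u ^ 300 → (∀ m, ‖ϑ m‖ ≤ 1) → |s.re| ≤ 4 →
    ∑ k ∈ ball (6 * K), ‖pvY K (u ^ 15) ϑ s k‖ ^ 2 ≤ C * u ^ 286 := by
  obtain ⟨C1, hC1, h1⟩ := pv_d2
  obtain ⟨C2, hC2, h2⟩ := pv_an
  refine ⟨6 ^ 8 * (4 * (C2 + C2) + 2 * C1), by positivity, fun u K ϑ s hu hK hKu hϑ hs => ?_⟩
  have hu0 : 0 < u := by linarith
  have hK0 : 0 < K := by linarith
  have hT0 : 0 < u ^ 15 := by positivity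
  have e1 : ∑ k ∈ ball (6 * K), ‖pvY K (u ^ 15) ϑ s k‖ ^ 2 =
      ∑ k ∈ pvR K, ‖pvY K (u ^ 15) ϑ s k‖ ^ 2 :=
    (Finset.sum_subset (Finset.filter_subset _ _) fun k _ (hk : k ∉ pvR K) => by
      rw [pvY, if_neg hk, norm_zero, zero_pow two_ne_zero]).symm
  have hR : ∀ k ∈ pvR K, Prim k ∧ N k ≤ 6 * K := fun k hk =>
    ⟨(Finset.mem_filter.1 hk).2.1, (mem_ball.1 (Finset.mem_filter.1 hk).1).2⟩
  have a1 : ∀ k ∈ pvR K, ‖pvY K (u ^ 15) ϑ s k‖ ^ 2 ≤ 6 ^ 8 *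
      (4 * (gw (u ^ 15 * (lg k - Real.log K)) + gw (u ^ 15 * (lg k - Real.log (2 * K)))) +
        2 * ‖pvS k - pvC (u ^ 15) k‖ ^ 2) := by
    intro k hk
    obtain ⟨hp, hN⟩ := hR k hk
    have b0 := (Finset.mem_filter.1 hk).2.2
    have b1 : ‖pw K k s‖ ≤ 6 ^ 4 :=
      pv_pw hK0 hp.ne_zero (by norm_num) (by linarith [N_nonneg k]) hN hs
    have b2 := pv_WP hK0 hT0 k
    have b3 : |pvP K (u ^ 15) k| ≤ 1 := by
      have := Pl_mem hT0 (pv_log hK0).1 (lg k)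
      exact abs_le.2 ⟨by unfold pvP; linarith [this.1], this.2⟩
    have b4 : ‖pvS k‖ ≤ 1 := by
      unfold pvS
      split_ifs <;> simp
    have c1 := gw_le_one (u ^ 15 * (lg k - Real.log K))
    have c2 := gw_le_one (u ^ 15 * (lg k - Real.log (2 * K)))
    have c3 := gw_pos (u ^ 15 * (lg k - Real.log K))
    have c4 := gw_pos (u ^ 15 * (lg k - Real.log (2 * K)))
    generalize gw (u ^ 15 * (lg k - Real.log K)) = g1 at b2 c1 c3 ⊢
    generalize gw (u ^ 15 * (lg k - Real.log (2 * K))) = g2 at b2 c2 c4 ⊢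
    have b5 : ‖pvY K (u ^ 15) ϑ s k‖ ≤ 6 ^ 4 * ((g1 + g2) + ‖pvS k - pvC (u ^ 15) k‖) := by
      rw [pvY, if_pos hk, norm_mul, norm_mul]
      refine mul_le_mul ((mul_le_mul (hϑ k) b1 (norm_nonneg _) zero_le_one).trans_eq (one_mul _))
        ((norm_add_le _ _).trans (add_le_add ?_ ?_)) (norm_nonneg _) (by norm_num)
      · rw [norm_mul, Complex.norm_real, Real.norm_eq_abs]
        exact (mul_le_mul b4 b2 (abs_nonneg _) zero_le_one).trans_eq (one_mul _)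
      · rw [norm_mul, Complex.norm_real, Real.norm_eq_abs]
        exact mul_le_of_le_one_right (norm_nonneg _) b3
    refine (pow_le_pow_left₀ (norm_nonneg _) b5 2).trans ?_
    generalize ‖pvS k - pvC (u ^ 15) k‖ = d
    rw [mul_pow, ← pow_mul]
    refine mul_le_mul_of_nonneg_left ?_ (by norm_num)
    nlinarith [sq_nonneg (g1 + g2 - d), mul_nonneg (add_pos c3 c4).le (by linarith : 0 ≤ 2 - (g1 + g2))]
  rw [e1]
  refine (Finset.sum_le_sum a1).trans ?_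
  rw [← Finset.mul_sum, Finset.sum_add_distrib, ← Finset.mul_sum, ← Finset.mul_sum,
    Finset.sum_add_distrib, mul_assoc]
  refine mul_le_mul_of_nonneg_left ?_ (by norm_num)
  have p : 0 < u ^ 300 := by positivity
  have a2 := h1 u (6 * K) (pvR K) hu (by positivity) (by linarith) hR
  have a3 := h2 u K (pvR K) hu hK0 (by linarith) fun k hk => (hR k hk).1.ne_zero
  have a4 := h2 u (2 * K) (pvR K) hu (by positivity) (by linarith) fun k hk => (hR k hk).1.ne_zero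
  have a5 : C2 * u ^ 285 ≤ C2 * u ^ 286 :=
    mul_le_mul_of_nonneg_left (pow_le_pow_right₀ hu (by norm_num)) hC2
  generalize u ^ 286 = A at a2 a5 ⊢
  generalize u ^ 285 = B at a3 a4 a5
  linarith

theorem pv_B : ∃ C : ℝ, 0 ≤ C ∧ ∀ (u K : ℝ) (q n : O) (ϑ : O → ℂ) (s : ℂ), 1 ≤ u → 1 ≤ K →
    K ≤ u ^ 300 → q ≠ 0 → Per q ϑ → (∀ m, ‖ϑ m‖ ≤ 1) → SF n → N q < N n → N q ≤ u ^ 3 →
    N n ≤ 16 * u ^ 300 → |s.re| ≤ 4 →
    ‖∑ k ∈ pvR K, pvB (u ^ 15) K ϑ n s k * pvP K (u ^ 15) k‖ ≤ C * (1 + |s.im|) * u ^ 198 := by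
  obtain ⟨C1, hC1, h1⟩ := pv_win_B
  obtain ⟨C2, hC2, h2⟩ := pv_tail
  refine ⟨C1 * 16 + C2, by positivity, fun u K q n ϑ s hu hK hKu hq hϑ hϑ1 hn hqn hqu hnu hs => ?_⟩
  have hu0 : 0 < u := by linarith
  have hK0 : 0 < K := by linarith
  have hT : 1 ≤ u ^ 15 := one_le_pow₀ hu
  have hT0 : 0 < u ^ 15 := by positivity
  obtain ⟨l1, l2⟩ := pv_log hK0
  have hP : PolyBd (pvB (u ^ 15) K ϑ n s) := ⟨_, 4, fun k hk => pvB_le hT0.le hK hϑ1 hs n hk⟩
  have a1 := norm_plS_le hP hT l1 fun v hv1 hv2 =>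
    h1 (u ^ 15) K (u ^ 15) v q n ϑ s hT0.le hK hT hq hϑ hϑ1 hn hqn hs hv1 (hv2.trans l2)
  have a2 := h2 u K ϑ n s hu hK hKu hϑ1 hs
  have a3 : Real.sqrt (N n) ≤ 16 * u ^ 150 := by
    rw [Real.sqrt_eq_rpow]
    exact pv_rp hu (N_nonneg n) (by norm_num) hnu (by norm_num) (by norm_num) (by norm_num)
  have ht := abs_nonneg s.im
  have a4 : u ^ 15 + |s.im| ≤ u ^ 15 * (1 + |s.im|) := by nlinarith
  have a5 : Real.log (2 * K) - Real.log K ≤ 1 := by linarith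
  have a6 : 0 ≤ Real.log (2 * K) - Real.log K := by linarith
  have a7 := N_nonneg q
  have a8 : u ^ 15 * (Real.log (2 * K) - Real.log K) *
      (C1 * u ^ 15 * N q * Real.sqrt (N n) * (u ^ 15 + |s.im|)) ≤
      C1 * 16 * (1 + |s.im|) * u ^ 198 := by
    calc _ ≤ u ^ 15 * 1 * (C1 * u ^ 15 * u ^ 3 * (16 * u ^ 150) * (u ^ 15 * (1 + |s.im|))) := by
          gcongr
      _ = _ := by ring
  have a9 : C2 ≤ C2 * (1 + |s.im|) * u ^ 198 := by
    rw [mul_assoc]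
    exact le_mul_of_one_le_right hC2
      (one_le_mul_of_one_le_of_one_le (by linarith) (one_le_pow₀ hu))
  have a10 := norm_sub_norm_le (∑ k ∈ pvR K, pvB (u ^ 15) K ϑ n s k * pvP K (u ^ 15) k)
    (plS (pvB (u ^ 15) K ϑ n s) (u ^ 15) (Real.log K) (Real.log (2 * K)))
  rw [norm_sub_rev] at a10
  generalize u ^ 198 = A at a8 a9 ⊢
  linarith

theorem pv_card {S : Finset O} {M : ℝ} (hM : 0 ≤ M) (hS : In S M) : (S.card : ℝ) ≤ 18 * (16 * M) :=
  le_trans (Nat.cast_le.2 (Finset.card_le_card fun n hn =>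
    mem_ball.2 ⟨(hS n hn).1.1.ne_zero, (hS n hn).2.2⟩)) (card_ball_le (by positivity))

theorem pv_main : ∃ C : ℝ, 0 ≤ C ∧ ∀ (u K M : ℝ) (S : Finset O) (q : O) (ϑ : O → ℂ) (s : ℂ),
    1 ≤ u → 1 ≤ K → K ≤ u ^ 300 → 1 ≤ M → M ≤ u ^ 300 → In S M → q ≠ 0 → N q ≤ u ^ 3 → N q < M →
    Per q ϑ → (∀ m, ‖ϑ m‖ ≤ 1) → |s.re| ≤ 4 →
    ∑ n ∈ S, ‖∑ k ∈ sfI K (2 * K), ϑ k * pw K k s * cub k n‖ ^ 2 ≤
      C * (1 + |s.im|) ^ 2 * u ^ 697 := by
  obtain ⟨C1, hC1, h1⟩ := cls_all (1 / 300) (by norm_num)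
  obtain ⟨C2, hC2, h2⟩ := pv_Y
  obtain ⟨C3, hC3, h3⟩ := pv_B
  refine ⟨2 * (C1 * 96 * 198 * C2) + 2 * (18 * 16 * C3 ^ 2), by positivity,
    fun u K M S q ϑ s hu hK hKu hM hMu hS hq hqu hqM hϑ hϑ1 hs => ?_⟩
  have hu0 : 0 < u := by linarith
  have hK0 : 0 < K := by linarith
  have hM0 : 0 < M := by linarith
  have hS' : S ⊆ sfb (16 * M) := fun n hn => mem_sfb.2 ⟨(hS n hn).1, (hS n hn).2.2⟩
  have a1 := ls_dual (ball (6 * K)) S (fun k n => cub n k) (by positivity)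
    (fun x => h1 (6 * K) (16 * M) S x (by linarith) (by linarith) hS') (pvY K (u ^ 15) ϑ s)
  have a2 := h2 u K ϑ s hu hK hKu hϑ1 hs
  have b0 : 6 * K * (16 * M) ≤ 96 * u ^ 600 := by
    calc 6 * K * (16 * M) ≤ 6 * u ^ 300 * (16 * u ^ 300) := by gcongr
      _ = _ := by ring
  have b1 : (6 * K * (16 * M)) ^ (1 / 300 : ℝ) ≤ 96 * u ^ 2 :=
    pv_rp hu (by positivity) (by norm_num) b0 (by norm_num) (by norm_num) (by norm_num)
  have b2 : (6 * K * (16 * M)) ^ (2 / 3 : ℝ) ≤ 96 * u ^ 400 :=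
    pv_rp hu (by positivity) (by norm_num) b0 (by norm_num) (by norm_num) (by norm_num)
  have b3 : (6 * K) ^ (1 / 3 : ℝ) ≤ 6 * u ^ 100 :=
    pv_rp (a := 300) hu (by positivity) (by norm_num) (by linarith) (by norm_num) (by norm_num)
      (by norm_num)
  have b4 : u ^ 300 ≤ u ^ 400 := pow_le_pow_right₀ hu (by norm_num)
  have b5 : (6 * K) ^ (1 / 3 : ℝ) * (16 * M) ≤ 96 * u ^ 400 := by
    calc _ ≤ 6 * u ^ 100 * (16 * u ^ 300) := by gcongr
      _ = _ := by ring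
  have b6 : 6 * K + (6 * K) ^ (1 / 3 : ℝ) * (16 * M) + (6 * K * (16 * M)) ^ (2 / 3 : ℝ) ≤
      198 * u ^ 400 := by linarith
  have ht := abs_nonneg s.im
  have ht1 : 1 ≤ (1 + |s.im|) ^ 2 := one_le_pow₀ (by linarith)
  have a3 : ∑ n ∈ S, ‖∑ k ∈ ball (6 * K), pvY K (u ^ 15) ϑ s k * cub n k‖ ^ 2 ≤
      C1 * 96 * 198 * C2 * (1 + |s.im|) ^ 2 * u ^ 697 := by
    refine a1.trans ?_
    have c1 : u ^ 688 ≤ u ^ 697 := pow_le_pow_right₀ hu (by norm_num)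
    calc _ ≤ C1 * (96 * u ^ 2) * (198 * u ^ 400) * (C2 * u ^ 286) := by gcongr
      _ = C1 * 96 * 198 * C2 * 1 * u ^ 688 := by ring
      _ ≤ _ := by gcongr
  have a4 : ∑ n ∈ S, ‖∑ k ∈ pvR K, pvB (u ^ 15) K ϑ n s k * pvP K (u ^ 15) k‖ ^ 2 ≤
      18 * 16 * C3 ^ 2 * (1 + |s.im|) ^ 2 * u ^ 697 := by
    refine (Finset.sum_le_card_nsmul _ _ ((C3 * (1 + |s.im|) * u ^ 198) ^ 2) fun n hn => ?_).trans ?_
    · obtain ⟨c1, c2, c3⟩ := hS n hn
      exact pow_le_pow_left₀ (norm_nonneg _)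
        (h3 u K q n ϑ s hu hK hKu hq hϑ hϑ1 c1 (hqM.trans_le c2) hqu (by linarith) hs) 2
    · rw [nsmul_eq_mul]
      have c1 := pv_card hM0.le hS
      have c2 : u ^ 696 ≤ u ^ 697 := pow_le_pow_right₀ hu (by norm_num)
      calc _ ≤ 18 * (16 * u ^ 300) * (C3 * (1 + |s.im|) * u ^ 198) ^ 2 := by
            refine mul_le_mul_of_nonneg_right (by linarith) (sq_nonneg _)
        _ = 18 * 16 * C3 ^ 2 * (1 + |s.im|) ^ 2 * u ^ 696 := by ring
        _ ≤ _ := by gcongr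
  refine (Finset.sum_le_sum fun n hn => (le_of_eq (by
    rw [pv_split hK0 (u ^ 15) ϑ s (hS n hn).1.1])).trans (ls0_add_sq _ _)).trans ?_
  rw [Finset.sum_add_distrib, ← Finset.mul_sum, ← Finset.mul_sum]
  generalize u ^ 697 = A at a3 a4 ⊢
  linarith

theorem pv_triv {S : Finset O} (hS : In S 1) {ϑ : O → ℂ} (hϑ : ∀ m, ‖ϑ m‖ ≤ 1) {s : ℂ}
    (hs : |s.re| ≤ 4) :
    ∑ n ∈ S, ‖∑ k ∈ sfI 1 (2 * 1), ϑ k * pw 1 k s * cub k n‖ ^ 2 ≤ 18 * 16 * (36 * 16) ^ 2 := by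
  refine (Finset.sum_le_card_nsmul _ _ ((36 * 16) ^ 2) fun n _ => ?_).trans ?_
  · refine pow_le_pow_left₀ (norm_nonneg _) ((norm_sum_le _ _).trans
      ((Finset.sum_le_card_nsmul _ _ 16 fun k hk => ?_).trans ?_)) 2
    · obtain ⟨c1, c2, c3⟩ := mem_sfI.1 hk
      have c4 : ‖pw 1 k s‖ ≤ 2 ^ 4 :=
        pv_pw one_pos c1.1.ne_zero (by norm_num) (by linarith) c3 hs
      have c5 := cl_cub_le c1.1 n
      have c6 := hϑ k
      rw [norm_mul, norm_mul]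
      calc _ ≤ (1 : ℝ) * 2 ^ 4 * 1 := by gcongr
        _ = _ := by norm_num
    · rw [nsmul_eq_mul]
      have c1 : ((sfI 1 (2 * 1)).card : ℝ) ≤ 18 * (2 * 1) :=
        (Nat.cast_le.2 (Finset.card_filter_le _ _)).trans (card_ball_le (by norm_num))
      linarith
  · rw [nsmul_eq_mul]
    have c1 := pv_card zero_le_one hS
    exact mul_le_mul_of_nonneg_right (by linarith) (by norm_num)

/-- `T = Z^{1/100}`, `E = Z^{1/8}`.  (1) Replace the cutoff by `Pl T (log K) (log 2K)`; on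
`K/2 < N k ≤ 4K` the error is `≤ cls · ∑ (gw + gw)² ≤ Z^{4/3+..} K/T` (`cls` is self-dual by
reciprocity; `an`), outside it is `O(e^{-T²/4})` (`an_tail`-type, `Pl_sub_le`).
(2) `[k squarefree] = ∑_{e² ∣ k} μ(e)`; `N e ≤ E`: `plS_eq`/`winS_dvR` and `pv_win`, total
`E T² Z^{1/2+3κ}(1+|t|)` for each `n`.  (3) `N e > E`: coefficients `≤ dv k` supported on
`≤ C K/E` elements of norm `≤ 4K`; dual (`ls_dual`) of `cls_all`. -/
theorem pvavg : ∃ (κ C : ℝ), 0 < κ ∧ 0 ≤ C ∧ ∀ (Z K M : ℝ) (S : Finset O) (q : O) (ϑ : O → ℂ) (s : ℂ),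
    1 ≤ Z → Z ^ (1 - κ) ≤ K → K ≤ Z ^ (1 + κ) → Z ^ (1 - κ) ≤ M → M ≤ Z ^ (1 + κ) → In S M →
    q ≠ 0 → N q ≤ Z ^ κ → Per q ϑ → (∀ m, ‖ϑ m‖ ≤ 1) → |s.re| ≤ 4 →
    ∑ n ∈ S, ‖∑ k ∈ sfI K (2 * K), ϑ k * pw K k s * cub k n‖ ^ 2 ≤
      C * (1 + |s.im|) ^ 2 * Z ^ (7 / 3 - κ) := by
  obtain ⟨C, hC, h⟩ := pv_main
  refine ⟨1 / 1000, C + 18 * 16 * (36 * 16) ^ 2, by norm_num, by positivity,
    fun Z K M S q ϑ s hZ hK1 hK2 hM1 hM2 hS hq hqZ hϑ hϑ1 hs => ?_⟩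
  have hZ0 : 0 < Z := by linarith
  have ht := abs_nonneg s.im
  have ht1 : 1 ≤ (1 + |s.im|) ^ 2 := one_le_pow₀ (by linarith)
  rcases hZ.eq_or_lt with rfl | hZ1
  · rw [Real.one_rpow] at hK1 hK2 hM1 hM2 ⊢
    obtain rfl : K = 1 := le_antisymm hK2 hK1
    obtain rfl : M = 1 := le_antisymm hM2 hM1
    refine (pv_triv hS hϑ1 hs).trans ?_
    nlinarith
  · have hp : ∀ j : ℕ, (Z ^ (1001 / 300000 : ℝ)) ^ j = Z ^ (1001 / 300000 * j : ℝ) := fun j => by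
      rw [Real.rpow_mul hZ0.le, Real.rpow_natCast]
    have h1 : 1 ≤ Z ^ (1 - 1 / 1000 : ℝ) := Real.one_le_rpow hZ (by norm_num)
    have h300 : Z ^ (1 + 1 / 1000 : ℝ) = (Z ^ (1001 / 300000 : ℝ)) ^ 300 := by
      rw [hp]; norm_num
    have a1 := h (Z ^ (1001 / 300000 : ℝ)) K M S q ϑ s (Real.one_le_rpow hZ (by norm_num))
      (h1.trans hK1) (h300 ▸ hK2) (h1.trans hM1) (h300 ▸ hM2) hS hq
      (hqZ.trans (by rw [hp]; exact Real.rpow_le_rpow_of_exponent_le hZ (by norm_num)))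
      (hqZ.trans_lt ((Real.rpow_lt_rpow_of_exponent_lt hZ1 (by norm_num)).trans_le hM1)) hϑ hϑ1 hs
    refine a1.trans ?_
    rw [hp]
    refine mul_le_mul (mul_le_mul_of_nonneg_right (le_add_of_nonneg_right (by norm_num))
      (by positivity)) (Real.rpow_le_rpow_of_exponent_le hZ (by norm_num)) (by positivity)
      (by positivity)

end Crest.Agent.R12
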