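import Crest.Agent.R12.Core1
import Crest.Agent.R12.PV
import Crest.Agent.R12.Core2Num

/-!
# R12 / Core2 : the third Poisson step
-/

set_option autoImplicit false

noncomputable section

open scoped Classical ComplexConjugate Topology
open MeasureTheory Filter

namespace Crest.Agent.R12

open Crest.Agent.R17

theorem c2_pw_le {X : ℝ} (hX : 0 < X) {j : O} (hj : j ∈ sfI X (2 * X)) {s : ℂ} (hs : |s.re| ≤ 3) :
    ‖pw X j s‖ ≤ 8 := by
  obtain ⟨-, h1, h2⟩ := mem_sfI.1 hj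
  have a1 : 1 ≤ N j / X := (one_le_div hX).2 h1.le
  have a2 : N j / X ≤ 2 := (div_le_iff₀ hX).2 h2
  rw [pw, Complex.norm_cpow_eq_rpow_re_of_pos (by linarith)]
  calc _ ≤ (N j / X) ^ (3 : ℝ) := Real.rpow_le_rpow_of_exponent_le a1 (le_of_abs_le hs)
    _ ≤ 2 ^ (3 : ℝ) := by gcongr
    _ = 8 := by norm_num

theorem c2_sub (X : ℝ) {h : O} (hh : Prim h) : Sdiv (sfI X (2 * X)) h ⊆ sfb (2 * X / N h) := by
  intro n hn
  obtain ⟨b, hb, rfl⟩ := Finset.mem_image.1 hn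
  obtain ⟨hb, m, rfl⟩ := Finset.mem_filter.1 hb
  obtain ⟨h1, -, h3⟩ := mem_sfI.1 hb
  refine mem_sfb.2 ⟨(h1.div hh (dvd_mul_right _ _)).1, ?_⟩
  rw [d1_div_mul hh.ne_zero, le_div_iff₀ (N_pos hh.ne_zero), mul_comm, ← N_mul]
  exact h3

theorem c2_n2_le {X : ℝ} (hX : 0 < X) {h : O} (hh : Prim h) (W : O → ℂ) {u : O → ℂ}
    (hu : ∀ m, ‖u m‖ ≤ 1) {s : ℂ} (hs : |s.re| ≤ 3) :
    n2 (Sdiv (sfI X (2 * X)) h) (fun k => W (h * k) * conj (g3 k) * u k * pw X (h * k) s) ≤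
      64 * ∑ k ∈ (sfI X (2 * X)).filter (fun k => h ∣ k), ‖W k‖ ^ 2 := by
  rw [n2, d1_sum_Sdiv hh.ne_zero, Finset.mul_sum]
  refine Finset.sum_le_sum fun b hb => ?_
  obtain ⟨hb, m, rfl⟩ := Finset.mem_filter.1 hb
  have h1 := ((mem_sfI.1 hb).1.div hh (dvd_mul_right _ _)).1
  rw [d1_div_mul hh.ne_zero] at h1 ⊢
  have a1 := norm_g3_le h1.1
  have a2 := hu m
  have a3 := c2_pw_le hX hb hs
  rw [norm_mul, norm_mul, norm_mul, Complex.norm_conj]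
  calc _ ≤ (‖W (h * m)‖ * 1 * 1 * 8) ^ 2 := by gcongr
    _ = _ := by ring

theorem c2_low {Y : ℝ} {m : O} (hm : m ∈ ball Y) : Low Y m := by
  obtain ⟨h0, h1⟩ := mem_ball.1 hm
  obtain ⟨k1, hk⟩ := exists_dec h0
  refine ⟨k1, hk, (N_le_of_dvd h0 ?_).trans h1⟩
  obtain ⟨u, j, k2, m', -, -, -, -, -, rfl⟩ := hk
  exact ⟨u * lam ^ j * k2 ^ 2 * m' ^ 3, by ring⟩

/-- large `g r` (`cls_all`) and minor frequencies (`mls`) -/
theorem c2_minor {la : ℝ} (hla : 0 < la) : ∃ C : ℝ, 0 ≤ C ∧ ∀ (Z M X G H Y : ℝ) (S : Finset O)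
    (z : O → ℂ), c2H Z la M X → 1 ≤ G → G ≤ H → 0 < Y → S ⊆ sfb (2 * X / H) →
    ∑ m ∈ (ball Y).filter (fun m => H ≤ Z ^ (40 * la) → ¬ Maj (Z ^ (700 * la)) m), ‖cs S z m‖ ^ 2 ≤
      C * (c2a Z la X * (X / (M * G)) *
        ((Y / (X ^ 2 / (M * G ^ 2))) ^ (1 / 3 : ℝ) + (Y / (X ^ 2 / (M * G ^ 2))) ^ 2)) * n2 S z := by
  obtain ⟨C1, hC1, h1⟩ := cls_all (la / 1000) (by positivity)
  obtain ⟨C2, hC2, h2⟩ := mls (la / 1000) (by positivity)
  refine ⟨2 * (C1 + C2), by positivity, fun Z M X G H Y S z h hG hH hY hS => ?_⟩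
  obtain ⟨hZ, hM, hX, -⟩ := h.logs
  have hn := cl_n2 S z
  obtain ⟨R, hR⟩ : ∃ R, R = c2a Z la X * (X / (M * G)) *
    ((Y / (X ^ 2 / (M * G ^ 2))) ^ (1 / 3 : ℝ) + (Y / (X ^ 2 / (M * G ^ 2))) ^ 2) := ⟨_, rfl⟩
  have hR0 : 0 ≤ R := by rw [hR]; unfold c2a; positivity
  rw [← hR]
  rcases lt_or_ge Y 1 with hY1 | hY1
  · rw [ball_eq_empty hY1, Finset.filter_empty, Finset.sum_empty]
    positivity
  rcases lt_or_ge (2 * X / H) 1 with hM1 | hM1
  · have : S = ∅ := Finset.subset_empty.1 ((hS.trans (cl_sub _)).trans (ball_eq_empty hM1).subset)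
    subst this
    simp [cs, n2]
  by_cases hL : H ≤ Z ^ (40 * la)
  · have a1 := c2_n2 h hG hH hY
    refine le_trans (cl_rows (fun m hm => ?_) _) ((h2 Y _ (Z ^ (700 * la)) Y S z hY1 hM1
      (Real.one_le_rpow h.Z1 (by positivity)) hY1 hS).trans ?_)
    · obtain ⟨m1, m2⟩ := Finset.mem_filter.1 hm
      exact Finset.mem_filter.2 ⟨m1, m2 hL, c2_low m1⟩
    · rw [mul_assoc 2, mul_assoc 2, ← hR] at a1
      rw [mul_assoc C2]
      calc _ ≤ C2 * (2 * R) * n2 S z := by gcongr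
        _ ≤ _ := by nlinarith [mul_nonneg (mul_nonneg hC1 hR0) hn]
  · have a1 := c2_n1 h hG hH (not_le.1 hL).le hY
    refine le_trans (cl_rows (Finset.filter_subset _ _) _) ((h1 Y _ S z hY1 hM1 hS).trans ?_)
    rw [mul_assoc 2, mul_assoc 2, ← hR] at a1
    rw [mul_assoc C1]
    calc _ ≤ C1 * (2 * R) * n2 S z := by gcongr
      _ ≤ _ := by nlinarith [mul_nonneg (mul_nonneg hC2 hR0) hn]

theorem c2_F2_nonneg (S : Finset O) (x : O → ℂ) (M Q : ℝ) : 0 ≤ F2 S x M Q :=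
  Finset.sum_nonneg fun _ _ => Finset.sum_nonneg fun _ _ => sq_nonneg _

/-- the dual sums for one pair `g, r` -/
theorem c2_pt : ∃ B : ℕ, ∀ la : ℝ, 0 < la → ∃ C : ℝ, 0 ≤ C ∧ ∀ (Z M X T Y : ℝ) (S : Finset O)
    (y : O → ℂ) (g r : O) (s : ℂ), c2H Z la M X → 1 ≤ T → In S M → SF g → SF r → |s.re| ≤ 3 → 0 < Y →
    ∑ m ∈ ball Y, ‖Xs (sfI X (2 * X)) (fun j => conj (cs S y j)) X g r m s‖ ^ 2 ≤
      (C * (c2a Z la X * (X / (M * N g)) * d1W (sfI X (2 * X)) (cs S y) (g * r)) +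
        C * (if N (g * r) ≤ Z ^ (40 * la) then (X ^ 2 / (M * N g ^ 2)) ^ (1 / 3 : ℝ) else 0) *
          c2G B (la / 1000) (Z ^ (1481 * la)) T M X (F2 S y M ((Z ^ (1481 * la)) ^ 2 * T)) (n2 S y) *
          (1 + |s.im|) ^ B) *
      ((Y / (X ^ 2 / (M * N g ^ 2))) ^ (1 / 3 : ℝ) + (Y / (X ^ 2 / (M * N g ^ 2))) ^ 2) := by
  obtain ⟨B, h2⟩ := maj_va
  refine ⟨B, fun la hla => ?_⟩
  obtain ⟨C1, hC1, h1⟩ := c2_minor hla
  obtain ⟨C2, hC2, h2⟩ := h2 (la / 1000) (by positivity)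
  refine ⟨64 * C1 + C2, by positivity, fun Z M X T Y S y g r s h hT hS hg hr hs hY => ?_⟩
  obtain ⟨hZ, hM, hX, -⟩ := h.logs
  have hG := one_le_N hg.1.ne_zero
  have hgr := hg.1.mul hr.1
  have hH : N g ≤ N (g * r) := N_le_of_dvd hgr.ne_zero (dvd_mul_right _ _)
  obtain ⟨R, hR⟩ : ∃ R, R = (Y / (X ^ 2 / (M * N g ^ 2))) ^ (1 / 3 : ℝ) +
    (Y / (X ^ 2 / (M * N g ^ 2))) ^ 2 := ⟨_, rfl⟩
  have hR0 : 0 ≤ R := by rw [hR]; positivity
  obtain ⟨a, ha⟩ : ∃ a, a = c2a Z la X * (X / (M * N g)) := ⟨_, rfl⟩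
  have ha0 : 0 ≤ a := by rw [ha]; unfold c2a; positivity
  have hA := d1W_nonneg (sfI X (2 * X)) (cs S y) (g * r)
  have hF := c2_F2_nonneg S y M ((Z ^ (1481 * la)) ^ 2 * T)
  have hn := cl_n2 S y
  have hG0 := c2G_nonneg B (la / 1000) (by positivity : 0 ≤ Z ^ (1481 * la)) (by linarith : 0 ≤ T)
    hM.le hX.le hF hn
  have b1 : ∑ m ∈ (ball Y).filter (fun m => N (g * r) ≤ Z ^ (40 * la) → ¬ Maj (Z ^ (700 * la)) m),
      ‖Xs (sfI X (2 * X)) (fun j => conj (cs S y j)) X g r m s‖ ^ 2 ≤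
      64 * C1 * (a * d1W (sfI X (2 * X)) (cs S y) (g * r)) * R := by
    refine le_trans (Finset.sum_le_sum fun m _ => pow_le_pow_left₀ (norm_nonneg _)
      (norm_Xs_le_cs (fun j hj => (mem_sfI.1 hj).1) _ hX.le hg hr m s) 2)
      ((h1 Z M X (N g) (N (g * r)) Y _ _ h hG hH hY (c2_sub X hgr)).trans ?_)
    have a1 := (c2_n2_le hX hgr (cs S y) (norm_phr_le r) (s := conj s) (by simpa using hs)).trans
      (mul_le_mul_of_nonneg_left (d1_n2_le (fun n hn =>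
        (mem_sfI.1 (Finset.mem_filter.1 hn).1).1.1.ne_zero) (cs S y)) (by norm_num))
    rw [← ha, ← hR]
    calc _ ≤ C1 * (a * R) * (64 * d1W (sfI X (2 * X)) (cs S y) (g * r)) :=
          mul_le_mul_of_nonneg_left a1 (by positivity)
      _ = _ := by ring
  rw [← Finset.sum_filter_add_sum_filter_not (ball Y)
    (fun m => N (g * r) ≤ Z ^ (40 * la) → ¬ Maj (Z ^ (700 * la)) m), ← ha, ← hR]
  generalize hGG : c2G B (la / 1000) (Z ^ (1481 * la)) T M X (F2 S y M ((Z ^ (1481 * la)) ^ 2 * T))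
    (n2 S y) = G0 at hG0
  have hu : 0 ≤ (1 + |s.im|) ^ B := by positivity
  by_cases hL : N (g * r) ≤ Z ^ (40 * la)
  · rw [if_pos hL]
    obtain ⟨c1, c2⟩ := c2_n6 h (hG.trans hH) hL
    have b2 := h2 S y M X Y (Z ^ (700 * la)) (Z ^ (740 * la)) T T (Z ^ (1481 * la)) g r s h.M0 hS hg hr
      hY.le (Real.one_le_rpow h.Z1 (by positivity)) (Real.one_le_rpow h.Z1 (by positivity)) hT hT hX c1
      c2 (by linarith)
    have b3 := c2G_le B (la / 1000) (by positivity : 0 ≤ Z ^ (1481 * la)) hT hM.le hX.le hF hn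
      (abs_nonneg s.im)
    have b4 := c2_n3 h hG hH hY
    have b5 := c2_n4 (κ := X ^ 2 / (M * N g ^ 2)) (by positivity) hY
    rw [hGG] at b3
    rw [← ha, ← hR] at b4
    rw [← hR] at b5
    have hκ : 0 ≤ (X ^ 2 / (M * N g ^ 2)) ^ (1 / 3 : ℝ) := by positivity
    generalize (X ^ 2 / (M * N g ^ 2)) ^ (1 / 3 : ℝ) = κ at b5 hκ
    have b6 : ∑ m ∈ (ball Y).filter (fun m => ¬ (N (g * r) ≤ Z ^ (40 * la) → ¬ Maj (Z ^ (700 * la)) m)),
        ‖Xs (sfI X (2 * X)) (fun j => conj (cs S y j)) X g r m s‖ ^ 2 ≤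
        C2 * (κ * R * (G0 * (1 + |s.im|) ^ B) + a * R * d1W (sfI X (2 * X)) (cs S y) (g * r)) := by
      refine le_trans (cl_rows (fun m hm => ?_) _) (b2.trans ?_)
      · obtain ⟨m1, m2⟩ := Finset.mem_filter.1 hm
        exact Finset.mem_filter.2 ⟨m1, by_contra fun hc => m2 fun _ => hc⟩
      · rw [mul_assoc C2, mul_add, ← mul_assoc (Y ^ (1 / 3 : ℝ)) (_ / _)]
        refine mul_le_mul_of_nonneg_left (add_le_add (mul_le_mul b5 b3 (by positivity) (by positivity))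
          (mul_le_mul_of_nonneg_right b4 hA)) hC2
    refine (add_le_add b1 b6).trans ?_
    linarith [mul_nonneg (mul_nonneg (mul_nonneg hC1 hκ) (mul_nonneg hG0 hu)) hR0]
  · rw [if_neg hL, Finset.filter_false_of_mem (s := ball Y)
      (p := fun m => ¬ (N (g * r) ≤ Z ^ (40 * la) → ¬ Maj (Z ^ (700 * la)) m))
      fun m _ hc => hc fun h => absurd h hL, Finset.sum_empty, add_zero]
    refine b1.trans ?_
    linarith [mul_nonneg (mul_nonneg hC2 (mul_nonneg ha0 hA)) hR0]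

theorem c2_int (B : ℕ) : Integrable fun τ : ℝ => mT 1 τ * (1 + |τ|) ^ B := by
  refine ((integrable_mT two_pos).const_mul (2 * (2 ^ B * B.factorial * Real.exp (1 / 2)))).mono' ?_
    (Eventually.of_forall fun τ => ?_)
  · exact Continuous.aestronglyMeasurable (by unfold mT; fun_prop)
  · have h1 := Real.pow_div_factorial_le_exp ((1 + |τ|) / 2) (by positivity) B
    have h2 : (0 : ℝ) < B.factorial := by positivity
    rw [div_pow, div_div, div_le_iff₀ (by positivity)] at h1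
    have h3 : Real.exp (-(|τ| / 1)) * Real.exp ((1 + |τ|) / 2) =
        Real.exp (1 / 2) * Real.exp (-(|τ| / 2)) := by
      rw [← Real.exp_add, ← Real.exp_add]; congr 1; ring
    unfold mT
    rw [Real.norm_of_nonneg (by positivity), inv_one, one_mul]
    calc _ ≤ Real.exp (-(|τ| / 1)) * (Real.exp ((1 + |τ|) / 2) * (2 ^ B * B.factorial)) := by gcongr
      _ = _ := by rw [← mul_assoc, h3]; ring

theorem c2_count (X : ℝ) {L : ℝ} (hL : 0 ≤ L) :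
    ∑ g ∈ sfb X, ∑ r ∈ sfb X, (if N (g * r) ≤ L then (1 : ℝ) else 0) ≤ (18 * L) ^ 2 := by
  have h1 : ∑ g ∈ sfb X, (if g ∈ ball L then (1 : ℝ) else 0) ≤ 18 * L := by
    rw [Finset.sum_boole]
    exact le_trans (Nat.cast_le.2 (Finset.card_le_card fun g hg => (Finset.mem_filter.1 hg).2))
      (card_ball_le hL)
  refine le_trans ?_ (pow_le_pow_left₀ (Finset.sum_nonneg fun _ _ => by positivity) h1 2)
  rw [sq, Finset.sum_mul_sum]
  refine Finset.sum_le_sum fun g hg => Finset.sum_le_sum fun r hr => ?_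
  have hg0 := (mem_sfb.1 hg).1.1.ne_zero
  have hr0 := (mem_sfb.1 hr).1.1.ne_zero
  by_cases h : N (g * r) ≤ L
  · rw [if_pos h, if_pos (mem_ball.2 ⟨hg0, (N_le_of_dvd (mul_ne_zero hg0 hr0)
      (dvd_mul_right _ _)).trans h⟩), if_pos (mem_ball.2 ⟨hr0, (N_le_of_dvd (mul_ne_zero hg0 hr0)
      (dvd_mul_left _ _)).trans h⟩), mul_one]
  · rw [if_neg h]
    positivity

set_option maxHeartbeats 800000 in
/-- duality and the Poisson step -/
theorem c2_step : ∃ B : ℕ, ∀ la : ℝ, 0 < la → ∃ C : ℝ, 0 ≤ C ∧ ∀ (Z M X T : ℝ) (S : Finset O)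
    (y : O → ℂ), c2H Z la M X → 1 ≤ T → In S M →
    (∑ j ∈ sfI X (2 * X), ‖cs S y j‖ ^ 2) ^ 2 ≤ n2 S y *
      (C * (Z ^ (la / 100) * (X * Z ^ (1 / 3 + la / 100) + Z ^ (4 / 3 - 20 * la))) *
        ∑ j ∈ sfI X (2 * X), ‖cs S y j‖ ^ 2 + C * (Z ^ (1 / 3 + 98 * la) *
        c2G B (la / 1000) (Z ^ (1481 * la)) T M X (F2 S y M ((Z ^ (1481 * la)) ^ 2 * T)) (n2 S y))) := by
  obtain ⟨B, h2⟩ := c2_pt
  refine ⟨B, fun la hla => ?_⟩
  obtain ⟨C0, -, hV⟩ := pw_Vo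
  obtain ⟨C1, hC1, hP⟩ := pstep3 C0
  obtain ⟨C2, hC2, h2⟩ := h2 la hla
  obtain ⟨C3, hC3, h3⟩ := dual_one
  obtain ⟨C4, hC4, h4⟩ := va3_dv (ε := la / 1000) (by positivity)
  obtain ⟨I, hI⟩ : ∃ I, I = ∫ τ : ℝ, mT 1 τ * (1 + |τ|) ^ B := ⟨_, rfl⟩
  have hI0 : 0 ≤ I := by
    rw [hI]
    exact integral_nonneg fun τ => mul_nonneg (ps_mT_nonneg one_pos τ) (by positivity)
  refine ⟨C3 * C1 * (2 + 4 * C2 * C4 ^ 3 + 2 * I * C2 * 18 ^ 2), by positivity,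
    fun Z M X T S y h hT hS => ?_⟩
  obtain ⟨hZ, hM, hX, -⟩ := h.logs
  have hn := cl_n2 S y
  have hG0 := c2G_nonneg B (la / 1000) (by positivity : 0 ≤ Z ^ (1481 * la)) (by linarith : 0 ≤ T)
    hM.le hX.le (c2_F2_nonneg S y M ((Z ^ (1481 * la)) ^ 2 * T)) hn
  have h2' := fun Y g r s => h2 Z M X T Y S y g r s h hT hS
  generalize c2G B (la / 1000) (Z ^ (1481 * la)) T M X (F2 S y M ((Z ^ (1481 * la)) ^ 2 * T))
    (n2 S y) = G0 at hG0 h2'
  obtain ⟨Ea, hEa⟩ : ∃ Ea : O → O → ℝ, ∀ g r, Ea g r =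
    C2 * (c2a Z la X * (X / (M * N g)) * d1W (sfI X (2 * X)) (cs S y) (g * r)) := ⟨_, fun _ _ => rfl⟩
  obtain ⟨Eb, hEb⟩ : ∃ Eb : O → O → ℝ, ∀ g r, Eb g r =
    C2 * (if N (g * r) ≤ Z ^ (40 * la) then (X ^ 2 / (M * N g ^ 2)) ^ (1 / 3 : ℝ) else 0) * G0 :=
    ⟨_, fun _ _ => rfl⟩
  have ha0 : 0 ≤ c2a Z la X := by unfold c2a; positivity
  have hE0 : ∀ g r τ, 0 ≤ Ea g r + Eb g r * (1 + |τ|) ^ B := fun g r (τ : ℝ) => by
    have := N_nonneg g
    have := d1W_nonneg (sfI X (2 * X)) (cs S y) (g * r)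
    rw [hEa, hEb]
    positivity
  have hi : ∀ a b : ℝ, Integrable (fun τ : ℝ => mT 1 τ * (a + b * (1 + |τ|) ^ B)) ∧
      ∫ τ : ℝ, mT 1 τ * (a + b * (1 + |τ|) ^ B) = 2 * a + b * I := fun a b => by
    have e : (fun τ : ℝ => mT 1 τ * (a + b * (1 + |τ|) ^ B)) =
        fun τ => a * mT 1 τ + b * (mT 1 τ * (1 + |τ|) ^ B) := funext fun τ => by ring
    rw [e, integral_add ((integrable_mT one_pos).const_mul a) ((c2_int B).const_mul b),
      integral_const_mul, integral_const_mul, integral_mT one_pos, ← hI, mul_comm a]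
    exact ⟨((integrable_mT one_pos).const_mul a).add ((c2_int B).const_mul b), rfl⟩
  have h5 := hP (Vo M) M 1 X (hV M h.M0) le_rfl (by simpa using h.M0) hX (sfI X (2 * X))
    (fun j => conj (cs S y j)) (in_sfI (by linarith))
    (fun g r τ => Ea g r + Eb g r * (1 + |τ|) ^ B) (fun g r τ => Ea g r + Eb g r * (1 + |τ|) ^ B)
    (fun g r τ => ⟨hE0 g r τ, hE0 g r τ⟩) (fun g r => ⟨(hi _ _).1, (hi _ _).1⟩)
    fun g hg r hr σ hσ τ Y hY => by
      have a1 := h2' Y g r (σ - 1 / 2 + τ * Complex.I) (mem_sfb.1 hg).1 (mem_sfb.1 hr).1 (by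
        simp only [Finset.mem_insert, Finset.mem_singleton] at hσ
        rcases hσ with rfl | rfl | rfl <;> norm_num [abs_le]) hY
      rw [← hEa, ← hEb, show ((σ : ℂ) - 1 / 2 + τ * Complex.I).im = τ by simp] at a1
      rwa [← mul_add]
  obtain ⟨b, hb⟩ : ∃ b, b = ∑ j ∈ sfI X (2 * X), ‖cs S y j‖ ^ 2 := ⟨_, rfl⟩
  have hb0 : 0 ≤ b := by rw [hb]; exact Finset.sum_nonneg fun _ _ => sq_nonneg _
  have e1 : n2 (sfI X (2 * X)) (fun j => conj (cs S y j)) = b := by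
    rw [hb, n2]; simp only [Complex.norm_conj]
  have a1 : ∑ g ∈ sfb (16 * X), ∑ r ∈ sfb (16 * X), d1W (sfI X (2 * X)) (cs S y) (g * r) ≤
      (C4 * (2 * X) ^ (la / 1000)) ^ 3 * b := by
    refine (sum_pairs_le (fun j hj => (mem_sfI.1 hj).1) _ _).trans ?_
    rw [hb, nt, Finset.mul_sum]
    refine Finset.sum_le_sum fun j hj => ?_
    have := h4 j _ (mem_sfI.1 hj).1.1.ne_zero (mem_sfI.1 hj).2.2
    have := bb_dv_nonneg j
    rw [mul_comm]
    gcongr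
  have hL : 0 < Z ^ (40 * la) := by positivity
  have a2 := c2_count (16 * X) hL.le
  have a3 : M / X * ∑ g ∈ sfb (16 * X), ∑ r ∈ sfb (16 * X), N g * ∫ τ : ℝ, mT 1 τ *
      (Ea g r + Eb g r * (1 + |τ|) ^ B + 1 ^ 3 * (Ea g r + Eb g r * (1 + |τ|) ^ B)) ≤
      4 * C2 * c2a Z la X * ((C4 * (2 * X) ^ (la / 1000)) ^ 3 * b) +
      2 * I * C2 * G0 * (Z ^ (1 / 3 + 98 * la) / (Z ^ (40 * la)) ^ 2) * (18 * Z ^ (40 * la)) ^ 2 := by
    refine le_trans ?_ (add_le_add (mul_le_mul_of_nonneg_left a1 (by positivity))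
      (mul_le_mul_of_nonneg_left a2 (by positivity)))
    simp only [Finset.mul_sum, ← Finset.sum_add_distrib]
    refine Finset.sum_le_sum fun g hg => Finset.sum_le_sum fun r hr => ?_
    have g1 := one_le_N (mem_sfb.1 hg).1.1.ne_zero
    have e : (fun τ : ℝ => mT 1 τ *
        (Ea g r + Eb g r * (1 + |τ|) ^ B + 1 ^ 3 * (Ea g r + Eb g r * (1 + |τ|) ^ B))) =
        fun τ => mT 1 τ * (2 * Ea g r + 2 * Eb g r * (1 + |τ|) ^ B) := funext fun τ => by ring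
    rw [e, (hi _ _).2, hEa, hEb]
    have e2 : M / X * N g * (X / (M * N g)) = 1 := by field_simp
    split_ifs with hc
    · have a4 := (le_div_iff₀ (by positivity)).2 (c2_n5 h g1 ((N_le_of_dvd
        ((mem_sfb.1 hg).1.1.mul (mem_sfb.1 hr).1.1).ne_zero (dvd_mul_right _ _)).trans hc))
      calc _ = 4 * C2 * c2a Z la X * d1W (sfI X (2 * X)) (cs S y) (g * r) *
          (M / X * N g * (X / (M * N g))) +
          2 * I * C2 * G0 * (M / X * N g * (X ^ 2 / (M * N g ^ 2)) ^ (1 / 3 : ℝ)) := by ring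
        _ ≤ _ := by rw [e2, mul_one, mul_one]; gcongr
    · refine le_of_eq ?_
      calc _ = 4 * C2 * c2a Z la X * d1W (sfI X (2 * X)) (cs S y) (g * r) *
          (M / X * N g * (X / (M * N g))) := by ring
        _ = _ := by rw [e2]; ring
  obtain ⟨c1, c2⟩ := c2_n10 h
  have c3 : √M ≤ M := Real.sqrt_le_iff.2 ⟨hM.le, by nlinarith [h.M0]⟩
  obtain ⟨u, hu⟩ : ∃ u, u = X * Z ^ (1 / 3 + la / 100) + Z ^ (4 / 3 - 20 * la) := ⟨_, rfl⟩
  have hu0 : 0 ≤ u := by rw [hu]; positivity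
  have c4 : M ≤ Z ^ (la / 100) * u := by
    have := Real.one_le_rpow h.Z1 (by positivity : 0 ≤ la / 100)
    have : M ≤ u := by rw [hu]; exact c1.trans (le_add_of_nonneg_left (by positivity))
    nlinarith
  have c5 : c2a Z la X * ((2 * X) ^ (la / 1000)) ^ 3 ≤ Z ^ (la / 100) * u := by
    rw [c2a, ← hu, mul_right_comm, mul_comm (Z ^ (la / 300))]
    gcongr
  rw [e1, mul_assoc C1 (M / X), div_one] at h5
  have h6 := h3 M S (sfI X (2 * X)) y hM hS fun k hk => (mem_sfI.1 hk).1.1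
  rw [← hb] at h6
  rw [← hb, ← hu]
  generalize Z ^ (la / 100) * u = v at c4 c5
  have hv : 0 ≤ v := hM.le.trans c4
  have hw : 0 ≤ Z ^ (1 / 3 + 98 * la) * G0 := by positivity
  calc _ ≤ _ := h6
    _ ≤ C3 * n2 S y * (C1 * (v + v) * b + C1 * (4 * C2 * C4 ^ 3 * v * b +
        2 * I * C2 * 18 ^ 2 * (Z ^ (1 / 3 + 98 * la) * G0))) := by
      refine mul_le_mul_of_nonneg_left (h5.trans (add_le_add (by gcongr; exact c3.trans c4)
        (mul_le_mul_of_nonneg_left (a3.trans (add_le_add ?_ (le_of_eq ?_))) hC1))) (by positivity)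
      · calc _ = 4 * C2 * C4 ^ 3 * (c2a Z la X * ((2 * X) ^ (la / 1000)) ^ 3) * b := by ring
          _ ≤ _ := by gcongr
      · field_simp
    _ = n2 S y * (C3 * C1 * (2 + 4 * C2 * C4 ^ 3 + 0) * v * b +
        C3 * C1 * (0 + 2 * I * C2 * 18 ^ 2) * (Z ^ (1 / 3 + 98 * la) * G0)) := by ring
    _ ≤ _ := by gcongr <;> positivity

/-- the periodic function of `pvavg` -/
def c2th (h q a : O) (ϑ : O → ℂ) (k : O) : ℂ :=
  if h ∣ k ∧ q ∣ k / h - a then ϑ (k / h) * conj (phr lam (k / h)) else 0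

theorem c2th_per {h q0 : O} (hh : h ≠ 0) (q a : O) {ϑ : O → ℂ} (hϑ : Per q0 ϑ) :
    Per (9 * h * q * q0) (c2th h q a ϑ) := fun k t => by
  unfold c2th
  by_cases hk : h ∣ k
  · obtain ⟨m, rfl⟩ := hk
    have e : h * m + 9 * h * q * q0 * t = h * (m + 9 * q * q0 * t) := by ring
    have e1 : ϑ (m + 9 * q * q0 * t) = ϑ m := by
      rw [← hϑ m (9 * q * t)]; congr 1; ring
    have e2 : phr lam (m + 9 * q * q0 * t) = phr lam m := by
      rw [← phr_lam_per m (q * q0 * t)]; congr 1; ring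
    have e3 : q ∣ m + 9 * q * q0 * t - a ↔ q ∣ m - a := by
      rw [show m + 9 * q * q0 * t - a = m - a + q * (9 * q0 * t) by ring]
      exact dvd_add_left (dvd_mul_right _ _)
    simp only [e, d1_div_mul hh, e1, e2, e3, dvd_mul_right]
  · have hd : h ∣ 9 * h * q * q0 * t := ⟨9 * q * q0 * t, by ring⟩
    rw [if_neg fun hc => hk ((dvd_add_left hd).1 hc.1), if_neg fun hc => hk hc.1]

theorem c2th_le (h q a : O) {ϑ : O → ℂ} (h1 : ∀ m, ‖ϑ m‖ ≤ 1) (k : O) : ‖c2th h q a ϑ k‖ ≤ 1 := by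
  unfold c2th
  split_ifs
  · rw [norm_mul, Complex.norm_conj]
    exact mul_le_one₀ (h1 _) (norm_nonneg _) (norm_phr_le _ _)
  · simp

theorem c2_fam2 {K : ℝ} (hK : 0 < K) {S : Finset O} (hS : ∀ n ∈ S, Prim n) (x : O → ℂ) {h : O}
    (hh : Prim h) (q a : O) (ϑ : O → ℂ) (s : ℂ) :
    fam2 (Sdiv (sfI K (2 * K)) h) (fun k => cs S x (h * k) * conj (g3 k) * ϑ k * pw K (h * k) s)
      (K / N h) q a (-1 / 6) =
      ∑ n ∈ S, x n * ∑ k ∈ sfI K (2 * K), c2th h q a ϑ k * pw K k (s + -1 / 6) * cub k n := by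
  simp only [Finset.mul_sum]
  rw [Finset.sum_comm, fam2, Finset.sum_filter, d1_sum_Sdiv hh.ne_zero, Finset.sum_filter]
  refine Finset.sum_congr rfl fun k hk => ?_
  unfold c2th
  by_cases hc : h ∣ k ∧ q ∣ k / h - a
  · obtain ⟨⟨m, rfl⟩, hc2⟩ := id hc
    have h1 := (mem_sfI.1 hk).1
    have h2 := (h1.div hh (dvd_mul_right _ _)).1
    rw [if_pos hc.1, if_pos hc2, if_pos hc]
    rw [d1_div_mul hh.ne_zero] at h2 ⊢
    have e1 : conj (g3 m) * g3 m = 1 := by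
      rw [Complex.conj_mul', norm_g3 h2.1.isCoprime_three h2.2]; simp
    have hN := N_pos hh.ne_zero
    have e2 : pw K (h * m) (s + -1 / 6) = pw K (h * m) s * pw (K / N h) m (-1 / 6) := by
      have : N m / (K / N h) = N (h * m) / K := by rw [N_mul]; field_simp
      unfold pw
      rw [this, Complex.cpow_add _ _ (Complex.ofReal_ne_zero.2 (div_pos (N_pos h1.1.ne_zero) hK).ne')]
    rw [e2, GG, phr, if_pos h2.1, cs]
    simp only [Finset.sum_mul]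
    refine Finset.sum_congr rfl fun n hn => ?_
    rw [cub_rec h1.1 (hS n hn)]
    linear_combination (x n * cub n (h * m) * ϑ m * pw K (h * m) s * conj (cub m lam) *
      pw (K / N h) m (-1 / 6)) * e1
  · rw [if_neg hc]
    simp only [zero_mul, mul_zero, Finset.sum_const_zero]
    split_ifs with c1 c2
    · exact absurd ⟨c1, c2⟩ hc
    · rfl
    · rfl

/-- the correlation with `conj GG` by Pólya–Vinogradov on average -/
theorem c2_F2 : ∃ (κ C : ℝ), 0 < κ ∧ 0 ≤ C ∧ ∀ (Z K M R : ℝ) (S : Finset O) (x : O → ℂ) (h q0 : O)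
    (ϑ : O → ℂ) (s : ℂ), 1 ≤ Z → Z ^ (1 - κ) ≤ K → K ≤ Z ^ (1 + κ) → Z ^ (1 - κ) ≤ M →
    M ≤ Z ^ (1 + κ) → In S M → Prim h → q0 ≠ 0 → Per q0 ϑ → (∀ m, ‖ϑ m‖ ≤ 1) → 0 ≤ R →
    81 * N h * R * N q0 ≤ Z ^ κ → |s.re| ≤ 3 →
    F2 (Sdiv (sfI K (2 * K)) h) (fun k => cs S x (h * k) * conj (g3 k) * ϑ k * pw K (h * k) s)
      (K / N h) R ≤ C * (1 + |s.im|) ^ 2 * (R ^ 2 * Z ^ (7 / 3 - κ)) * n2 S x := by
  obtain ⟨κ, C, hκ, hC, hp⟩ := pvavg
  refine ⟨κ, 18 * C, hκ, by positivity,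
    fun Z K M R S x h q0 ϑ s hZ hK1 hK2 hM1 hM2 hS hh hq0 hϑ h1 hR hN hs => ?_⟩
  have hZ0 : 0 < Z := by linarith
  have hK : 0 < K := lt_of_lt_of_le (by positivity) hK1
  have hn := cl_n2 S x
  have h9 : N 9 = 81 := by
    rw [N, show nm 9 = 81 by decide]
    norm_num
  obtain ⟨D, hD⟩ : ∃ D, D = n2 S x * (C * (1 + |s.im|) ^ 2 * Z ^ (7 / 3 - κ)) := ⟨_, rfl⟩
  have hD0 : 0 ≤ D := by rw [hD]; positivity
  calc _ ≤ ∑ q ∈ ball R, R * D := by
        refine Finset.sum_le_sum fun q hq => ?_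
        obtain ⟨q1, q2⟩ := mem_ball.1 hq
        refine (Finset.sum_le_card_nsmul _ _ D fun a _ => ?_).trans ?_
        · have a1 := hp Z K M S (9 * h * q * q0) (c2th h q a ϑ) (s + -1 / 6) hZ hK1 hK2 hM1 hM2 hS
            (mul_ne_zero (mul_ne_zero (mul_ne_zero (by decide) hh.ne_zero) q1) hq0) (by
              refine le_trans ?_ hN
              have := N_nonneg h
              have := N_nonneg q0
              rw [N_mul, N_mul, N_mul, h9]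
              gcongr) (c2th_per hh.ne_zero q a hϑ) (c2th_le h q a h1) (by
              rw [abs_le] at hs ⊢
              simp only [Complex.add_re, Complex.div_ofNat_re, Complex.neg_re, Complex.one_re]
              constructor <;> linarith [hs.1, hs.2])
          rw [show (s + -1 / 6).im = s.im by simp] at a1
          rw [c2_fam2 hK (fun n hn => (hS n hn).1.1) x hh, hD]
          refine le_trans ?_ (mul_le_mul_of_nonneg_left a1 hn)
          refine le_trans (pow_le_pow_left₀ (norm_nonneg _) (norm_sum_le _ _) 2) ?_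
          simp only [norm_mul]
          exact Finset.sum_mul_sq_le_sq_mul_sq _ _ _
        · rw [card_res q1, nsmul_eq_mul]
          exact mul_le_mul_of_nonneg_right q2 hD0
    _ ≤ 18 * R * (R * D) := by
        rw [Finset.sum_const, nsmul_eq_mul]
        exact mul_le_mul_of_nonneg_right (card_ball_le hR) (by positivity)
    _ = _ := by rw [hD]; ring

/-- `L = Z^λ`, `K' = K/N h`, `S' = Sdiv (sfI K 2K) h` (`in_Sdiv`), `y` the displayed sequence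
(`n2 S' y ≤ C ∑_{h ∣ k} |X_k|²`), `W_j = cs S' y j`, `𝓑 = ∑ |W_j|²`.  For bounded `Z` use the trivial
bound.  `dual_one` (`M := K'`), `pstep3` with `pw_Vo` (`D = K'`, `B = X₁`, `T = 1`), diagonal `K' 𝓑`.
For `g, r`, `h₂ = g r`, `Y = ρ X₁²/(K' N g²)`, `M₂ = 2X₁/N h₂`, `Q = L^{700}`:
* `N h₂ > L^{40}`: `norm_Xs_le_cs` and `cls_all`;
* `N h₂ ≤ L^{40}`, `¬ Maj Q`: `mls` with `X = Y` (every `m ∈ ball Y` is `Low Y`, `exists_dec`);
  `(K'/X₁)(X₁²/K' · X₁)^{2/3} = K'^{1/3} X₁` is the main term;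
* `N h₂ ≤ L^{40}`, `Maj Q`: `maj_va` with `D₀ = L^{740}`, `P = 81 L^{1480}`, `T = Δ = P^{B₀} L^{200}`.
  `fam2 S' y K' q a (-1/6) = ∑_n x n ∑_{k ∈ sfI K 2K} ϑ'(k) pw K k (s - 1/6) cub k n` with
  `ϑ'(k) = [h ∣ k][q ∣ k/h - a] ϑ(k/h) conj (phr λ (k/h))` periodic mod `9 h q q₀`: `pvavg`.
Powers `ρ^a`, `1/3 ≤ a ≤ 2`, are `≤ ρ^{1/3} + ρ²`; `∫ mT 1 τ (1+|τ|)^j dτ < ∞`; `sum_pairs_le` and
`dv ≤ C Z^ε`.  Finally `𝓑² ≤ n2y (a 𝓑 + b n2y + c n2x)` gives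
`𝓑 ≤ (a + √b + Z^{4/3-20λ}) n2y + c Z^{20λ-4/3} n2x`, `c = (1+|t|)² Z^{4 - κ + O(λ)}`. -/
theorem step3 : ∃ lam0 : ℝ, 0 < lam0 ∧ ∀ la : ℝ, 0 < la → la ≤ lam0 → ∃ C : ℝ, 0 ≤ C ∧
    ∀ (Z K M X1 : ℝ) (S : Finset O) (x : O → ℂ) (h q0 : O) (ϑ : O → ℂ) (s : ℂ), 1 ≤ Z →
    Z ^ (1 - la / 100) ≤ K → K ≤ Z ^ (1 + la / 100) → Z ^ (1 - la / 100) ≤ M →
    M ≤ Z ^ (1 + la / 100) → In S M → SF h → N h ≤ Z ^ (3 * la) → q0 ≠ 0 → N q0 ≤ Z ^ (20 * la) →
    Per q0 ϑ → (∀ m, ‖ϑ m‖ ≤ 1) → Z ^ (1 - 10 * la) ≤ X1 → X1 ≤ Z ^ (1 - la / 2) → |s.re| ≤ 3 →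
    ∑ j ∈ sfI X1 (2 * X1), ‖cs (Sdiv (sfI K (2 * K)) h)
        (fun k => cs S x (h * k) * conj (g3 k) * ϑ k * pw K (h * k) s) j‖ ^ 2 ≤
      C * Z ^ (la / 100) * (X1 * Z ^ (1 / 3 + la / 100) + Z ^ (4 / 3 - 20 * la)) *
        ∑ k ∈ (sfI K (2 * K)).filter (fun k => h ∣ k), ‖cs S x k‖ ^ 2 +
      C * (1 + |s.im|) ^ 2 * Z ^ (8 / 3 - 50 * la) * n2 S x := by
  obtain ⟨B, h1⟩ := c2_step
  obtain ⟨κ, C2, hκ, hC2, h2⟩ := c2_F2
  obtain ⟨C3, hC3, h3⟩ := ls1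
  refine ⟨min (1 / 2000) (min (κ / (5 * (1481 * B + 200) + 6000)) (2 / 15 / ((1481 * B + 200) * (B + 1)))),
    by positivity, fun la hla hl => ?_⟩
  obtain ⟨C1, hC1, h1⟩ := h1 la hla
  rw [le_min_iff, le_min_iff, le_div_iff₀' (by positivity), le_div_iff₀' (by positivity),
    le_div_iff₀' (by positivity)] at hl
  obtain ⟨l1, l2, l3⟩ := hl
  have l4 : la ≤ κ := le_trans (le_mul_of_one_le_left hla.le (by
    have : (0 : ℝ) ≤ B := B.cast_nonneg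
    linarith)) l2
  obtain ⟨Z0, hZ0⟩ : ∃ Z0 : ℝ, Z0 = 81 ^ (1000 / la) := ⟨_, rfl⟩
  have hZ01 : 1 ≤ Z0 := by rw [hZ0]; exact Real.one_le_rpow (by norm_num) (by positivity)
  refine ⟨64 * (9 * C1 + 1) + C1 * C2 + 64 * C3 * (2 * Z0 + (2 * Z0 ^ 2) ^ 2), by positivity,
    fun Z K M X S x h q0 ϑ s hZ hK1 hK2 hM1 hM2 hS hh hh' hq0 hq0' hϑ hϑ1 hX1 hX2 hs => ?_⟩
  have hZ' : 0 < Z := by linarith
  have hK : 0 < K := lt_of_lt_of_le (by positivity) hK1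
  have hX : 0 < X := lt_of_lt_of_le (by positivity) hX1
  have hN := one_le_N hh.1.ne_zero
  have hy := c2_n2_le hK hh.1 (cs S x) hϑ1 hs
  have hF := fun R => h2 Z K M R S x h q0 ϑ s hZ
    ((Real.rpow_le_rpow_of_exponent_le hZ (by linarith)).trans hK1)
    (hK2.trans (Real.rpow_le_rpow_of_exponent_le hZ (by linarith)))
    ((Real.rpow_le_rpow_of_exponent_le hZ (by linarith)).trans hM1)
    (hM2.trans (Real.rpow_le_rpow_of_exponent_le hZ (by linarith))) hS hh.1 hq0 hϑ hϑ1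
  have hS' := in_Sdiv (in_sfI (B := K) (B' := 2 * K) (by linarith)) hh
  have hS'' := c2_sub K hh.1
  generalize Sdiv (sfI K (2 * K)) h = S' at hy hF hS' hS''
  generalize (fun k => cs S x (h * k) * conj (g3 k) * ϑ k * pw K (h * k) s) = y at hy hF
  have hA : 0 ≤ ∑ k ∈ (sfI K (2 * K)).filter (fun k => h ∣ k), ‖cs S x k‖ ^ 2 :=
    Finset.sum_nonneg fun _ _ => sq_nonneg _
  generalize ∑ k ∈ (sfI K (2 * K)).filter (fun k => h ∣ k), ‖cs S x k‖ ^ 2 = A at hy hA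
  have hnx := cl_n2 S x
  have hny := cl_n2 S' y
  have hU := Real.one_le_rpow hZ (show 0 ≤ 4 / 3 - 20 * la by linarith)
  have hv : Z ^ (4 / 3 - 20 * la) ≤
      Z ^ (la / 100) * (X * Z ^ (1 / 3 + la / 100) + Z ^ (4 / 3 - 20 * la)) :=
    (le_add_of_nonneg_left (by positivity)).trans (le_mul_of_one_le_left (by positivity)
      (Real.one_le_rpow hZ (by positivity)))
  rw [mul_assoc _ (Z ^ (la / 100)), mul_assoc _ ((1 + |s.im|) ^ 2)]
  have hw : 0 ≤ (1 + |s.im|) ^ 2 * Z ^ (8 / 3 - 50 * la) := by positivity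
  rcases le_total 81 (Z ^ (la / 1000)) with hb | hb
  · have H : c2H Z la (K / N h) X := by
      refine ⟨hla, by linarith, hZ, hb, ?_, (div_le_self hK.le hN).trans hK2, hX1, hX2⟩
      rw [le_div_iff₀ (by linarith)]
      calc _ ≤ Z ^ (1 - 4 * la) * Z ^ (3 * la) := by gcongr
        _ ≤ Z ^ (1 - la / 100) := by
          rw [← Real.rpow_add hZ']
          exact Real.rpow_le_rpow_of_exponent_le hZ (by linarith)
        _ ≤ _ := hK1
    have a1 := h1 Z (K / N h) X (Z ^ ((1481 * B + 200) * la)) S' y H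
      (Real.one_le_rpow hZ (by positivity)) hS'
    have a2 := hF ((Z ^ (1481 * la)) ^ 2 * Z ^ ((1481 * B + 200) * la)) (by positivity)
      (c2_n9 H B l2 (by linarith) hh' (N_pos hq0) hq0') hs
    have a3 := c2_n7 H B l3 (c2_F2_nonneg S' y (K / N h)
      ((Z ^ (1481 * la)) ^ 2 * Z ^ ((1481 * B + 200) * la))) hny
    have a4 := c2_n8 H B l2
    generalize Z ^ (la / 100) * (X * Z ^ (1 / 3 + la / 100) + Z ^ (4 / 3 - 20 * la)) = v at a1 hv
    have hv0 : 0 ≤ v := by linarith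
    have a5 := c2_alg (b := ∑ j ∈ sfI X (2 * X), ‖cs S' y j‖ ^ 2) (a := C1 * v) (β := 8 * C1)
      (U := Z ^ (4 / 3 - 20 * la)) (c := C1 * C2 * (1 + |s.im|) ^ 2 *
        (Z ^ (5 / 3 + (3 * (1481 * B + 200) - 100) * la) *
        ((Z ^ (1481 * la)) ^ 2 * Z ^ ((1481 * B + 200) * la)) ^ 2 * Z ^ (7 / 3 - κ)))
      hny (by positivity) (by positivity) (by positivity) (by positivity) hnx (a1.trans (by
        rw [add_assoc]
        refine mul_le_mul_of_nonneg_left (add_le_add le_rfl ((mul_le_mul_of_nonneg_left (a3.trans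
          (add_le_add (mul_le_mul_of_nonneg_left a2 (by positivity)) le_rfl)) hC1).trans
          (le_of_eq (by ring)))) hny))
    rw [mul_div_assoc] at a5
    calc _ ≤ _ := a5
      _ ≤ (C1 * v + (8 * C1 + 1) * v) * (64 * A) +
          C1 * C2 * (1 + |s.im|) ^ 2 * Z ^ (8 / 3 - 50 * la) * n2 S x := by gcongr
      _ = (64 * (9 * C1 + 1) + 0 + 0) * v * A +
          (0 + C1 * C2 + 0) * ((1 + |s.im|) ^ 2 * Z ^ (8 / 3 - 50 * la)) * n2 S x := by ring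
      _ ≤ _ := by gcongr <;> positivity
  · have a1 : Z ≤ Z0 := by
      have := Real.rpow_le_rpow (by positivity) hb (show 0 ≤ 1000 / la by positivity)
      rwa [← Real.rpow_mul hZ'.le, show la / 1000 * (1000 / la) = 1 by field_simp, Real.rpow_one,
        ← hZ0] at this
    have a2 : X ≤ Z0 := hX2.trans (((Real.rpow_le_rpow_of_exponent_le hZ (by linarith)).trans_eq
      (Real.rpow_one Z)).trans a1)
    have a3 : K ≤ Z0 ^ 2 := hK2.trans (((Real.rpow_le_rpow_of_exponent_le hZ (by linarith)).trans_eq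
      (Real.rpow_two Z)).trans (by gcongr))
    have a4 := h3 (2 * Z0 ^ 2) (2 * X) S' y (by nlinarith) (by positivity) fun n hn =>
      mem_sfb.2 ⟨(mem_sfb.1 (hS'' hn)).1, (mem_sfb.1 (hS'' hn)).2.trans
        ((div_le_self (by positivity) hN).trans (by linarith))⟩
    generalize Z ^ (la / 100) * (X * Z ^ (1 / 3 + la / 100) + Z ^ (4 / 3 - 20 * la)) = v at hv
    have hv1 : 1 ≤ v := by linarith
    calc _ ≤ _ := cl_rows (Finset.filter_subset _ _) _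
      _ ≤ _ := a4
      _ ≤ C3 * (2 * Z0 + (2 * Z0 ^ 2) ^ 2) * (64 * A) := by gcongr
      _ = (0 + 0 + 64 * C3 * (2 * Z0 + (2 * Z0 ^ 2) ^ 2)) * 1 * A + 0 := by ring
      _ ≤ _ := by gcongr <;> positivity

end Crest.Agent.R12
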