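import Crest.Agent.R12.Core3AuxB

/-!
# R12 / Core3 : **the cubic large sieve at the self-dual point, for sequences not correlating with `conj GG`**
-/

set_option autoImplicit false

noncomputable section

open scoped Classical ComplexConjugate Topology
open MeasureTheory Filter

namespace Crest.Agent.R12

open Crest.Agent.R17

theorem c3_primes {la : ℝ} (hla : 0 < la) : ∃ z0 : ℝ, ∀ z u, z0 ≤ z → u = la * z →
    Real.log 16 ≤ u / 100 ∧ ∃ P : Finset O, (∀ p ∈ P, Prime p ∧ Prim p ∧ N p ≤ Real.exp u) ∧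
      Real.exp (9 / 10 * u) ≤ P.card ∧ 2 + 8 * z ≤ P.card := by
  obtain ⟨c, L0, hc, h⟩ := many_primes
  refine ⟨(100 * Real.log 16 + |L0| + 200 / c + 20 / la + 2) / la, fun z u hz hu => ?_⟩
  rw [div_le_iff₀' hla, ← hu] at hz
  have h1 : 0 ≤ Real.log 16 := Real.log_nonneg (by norm_num)
  have h2 := abs_nonneg L0
  have h3 : 0 < 200 / c := by positivity
  have h4 : 0 < 20 / la := by positivity
  obtain ⟨P, hP, hP'⟩ := h (Real.exp u) (by linarith [le_abs_self L0, Real.add_one_le_exp u])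
  have h5 : 200 ≤ c * u := (div_le_iff₀' hc).1 (by linarith)
  have h6 : 20 ≤ la * u := (div_le_iff₀' hla).1 (by linarith)
  have h7 : Real.exp (9 / 10 * u) ≤ P.card := by
    refine le_trans ?_ hP'
    have := Real.quadratic_le_exp_of_nonneg (show 0 ≤ u / 10 by linarith)
    rw [Real.log_exp, le_div_iff₀ (by linarith), show Real.exp u = Real.exp (u / 10) *
      Real.exp (9 / 10 * u) by rw [← Real.exp_add]; congr 1; ring, ← mul_assoc, mul_comm]
    refine mul_le_mul_of_nonneg_right ?_ (Real.exp_pos _).le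
    calc u ≤ c * u * (u / 200) := by nlinarith
      _ = c * ((u / 10) ^ 2 / 2) := by ring
      _ ≤ _ := mul_le_mul_of_nonneg_left (by linarith) hc.le
  refine ⟨by linarith, P, hP, h7, le_trans ?_ h7⟩
  have h8 := Real.quadratic_le_exp_of_nonneg (show 0 ≤ 9 / 10 * u by linarith)
  have h9 : 20 * z ≤ u ^ 2 := by
    refine le_of_mul_le_mul_left ?_ hla
    calc la * (20 * z) = 20 * u := by rw [hu]; ring
      _ ≤ la * u * u := mul_le_mul_of_nonneg_right h6 (by linarith)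
      _ = _ := by ring
  nlinarith

theorem c3_int (B : ℕ) : Integrable fun τ => mT 1 τ * (1 + |τ|) ^ B := by
  refine ((integrable_mT two_pos).const_mul (2 * (2 ^ B * B.factorial * Real.exp (1 / 2)))).mono'
    (Continuous.aestronglyMeasurable (by unfold mT; fun_prop)) (ae_of_all _ fun τ => ?_)
  have h := Real.pow_div_factorial_le_exp _ (show 0 ≤ (1 + |τ|) / 2 by positivity) B
  rw [div_le_iff₀ (by positivity), div_pow, div_le_iff₀ (by positivity)] at h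
  rw [Real.norm_of_nonneg (mul_nonneg (ps_mT_nonneg one_pos τ) (by positivity))]
  refine (mul_le_mul_of_nonneg_left h (ps_mT_nonneg one_pos τ)).trans (le_of_eq ?_)
  have e : Real.exp (-(|τ| / 1)) * Real.exp ((1 + |τ|) / 2) =
      Real.exp (1 / 2) * Real.exp (-(|τ| / 2)) := by
    rw [← Real.exp_add, ← Real.exp_add]; congr 1; ring
  unfold mT
  linear_combination (2 ^ B * (B.factorial : ℝ)) * e

theorem c3_quad {x C W : ℝ} (hC : 0 ≤ C) (hW : 0 ≤ W) (h : x ^ 2 ≤ C * (W * x + W ^ 2)) :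
    x ≤ (C + 1) * W := by
  by_contra h1
  rw [not_le] at h1
  have h2 : 0 ≤ (C + 1) * W := by positivity
  nlinarith [mul_pos (sub_pos.2 h1) (show 0 < x + W by linarith), sq_nonneg W]

theorem c3_num {A n F Cd Cp C Cv I l D s K α β φ e1 e2 U V T Sm : ℝ}
    (h1 : A ^ 2 ≤ Cd / l * n * T) (h2 : T ≤ Cp * (D / 1 + s) * A + Cp * (D / K) * Sm)
    (h3 : Sm ≤ 2 * C * (2 * α * (Cv * e1 * A) + 324 * e2 * (I * (β * n + φ * F))))
    (hs : s ≤ D) (t1 : l⁻¹ * D ≤ U) (t2 : l⁻¹ * (D / K) * α * e1 ≤ U)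
    (t3 : l⁻¹ * (D / K) * e2 * β ≤ U ^ 2) (t4 : l⁻¹ * (D / K) * e2 * φ ≤ U * V)
    (hA : 0 ≤ A) (hn : 0 ≤ n) (hF : 0 ≤ F) (hCd : 0 ≤ Cd) (hCp : 0 ≤ Cp) (hC : 0 ≤ C) (hCv : 0 ≤ Cv)
    (hI : 0 ≤ I) (hl : 0 ≤ l) (hD : 0 ≤ D) (hK : 0 ≤ K) (hU : 0 ≤ U) (hV : 0 ≤ V) :
    A ≤ (Cd * Cp * (2 + 4 * C * Cv + 648 * C * I) + 1) * (U * n + V * F) := by
  refine c3_quad (by positivity) (by positivity) (h1.trans ?_)
  have a1 : U * n * A ≤ (U * n + V * F) * A + (U * n + V * F) ^ 2 := by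
    have : 0 ≤ V * F * A := by positivity
    nlinarith [sq_nonneg (U * n + V * F)]
  have a2 : U ^ 2 * n ^ 2 + U * V * (n * F) ≤ (U * n + V * F) * A + (U * n + V * F) ^ 2 := by
    have : 0 ≤ (U * n + V * F) * A := by positivity
    have : 0 ≤ U * V * (n * F) := by positivity
    nlinarith [sq_nonneg (V * F)]
  calc _ ≤ Cd / l * n * (Cp * (D / 1 + D) * A + Cp * (D / K) *
        (2 * C * (2 * α * (Cv * e1 * A) + 324 * e2 * (I * (β * n + φ * F))))) :=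
        mul_le_mul_of_nonneg_left (h2.trans (add_le_add (by gcongr)
          (mul_le_mul_of_nonneg_left h3 (by positivity)))) (by positivity)
    _ = Cd * Cp * (2 * (l⁻¹ * D * n * A) + 4 * C * Cv * (l⁻¹ * (D / K) * α * e1 * n * A) +
        648 * C * I * (l⁻¹ * (D / K) * e2 * β * n ^ 2 + l⁻¹ * (D / K) * e2 * φ * (n * F))) := by ring
    _ ≤ Cd * Cp * (2 * (U * n * A) + 4 * C * Cv * (U * n * A) +
        648 * C * I * (U ^ 2 * n ^ 2 + U * V * (n * F))) := by gcongr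
    _ ≤ Cd * Cp * (2 * ((U * n + V * F) * A + (U * n + V * F) ^ 2) +
        4 * C * Cv * ((U * n + V * F) * A + (U * n + V * F) ^ 2) +
        648 * C * I * ((U * n + V * F) * A + (U * n + V * F) ^ 2)) := by gcongr
    _ = _ := by ring

theorem c3_pairs (X : ℝ) {Y G : ℝ} (hY : 0 ≤ Y) (hG : 0 ≤ G) :
    ∑ g ∈ sfb X, ∑ r ∈ sfb X, (if N (g * r) ≤ Y then G else 0) ≤ 324 * Y ^ 2 * G := by
  have h1 : ∑ g ∈ sfb X, (if N g ≤ Y then (1 : ℝ) else 0) ≤ 18 * Y := by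
    rw [Finset.sum_boole]
    refine le_trans (Nat.cast_le.2 (Finset.card_le_card fun g hg => ?_)) (card_ball_le hY)
    obtain ⟨hg, hg'⟩ := Finset.mem_filter.1 hg
    exact mem_ball.2 ⟨(mem_sfb.1 hg).1.1.ne_zero, hg'⟩
  have h0 : 0 ≤ ∑ g ∈ sfb X, (if N g ≤ Y then (1 : ℝ) else 0) :=
    Finset.sum_nonneg fun _ _ => by positivity
  calc _ ≤ ∑ g ∈ sfb X, ∑ r ∈ sfb X,
        (if N g ≤ Y then (1 : ℝ) else 0) * ((if N r ≤ Y then (1 : ℝ) else 0) * G) := by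
        refine Finset.sum_le_sum fun g hg => Finset.sum_le_sum fun r hr => ?_
        have a1 := one_le_N (mem_sfb.1 hg).1.1.ne_zero
        have a2 := one_le_N (mem_sfb.1 hr).1.1.ne_zero
        by_cases h : N (g * r) ≤ Y
        · have h' := h
          rw [N_mul] at h'
          rw [if_pos h, if_pos (by nlinarith), if_pos (by nlinarith), one_mul, one_mul]
        · rw [if_neg h]
          positivity
    _ = (∑ g ∈ sfb X, (if N g ≤ Y then (1 : ℝ) else 0)) *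
        ((∑ g ∈ sfb X, (if N g ≤ Y then (1 : ℝ) else 0)) * G) := by
        rw [Finset.sum_mul, Finset.sum_mul]
        exact Finset.sum_congr rfl fun g _ => by rw [Finset.mul_sum]
    _ ≤ 18 * Y * (18 * Y * G) := by gcongr
    _ = _ := by ring

set_option maxHeartbeats 1000000 in
theorem c3_main {δ : ℝ} (hδ : 0 < δ) : ∃ la C : ℝ, 0 < la ∧ 1000 * la ≤ 1 ∧ 100 * la ≤ δ ∧ 0 ≤ C ∧
    ∀ z u a b : ℝ, 0 ≤ z → u = la * z → z - u / 100 ≤ a → a ≤ z + u / 100 → z - u / 100 ≤ b →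
    b ≤ z + u / 100 → ∀ (S : Finset O) (x : O → ℂ), In S (Real.exp b) →
    ∑ k ∈ sfI (Real.exp a) (2 * Real.exp a), ‖cs S x k‖ ^ 2 ≤
      C * (Real.exp (4 / 3 * z - u / 100) * n2 S x +
        Real.exp (z / 3 + δ * z) * F2 S x (Real.exp b) (Real.exp (δ * z))) := by
  obtain ⟨la, C, B, hla, l1, l2, hC, hpt⟩ := c3_pt hδ
  obtain ⟨z0, hz0⟩ := c3_primes hla
  obtain ⟨Cd, hCd, hd⟩ := dual_amp
  obtain ⟨C0, -, hpw⟩ := pw_Vo
  obtain ⟨Cp, hCp, hp⟩ := pstep3 C0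
  obtain ⟨Cv, hv⟩ := card_pdiv_le (show 0 < la / 1000 by positivity)
  obtain ⟨C1, hC1, h1⟩ := ls1
  obtain ⟨I, hI⟩ : ∃ I, I = ∫ τ, mT 1 τ * (1 + |τ|) ^ B := ⟨_, rfl⟩
  have hI0 : 0 ≤ I :=
    hI ▸ integral_nonneg fun τ => mul_nonneg (ps_mT_nonneg one_pos τ) (by positivity)
  refine ⟨la, Cd * Cp * (2 + 4 * C * |Cv| ^ 3 + 648 * C * I) + 1 +
    C1 * (2 * Real.exp (2 * z0) + (16 * Real.exp (2 * z0)) ^ 2), hla, l1, l2, by positivity,
    fun z u a b hz hu a1 a2 b1 b2 S x hS => ?_⟩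
  have hn := cl_n2 S x
  have hF := c3_F2 S x (Real.exp b) (Real.exp (δ * z))
  have u0 : 0 ≤ u := by rw [hu]; positivity
  have u1 : 1000 * u ≤ z := by rw [hu]; nlinarith
  have u2 : 100 * u ≤ δ * z := by rw [hu]; nlinarith
  rcases le_total z z0 with hz1 | hz1
  · have h2 := h1 (16 * Real.exp b) (2 * Real.exp a) S x
      (by linarith [Real.one_le_exp (show 0 ≤ b by linarith)]) (by positivity)
      fun n hn => mem_sfb.2 ⟨(hS n hn).1, (hS n hn).2.2⟩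
    have h3 : Real.exp a ≤ Real.exp (2 * z0) := Real.exp_le_exp.2 (by linarith)
    have h4 : Real.exp b ≤ Real.exp (2 * z0) := Real.exp_le_exp.2 (by linarith)
    have h5 := Real.one_le_exp (show 0 ≤ 4 / 3 * z - u / 100 by linarith)
    refine (Finset.sum_le_sum_of_subset_of_nonneg (Finset.filter_subset _ _)
      fun _ _ _ => sq_nonneg _).trans (h2.trans (mul_le_mul (le_add_of_nonneg_of_le (by positivity)
        (by gcongr)) (le_add_of_le_of_nonneg (le_mul_of_one_le_left hn h5) (by positivity)) hn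
        (by positivity)))
  obtain ⟨c1, P, hP, p1, p2⟩ := hz0 z u hz1 hu
  have c0 : 0 ≤ Real.log 16 := Real.log_nonneg (by norm_num)
  have c16 : Real.exp (Real.log 16) = 16 := Real.exp_log (by norm_num)
  have Q : C3P z u a b (Real.log 16) := ⟨u0, u1, a1, a2, b1, b2, c16, c0, c1⟩
  have hin : In (sfI (Real.exp a) (2 * Real.exp a)) (Real.exp a) :=
    in_sfI (by linarith [Real.exp_pos a])
  have hP0 : (0 : ℝ) < P.card := (Real.exp_pos _).trans_le p1
  have d1 := hd (Real.exp b) (Real.exp u) S (sfI (Real.exp a) (2 * Real.exp a)) P x (Real.exp_pos b)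
    (Real.exp_pos u) hS (fun k hk => ⟨(hin k hk).1.1, ?_⟩) hP (Nat.cast_pos.1 hP0)
  swap
  · have e1 := card_pf_le (hin k hk).1.1.ne_zero
    have e2 : lg k ≤ Real.log 2 + a := by
      have := Real.log_le_log (N_pos (hin k hk).1.1.ne_zero) (mem_sfI.1 hk).2.2
      rwa [Real.log_mul two_ne_zero (Real.exp_pos a).ne', Real.log_exp] at this
    have e3 := Real.log_two_gt_d9
    have e4 : ((pf k).card : ℝ) ≤ 1 + 4 * z := by
      refine le_of_mul_le_mul_right (e1.trans (e2.trans ?_)) (show 0 < Real.log 2 by linarith)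
      nlinarith
    exact_mod_cast (show 2 * ((pf k).card : ℝ) ≤ P.card by linarith)
  obtain ⟨α, hα⟩ : ∃ α, α = Real.exp (4 / 3 * z - 14 / 5 * u) := ⟨_, rfl⟩
  obtain ⟨G, hG⟩ : ∃ G, G = Real.exp (8 / 3 * z - 10 * u) * n2 S x +
    Real.exp (5 / 3 * z + δ * z / 4) * F2 S x (Real.exp b) (Real.exp (δ * z)) := ⟨_, rfl⟩
  obtain ⟨A, hA⟩ : ∃ A : O → ℝ, ∀ h, A h = ∑ k ∈ (sfI (Real.exp a) (2 * Real.exp a)).filter
    (fun k => h ∣ k), ‖cs S x k‖ ^ 2 * dv k := ⟨_, fun _ => rfl⟩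
  obtain ⟨J, hJ⟩ : ∃ J : O → ℝ, ∀ h, J h = if N h ≤ Real.exp (3 * u) then G else 0 :=
    ⟨_, fun _ => rfl⟩
  have hα0 : 0 ≤ α := hα ▸ (Real.exp_pos _).le
  have hG0 : 0 ≤ G := by rw [hG]; positivity
  have hA0 : ∀ h, 0 ≤ A h := fun h => hA h ▸ Finset.sum_nonneg fun k _ =>
    mul_nonneg (sq_nonneg _) (Nat.cast_nonneg _)
  have hJ0 : ∀ h, 0 ≤ J h := fun h => by rw [hJ]; positivity
  have hD : 1 ≤ Real.exp b * Real.exp u ^ 3 := one_le_mul_of_one_le_of_one_le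
    (Real.one_le_exp (by linarith)) (one_le_pow₀ (Real.one_le_exp u0))
  have hE : ∀ (g r : O) (τ : ℝ), 0 ≤ C / N g * (α * A (g * r) + (1 + |τ|) ^ B * J (g * r)) :=
    fun g r τ => mul_nonneg (div_nonneg hC (N_nonneg g)) (add_nonneg (mul_nonneg hα0 (hA0 _))
      (mul_nonneg (by positivity) (hJ0 _)))
  have hEe : ∀ g r : O, (fun τ => mT 1 τ * (C / N g * (α * A (g * r) + (1 + |τ|) ^ B * J (g * r)))) =
      fun τ => C / N g * (α * A (g * r)) * mT 1 τ + C / N g * J (g * r) * (mT 1 τ * (1 + |τ|) ^ B) :=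
    fun g r => funext fun τ => by ring
  have hEi : ∀ g r : O,
      Integrable fun τ => mT 1 τ * (C / N g * (α * A (g * r) + (1 + |τ|) ^ B * J (g * r))) :=
    fun g r => by
      rw [hEe]
      exact ((integrable_mT one_pos).const_mul _).add ((c3_int B).const_mul _)
  have d2 := hp _ _ 1 (Real.exp a) (hpw _ hD) le_rfl (by rwa [one_pow]) (Real.exp_pos a) _
    (fun k => conj (cs S x k)) hin
    (fun g r τ => C / N g * (α * A (g * r) + (1 + |τ|) ^ B * J (g * r)))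
    (fun g r τ => C / N g * (α * A (g * r) + (1 + |τ|) ^ B * J (g * r)))
    (fun g r τ => ⟨hE g r τ, hE g r τ⟩) (fun g r => ⟨hEi g r, hEi g r⟩)
    (fun g hg r hr σ hσ τ Y hY => ?_)
  swap
  · have hg' := (mem_sfb.1 hg).1
    have hNg := N_pos hg'.1.ne_zero
    have e := hpt z u a b _ hu Q S x hS g r hg' (mem_sfb.1 hr).1 (σ - 1 / 2 + τ * Complex.I) (by
      simp only [Finset.mem_insert, Finset.mem_singleton] at hσ
      rcases hσ with rfl | rfl | rfl <;> norm_num [abs_le]) Y hY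
    rw [← hα, ← hG, ← hA, show (σ - 1 / 2 + τ * Complex.I : ℂ).im = τ by simp,
      show (if N (g * r) ≤ Real.exp (3 * u) then (1 + |τ|) ^ B * G else 0) =
        (1 + |τ|) ^ B * J (g * r) by rw [hJ, mul_ite, mul_zero], ← le_div_iff₀' hNg] at e
    exact e.trans_eq (by ring)
  have d3 : ∑ g ∈ sfb (16 * Real.exp a), ∑ r ∈ sfb (16 * Real.exp a), N g * ∫ τ : ℝ, mT 1 τ *
      (C / N g * (α * A (g * r) + (1 + |τ|) ^ B * J (g * r)) +
        1 ^ 3 * (C / N g * (α * A (g * r) + (1 + |τ|) ^ B * J (g * r)))) ≤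
      2 * C * (2 * α * (|Cv| ^ 3 * Real.exp (u / 100) ^ 3 *
        ∑ k ∈ sfI (Real.exp a) (2 * Real.exp a), ‖cs S x k‖ ^ 2) +
        324 * Real.exp (3 * u) ^ 2 * (I * G)) := by
    have e1 : ∀ g ∈ sfb (16 * Real.exp a), ∀ r : O, N g * ∫ τ : ℝ, mT 1 τ *
        (C / N g * (α * A (g * r) + (1 + |τ|) ^ B * J (g * r)) +
          1 ^ 3 * (C / N g * (α * A (g * r) + (1 + |τ|) ^ B * J (g * r)))) =
        2 * C * (2 * α * A (g * r) + I * J (g * r)) := fun g hg r => by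
      have hNg := N_pos (mem_sfb.1 hg).1.1.ne_zero
      simp only [one_pow, one_mul, ← two_mul, mul_left_comm (mT 1 _) 2]
      rw [integral_const_mul, hEe, integral_add ((integrable_mT one_pos).const_mul _)
        ((c3_int B).const_mul _), integral_const_mul, integral_const_mul, integral_mT one_pos, ← hI]
      field_simp
    rw [Finset.sum_congr rfl fun g hg => Finset.sum_congr rfl fun r _ => e1 g hg r]
    simp only [← Finset.mul_sum, Finset.sum_add_distrib]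
    have e2 := sum_pairs_le (fun k hk => (hin k hk).1) (cs S x) (16 * Real.exp a)
    have e3 := c3_pairs (16 * Real.exp a) (Real.exp_pos (3 * u)).le hG0
    simp only [← hA] at e2
    simp only [← hJ] at e3
    have e4 : nt (sfI (Real.exp a) (2 * Real.exp a)) (cs S x) ≤ |Cv| ^ 3 * Real.exp (u / 100) ^ 3 *
        ∑ k ∈ sfI (Real.exp a) (2 * Real.exp a), ‖cs S x k‖ ^ 2 := by
      rw [Finset.mul_sum, ← mul_pow]
      refine Finset.sum_le_sum fun k hk => (mul_comm _ _).trans_le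
        (mul_le_mul_of_nonneg_right (pow_le_pow_left₀ (Nat.cast_nonneg _) ?_ 3) (sq_nonneg _))
      have hk0 := (hin k hk).1.1.ne_zero
      refine (hv k hk0).trans (mul_le_mul (le_abs_self _) ((Real.rpow_le_rpow (N_nonneg k)
        (hin k hk).2.2 (by positivity)).trans (c3_eps (e := Real.log 16 + a) hla hu
          (by rw [Real.exp_add, c16]) (by linarith))) (Real.rpow_nonneg (N_nonneg k) _) (abs_nonneg _))
    refine mul_le_mul_of_nonneg_left (add_le_add (mul_le_mul_of_nonneg_left (e2.trans e4)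
      (by positivity)) ((mul_le_mul_of_nonneg_left e3 hI0).trans_eq (by ring))) (by positivity)
  rw [show n2 (sfI (Real.exp a) (2 * Real.exp a)) (fun k => conj (cs S x k)) =
    ∑ k ∈ sfI (Real.exp a) (2 * Real.exp a), ‖cs S x k‖ ^ 2 by simp only [n2, Complex.norm_conj]] at d2
  have l0 : (P.card : ℝ)⁻¹ ≤ Real.exp (-(9 / 10 * u)) := by
    rw [Real.exp_neg]
    exact inv_anti₀ (Real.exp_pos _) p1
  have tt : ∀ {w e : ℝ} (e' : ℝ), w = Real.exp e' → -(9 / 10 * u) + e' ≤ e →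
      (P.card : ℝ)⁻¹ * w ≤ Real.exp e := fun e' h1 h2 => by
    rw [h1]
    exact (mul_le_mul_of_nonneg_right l0 (Real.exp_pos _).le).trans
      (by rw [← Real.exp_add]; exact Real.exp_le_exp.2 h2)
  rw [hG, hα] at d3
  rw [hα] at d2
  refine (c3_num (U := Real.exp (4 / 3 * z - u / 100)) (V := Real.exp (z / 3 + δ * z)) d1 d2 d3
    (Real.sqrt_le_iff.2 ⟨by positivity, by nlinarith⟩) ?_ ?_ ?_ ?_
    (Finset.sum_nonneg fun _ _ => sq_nonneg _) hn hF hCd hCp hC (by positivity) hI0 hP0.le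
    (by positivity) (Real.exp_pos a).le (Real.exp_pos _).le (Real.exp_pos _).le).trans
    (mul_le_mul_of_nonneg_right (le_add_of_nonneg_right (by positivity)) (by positivity))
  · exact tt (b + 3 * u) (by rw [← Real.exp_nat_mul, ← Real.exp_add]; norm_num) (by linarith)
  · rw [mul_assoc, mul_assoc]
    exact tt (b + 3 * u - a + (4 / 3 * z - 14 / 5 * u + 3 * (u / 100)))
      (by simp only [← Real.exp_nat_mul, ← Real.exp_add, ← Real.exp_sub]; norm_num) (by linarith)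
  · rw [mul_assoc, mul_assoc, ← Real.exp_nat_mul (4 / 3 * z - u / 100)]
    exact tt (b + 3 * u - a + (2 * (3 * u) + (8 / 3 * z - 10 * u)))
      (by simp only [← Real.exp_nat_mul, ← Real.exp_add, ← Real.exp_sub]; norm_num)
      (by push_cast; linarith)
  · rw [mul_assoc, mul_assoc, ← Real.exp_add (4 / 3 * z - u / 100)]
    exact tt (b + 3 * u - a + (2 * (3 * u) + (5 / 3 * z + δ * z / 4)))
      (by simp only [← Real.exp_nat_mul, ← Real.exp_add, ← Real.exp_sub]; norm_num) (by linarith)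

/-- `λ` small in terms of `δ`, `lam0`, `B₀`; `κ₀ = λ/100`, `L = Z^λ`, `𝓐 = ∑ |X_k|²`; bounded `Z`: trivial.
`dual_amp` with `𝓛` from `many_primes` (`card_pf_le`), `pstep3` with `pw_Vo`, `D = M L³`, `B = K`,
`T = 1`; diagonal `(D/#𝓛) 𝓐`.  `J = K²/D`, `J_g = J/N g²`, `Y = ρ J_g`, `h = g r`, `M_h = 2K/N h`,
prefactor `D/(K #𝓛) ≤ L² Z^{2κ₀+ε}`.
* `N h > L³` or `ρ > L²`: `norm_Xs_le_cs`, `cls_all` (`N g J_g^{1/3} M_h ≤ 2 J^{1/3} K N h^{-2/3}`;
  `ρ^{1+ε} ≤ ρ² L^{-1}`, `ρ^{1/3+ε} ≤ ρ² L^{-3}`).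
* otherwise `Q = L^{60}`, `X = J L^{-6}`.  `Maj Q`: `maj_va` (`D₀ = L^{62}`, `P = 81 L^{125}`,
  `T = Δ = P^{B₀} L^{20}`).  `¬ Maj Q ∧ Low X`: `mls`.  `¬ Low X`: `high_le`, `N c ≤ L⁸`, dyadic pieces
  `X₁ = 2^i X ≤ Y/N c`, `step3` with `ϑ = phr (r c)`, `q₀ = 9 r c`; `∑_c Y/N c ≤ C Y log Z`.
Result: `𝓐² ≤ C n2 (Z^{4/3-λ/2} 𝓐 + Z^{8/3-λ} n2 + Z^{5/3+δ/2} F2)`. -/
theorem core (δ : ℝ) (hδ : 0 < δ) : ∃ κ0 C : ℝ, 0 < κ0 ∧ κ0 ≤ δ ∧ 0 ≤ C ∧
    ∀ (Z K M : ℝ) (S : Finset O) (x : O → ℂ), 1 ≤ Z → Z ^ (1 - κ0) ≤ K → K ≤ Z ^ (1 + κ0) →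
    Z ^ (1 - κ0) ≤ M → M ≤ Z ^ (1 + κ0) → In S M →
    ∑ k ∈ sfI K (2 * K), ‖cs S x k‖ ^ 2 ≤
      C * Z ^ (4 / 3 : ℝ) * (Z ^ (-κ0) * n2 S x + Z ^ (δ - 1) * F2 S x M (Z ^ δ)) := by
  obtain ⟨la, C, hla, l1, l2, hC, h⟩ := c3_main hδ
  refine ⟨la / 100, C, by positivity, by linarith, hC, fun Z K M S x hZ k1 k2 m1 m2 hS => ?_⟩
  have hZ0 : 0 < Z := by linarith
  obtain ⟨z, rfl⟩ : ∃ z, Z = Real.exp z := ⟨_, (Real.exp_log hZ0).symm⟩
  obtain ⟨a, rfl⟩ : ∃ a, K = Real.exp a :=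
    ⟨_, (Real.exp_log ((Real.rpow_pos_of_pos hZ0 _).trans_le k1)).symm⟩
  obtain ⟨b, rfl⟩ : ∃ b, M = Real.exp b :=
    ⟨_, (Real.exp_log ((Real.rpow_pos_of_pos hZ0 _).trans_le m1)).symm⟩
  simp only [← Real.exp_mul, Real.exp_le_exp] at k1 k2 m1 m2 ⊢
  refine (h z _ a b (Real.one_le_exp_iff.1 hZ) rfl (by linarith) (by linarith) (by linarith)
    (by linarith) S x hS).trans_eq ?_
  rw [mul_comm δ z, show 4 / 3 * z - la * z / 100 = z * (4 / 3) + z * -(la / 100) by ring,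
    show z / 3 + z * δ = z * (4 / 3) + z * (δ - 1) by ring, Real.exp_add, Real.exp_add]
  ring

end Crest.Agent.R12
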