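import Crest.Agent.R12.Core2

/-!
# R12 / Core3AuxA : the cases of the second Poisson step, in exponential coordinates
-/

set_option autoImplicit false

noncomputable section

open scoped Classical ComplexConjugate Topology
open MeasureTheory Filter

namespace Crest.Agent.R12

open Crest.Agent.R17

/-- the exponents: `Z = e^z`, `L = e^u`, `K = e^a`, `M = e^b`, `16 = e^c` -/
structure C3P (z u a b c : ℝ) : Prop where
  hu : 0 ≤ u
  hz : 1000 * u ≤ z
  a1 : z - u / 100 ≤ a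
  a2 : a ≤ z + u / 100
  b1 : z - u / 100 ≤ b
  b2 : b ≤ z + u / 100
  c16 : Real.exp c = 16
  c0 : 0 ≤ c
  c1 : c ≤ u / 100

theorem c3_term {e p A : ℝ} (t : ℝ) (h1 : 1 / 3 ≤ t) (h2 : t ≤ 2) (h : e ≤ t * p + A) :
    Real.exp e ≤ (Real.exp (p / 3) + Real.exp (2 * p)) * Real.exp A := by
  rw [add_mul, ← Real.exp_add, ← Real.exp_add]
  rcases le_total 0 p with hp | hp
  · exact (Real.exp_le_exp.2 (by nlinarith)).trans (le_add_of_nonneg_left (Real.exp_pos _).le)
  · exact (Real.exp_le_exp.2 (by nlinarith)).trans (le_add_of_nonneg_right (Real.exp_pos _).le)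

theorem c3_eps {W e z u la : ℝ} (hla : 0 < la) (hu : u = la * z) (hW : W = Real.exp e)
    (he : e ≤ 10 * z) : W ^ (la / 1000) ≤ Real.exp (u / 100) := by
  rw [hW, ← Real.exp_mul, Real.exp_le_exp, hu]
  nlinarith

theorem c3_A {la : ℝ} (hla : 0 < la) : ∃ C : ℝ, 0 ≤ C ∧ ∀ z u a b c : ℝ, u = la * z →
    C3P z u a b c → ∀ γ η p y : ℝ, 0 ≤ γ → γ ≤ η → η ≤ c + a → y = p + 2 * a - b - 3 * u - 2 * γ →
    (3 * u < η ∨ 2 * u < p) → ∀ (S : Finset O) (w : O → ℂ), S ⊆ sfb (Real.exp (c + a - η)) →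
    Real.exp γ * ∑ m ∈ ball (Real.exp y), ‖cs S w m‖ ^ 2 ≤
      C * (Real.exp (p / 3) + Real.exp (2 * p)) * Real.exp (4 / 3 * z - 14 / 5 * u) * n2 S w := by
  obtain ⟨C, hC, h⟩ := cl_all (ξ := 4 / 3) (by norm_num) (by norm_num) hypE_lim (la / 1000)
    (by positivity)
  refine ⟨C * 3, by positivity, fun z u a b c hu P γ η p y h0 h1 h2 hy hc S w hS => ?_⟩
  obtain ⟨p1, p2, p3, p4, p5, p6, -, p8, p9⟩ := P
  have h3 := h _ _ S w (Real.exp_pos y) (Real.one_le_exp (by linarith)) hS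
  have h4 := c3_eps hla hu (rfl : Real.exp (c + a - η) = _) (by linarith)
  have hn := cl_n2 S w
  simp only [← Real.exp_mul, ← Real.exp_add] at h3
  rw [← Real.exp_mul] at h4
  have t1 : Real.exp (γ + u / 100 + (y * (1 / 3) + (c + a - η))) ≤
      (Real.exp (p / 3) + Real.exp (2 * p)) * Real.exp (4 / 3 * z - 14 / 5 * u) := by
    rcases hc with hc | hc
    · exact c3_term (1 / 3) le_rfl (by norm_num) (by linarith)
    · exact c3_term 2 (by norm_num) le_rfl (by linarith)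
  have t2 : Real.exp (γ + u / 100 + y * (4 / 3)) ≤
      (Real.exp (p / 3) + Real.exp (2 * p)) * Real.exp (4 / 3 * z - 14 / 5 * u) :=
    c3_term (4 / 3) (by norm_num) (by norm_num) (by linarith)
  have t3 : Real.exp (γ + u / 100 + (y + (c + a - η)) * (2 / 3)) ≤
      (Real.exp (p / 3) + Real.exp (2 * p)) * Real.exp (4 / 3 * z - 14 / 5 * u) := by
    rcases hc with hc | hc
    · exact c3_term (2 / 3) (by norm_num) (by norm_num) (by linarith)
    · exact c3_term 2 (by norm_num) le_rfl (by linarith)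
  rw [Real.exp_add, Real.exp_add] at t1 t2 t3
  calc _ ≤ Real.exp γ * (C * Real.exp (u / 100) * (Real.exp (y * (1 / 3) + (c + a - η)) +
        Real.exp (y * (4 / 3)) + Real.exp ((y + (c + a - η)) * (2 / 3))) * n2 S w) :=
        mul_le_mul_of_nonneg_left (h3.trans (by gcongr)) (Real.exp_pos _).le
    _ = C * (Real.exp γ * Real.exp (u / 100) * Real.exp (y * (1 / 3) + (c + a - η)) +
        Real.exp γ * Real.exp (u / 100) * Real.exp (y * (4 / 3)) +
        Real.exp γ * Real.exp (u / 100) * Real.exp ((y + (c + a - η)) * (2 / 3))) * n2 S w := by ring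
    _ ≤ C * (3 * ((Real.exp (p / 3) + Real.exp (2 * p)) * Real.exp (4 / 3 * z - 14 / 5 * u))) *
        n2 S w := by gcongr; linarith
    _ = _ := by ring

theorem c3_B2 {la : ℝ} (hla : 0 < la) : ∃ C : ℝ, 0 ≤ C ∧ ∀ z u a b c : ℝ, u = la * z →
    C3P z u a b c → ∀ γ η p y : ℝ, 0 ≤ γ → γ ≤ η → η ≤ 3 * u → y = p + 2 * a - b - 3 * u - 2 * γ →
    p ≤ 2 * u → 0 ≤ y → ∀ (S : Finset O) (w : O → ℂ), S ⊆ sfb (Real.exp (c + a - η)) →
    Real.exp γ * ∑ m ∈ (ball (Real.exp y)).filter (fun k => ¬ Maj (Real.exp (60 * u)) k ∧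
        Low (Real.exp (2 * a - b - 9 * u)) k), ‖cs S w m‖ ^ 2 ≤
      C * (Real.exp (p / 3) + Real.exp (2 * p)) * Real.exp (4 / 3 * z - 14 / 5 * u) * n2 S w := by
  obtain ⟨C, hC, h⟩ := mls (la / 1000) (by positivity)
  refine ⟨C * 4, by positivity, fun z u a b c hu P γ η p y h0 h1 h2 hy hp hy0 S w hS => ?_⟩
  obtain ⟨p1, p2, p3, p4, p5, p6, -, p8, p9⟩ := P
  have h3 := h _ _ (Real.exp (60 * u)) (Real.exp (2 * a - b - 9 * u)) S w (Real.one_le_exp hy0)
    (Real.one_le_exp (by linarith)) (Real.one_le_exp (by linarith))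
    (Real.one_le_exp (by linarith)) hS
  have h4 := c3_eps hla hu (Real.exp_add y (c + a - η)).symm (by linarith)
  have hn := cl_n2 S w
  obtain ⟨R, hR⟩ : ∃ R, R = (Real.exp (p / 3) + Real.exp (2 * p)) *
    Real.exp (4 / 3 * z - 14 / 5 * u) := ⟨_, rfl⟩
  have t1 : Real.exp γ * Real.exp (u / 100) * Real.exp y ≤ R := by
    simp only [← Real.exp_add, hR]
    exact c3_term 1 (by norm_num) (by norm_num) (by linarith)
  have t2 : Real.exp γ * Real.exp (u / 100) * (Real.exp y ^ (1 / 3 : ℝ) * Real.exp (c + a - η) *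
      Real.exp (60 * u) ^ (-(1 / 30 : ℝ))) ≤ R := by
    simp only [← Real.exp_add, ← Real.exp_mul, hR]
    exact c3_term (1 / 3) (by norm_num) (by norm_num) (by linarith)
  have t3 : Real.exp γ * Real.exp (u / 100) * (Real.exp y ^ (1 / 3 : ℝ) * Real.exp y *
      Real.exp (60 * u) ^ (-(1 / 30 : ℝ))) ≤ R := by
    simp only [← Real.exp_add, ← Real.exp_mul, hR]
    exact c3_term (4 / 3) (by norm_num) (by norm_num) (by linarith)
  have t4 : Real.exp γ * Real.exp (u / 100) * (Real.exp y ^ (1 / 2 : ℝ) *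
      Real.exp (c + a - η) ^ (2 / 3 : ℝ) * Real.exp (2 * a - b - 9 * u) ^ (1 / 6 : ℝ)) ≤ R := by
    simp only [← Real.exp_add, ← Real.exp_mul, hR]
    exact c3_term (1 / 2) (by norm_num) (by norm_num) (by linarith)
  refine (mul_le_mul_of_nonneg_left (h3.trans (mul_le_mul_of_nonneg_right
    (mul_le_mul_of_nonneg_right (mul_le_mul_of_nonneg_left h4 hC) (by positivity)) hn))
    (Real.exp_pos _).le).trans ?_
  calc _ = C * (Real.exp γ * Real.exp (u / 100) * Real.exp y +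
        Real.exp γ * Real.exp (u / 100) * (Real.exp y ^ (1 / 3 : ℝ) * Real.exp (c + a - η) *
          Real.exp (60 * u) ^ (-(1 / 30 : ℝ))) +
        Real.exp γ * Real.exp (u / 100) * (Real.exp y ^ (1 / 3 : ℝ) * Real.exp y *
          Real.exp (60 * u) ^ (-(1 / 30 : ℝ))) +
        Real.exp γ * Real.exp (u / 100) * (Real.exp y ^ (1 / 2 : ℝ) *
          Real.exp (c + a - η) ^ (2 / 3 : ℝ) * Real.exp (2 * a - b - 9 * u) ^ (1 / 6 : ℝ))) *
        n2 S w := by ring
    _ ≤ C * (4 * R) * n2 S w := by gcongr; linarith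
    _ = _ := by rw [hR]; ring

theorem c3_dyad {X W0 β : ℝ} (hX : 0 < X) (hβ : 0 ≤ β) {F : O → ℝ} (hF : ∀ k, 0 ≤ F k)
    (h : ∀ X1, X ≤ X1 → X1 ≤ W0 → ∑ k ∈ sfI X1 (2 * X1), F k ≤ β * X1) {W : ℝ} (hW0 : 0 ≤ W)
    (hW : W ≤ W0) : ∑ k ∈ sfI X W, F k ≤ 2 * β * W := by
  obtain ⟨n, hn⟩ := pow_unbounded_of_one_lt (W / X) (by norm_num : (1 : ℝ) < 2)
  rw [div_lt_iff₀ hX] at hn
  induction n generalizing W with
  | zero =>
    rw [Finset.sum_eq_zero fun k hk => absurd (mem_sfI.1 hk).2 (by intro h; linarith [h.1, h.2])]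
    positivity
  | succ n ih =>
    rcases lt_or_ge W X with h1 | h1
    · rw [Finset.sum_eq_zero fun k hk => absurd (mem_sfI.1 hk).2 (by intro h; linarith [h.1, h.2])]
      positivity
    rcases lt_or_ge (W / 2) X with h2 | h2
    · refine (Finset.sum_le_sum_of_subset_of_nonneg (fun k hk => mem_sfI.2 ⟨(mem_sfI.1 hk).1,
        (mem_sfI.1 hk).2.1, by linarith [(mem_sfI.1 hk).2.2]⟩) fun k _ _ => hF k).trans
        ((h X le_rfl (h1.trans hW)).trans ?_)
      nlinarith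
    · have h3 := ih (W := W / 2) (by linarith) (by linarith) (by rw [pow_succ] at hn; linarith)
      have h4 := h (W / 2) h2 (by linarith)
      have h5 : sfI X W ⊆ sfI X (W / 2) ∪ sfI (W / 2) (2 * (W / 2)) := fun k hk => by
        obtain ⟨a1, a2, a3⟩ := mem_sfI.1 hk
        rcases le_or_gt (N k) (W / 2) with h | h
        · exact Finset.mem_union_left _ (mem_sfI.2 ⟨a1, a2, h⟩)
        · exact Finset.mem_union_right _ (mem_sfI.2 ⟨a1, h, by linarith⟩)
      have h6 := Finset.sum_union_inter (s₁ := sfI X (W / 2)) (s₂ := sfI (W / 2) (2 * (W / 2)))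
        (f := F)
      have h7 := Finset.sum_le_sum_of_subset_of_nonneg h5 fun k _ _ => hF k
      have h8 := Finset.sum_nonneg fun k (_ : k ∈ sfI X (W / 2) ∩ sfI (W / 2) (2 * (W / 2))) => hF k
      nlinarith

set_option maxHeartbeats 400000 in
theorem c3_B3 : ∃ lam0 : ℝ, 0 < lam0 ∧ ∀ la : ℝ, 0 < la → la ≤ lam0 → ∃ C : ℝ, 0 ≤ C ∧
    ∀ z u a b c : ℝ, u = la * z → C3P z u a b c → ∀ γ p y : ℝ, 0 ≤ γ →
    y = p + 2 * a - b - 3 * u - 2 * γ → p ≤ 2 * u → ∀ (S : Finset O) (x : O → ℂ) (h r : O) (s : ℂ),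
    In S (Real.exp b) → SF h → N h ≤ Real.exp (3 * u) → r ≠ 0 → N r ≤ Real.exp (3 * u) →
    |s.re| ≤ 3 →
    Real.exp γ * ∑ m ∈ (ball (Real.exp y)).filter (fun k => ¬ Low (Real.exp (2 * a - b - 9 * u)) k),
      ‖cs (Sdiv (sfI (Real.exp a) (2 * Real.exp a)) h) (fun j => cs S x (h * j) * conj (g3 j) *
        phr r j * pw (Real.exp a) (h * j) s) m‖ ^ 2 ≤
      C * (Real.exp (p / 3) + Real.exp (2 * p)) * (Real.exp (4 / 3 * z - 14 / 5 * u) *
        ∑ k ∈ (sfI (Real.exp a) (2 * Real.exp a)).filter (fun k => h ∣ k), ‖cs S x k‖ ^ 2 +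
        (1 + |s.im|) ^ 2 * Real.exp (8 / 3 * z - 10 * u) * n2 S x) := by
  obtain ⟨lam0, hl0, h⟩ := step3
  obtain ⟨C1, hC1, h1⟩ := mls_inv
  refine ⟨lam0, hl0, fun la hla hla' => ?_⟩
  obtain ⟨C, hC, h⟩ := h la hla hla'
  refine ⟨C * C1 * 3200, by positivity,
    fun z u a b c hu P γ p y h0 hy hp S x g r s hS hg hg' hr hr' hs => ?_⟩
  obtain ⟨p1, p2, p3, p4, p5, p6, p7, p8, p9⟩ := P
  obtain ⟨A, hA⟩ : ∃ A, A = ∑ k ∈ (sfI (Real.exp a) (2 * Real.exp a)).filter (fun k => g ∣ k),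
    ‖cs S x k‖ ^ 2 := ⟨_, rfl⟩
  have hA0 : 0 ≤ A := hA ▸ Finset.sum_nonneg fun _ _ => sq_nonneg _
  have hn := cl_n2 S x
  obtain ⟨ξ, hξ⟩ : ∃ ξ, ξ = 2 * a - b - 9 * u := ⟨_, rfl⟩
  obtain ⟨t, ht⟩ : ∃ t, t = (1 + |s.im|) ^ 2 := ⟨_, rfl⟩
  have ht0 : 0 ≤ t := ht ▸ sq_nonneg _
  obtain ⟨β, hβ⟩ : ∃ β, β = C * ((Real.exp (z / 3 + u / 50) + Real.exp (4 / 3 * z - 19 * u - ξ)) * A +
    t * Real.exp (8 / 3 * z - 50 * u - ξ) * n2 S x) := ⟨_, rfl⟩
  have hβ0 : 0 ≤ β := by rw [hβ]; positivity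
  have zp : ∀ e e' : ℝ, e' = z * e → Real.exp z ^ e = Real.exp e' := fun e e' he => by
    rw [← Real.exp_mul, he]
  rw [← hA, ← hξ, ← ht]
  have hprim : ∀ j ∈ Sdiv (sfI (Real.exp a) (2 * Real.exp a)) g, Prim j := fun j hj =>
    (mem_sfI.1 ((c1_mem hg.1.ne_zero).1 hj)).1.1.of_mul_left hg.1
  have key : ∀ d ∈ ball (Real.exp y / Real.exp ξ), ∑ k ∈ sfI (Real.exp ξ) (Real.exp y / N d),
      ‖cs (Sdiv (sfI (Real.exp a) (2 * Real.exp a)) g) (fun j => cs S x (g * j) * conj (g3 j) *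
        phr r j * pw (Real.exp a) (g * j) s) (d * k)‖ ^ 2 ≤ 2 * β * Real.exp y * (N d)⁻¹ := by
    intro d hd
    obtain ⟨hd0, hd1⟩ := mem_ball.1 hd
    have hNd := one_le_N hd0
    rw [← Real.exp_sub] at hd1
    have e1 : ∀ k, cs (Sdiv (sfI (Real.exp a) (2 * Real.exp a)) g) (fun j => cs S x (g * j) *
        conj (g3 j) * phr r j * pw (Real.exp a) (g * j) s) (d * k) =
        cs (Sdiv (sfI (Real.exp a) (2 * Real.exp a)) g) (fun j => cs S x (g * j) *
        conj (g3 j) * phr (r * d) j * pw (Real.exp a) (g * j) s) k := fun k =>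
      Finset.sum_congr rfl fun j hj => by
        simp only [phr, if_pos (hprim j hj), (rcub_isChar (hprim j hj)).mul]
        ring
    simp only [e1]
    rw [mul_assoc (2 * β), ← div_eq_mul_inv]
    refine c3_dyad (W0 := Real.exp y) (Real.exp_pos ξ) hβ0 (fun _ => sq_nonneg _)
      (fun X1 a1 a2 => ?_) (by positivity) (div_le_self (Real.exp_pos _).le hNd)
    have hX1 : 0 < X1 := (Real.exp_pos ξ).trans_le a1
    have hq : N (9 * (r * d)) ≤ Real.exp z ^ (20 * la) := by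
      rw [zp _ (20 * u) (by rw [hu]; ring), N_mul, N_mul,
        show (9 : O) = ((9 : ℕ) : O) by norm_num, N, nm_natCast]
      calc _ ≤ Real.exp c * Real.exp c * (Real.exp (3 * u) * Real.exp (y - ξ)) :=
            mul_le_mul (by rw [p7]; norm_num) (mul_le_mul hr' hd1 (N_nonneg _) (Real.exp_pos _).le)
              (mul_nonneg (N_nonneg _) (N_nonneg _)) (by positivity)
        _ ≤ _ := by
            simp only [← Real.exp_add, Real.exp_le_exp]
            linarith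
    have h2 := h (Real.exp z) (Real.exp a) (Real.exp b) X1 S x g (9 * (r * d)) (phr (r * d)) s
      (Real.one_le_exp (by linarith))
      (by rw [zp _ (z - u / 100) (by rw [hu]; ring)]; exact Real.exp_le_exp.2 p3)
      (by rw [zp _ (z + u / 100) (by rw [hu]; ring)]; exact Real.exp_le_exp.2 p4)
      (by rw [zp _ (z - u / 100) (by rw [hu]; ring)]; exact Real.exp_le_exp.2 p5)
      (by rw [zp _ (z + u / 100) (by rw [hu]; ring)]; exact Real.exp_le_exp.2 p6) hS hg
      (by rwa [zp _ (3 * u) (by rw [hu]; ring)])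
      (mul_ne_zero (by norm_num) (mul_ne_zero hr hd0)) hq (phr_per (mul_ne_zero hr hd0))
      (norm_phr_le _)
      (by rw [zp _ (z - 10 * u) (by rw [hu]; ring)]
          exact (Real.exp_le_exp.2 (by linarith)).trans a1)
      (by rw [zp _ (z - u / 2) (by rw [hu]; ring)]
          exact a2.trans (Real.exp_le_exp.2 (by linarith))) hs
    rw [zp _ (u / 100) (by rw [hu]; ring), zp _ (z / 3 + u / 100) (by rw [hu]; ring),
      zp _ (4 / 3 * z - 20 * u) (by rw [hu]; ring), zp _ (8 / 3 * z - 50 * u) (by rw [hu]; ring),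
      ← hA, ← ht] at h2
    refine h2.trans ?_
    have b1 : Real.exp (u / 100) * Real.exp (z / 3 + u / 100) = Real.exp (z / 3 + u / 50) := by
      rw [← Real.exp_add]; congr 1; ring
    have b2 : Real.exp (u / 100) * Real.exp (4 / 3 * z - 20 * u) ≤
        Real.exp (4 / 3 * z - 19 * u - ξ) * X1 := by
      refine le_trans ?_ (mul_le_mul_of_nonneg_left a1 (Real.exp_pos _).le)
      simp only [← Real.exp_add, Real.exp_le_exp]
      linarith
    have b3 : Real.exp (8 / 3 * z - 50 * u) ≤ Real.exp (8 / 3 * z - 50 * u - ξ) * X1 := by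
      refine le_trans ?_ (mul_le_mul_of_nonneg_left a1 (Real.exp_pos _).le)
      simp only [← Real.exp_add, Real.exp_le_exp]
      linarith
    calc _ = C * ((Real.exp (u / 100) * Real.exp (z / 3 + u / 100) * X1 +
          Real.exp (u / 100) * Real.exp (4 / 3 * z - 20 * u)) * A +
          t * Real.exp (8 / 3 * z - 50 * u) * n2 S x) := by ring
      _ ≤ C * ((Real.exp (z / 3 + u / 50) * X1 + Real.exp (4 / 3 * z - 19 * u - ξ) * X1) * A +
          t * (Real.exp (8 / 3 * z - 50 * u - ξ) * X1) * n2 S x) := by rw [b1]; gcongr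
      _ = _ := by rw [hβ]; ring
  have h2 : ∑ d ∈ ball (Real.exp y / Real.exp ξ), (N d)⁻¹ ≤ C1 * (800 * Real.exp (u / 100)) := by
    refine (Finset.sum_le_sum_of_subset_of_nonneg (ball_mono (Y := Real.exp (8 * u)) ?_)
      fun d _ _ => inv_nonneg.2 (N_nonneg d)).trans ((h1 _ (Real.one_le_exp (by linarith))).trans ?_)
    · rw [← Real.exp_sub, Real.exp_le_exp]; linarith
    · rw [Real.log_exp]
      have := Real.add_one_le_exp (u / 100)
      exact mul_le_mul_of_nonneg_left (by linarith) hC1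
  have h3 := (high_le (Y := Real.exp y) (Real.exp_pos ξ) (fun m =>
    ‖cs (Sdiv (sfI (Real.exp a) (2 * Real.exp a)) g) (fun j => cs S x (g * j) * conj (g3 j) *
        phr r j * pw (Real.exp a) (g * j) s) m‖ ^ 2) fun _ => sq_nonneg _).trans
    (Finset.sum_le_sum key)
  rw [← Finset.mul_sum] at h3
  obtain ⟨R, hR⟩ : ∃ R, R = Real.exp (p / 3) + Real.exp (2 * p) := ⟨_, rfl⟩
  have t1 : Real.exp γ * Real.exp y * Real.exp (u / 100) * Real.exp (z / 3 + u / 50) ≤
      R * Real.exp (4 / 3 * z - 14 / 5 * u) := by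
    simp only [← Real.exp_add, hR]
    exact c3_term 1 (by norm_num) (by norm_num) (by linarith)
  have t2 : Real.exp γ * Real.exp y * Real.exp (u / 100) * Real.exp (4 / 3 * z - 19 * u - ξ) ≤
      R * Real.exp (4 / 3 * z - 14 / 5 * u) := by
    simp only [← Real.exp_add, hR]
    exact c3_term 1 (by norm_num) (by norm_num) (by linarith)
  have t3 : Real.exp γ * Real.exp y * Real.exp (u / 100) * Real.exp (8 / 3 * z - 50 * u - ξ) ≤
      2 * (R * Real.exp (8 / 3 * z - 10 * u)) := by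
    refine le_trans ?_ (le_mul_of_one_le_left (by rw [hR]; positivity) one_le_two)
    simp only [← Real.exp_add, hR]
    exact c3_term 1 (by norm_num) (by norm_num) (by linarith)
  rw [← hR]
  calc _ ≤ Real.exp γ * (2 * β * Real.exp y * (C1 * (800 * Real.exp (u / 100)))) :=
        mul_le_mul_of_nonneg_left (h3.trans (mul_le_mul_of_nonneg_left h2 (by positivity)))
          (Real.exp_pos _).le
    _ = C * C1 * 1600 * ((Real.exp γ * Real.exp y * Real.exp (u / 100) * Real.exp (z / 3 + u / 50) +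
          Real.exp γ * Real.exp y * Real.exp (u / 100) * Real.exp (4 / 3 * z - 19 * u - ξ)) * A +
          t * (Real.exp γ * Real.exp y * Real.exp (u / 100) * Real.exp (8 / 3 * z - 50 * u - ξ)) *
            n2 S x) := by rw [hβ]; ring
    _ ≤ C * C1 * 1600 * ((R * Real.exp (4 / 3 * z - 14 / 5 * u) +
          R * Real.exp (4 / 3 * z - 14 / 5 * u)) * A +
          t * (2 * (R * Real.exp (8 / 3 * z - 10 * u))) * n2 S x) := by gcongr
    _ = _ := by ring

end Crest.Agent.R12
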