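import Crest.Agent.R12.Core3AuxA

/-!
# R12 / Core3AuxB : the major frequencies and the pointwise bound
-/

set_option autoImplicit false

noncomputable section

open scoped Classical ComplexConjugate Topology
open MeasureTheory Filter

namespace Crest.Agent.R12

open Crest.Agent.R17

theorem c3_F2 (S : Finset O) (x : O → ℂ) (M Q : ℝ) : 0 ≤ F2 S x M Q :=
  Finset.sum_nonneg fun _ _ => Finset.sum_nonneg fun _ _ => sq_nonneg _

theorem c3_fin1 {X C y P k1 F' ε n τ m1 m2 k3 q1 q2 k5 A F e w t Q1 Q2 V g R a1 a2 a3 : ℝ}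
    (h : X ≤ C * y * (P * (k1 * F' + ε * n * (τ * m1 * m2 + k3 + q1 * q2)) + k5 * A))
    (e1 : F' ≤ F) (e2 : ε ≤ e) (e3 : τ ≤ w * t) (e5 : q1 ≤ 3 * Q1) (e6 : q2 ≤ 2 * Q2) (hV : V = g * y)
    (t1 : V * P * k1 ≤ R * a1) (t2 : V * P * e * (w * m1 * m2) ≤ R * a2) (t3 : V * P * e * k3 ≤ R * a2)
    (t4 : V * P * e * (Q1 * Q2) ≤ R * a2) (t5 : V * k5 ≤ R * a3) (ht : 1 ≤ t) (hC : 0 ≤ C)
    (hy : 0 ≤ y) (hP : 0 ≤ P) (hk1 : 0 ≤ k1) (hε : 0 ≤ ε) (hτ : 0 ≤ τ) (hn : 0 ≤ n) (hm1 : 0 ≤ m1)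
    (hm2 : 0 ≤ m2) (hk3 : 0 ≤ k3) (hq1 : 0 ≤ q1) (hq2 : 0 ≤ q2) (hg : 0 ≤ g) (hA : 0 ≤ A)
    (hF : 0 ≤ F) (hR : 0 ≤ R) (ha1 : 0 ≤ a1) (ha2 : 0 ≤ a2) (ha3 : 0 ≤ a3) (hQ1 : 0 ≤ Q1) :
    g * X ≤ C * 8 * R * (a3 * A + t * (a2 * n + a1 * F)) := by
  have he := hε.trans e2
  have h1 : R * a1 ≤ 8 * t * (R * a1) := le_mul_of_one_le_left (by positivity) (by linarith)
  have h2 : R * a2 ≤ t * (R * a2) := le_mul_of_one_le_left (by positivity) ht
  have h3 : R * a3 ≤ 8 * (R * a3) := le_mul_of_one_le_left (by positivity) (by norm_num)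
  have h4 : t * (V * P * e * (w * m1 * m2)) ≤ t * (R * a2) :=
    mul_le_mul_of_nonneg_left t2 (by linarith)
  calc _ ≤ g * (C * y * (P * (k1 * F + e * n * (w * t * m1 * m2 + k3 + 3 * Q1 * (2 * Q2))) +
        k5 * A)) := by
        refine mul_le_mul_of_nonneg_left (h.trans ?_) hg
        gcongr
    _ = C * (V * P * k1 * F + (t * (V * P * e * (w * m1 * m2)) + V * P * e * k3 +
        6 * (V * P * e * (Q1 * Q2))) * n + V * k5 * A) := by rw [hV]; ring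
    _ ≤ C * (8 * t * (R * a1) * F + 8 * (t * (R * a2)) * n + 8 * (R * a3) * A) := by
        refine mul_le_mul_of_nonneg_left (add_le_add (add_le_add
          (mul_le_mul_of_nonneg_right (t1.trans h1) hF) (mul_le_mul_of_nonneg_right ?_ hn))
          (mul_le_mul_of_nonneg_right (t5.trans h3) hA)) hC
        linarith
    _ = _ := by ring

set_option maxHeartbeats 400000 in
theorem c3_B1 : ∃ B0 : ℕ, ∀ la : ℝ, 0 < la → ∃ C : ℝ, 0 ≤ C ∧
    ∀ z u a b c : ℝ, u = la * z → C3P z u a b c → ∀ w dz γ η p y : ℝ, w = (126 * B0 + 20) * u →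
    100 * (B0 * w + w + 10 * u) ≤ z → 4 * (3 * w + 300 * u) ≤ dz → 0 ≤ γ → γ ≤ η → η ≤ 3 * u →
    y = p + 2 * a - b - 3 * u - 2 * γ → ∀ (S : Finset O) (x : O → ℂ) (g r : O) (s : ℂ),
    In S (Real.exp b) → SF g → SF r → N (g * r) = Real.exp η → |s.re| ≤ 4 →
    Real.exp γ * ∑ m ∈ (ball (Real.exp y)).filter (Maj (Real.exp (60 * u))),
      ‖Xs (sfI (Real.exp a) (2 * Real.exp a)) (fun j => conj (cs S x j)) (Real.exp a) g r m s‖ ^ 2 ≤
      C * (Real.exp (p / 3) + Real.exp (2 * p)) * (Real.exp (4 / 3 * z - 14 / 5 * u) *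
        ∑ k ∈ (sfI (Real.exp a) (2 * Real.exp a)).filter (fun k => g * r ∣ k),
          ‖cs S x k‖ ^ 2 * dv k +
        (1 + |s.im|) ^ B0 * (Real.exp (8 / 3 * z - 10 * u) * n2 S x +
          Real.exp (5 / 3 * z + dz / 4) * F2 S x (Real.exp b) (Real.exp dz))) := by
  obtain ⟨B, h⟩ := maj_va
  refine ⟨B, fun la hla => ?_⟩
  obtain ⟨C, hC, h⟩ := h (la / 1000) (by positivity)
  refine ⟨C * 8, by positivity,
    fun z u a b c hu P w dz γ η p y hw w1 w2 h0 h1 h2 hy S x g r s hS hg hr hη hs => ?_⟩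
  obtain ⟨p1, p2, p3, p4, p5, p6, p7, p8, p9⟩ := P
  have hB : 0 ≤ (B : ℝ) * u := by positivity
  have hw0 : 20 * u ≤ w := by rw [hw]; linarith
  have hBw : 0 ≤ (B : ℝ) * w := mul_nonneg (Nat.cast_nonneg _) (by linarith)
  have h3 := h S x (Real.exp b) (Real.exp a) (Real.exp y) (Real.exp (60 * u)) (Real.exp (62 * u))
    (Real.exp w) (Real.exp w) (Real.exp (126 * u)) g r s (Real.one_le_exp (by linarith)) hS hg hr
    (Real.exp_pos _).le (Real.one_le_exp (by linarith)) (Real.one_le_exp (by linarith))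
    (Real.one_le_exp (by linarith)) (Real.one_le_exp (by linarith)) (Real.exp_pos _)
    (by rw [hη, ← p7]
        simp only [← Real.exp_add, ← Real.exp_nat_mul, Real.exp_le_exp]
        push_cast; linarith)
    (by rw [hη]
        refine le_trans (b := Real.exp c * Real.exp c * Real.exp η * Real.exp (62 * u) *
          Real.exp (60 * u)) (by gcongr; rw [p7]; norm_num) ?_
        simp only [← Real.exp_add, Real.exp_le_exp]
        linarith) hs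
  obtain ⟨A, hA⟩ : ∃ A, A = ∑ k ∈ (sfI (Real.exp a) (2 * Real.exp a)).filter (fun k => g * r ∣ k),
    ‖cs S x k‖ ^ 2 * dv k := ⟨_, rfl⟩
  have hA0 : 0 ≤ A := hA ▸ Finset.sum_nonneg fun k _ => mul_nonneg (sq_nonneg _) (Nat.cast_nonneg _)
  have hn := cl_n2 S x
  obtain ⟨t, ht⟩ : ∃ t, t = (1 + |s.im|) ^ B := ⟨_, rfl⟩
  have ht1 : 1 ≤ t := ht ▸ one_le_pow₀ (by linarith [abs_nonneg s.im])
  obtain ⟨F, hF⟩ : ∃ F, F = F2 S x (Real.exp b) (Real.exp dz) := ⟨_, rfl⟩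
  have hF0 : 0 ≤ F := hF ▸ c3_F2 _ _ _ _
  have e1 : F2 S x (Real.exp b) (Real.exp (126 * u) ^ 2 * Real.exp w) ≤ F := by
    rw [hF]
    refine F2_mono _ _ _ ?_
    simp only [← Real.exp_add, ← Real.exp_nat_mul, Real.exp_le_exp]
    push_cast; linarith
  have e2 := c3_eps hla hu (Real.exp_add a b).symm (by linarith)
  have e3 : (Real.exp w + |s.im|) ^ B ≤ Real.exp (B * w) * t := by
    rw [ht, Real.exp_nat_mul, ← mul_pow]
    have := Real.one_le_exp (by linarith : 0 ≤ w)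
    have := abs_nonneg s.im
    exact pow_le_pow_left₀ (by positivity) (by nlinarith) _
  have e4 : Real.exp (126 * u) ^ B = Real.exp (w - 20 * u) := by
    rw [← Real.exp_nat_mul, hw]; congr 1; ring
  have e5 : Real.exp a + Real.exp b + (Real.exp a * Real.exp b) ^ (2 / 3 : ℝ) ≤
      3 * Real.exp (4 / 3 * z + u / 50) := by
    rw [← Real.exp_add, ← Real.exp_mul]
    have := Real.exp_le_exp.2 (by linarith : a ≤ 4 / 3 * z + u / 50)
    have := Real.exp_le_exp.2 (by linarith : b ≤ 4 / 3 * z + u / 50)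
    have := Real.exp_le_exp.2 (by linarith : (a + b) * (2 / 3) ≤ 4 / 3 * z + u / 50)
    linarith
  have e6 : Real.exp a / Real.exp w + Real.sqrt (Real.exp a) ≤ 2 * Real.exp (a - w) := by
    rw [← Real.exp_sub, ← Real.exp_half]
    have := Real.exp_le_exp.2 (by linarith : a / 2 ≤ a - w)
    linarith
  obtain ⟨R, hR⟩ : ∃ R, R = Real.exp (p / 3) + Real.exp (2 * p) := ⟨_, rfl⟩
  have hR0 : 0 ≤ R := by rw [hR]; positivity
  obtain ⟨V, hV⟩ : ∃ V, V = Real.exp γ * Real.exp y ^ (1 / 3 : ℝ) := ⟨_, rfl⟩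
  have t1 : V * Real.exp (w - 20 * u) * (Real.exp w ^ 2 * Real.exp a ^ (5 / 3 : ℝ) *
      Real.exp b ^ (-(1 / 3 : ℝ))) ≤ R * Real.exp (5 / 3 * z + dz / 4) := by
    simp only [hV, ← Real.exp_add, ← Real.exp_mul, ← Real.exp_nat_mul, hR]
    exact c3_term (1 / 3) (by norm_num) (by norm_num) (by push_cast; linarith)
  have t2 : V * Real.exp (w - 20 * u) * Real.exp (u / 100) * (Real.exp (B * w) *
      (Real.exp b * Real.exp a) * (Real.exp a / Real.sqrt (Real.exp b)) ^ (2 / 5 : ℝ)) ≤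
      R * Real.exp (8 / 3 * z - 10 * u) := by
    simp only [hV, ← Real.exp_add, ← Real.exp_mul, ← Real.exp_half, ← Real.exp_sub, hR]
    exact c3_term (1 / 3) (by norm_num) (by norm_num) (by linarith)
  have t3 : V * Real.exp (w - 20 * u) * Real.exp (u / 100) * (Real.exp b ^ (2 / 3 : ℝ) *
      Real.exp a ^ (5 / 3 : ℝ) / Real.exp w ^ 2) ≤ R * Real.exp (8 / 3 * z - 10 * u) := by
    simp only [hV, ← Real.exp_add, ← Real.exp_mul, ← Real.exp_nat_mul, ← Real.exp_sub, hR]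
    exact c3_term (1 / 3) (by norm_num) (by norm_num) (by push_cast; linarith)
  have t4 : V * Real.exp (w - 20 * u) * Real.exp (u / 100) * (Real.exp (4 / 3 * z + u / 50) *
      Real.exp (a - w)) ≤ R * Real.exp (8 / 3 * z - 10 * u) := by
    simp only [hV, ← Real.exp_add, ← Real.exp_mul, hR]
    exact c3_term (1 / 3) (by norm_num) (by norm_num) (by linarith)
  have t5 : V * (Real.exp (60 * u) * (Real.exp a / Real.exp η) / Real.exp (62 * u)) ≤
      R * Real.exp (4 / 3 * z - 14 / 5 * u) := by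
    simp only [hV, ← Real.exp_add, ← Real.exp_mul, ← Real.exp_sub, hR]
    exact c3_term (1 / 3) (by norm_num) (by norm_num) (by linarith)
  rw [← hA, e4, hη] at h3
  rw [← hA, ← ht, ← hF, ← hR]
  exact c3_fin1 h3 e1 e2 e3 e5 e6 hV t1 t2 t3 t4 t5 ht1 hC (by positivity) (by positivity)
    (by positivity) (by positivity) (by positivity) hn (by positivity) (by positivity)
    (by positivity) (by positivity) (by positivity) (by positivity) hA0 hF0 hR0 (by positivity)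
    (by positivity) (by positivity) (by positivity)

theorem c3_n2 {K : ℝ} (hK : 0 < K) (W : O → ℂ) {h : O} (hh : Prim h) (r : O) {s : ℂ}
    (hs : |s.re| ≤ 4) :
    n2 (Sdiv (sfI K (2 * K)) h) (fun j => W (h * j) * conj (g3 j) * phr r j * pw K (h * j) s) ≤
      256 * ∑ k ∈ (sfI K (2 * K)).filter (fun k => h ∣ k), ‖W k‖ ^ 2 := by
  rw [c1_sum _ hh.ne_zero, Finset.mul_sum]
  refine Finset.sum_le_sum fun j hj => ?_
  obtain ⟨a1, a2, a3⟩ := mem_sfI.1 ((c1_mem hh.ne_zero).1 hj)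
  have h1 := c1_pw hK a2.le a3 hs
  have h2 := norm_g3_le (a1.1.of_mul_left hh)
  have h3 := norm_phr_le r j
  rw [norm_mul, norm_mul, norm_mul, RCLike.norm_conj]
  calc _ ≤ (‖W (h * j)‖ * 1 * 1 * 16) ^ 2 := by gcongr
    _ = _ := by ring

theorem c3_split (A : Finset O) (p q : O → Prop) {F : O → ℝ} (hF : ∀ k, 0 ≤ F k) :
    ∑ k ∈ A, F k ≤ ∑ k ∈ A.filter p, F k + ∑ k ∈ A.filter (fun k => ¬ p k ∧ q k), F k +
      ∑ k ∈ A.filter (fun k => ¬ q k), F k := by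
  simp only [Finset.sum_filter, ← Finset.sum_add_distrib]
  refine Finset.sum_le_sum fun k _ => ?_
  have := hF k
  by_cases h1 : p k <;> by_cases h2 : q k <;> simp [h1, h2, this]

theorem c3_la {lam0 δ W : ℝ} (h0 : 0 < lam0) (hδ : 0 < δ) (hW : 20 ≤ W) (B : ℕ) : ∃ la : ℝ, 0 < la ∧
    la ≤ lam0 ∧ 100 * (B * (W * la) + W * la + 10 * la) ≤ 1 ∧ 4 * (3 * (W * la) + 300 * la) ≤ δ := by
  have h1 : 0 < 100 * (B * W + W + 10) := by positivity
  have h2 : 0 < 4 * (3 * W + 300) := by positivity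
  refine ⟨min lam0 (min (1 / (100 * (B * W + W + 10))) (δ / (4 * (3 * W + 300)))), by positivity,
    min_le_left _ _, ?_, ?_⟩
  · have := (le_div_iff₀ h1).1 ((min_le_right lam0 _).trans
      (min_le_left (1 / (100 * (B * W + W + 10))) (δ / (4 * (3 * W + 300)))))
    linarith
  · have := (le_div_iff₀ h2).1 ((min_le_right lam0 _).trans
      (min_le_right (1 / (100 * (B * W + W + 10))) (δ / (4 * (3 * W + 300)))))
    linarith

theorem c3_fin2 {C R α n A G : ℝ} (h : n ≤ 256 * A) (hC : 0 ≤ C) (hR : 0 ≤ R) (hα : 0 ≤ α)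
    (hG : 0 ≤ G) : C * R * α * n ≤ 256 * C * R * (α * A + G) :=
  calc _ ≤ C * R * α * (256 * A) := by gcongr
    _ = 256 * C * R * (α * A) := by ring
    _ ≤ _ := by gcongr; linarith

theorem c3_fin3 {C0 C1 C2 C3 R X : ℝ} (h1 : 0 ≤ C1) (h2 : 0 ≤ C2) (h3 : 0 ≤ C3) (h : 0 ≤ R * X) :
    256 * C0 * R * X ≤ (256 * C0 + C1 + 256 * C2 + C3) * R * X := by
  nlinarith [mul_nonneg h1 h, mul_nonneg h2 h, mul_nonneg h3 h]

theorem c3_fin4 {B W la z : ℝ} (h : 100 * (B * (W * la) + W * la + 10 * la) ≤ 1) (hz : 0 ≤ z) :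
    100 * (B * (W * (la * z)) + W * (la * z) + 10 * (la * z)) ≤ z := by
  linarith [mul_le_mul_of_nonneg_right h hz]

theorem c3_fin5 {W la z δ : ℝ} (h : 4 * (3 * (W * la) + 300 * la) ≤ δ) (hz : 0 ≤ z) :
    4 * (3 * (W * (la * z)) + 300 * (la * z)) ≤ δ * z := by
  linarith [mul_le_mul_of_nonneg_right h hz]

theorem c3_fin6 {C0 C1 C2 C3 R X : ℝ} (h0 : 0 ≤ C0) (h : 0 ≤ R * X) :
    C1 * R * X + 256 * C2 * R * X + C3 * R * X ≤ (256 * C0 + C1 + 256 * C2 + C3) * R * X := by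
  nlinarith [mul_nonneg h0 h]

set_option maxHeartbeats 400000 in
theorem c3_pt {δ : ℝ} (hδ : 0 < δ) : ∃ (la C : ℝ) (B : ℕ), 0 < la ∧ 1000 * la ≤ 1 ∧ 100 * la ≤ δ ∧
    0 ≤ C ∧ ∀ z u a b c : ℝ, u = la * z → C3P z u a b c → ∀ (S : Finset O) (x : O → ℂ),
    In S (Real.exp b) → ∀ g r : O, SF g → SF r → ∀ s : ℂ, |s.re| ≤ 3 → ∀ Y : ℝ, 0 < Y →
    N g * ∑ m ∈ ball Y, ‖Xs (sfI (Real.exp a) (2 * Real.exp a)) (fun j => conj (cs S x j))
        (Real.exp a) g r m s‖ ^ 2 ≤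
      C * ((Y / (Real.exp a ^ 2 / (Real.exp b * Real.exp u ^ 3 * N g ^ 2))) ^ (1 / 3 : ℝ) +
        (Y / (Real.exp a ^ 2 / (Real.exp b * Real.exp u ^ 3 * N g ^ 2))) ^ 2) *
        (Real.exp (4 / 3 * z - 14 / 5 * u) *
          ∑ k ∈ (sfI (Real.exp a) (2 * Real.exp a)).filter (fun k => g * r ∣ k),
            ‖cs S x k‖ ^ 2 * dv k +
          if N (g * r) ≤ Real.exp (3 * u) then (1 + |s.im|) ^ B *
            (Real.exp (8 / 3 * z - 10 * u) * n2 S x +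
              Real.exp (5 / 3 * z + δ * z / 4) * F2 S x (Real.exp b) (Real.exp (δ * z))) else 0) := by
  obtain ⟨B, h1⟩ := c3_B1
  obtain ⟨lam0, hl0, h3⟩ := c3_B3
  have hB : (0 : ℝ) ≤ B := Nat.cast_nonneg _
  obtain ⟨la, hla, l1, l2, l3⟩ := c3_la hl0 hδ (W := 126 * B + 20) (by linarith) B
  have l4 : 0 ≤ B * la := by positivity
  have l5 : 0 ≤ B * (B * la) := by positivity
  obtain ⟨C0, hC0, h0⟩ := c3_A hla
  obtain ⟨C1, hC1, h1⟩ := h1 la hla
  obtain ⟨C2, hC2, h2⟩ := c3_B2 hla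
  obtain ⟨C3, hC3, h3⟩ := h3 la hla l1
  refine ⟨la, 256 * C0 + C1 + 256 * C2 + C3, B + 2, hla, by nlinarith, by nlinarith, by positivity,
    fun z u a b c hu P S x hS g r hg hr s hs Y hY => ?_⟩
  have hz : 0 ≤ z := by linarith [P.hu, P.hz]
  have hh := hg.1.mul hr.1
  have hKa := Real.exp_pos a
  obtain ⟨A, hA⟩ : ∃ A, A = ∑ k ∈ (sfI (Real.exp a) (2 * Real.exp a)).filter (fun k => g * r ∣ k),
    ‖cs S x k‖ ^ 2 * dv k := ⟨_, rfl⟩
  have hA0 : 0 ≤ A := hA ▸ Finset.sum_nonneg fun k _ => mul_nonneg (sq_nonneg _) (Nat.cast_nonneg _)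
  have hA1 : ∑ k ∈ (sfI (Real.exp a) (2 * Real.exp a)).filter (fun k => g * r ∣ k),
      ‖cs S x k‖ ^ 2 ≤ A := hA ▸ Finset.sum_le_sum fun k hk => le_mul_of_one_le_right (sq_nonneg _)
        (one_le_dv (mem_sfI.1 (Finset.mem_filter.1 hk).1).1.1.ne_zero)
  have hn := cl_n2 S x
  have hF := c3_F2 S x (Real.exp b) (Real.exp (δ * z))
  obtain ⟨γ, hγ⟩ : ∃ γ, N g = Real.exp γ := ⟨_, (Real.exp_log (N_pos hg.1.ne_zero)).symm⟩
  obtain ⟨η, hη⟩ : ∃ η, N (g * r) = Real.exp η := ⟨_, (Real.exp_log (N_pos hh.ne_zero)).symm⟩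
  obtain ⟨y, rfl⟩ : ∃ y, Y = Real.exp y := ⟨_, (Real.exp_log hY).symm⟩
  have hγ0 : 0 ≤ γ := Real.one_le_exp_iff.1 (hγ ▸ one_le_N hg.1.ne_zero)
  have hγη : γ ≤ η := Real.exp_le_exp.1 (hγ ▸ hη ▸ N_le_of_dvd hh.ne_zero (dvd_mul_right _ _))
  obtain ⟨p, hp⟩ : ∃ p, y = p + 2 * a - b - 3 * u - 2 * γ := ⟨y - (2 * a - b - 3 * u - 2 * γ), by ring⟩
  have e0 : Real.exp y / (Real.exp a ^ 2 / (Real.exp b * Real.exp u ^ 3 * N g ^ 2)) = Real.exp p := by
    simp only [hγ, ← Real.exp_add, ← Real.exp_nat_mul, ← Real.exp_sub]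
    congr 1; push_cast; linarith
  have e1 : Real.exp p ^ (1 / 3 : ℝ) + Real.exp p ^ 2 = Real.exp (p / 3) + Real.exp (2 * p) := by
    rw [← Real.exp_mul, ← Real.exp_nat_mul, mul_one_div, Nat.cast_ofNat]
  rw [e0, e1, ← hA, hγ]
  obtain ⟨R, hR⟩ : ∃ R, R = Real.exp (p / 3) + Real.exp (2 * p) := ⟨_, rfl⟩
  have hR0 : 0 ≤ R := by rw [hR]; positivity
  obtain ⟨α, hα⟩ : ∃ α, α = Real.exp (4 / 3 * z - 14 / 5 * u) := ⟨_, rfl⟩
  have hα0 : 0 ≤ α := hα ▸ (Real.exp_pos _).le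
  obtain ⟨G, hG⟩ : ∃ G, G = if N (g * r) ≤ Real.exp (3 * u) then (1 + |s.im|) ^ (B + 2) *
      (Real.exp (8 / 3 * z - 10 * u) * n2 S x +
        Real.exp (5 / 3 * z + δ * z / 4) * F2 S x (Real.exp b) (Real.exp (δ * z))) else 0 := ⟨_, rfl⟩
  have hG0 : 0 ≤ G := by rw [hG]; split_ifs <;> positivity
  rw [← hR, ← hα, ← hG]
  have hpos : 0 ≤ R * (α * A + G) := by positivity
  by_cases hemp : (sfI (Real.exp a) (2 * Real.exp a)).filter (fun k => g * r ∣ k) = ∅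
  · simp only [Xs, hemp, Finset.sum_empty, norm_zero, ne_eq, OfNat.ofNat_ne_zero, not_false_eq_true,
      zero_pow, Finset.sum_const_zero, mul_zero]
    positivity
  by_cases hy0 : y < 0
  · rw [ball_eq_empty (Real.exp_lt_one_iff.2 hy0), Finset.sum_empty, mul_zero]
    positivity
  obtain ⟨k0, hk0⟩ := Finset.nonempty_iff_ne_empty.2 hemp
  obtain ⟨hk1, hk2⟩ := Finset.mem_filter.1 hk0
  have hSF : SF (g * r) := (mem_sfI.1 hk1).1.of_dvd hh hk2
  have hηa : η ≤ c + a := by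
    rw [← Real.exp_le_exp, Real.exp_add, P.c16, ← hη]
    linarith [N_le_of_dvd (mem_sfI.1 hk1).1.1.ne_zero hk2, (mem_sfI.1 hk1).2.2]
  have hs' : |(conj s).re| ≤ 3 := hs
  obtain ⟨w, hw⟩ : ∃ w : O → ℂ, w = fun j => cs S x (g * r * j) * conj (g3 j) * phr r j *
    pw (Real.exp a) (g * r * j) (conj s) := ⟨_, rfl⟩
  have hX : ∀ m, ‖Xs (sfI (Real.exp a) (2 * Real.exp a)) (fun j => conj (cs S x j))
      (Real.exp a) g r m s‖ ^ 2 ≤ ‖cs (Sdiv (sfI (Real.exp a) (2 * Real.exp a)) (g * r)) w m‖ ^ 2 :=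
    fun m => pow_le_pow_left₀ (norm_nonneg _)
      (hw ▸ norm_Xs_le_cs (fun j hj => (mem_sfI.1 hj).1) _ hKa.le hg hr m s) 2
  have hw2 : n2 (Sdiv (sfI (Real.exp a) (2 * Real.exp a)) (g * r)) w ≤ 256 * A :=
    hw ▸ (c3_n2 hKa (cs S x) hh r (hs'.trans (by norm_num))).trans (by linarith)
  have hsub : Sdiv (sfI (Real.exp a) (2 * Real.exp a)) (g * r) ⊆ sfb (Real.exp (c + a - η)) := by
    intro j hj
    obtain ⟨a1, -, a2⟩ := in_Sdiv (in_sfI (by linarith)) hSF j hj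
    refine mem_sfb.2 ⟨a1, a2.trans_eq ?_⟩
    rw [Real.exp_sub, Real.exp_add, P.c16, hη, mul_div_assoc]
  have hE := (Real.exp_pos γ).le
  by_cases hc : 3 * u < η ∨ 2 * u < p
  · have h4 := h0 z u a b c hu P γ η p y hγ0 hγη hηa hp hc _ w hsub
    rw [← hR, ← hα] at h4
    exact (mul_le_mul_of_nonneg_left (Finset.sum_le_sum fun m _ => hX m) hE).trans
      (h4.trans ((c3_fin2 hw2 hC0 hR0 hα0 hG0).trans (c3_fin3 hC1 hC2 hC3 hpos)))
  obtain ⟨hc1, hc2⟩ := not_or.1 hc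
  rw [not_lt] at hc1 hc2 hy0
  have hη3 : N (g * r) ≤ Real.exp (3 * u) := hη ▸ Real.exp_le_exp.2 hc1
  have h4 := h1 z u a b c hu P ((126 * B + 20) * u) (δ * z) γ η p y rfl
    (hu ▸ c3_fin4 l2 hz) (hu ▸ c3_fin5 l3 hz) hγ0 hγη hc1 hp S x g r s hS hg hr hη
    (hs.trans (by norm_num))
  have h5 := h2 z u a b c hu P γ η p y hγ0 hγη hc1 hp hc2 hy0 _ w hsub
  have h6 := h3 z u a b c hu P γ p y hγ0 hp hc2 S x (g * r) r (conj s) hS hSF hη3 hr.1.ne_zero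
    ((N_le_of_dvd hh.ne_zero (dvd_mul_left _ _)).trans hη3) hs'
  rw [← hA] at h4
  rw [← hw, Complex.conj_im, abs_neg] at h6
  rw [← hR, ← hα] at h4 h5 h6
  rw [if_pos hη3] at hG
  have ht : 1 ≤ 1 + |s.im| := by linarith [abs_nonneg s.im]
  have g1 : (1 + |s.im|) ^ B * (Real.exp (8 / 3 * z - 10 * u) * n2 S x +
      Real.exp (5 / 3 * z + δ * z / 4) * F2 S x (Real.exp b) (Real.exp (δ * z))) ≤ G := by
    rw [hG]
    exact mul_le_mul_of_nonneg_right (pow_le_pow_right₀ ht (by omega)) (by positivity)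
  have g2 : (1 + |s.im|) ^ 2 * Real.exp (8 / 3 * z - 10 * u) * n2 S x ≤ G := by
    rw [hG, mul_assoc]
    exact mul_le_mul (pow_le_pow_right₀ ht (by omega)) (le_add_of_nonneg_right (by positivity))
      (by positivity) (by positivity)
  have h7 := c3_split (ball (Real.exp y)) (Maj (Real.exp (60 * u)))
    (Low (Real.exp (2 * a - b - 9 * u))) (F := fun m => ‖Xs (sfI (Real.exp a) (2 * Real.exp a))
      (fun j => conj (cs S x j)) (Real.exp a) g r m s‖ ^ 2) fun _ => sq_nonneg _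
  have h8 := (mul_le_mul_of_nonneg_left (Finset.sum_le_sum fun m _ => hX m) hE).trans h5
  have h9 := (mul_le_mul_of_nonneg_left (Finset.sum_le_sum fun m _ => hX m) hE).trans h6
  refine (mul_le_mul_of_nonneg_left h7 hE).trans ?_
  rw [mul_add, mul_add]
  have b1 := h4.trans (mul_le_mul_of_nonneg_left (add_le_add_right g1 (α * A)) (mul_nonneg hC1 hR0))
  have b3 := h9.trans (mul_le_mul_of_nonneg_left (add_le_add (mul_le_mul_of_nonneg_left hA1 hα0) g2)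
    (mul_nonneg hC3 hR0))
  exact (add_le_add (add_le_add b1 (h8.trans (c3_fin2 hw2 hC2 hR0 hα0 hG0))) b3).trans
    (c3_fin6 hC0 hpos)

end Crest.Agent.R12
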