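import Crest.Agent.R12.Basic1

/-!
# R12 / Dec1 : combinatorial identities, part 1
-/

set_option autoImplicit false

noncomputable section

open scoped Classical ComplexConjugate Topology
open MeasureTheory Filter

namespace Crest.Agent.R12

open Crest.Agent.R17

/-- the sum of the boxes of the prime factors of norm `> w` -/
def nu (w : ℝ) (r : O) : ℕ := (((pf r).filter (fun p => w < N p)).val.map box).sum
/-- `∑_{M' ≤ M, sum M' ≤ ρ} (-1)^{card M'}` (with multiplicity) -/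
def Cm (ρ : ℕ) (M : Multiset ℕ) : ℂ :=
  (M.powerset.map (fun M' => if M'.sum ≤ ρ then (-1 : ℂ) ^ Multiset.card M' else 0)).sum
/-- Dirichlet convolution over primary divisors -/
def conv (α β : O → ℂ) (n : O) : ℂ := ∑ b ∈ pdiv n, α (n / b) * β b

theorem d1_pf_prod {J : Finset O} (hJ : ∀ p ∈ J, Prime p ∧ Prim p) :
    pf (∏ p ∈ J, p) = J ∧ SF (∏ p ∈ J, p) := by
  induction J using Finset.induction_on with
  | empty => exact ⟨by rw [Finset.prod_empty, b1_pf_one], by rw [Finset.prod_empty]; exact b1_sf_one⟩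
  | insert q I hq ih =>
    have h1 := hJ q (Finset.mem_insert_self _ _)
    have h2 : ∀ p ∈ I, Prime p ∧ Prim p := fun p hp => hJ p (Finset.mem_insert_of_mem hp)
    obtain ⟨a1, a2⟩ := ih h2
    rw [Finset.prod_insert hq]
    refine ⟨by rw [b1_pf_prime_mul h1.1 h1.2 a2.1.ne_zero, a1], b1_sf_mul ⟨h1.2, h1.1.squarefree⟩ a2 ?_⟩
    exact IsCoprime.prod_right fun p hp =>
      Prim.b3_isCoprime_of_ne h1.1 h1.2 (h2 p hp).1 (h2 p hp).2 fun h => hq (h ▸ hp)

theorem d1_sub {n : O} (hn : SF n) {J : Finset O} (hJ : J ⊆ pf n) : ∀ p ∈ J, Prime p ∧ Prim p :=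
  fun _ hp => ⟨((mem_pf hn.1.ne_zero).1 (hJ hp)).1, ((mem_pf hn.1.ne_zero).1 (hJ hp)).2.1⟩

theorem dec1_split {n : O} (hn : SF n) {J : Finset O} (hJ : J ⊆ pf n) :
    n = (∏ p ∈ J, p) * ∏ p ∈ pf n \ J, p := by
  rw [mul_comm, Finset.prod_sdiff hJ, hn.prod_pf]

/-- primary divisors of a squarefree primary `n` ↔ subsets of `pf n` -/
theorem sum_pdiv_powerset {n : O} (hn : SF n) {E : Type*} [AddCommMonoid E] (f : O → E) :
    ∑ r ∈ pdiv n, f r = ∑ J ∈ (pf n).powerset, f (∏ p ∈ J, p) := by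
  have h0 := hn.1.ne_zero
  refine Finset.sum_nbij' pf (fun J => ∏ p ∈ J, p) (fun r hr => ?_) (fun J hJ => ?_) (fun r hr => ?_)
    (fun J hJ => ?_) fun r hr => ?_
  · obtain ⟨a1, a2⟩ := (mem_pdiv h0).1 hr
    refine Finset.mem_powerset.2 fun p hp => ?_
    obtain ⟨b1, b2, b3⟩ := (mem_pf a1.ne_zero).1 hp
    exact (mem_pf h0).2 ⟨b1, b2, b3.trans a2⟩
  · have hJ' := Finset.mem_powerset.1 hJ
    exact (mem_pdiv h0).2 ⟨(d1_pf_prod (d1_sub hn hJ')).2.1, ⟨_, dec1_split hn hJ'⟩⟩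
  · obtain ⟨a1, a2⟩ := (mem_pdiv h0).1 hr
    exact (hn.of_dvd a1 a2).prod_pf
  · exact (d1_pf_prod (d1_sub hn (Finset.mem_powerset.1 hJ))).1
  · obtain ⟨a1, a2⟩ := (mem_pdiv h0).1 hr
    rw [(hn.of_dvd a1 a2).prod_pf]

theorem pf_prod {n : O} (hn : SF n) {J : Finset O} (hJ : J ⊆ pf n) :
    pf (∏ p ∈ J, p) = J ∧ SF (∏ p ∈ J, p) ∧ mu (∏ p ∈ J, p) = (-1) ^ J.card ∧
      n / ∏ p ∈ J, p = ∏ p ∈ pf n \ J, p := by
  obtain ⟨a1, a2⟩ := d1_pf_prod (d1_sub hn hJ)
  refine ⟨a1, a2, mu_prod_primes (d1_sub hn hJ), ?_⟩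
  exact (EuclideanDomain.eq_div_of_mul_eq_right a2.1.ne_zero (dec1_split hn hJ).symm).symm

theorem d1_powerset_map {α β : Type*} (g : α → β) (s : Multiset α) :
    (s.map g).powerset = s.powerset.map (Multiset.map g) := by
  induction s using Multiset.induction_on with
  | empty => simp
  | cons a s ih =>
    rw [Multiset.map_cons, Multiset.powerset_cons, Multiset.powerset_cons, ih, Multiset.map_add,
      Multiset.map_map, Multiset.map_map]
    congr 1
    exact Multiset.map_congr rfl fun t _ => by simp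

theorem d1_sum_powerset {α : Type*} (s : Finset α) (f : Multiset α → ℂ) :
    ∑ J ∈ s.powerset, f J.val = (s.val.powerset.map f).sum := by
  induction s using Finset.induction_on generalizing f with
  | empty => simp
  | insert a s ha ih =>
    rw [Finset.sum_powerset_insert ha, Finset.insert_val_of_notMem ha, Multiset.powerset_cons,
      Multiset.map_add, Multiset.sum_add, Multiset.map_map, ← ih, ← ih]
    congr 1
    refine Finset.sum_congr rfl fun J hJ => ?_
    rw [Finset.insert_val_of_notMem fun h => ha (Finset.mem_powerset.1 hJ h)]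
    rfl

/-- for `f` a function of the multiset of boxes -/
theorem sum_pdiv_bx {n : O} (hn : SF n) (f : Multiset ℕ → ℂ) :
    ∑ r ∈ pdiv n, f (bx r) = ((bx n).powerset.map f).sum := by
  rw [sum_pdiv_powerset hn, bx, d1_powerset_map, Multiset.map_map, ← d1_sum_powerset]
  refine Finset.sum_congr rfl fun J hJ => ?_
  rw [bx, (pf_prod hn (Finset.mem_powerset.1 hJ)).1]
  rfl

theorem d1_nu_rough {w : ℝ} {r : O} (h : Rough w r) : nu w r = (bx r).sum := by
  rw [nu, bx, Finset.filter_true_of_mem h]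

theorem d1_mu {r : O} (hr : SF r) : mu r = (-1) ^ Multiset.card (bx r) := by
  have := (pf_prod hr (Finset.Subset.refl _)).2.2.1
  rw [hr.prod_pf] at this
  rw [this, bx, Multiset.card_map]
  rfl

/-- pair `r ↔ r p` for a prime `p ∣ n` of norm `≤ w` -/
theorem dec_c (w : ℝ) (ρ : ℕ) {n : O} (hn : SF n) :
    ∑ r ∈ pdiv n, (if nu w r ≤ ρ then mu r else 0) = if Rough w n then Cm ρ (bx n) else 0 := by
  have h0 := hn.1.ne_zero
  split_ifs with h
  · rw [Cm, ← sum_pdiv_bx hn]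
    refine Finset.sum_congr rfl fun r hr => ?_
    obtain ⟨a1, a2⟩ := (mem_pdiv h0).1 hr
    have hr' : Rough w r := fun p hp => by
      obtain ⟨b1, b2, b3⟩ := (mem_pf a1.ne_zero).1 hp
      exact h p ((mem_pf h0).2 ⟨b1, b2, b3.trans a2⟩)
    rw [d1_nu_rough hr', d1_mu (hn.of_dvd a1 a2)]
  · rw [Rough] at h
    push Not at h
    obtain ⟨p, hp, hw⟩ := h
    obtain ⟨b1, b2, b3⟩ := (mem_pf h0).1 hp
    rw [← Finset.sum_filter]
    refine b3_sum_mu_pair b1 fun e he => ?_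
    rw [Finset.mem_filter, Finset.mem_filter, mem_pdiv h0, mem_pdiv h0]
    have key : e ≠ 0 → nu w (p * e) = nu w e := fun he0 => by
      rw [nu, nu, b1_pf_prime_mul b1 b2 he0, Finset.filter_insert, if_neg (not_lt.2 hw)]
    constructor
    · rintro ⟨⟨c1, c2⟩, c3⟩
      exact ⟨⟨b2.mul c1, (b1.coprime_iff_not_dvd.2 he).mul_dvd b3 c2⟩, by rwa [key c1.ne_zero]⟩
    · rintro ⟨⟨c1, c2⟩, c3⟩
      have c4 := c1.of_mul_left b2
      exact ⟨⟨c4, (dvd_mul_left _ _).trans c2⟩, by rwa [key c4.ne_zero] at c3⟩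

theorem norm_Cm_le (ρ : ℕ) (M : Multiset ℕ) : ‖Cm ρ M‖ ≤ 2 ^ Multiset.card M := by
  unfold Cm
  refine (norm_multiset_sum_le _).trans ?_
  have h : ∀ x ∈ (M.powerset.map (fun M' => if M'.sum ≤ ρ then (-1 : ℂ) ^ Multiset.card M' else 0)).map
      (fun x => ‖x‖), x ≤ 1 := by
    intro x hx
    simp only [Multiset.map_map, Multiset.mem_map, Function.comp] at hx
    obtain ⟨M', -, rfl⟩ := hx
    split_ifs <;> simp
  refine (Multiset.sum_le_card_nsmul _ _ h).trans ?_
  simp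

/-- `Cm ρ (i ::ₘ M) = Cm ρ M - [i ≤ ρ] Cm (ρ - i) M` in the form needed -/
theorem Cm_cons (ρ i : ℕ) (M : Multiset ℕ) : Cm ρ (i ::ₘ M) =
    (M.powerset.map (fun M' => if M'.sum ≤ ρ ∧ ρ < M'.sum + i then (-1 : ℂ) ^ Multiset.card M'
      else 0)).sum := by
  unfold Cm
  rw [Multiset.powerset_cons, Multiset.map_add, Multiset.sum_add, Multiset.map_map,
    ← Multiset.sum_map_add]
  congr 1
  refine Multiset.map_congr rfl fun M' _ => ?_
  simp only [Function.comp, Multiset.sum_cons, Multiset.card_cons]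
  by_cases h1 : M'.sum ≤ ρ
  · by_cases h2 : ρ < M'.sum + i
    · rw [if_pos h1, if_neg (by omega), if_pos ⟨h1, h2⟩, add_zero]
    · rw [if_pos h1, if_pos (by omega), if_neg (fun h => h2 h.2), pow_succ]
      ring
  · rw [if_neg h1, if_neg (by omega), if_neg (fun h => h1 h.1), add_zero]

theorem d1_card_mul_le {M : Multiset ℕ} {c : ℕ} (h : ∀ i ∈ M, c ≤ i) : Multiset.card M * c ≤ M.sum := by
  have := Multiset.card_nsmul_le_sum (s := M) (a := c) h
  simpa using this

/-- `σ = M.sum`.  Every subsum is small (`< ρ₁`) or large (`> σ - ρ₁`), and `≤ ρ₀ ↔` small.  An entry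
`i ≤ σ - 2ρ₁` keeps small sets small, so `Cm_cons` gives `0`.  Hence all entries are `> σ - 2ρ₁ > σ/4`,
`card ≤ 3`.  `card = 2`: one entry is small, one is large, `Cm = 1 - 1 = 0`.  `card = 3`: a large entry
forces `2σ < 5ρ₁`. -/
theorem narrow_comb {ρ1 ρ0 : ℕ} {M : Multiset ℕ} (h1 : ρ1 ≤ ρ0) (h2 : ρ0 + ρ1 ≤ M.sum)
    (h3 : 8 * ρ1 < 3 * M.sum) (h4 : 2 ≤ Multiset.card M) (h5 : Cm ρ0 M ≠ 0)
    (h6 : ∀ M' ≤ M, M'.sum < ρ1 ∨ M.sum < M'.sum + ρ1) :
    Multiset.card M = 3 ∧ ∀ i ∈ M, M.sum < i + 2 * ρ1 ∧ i < ρ1 := by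
  have hA : ∀ i ∈ M, M.sum < i + 2 * ρ1 := by
    intro i hi
    by_contra hc
    apply h5
    obtain ⟨M0, rfl⟩ := Multiset.exists_cons_of_mem hi
    rw [Cm_cons]
    refine Multiset.sum_eq_zero fun x hx => ?_
    obtain ⟨M', hM', rfl⟩ := Multiset.mem_map.1 hx
    rw [Multiset.mem_powerset] at hM'
    rw [if_neg]
    rintro ⟨a1, a2⟩
    have b1 := h6 M' (hM'.trans (Multiset.le_cons_self _ _))
    have b2 := h6 (i ::ₘ M') (Multiset.cons_le_cons _ hM')
    rw [Multiset.sum_cons] at b2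
    omega
  have hB : Multiset.card M ≤ 3 := by
    by_contra hc
    have h7 := d1_card_mul_le (M := M) (c := M.sum + 1 - 2 * ρ1) fun i hi => by
      have := hA i hi
      omega
    have h8 : 4 * (M.sum + 1 - 2 * ρ1) ≤ Multiset.card M * (M.sum + 1 - 2 * ρ1) :=
      Nat.mul_le_mul_right _ (by omega)
    omega
  have hC : Multiset.card M ≠ 2 := by
    intro hc
    obtain ⟨a, b, rfl⟩ := Multiset.card_eq_two.1 hc
    have b1 := h6 {a} (by simp)
    have b2 := h6 {b} (by simp)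
    apply h5
    simp only [Multiset.insert_eq_cons, Multiset.sum_cons, Multiset.sum_singleton] at *
    rw [Cm_cons, ← Multiset.cons_zero b, Multiset.powerset_cons]
    simp only [Multiset.powerset_zero, Multiset.map_singleton, Multiset.map_add, Multiset.sum_add,
      Multiset.sum_singleton, Multiset.sum_cons, Multiset.card_cons]
    have e : (0 : Multiset ℕ).sum = 0 := rfl
    rcases b1 with b1 | b1
    · rw [if_neg (by omega), if_neg (by omega), add_zero]
    · rw [if_pos (by omega), if_pos (by omega)]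
      simp
  have hD : Multiset.card M = 3 := by omega
  refine ⟨hD, fun i hi => ⟨hA i hi, ?_⟩⟩
  obtain ⟨M0, rfl⟩ := Multiset.exists_cons_of_mem hi
  rw [Multiset.card_cons] at hD
  have h7 := d1_card_mul_le (M := M0) (c := (i ::ₘ M0).sum + 1 - 2 * ρ1) fun j hj => by
    have := hA j (Multiset.mem_cons_of_mem hj)
    omega
  have b1 := h6 {i} (by simp)
  have h8 : Multiset.card M0 = 2 := by omega
  rw [h8] at h7
  rw [Multiset.sum_singleton] at b1
  rw [Multiset.sum_cons] at *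
  omega

/-- `SF.N_bx`; every prime factor has `lg p > 1000 log 2` -/
theorem rough_le {w : ℝ} (hw : 2 ^ 1000 ≤ w) {r : O} (hr : SF r) (h : Rough w r) :
    nu w r = (bx r).sum ∧ N r ≤ 2 ^ (bx r).sum * Real.exp (lg r / 1000) := by
  refine ⟨d1_nu_rough h, hr.N_bx.2.trans ?_⟩
  rw [pow_add]
  refine mul_le_mul_of_nonneg_left ?_ (by positivity)
  have e3 : N r = ∏ p ∈ pf r, N p := by rw [← N_prod, hr.prod_pf]
  have h2 : ((2 : ℝ) ^ 1000) ^ (pf r).card ≤ N r := by
    rw [e3, ← Finset.prod_const]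
    exact Finset.prod_le_prod (fun _ _ => by positivity) fun p hp => hw.trans (h p hp).le
  have h3 := Real.log_le_log (by positivity) h2
  rw [Real.log_pow, Real.log_pow] at h3
  have e2 : Multiset.card (bx r) = (pf r).card := by simp [bx]
  rw [e2, ← Real.exp_log (show (0 : ℝ) < 2 ^ (pf r).card by positivity), Real.exp_le_exp, Real.log_pow, lg]
  push_cast at h3
  linarith

/-- split `b` into its `w`-smooth and `w`-rough parts -/
theorem rare_of {w Y : ℝ} (hw : 2 ^ 1000 ≤ w) {b : O} (hb : SF b)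
    (h : Y * (2 ^ nu w b * Real.exp (lg b / 1000)) ≤ N b) : Rare w Y b := by
  have h0 := hb.1.ne_zero
  set J := (pf b).filter (fun p => w < N p) with hJ
  have hJs : J ⊆ pf b := Finset.filter_subset _ _
  have hKs : pf b \ J ⊆ pf b := Finset.sdiff_subset
  obtain ⟨a1, a2, -, -⟩ := pf_prod hb hJs
  obtain ⟨c1, c2, -, -⟩ := pf_prod hb hKs
  have e := dec1_split hb hJs
  have hR : Rough w (∏ p ∈ J, p) := fun p hp => by
    rw [a1] at hp
    exact (Finset.mem_filter.1 hp).2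
  obtain ⟨-, r2⟩ := rough_le hw a2 hR
  have r1 : (bx (∏ p ∈ J, p)).sum = nu w b := by rw [bx, a1, nu]
  rw [r1] at r2
  have r3 : lg (∏ p ∈ J, p) ≤ lg b :=
    Real.log_le_log (N_pos a2.1.ne_zero) (N_le_of_dvd h0 ⟨_, e⟩)
  refine ⟨∏ p ∈ pf b \ J, p, Dvd.intro_left _ e.symm, c2, fun p hp => ?_, ?_⟩
  · rw [c1, Finset.mem_sdiff, hJ, Finset.mem_filter] at hp
    exact not_lt.1 fun h' => hp.2 ⟨hp.1, h'⟩
  · have r4 : N (∏ p ∈ J, p) ≤ 2 ^ nu w b * Real.exp (lg b / 1000) :=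
      r2.trans (mul_le_mul_of_nonneg_left (Real.exp_le_exp.2 (by linarith)) (by positivity))
    have r5 : N b = N (∏ p ∈ J, p) * N (∏ p ∈ pf b \ J, p) := by rw [← N_mul, ← e]
    refine le_of_mul_le_mul_right (h.trans ?_) (show 0 < 2 ^ nu w b * Real.exp (lg b / 1000) by positivity)
    rw [r5, mul_comm]
    exact mul_le_mul_of_nonneg_left r4 (N_nonneg _)

end Crest.Agent.R12
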