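import Mathlib

/-!
# R12 / Dec2Aux : abstract combinatorics of finite sets for `Dec2`
-/

set_option autoImplicit false

noncomputable section

open scoped Classical
open Finset

namespace Crest.Agent.R12

/-- the first crossing of the level `R` -/
theorem d2_cross {α κ : Type*} [DecidableEq α] [LinearOrder κ] {ι : α → κ} (hι : Function.Injective ι)
    {ν : α → ℝ} {x R : ℝ} (hx0 : 0 ≤ x) (hx : x ≤ R) (S : Finset α) (hν : ∀ p ∈ S, 1 ≤ ν p) :
    (if R < x * ∏ q ∈ S, ν q then (1 : ℂ) else 0) =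
      ∑ p ∈ S, if x * ∏ q ∈ S with ι q < ι p, ν q ≤ R ∧
        R < x * (∏ q ∈ S with ι q < ι p, ν q) * ν p then 1 else 0 := by
  induction S using Finset.induction_on_max_value ι with
  | empty => simp [hx]
  | insert a S ha hmax ih =>
    have hlt : ∀ q ∈ S, ι q < ι a := fun q hq =>
      lt_of_le_of_ne (hmax q hq) fun h => ha (hι h ▸ hq)
    have ih' := ih fun p hp => hν p (mem_insert_of_mem hp)
    have e1 : (insert a S).filter (fun q => ι q < ι a) = S := by
      rw [filter_insert, if_neg (lt_irrefl _), filter_true_of_mem hlt]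
    have e2 : ∀ p ∈ S, (insert a S).filter (fun q => ι q < ι p) = S.filter (fun q => ι q < ι p) :=
      fun p hp => by rw [filter_insert, if_neg (not_lt.2 (hlt p hp).le)]
    rw [sum_insert ha, prod_insert ha, e1, sum_congr rfl fun p hp => by rw [e2 p hp], ← ih']
    have h1 : 1 ≤ ν a := hν a (mem_insert_self _ _)
    have h2 : 0 ≤ x * ∏ q ∈ S, ν q :=
      mul_nonneg hx0 (prod_nonneg fun q hq => zero_le_one.trans (hν q (mem_insert_of_mem hq)))
    have h3 : x * ∏ q ∈ S, ν q ≤ x * (∏ q ∈ S, ν q) * ν a := le_mul_of_one_le_right h2 h1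
    rw [show x * (ν a * ∏ q ∈ S, ν q) = x * (∏ q ∈ S, ν q) * ν a by ring]
    by_cases h4 : R < x * ∏ q ∈ S, ν q
    · rw [if_pos (h4.trans_le h3), if_neg (fun h => not_lt.2 h.1 h4), if_pos h4, zero_add]
    · rw [if_neg h4, add_zero]
      simp only [not_lt.1 h4, true_and]

/-- summing out the later small primes -/
theorem d2_later {α κ : Type*} [DecidableEq α] [LinearOrder κ] {ι : α → κ} (hι : Function.Injective ι)
    (sm : α → Prop) [DecidablePred sm] (G : Finset α → ℂ) (P : Finset α) {p : α} (hp : p ∈ P) (hsp : sm p) :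
    ∑ J ∈ P.powerset, (if p ∈ J then (-1 : ℂ) ^ #J * G (J.filter fun q => sm q → ι q < ι p) else 0) =
      ∑ B ∈ P.powerset, (if p ∈ P \ B ∧ ∀ q ∈ P \ B, sm q → ι q ≤ ι p then (-1 : ℂ) else 0) *
        (if ∀ q ∈ B, sm q → ι q < ι p then (-1 : ℂ) ^ #B * G B else 0) := by
  by_cases hU : ∃ u ∈ P, sm u ∧ ι p < ι u
  · obtain ⟨u, hu, hsu, hpu⟩ := hU
    have hne : p ≠ u := fun h => by rw [h] at hpu; exact lt_irrefl _ hpu
    have hR : ∀ B ∈ P.powerset,
        (if p ∈ P \ B ∧ ∀ q ∈ P \ B, sm q → ι q ≤ ι p then (-1 : ℂ) else 0) *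
        (if ∀ q ∈ B, sm q → ι q < ι p then (-1 : ℂ) ^ #B * G B else 0) = 0 := by
      intro B _
      by_cases huB : u ∈ B
      · rw [if_neg (c := ∀ q ∈ B, sm q → ι q < ι p) fun h => lt_asymm hpu (h u huB hsu), mul_zero]
      · rw [if_neg fun h => not_lt.2 (h.2 u (mem_sdiff.2 ⟨hu, huB⟩) hsu) hpu, zero_mul]
    rw [sum_eq_zero hR, ← insert_erase hu, sum_powerset_insert (notMem_erase u P), ← sum_add_distrib]
    refine sum_eq_zero fun J hJ => ?_
    have huJ : u ∉ J := fun h => notMem_erase u P (mem_powerset.1 hJ h)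
    have e : (insert u J).filter (fun q => sm q → ι q < ι p) = J.filter (fun q => sm q → ι q < ι p) := by
      rw [filter_insert, if_neg fun h => lt_asymm hpu (h hsu)]
    rw [e, card_insert_of_notMem huJ]
    by_cases hpJ : p ∈ J
    · rw [if_pos hpJ, if_pos (mem_insert_of_mem hpJ)]; ring
    · rw [if_neg hpJ, if_neg (fun h => (mem_insert.1 h).elim hne hpJ), add_zero]
  · have hle : ∀ q ∈ P, sm q → ι q ≤ ι p := fun q hq hs => not_lt.1 fun h => hU ⟨q, hq, hs, h⟩
    have hlt : ∀ q ∈ P.erase p, sm q → ι q < ι p := fun q hq hs =>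
      lt_of_le_of_ne (hle q (mem_of_mem_erase hq) hs) fun h => (mem_erase.1 hq).1 (hι h)
    have e0 : P.powerset = (insert p (P.erase p)).powerset := by rw [insert_erase hp]
    rw [e0, sum_powerset_insert (notMem_erase p P), sum_powerset_insert (notMem_erase p P),
      ← sum_add_distrib, ← sum_add_distrib]
    refine sum_congr rfl fun J hJ => ?_
    have hJ' := mem_powerset.1 hJ
    have hpJ : p ∉ J := fun h => notMem_erase p P (hJ' h)
    have e : (insert p J).filter (fun q => sm q → ι q < ι p) = J := by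
      rw [filter_insert, if_neg fun h => lt_irrefl _ (h hsp),
        filter_true_of_mem fun q hq => hlt q (hJ' hq)]
    rw [if_neg hpJ, if_pos (mem_insert_self _ _), e, card_insert_of_notMem hpJ,
      if_pos ⟨mem_sdiff.2 ⟨hp, hpJ⟩, fun q hq => hle q (mem_sdiff.1 hq).1⟩,
      if_pos fun q hq => hlt q (hJ' hq),
      if_neg (c := ∀ q ∈ insert p J, sm q → ι q < ι p)
        fun h => lt_irrefl _ (h p (mem_insert_self _ _) hsp)]
    ring

/-- abstract form of `dec_R` -/
theorem d2_R {α κ : Type*} [DecidableEq α] [LinearOrder κ] {ι : α → κ} (hι : Function.Injective ι)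
    (sm : α → Prop) [DecidablePred sm] {ν : α → ℝ} {R : ℝ} (c : Finset α → Prop) [DecidablePred c]
    (hc : ∀ J J' : Finset α, J.filter (fun q => ¬ sm q) = J'.filter (fun q => ¬ sm q) → c J → c J')
    (P : Finset α) (hν : ∀ p ∈ P, 1 ≤ ν p)
    (hR : ∀ J ⊆ P, (∀ q ∈ J, ¬ sm q) → c J → ∏ q ∈ J, ν q ≤ R) :
    ∑ J ∈ P.powerset, (if R < ∏ q ∈ J, ν q then (if c J then (-1 : ℂ) ^ #J else 0) else 0) =
      ∑ p ∈ P.filter sm, ∑ B ∈ P.powerset,
        (if p ∈ P \ B ∧ ∀ q ∈ P \ B, sm q → ι q ≤ ι p then (-1 : ℂ) else 0) *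
        (if c B ∧ (∀ q ∈ B, sm q → ι q < ι p) ∧ ∏ q ∈ B, ν q ≤ R ∧ R < (∏ q ∈ B, ν q) * ν p then
          (-1 : ℂ) ^ #B else 0) := by
  set G : α → Finset α → ℂ := fun p B =>
    if c B ∧ ∏ q ∈ B, ν q ≤ R ∧ R < (∏ q ∈ B, ν q) * ν p then 1 else 0 with hG
  have h1 : ∀ J ∈ P.powerset,
      (if R < ∏ q ∈ J, ν q then (if c J then (-1 : ℂ) ^ #J else 0) else 0) =
      ∑ p ∈ P.filter sm,
        (if p ∈ J then (-1 : ℂ) ^ #J * G p (J.filter fun q => sm q → ι q < ι p) else 0) := by
    intro J hJ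
    have hJ' := mem_powerset.1 hJ
    have ef : ∀ p, (J.filter fun q => sm q → ι q < ι p).filter (fun q => ¬ sm q) =
        J.filter (fun q => ¬ sm q) := by
      intro p
      rw [filter_filter]
      exact filter_congr fun q _ => ⟨fun h => h.2, fun h => ⟨fun h' => absurd h' h, h⟩⟩
    by_cases hcJ : c J
    · have hx := hR (J.filter fun q => ¬ sm q) ((filter_subset _ _).trans hJ')
        (fun q hq => (mem_filter.1 hq).2) (hc _ _ (by rw [filter_filter]; simp) hcJ)
      have hx0 : 0 ≤ ∏ q ∈ J.filter (fun q => ¬ sm q), ν q :=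
        prod_nonneg fun q hq => zero_le_one.trans (hν q (hJ' (mem_filter.1 hq).1))
      have h2 := d2_cross hι hx0 hx (J.filter sm) fun p hp => hν p (hJ' (mem_filter.1 hp).1)
      have e1 : (∏ q ∈ J.filter (fun q => ¬ sm q), ν q) * ∏ q ∈ J.filter sm, ν q = ∏ q ∈ J, ν q := by
        rw [mul_comm, prod_filter_mul_prod_filter_not]
      have e2 : ∀ p, (∏ q ∈ J.filter (fun q => ¬ sm q), ν q) *
          ∏ q ∈ (J.filter sm).filter (fun q => ι q < ι p), ν q =
          ∏ q ∈ J.filter (fun q => sm q → ι q < ι p), ν q := by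
        intro p
        rw [← prod_filter_mul_prod_filter_not (J.filter fun q => sm q → ι q < ι p) sm, ef, mul_comm,
          filter_filter, filter_filter]
        congr 2
        exact filter_congr fun q _ => ⟨fun h => ⟨fun _ => h.2, h.1⟩, fun h => ⟨h.2, h.1 h.2⟩⟩
      simp only [e1, e2] at h2
      have e3 : (P.filter sm).filter (fun p => p ∈ J) = J.filter sm := by
        ext q
        simp only [mem_filter]
        exact ⟨fun h => ⟨h.2, h.1.2⟩, fun h => ⟨⟨hJ' h.1, h.2⟩, h.1⟩⟩
      rw [← sum_filter, e3, ← mul_sum, if_pos hcJ]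
      have e4 : ∀ p, c (J.filter fun q => sm q → ι q < ι p) := fun p => hc _ _ (ef p).symm hcJ
      simp only [hG, e4, true_and]
      rw [← h2]
      split_ifs <;> simp
    · rw [if_neg hcJ, ite_self]
      refine (sum_eq_zero fun p _ => ?_).symm
      have e4 : ¬ c (J.filter fun q => sm q → ι q < ι p) := fun h => hcJ (hc _ _ (ef p) h)
      simp [hG, e4]
  rw [sum_congr rfl h1, sum_comm]
  refine sum_congr rfl fun p hp => ?_
  rw [d2_later hι sm (G p) P (mem_filter.1 hp).1 (mem_filter.1 hp).2]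
  refine sum_congr rfl fun B _ => ?_
  congr 1
  simp only [hG]
  by_cases h1 : ∀ q ∈ B, sm q → ι q < ι p
  · rw [if_pos h1]
    by_cases h2 : c B ∧ ∏ q ∈ B, ν q ≤ R ∧ R < (∏ q ∈ B, ν q) * ν p
    · rw [if_pos h2, if_pos ⟨h2.1, h1, h2.2⟩, mul_one]
    · rw [if_neg h2, if_neg fun h => h2 ⟨h.1, h.2.2⟩, mul_zero]
  · rw [if_neg h1, if_neg fun h => h1 h.2.1]

/-- sub-multisets of the image of a finite set -/
theorem d2_powerset_map {α β E : Type*} [AddCommMonoid E] (g : α → β) (P : Finset α)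
    (f : Multiset β → E) :
    ((P.val.map g).powerset.map f).sum = ∑ B ∈ P.powerset, f (B.val.map g) := by
  induction P using Finset.induction_on generalizing f with
  | empty => simp
  | insert a P ha ih =>
    rw [insert_val_of_notMem ha, Multiset.map_cons, Multiset.powerset_cons, Multiset.map_add,
      Multiset.sum_add, Multiset.map_map, ih, ih, sum_powerset_insert ha]
    congr 1
    refine sum_congr rfl fun B hB => ?_
    have haB : a ∉ B := fun h => ha (mem_powerset.1 hB h)
    rw [insert_val_of_notMem haB, Multiset.map_cons]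
    rfl

theorem d2_countP {α : Type*} (g : α → ℕ) (j : ℕ) (B : Finset α) :
    Multiset.countP (· < j) (B.val.map g) = #(B.filter fun p => g p < j) := by
  rw [Multiset.countP_map]
  rfl

/-- abstract form of `dec_S` -/
theorem d2_S {α : Type*} [DecidableEq α] (g : α → ℕ) (j0 J : ℕ) (P : Finset α) (hP : #P ≤ J)
    (φ : ℕ → Finset α → ℂ) (C : ℂ)
    (hC : ∀ p ∈ P, g p < j0 → ∑ B ∈ (P.erase p).powerset, φ (g p) B = C) :
    ∑ i ∈ range j0, ∑ j ∈ range (J + 1), ∑ B ∈ P.powerset,
      ((#((P \ B).filter fun p => g p < j0 ∧ g p = i) : ℂ) /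
        ((#((P \ B).filter fun p => g p < j0) : ℂ) + j)) *
      (if #(B.filter fun p => g p < j0) = j then φ i B else 0) =
      if ∃ p ∈ P, g p < j0 then C else 0 := by
  set s : ℕ := #(P.filter fun p => g p < j0) with hs
  have h1 : ∀ i, ∑ j ∈ range (J + 1), ∑ B ∈ P.powerset,
      ((#((P \ B).filter fun p => g p < j0 ∧ g p = i) : ℂ) /
        ((#((P \ B).filter fun p => g p < j0) : ℂ) + j)) *
      (if #(B.filter fun p => g p < j0) = j then φ i B else 0) =
      ∑ B ∈ P.powerset, ((#((P \ B).filter fun p => g p < j0 ∧ g p = i) : ℂ) / s) * φ i B := by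
    intro i
    rw [sum_comm]
    refine sum_congr rfl fun B hB => ?_
    have hB' := mem_powerset.1 hB
    have h2 : #(B.filter fun p => g p < j0) ∈ range (J + 1) :=
      mem_range.2 (Nat.lt_succ_of_le ((card_le_card ((filter_subset _ _).trans hB')).trans hP))
    simp only [mul_ite, mul_zero]
    rw [sum_ite_eq, if_pos h2]
    have h3 : #((P \ B).filter fun p => g p < j0) + #(B.filter fun p => g p < j0) = s := by
      rw [hs, ← card_union_of_disjoint (disjoint_filter_filter sdiff_disjoint), ← filter_union,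
        sdiff_union_of_subset hB']
    rw [← Nat.cast_add, h3]
  rw [sum_congr rfl fun i _ => h1 i, sum_comm]
  have h4 : ∀ B ∈ P.powerset, ∑ i ∈ range j0,
      ((#((P \ B).filter fun p => g p < j0 ∧ g p = i) : ℂ) / s) * φ i B =
      ∑ p ∈ P.filter (fun p => g p < j0), (if p ∉ B then φ (g p) B / s else 0) := by
    intro B _
    have e : (P.filter fun p => g p < j0).filter (fun p => p ∉ B) =
        (P \ B).filter fun p => g p < j0 := by
      ext q
      simp only [mem_filter, mem_sdiff]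
      tauto
    rw [← sum_filter, e, ← sum_fiberwise_of_maps_to (t := range j0) (g := g)
      (fun p hp => mem_range.2 (mem_filter.1 hp).2)]
    refine sum_congr rfl fun i _ => ?_
    rw [filter_filter, sum_congr rfl (g := fun _ => φ i B / s)
      (fun p hp => by rw [(mem_filter.1 hp).2.2]), sum_const, nsmul_eq_mul]
    ring
  rw [sum_congr rfl h4, sum_comm]
  have h5 : ∀ p ∈ P.filter (fun p => g p < j0),
      ∑ B ∈ P.powerset, (if p ∉ B then φ (g p) B / s else 0) = C / s := by
    intro p hp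
    obtain ⟨hp1, hp2⟩ := mem_filter.1 hp
    have e : P.powerset.filter (fun B => p ∉ B) = (P.erase p).powerset := by
      ext B
      simp only [mem_filter, mem_powerset, subset_erase]
    rw [← sum_filter, e, ← sum_div, hC p hp1 hp2]
  rw [sum_congr rfl h5, sum_const, nsmul_eq_mul, ← hs]
  split_ifs with h
  · obtain ⟨p, hp1, hp2⟩ := h
    have : s ≠ 0 := (card_pos.2 ⟨p, mem_filter.2 ⟨hp1, hp2⟩⟩).ne'
    have : (s : ℂ) ≠ 0 := by exact_mod_cast this
    field_simp
  · have : s = 0 := by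
      rw [hs, card_eq_zero, filter_eq_empty_iff]
      exact fun p hp h' => h ⟨p, hp, h'⟩
    simp [this]

theorem d2_multisets (K J : ℕ) : ∃ 𝓜 : Finset (Multiset ℕ), 𝓜.card ≤ (J + 2) ^ K ∧
    ∀ M, Multiset.card M ≤ K → (∀ i ∈ M, i ≤ J) → M ∈ 𝓜 := by
  induction K with
  | zero =>
    refine ⟨{0}, by simp, fun M hM _ => ?_⟩
    rw [mem_singleton, ← Multiset.card_eq_zero]
    omega
  | succ K ih =>
    obtain ⟨𝓜, h1, h2⟩ := ih
    refine ⟨𝓜 ∪ (range (J + 1) ×ˢ 𝓜).image (fun x => x.1 ::ₘ x.2), ?_, fun M hM hJ => ?_⟩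
    · calc _ ≤ #𝓜 + #(range (J + 1) ×ˢ 𝓜) :=
            (card_union_le _ _).trans (Nat.add_le_add_left card_image_le _)
        _ = (J + 2) * #𝓜 := by rw [card_product, card_range]; ring
        _ ≤ (J + 2) * (J + 2) ^ K := Nat.mul_le_mul_left _ h1
        _ = (J + 2) ^ (K + 1) := by ring
    · by_cases h0 : M = 0
      · exact mem_union_left _ (h2 M (by simp [h0]) hJ)
      · obtain ⟨i, hi⟩ := Multiset.exists_mem_of_ne_zero h0
        obtain ⟨M', rfl⟩ := Multiset.exists_cons_of_mem hi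
        refine mem_union_right _ (mem_image.2 ⟨(i, M'), mem_product.2 ⟨?_, ?_⟩, rfl⟩)
        · exact mem_range.2 (Nat.lt_succ_of_le (hJ i hi))
        · rw [Multiset.card_cons] at hM
          exact h2 M' (by omega) fun k hk => hJ k (Multiset.mem_cons_of_mem hk)

end Crest.Agent.R12
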