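import Crest.Agent.R12.Dec1
import Crest.Agent.R12.Dec2Aux

/-!
# R12 / Dec2 : combinatorial identities, part 2: the three type II families
-/

set_option autoImplicit false

noncomputable section

open scoped Classical ComplexConjugate Topology
open MeasureTheory Filter

namespace Crest.Agent.R12

open Crest.Agent.R17

theorem d2_pf_sdiff {n : O} (hn : SF n) (J : Finset O) : pf (∏ p ∈ pf n \ J, p) = pf n \ J :=
  (pf_prod hn Finset.sdiff_subset).1

theorem d2_conv {n : O} (hn : SF n) (α β : O → ℂ) :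
    conv α β n = ∑ B ∈ (pf n).powerset, α (∏ p ∈ pf n \ B, p) * β (∏ p ∈ B, p) := by
  unfold conv
  rw [sum_pdiv_powerset hn]
  refine Finset.sum_congr rfl fun B hB => ?_
  rw [(pf_prod hn (Finset.mem_powerset.1 hB)).2.2.2]

theorem d2_pow_box_le {p : O} (hp : p ≠ 0) : (2 : ℝ) ^ box p ≤ N p := by
  unfold box N
  exact_mod_cast Nat.pow_log_le_self 2 (nm_pos hp).ne'

theorem d2_norm_ite {c : Prop} [Decidable c] {z : ℂ} (hz : ‖z‖ ≤ 1) : ‖if c then z else 0‖ ≤ 1 := by
  split_ifs
  · exact hz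
  · simp

/-- **crossing.**  Fix an injection `ι : O → ℕ` (order on the primes).  For `r` with `N r > R`, add the
primes of norm `≤ w` of `r` in increasing order to the rough part (of norm `≤ R`); `p` is the prime at which
the norm crosses `R`, `b` what came before.  `β p b = μ(b) [nu w b ≤ ρ] [small primes of b precede p]
[N b ≤ R < N b N p]`; the later primes are summed out (`∑ μ = [none]`):
`α p a = -[p ∣ a] [a has no small prime after p]`. -/
theorem dec_R (w R : ℝ) (ρ : ℕ) : ∃ α β : O → O → ℂ, (∀ p a, ‖α p a‖ ≤ 1) ∧ (∀ p b, ‖β p b‖ ≤ 1) ∧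
    (∀ p b, N p ≤ w → β p b ≠ 0 → N b ≤ R ∧ R < N b * w ∧ nu w b ≤ ρ) ∧
    ∀ n, SF n → (∀ r ∈ pdiv n, Rough w r → nu w r ≤ ρ → N r ≤ R) →
      ∑ r ∈ (pdiv n).filter (fun r => R < N r), (if nu w r ≤ ρ then mu r else 0) =
        ∑ p ∈ (sfb w).filter Prime, conv (α p) (β p) n := by
  obtain ⟨ι, hι⟩ : ∃ ι : O → Cardinal.{0}, Function.Injective ι :=
    ⟨_, (embeddingToCardinal (α := O)).injective⟩
  refine ⟨fun p a => if p ∈ pf a ∧ ∀ q ∈ pf a, N q ≤ w → ι q ≤ ι p then -1 else 0,
    fun p b => if nu w b ≤ ρ ∧ (∀ q ∈ pf b, N q ≤ w → ι q < ι p) ∧ N b ≤ R ∧ R < N b * N p then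
      mu b else 0, fun p a => d2_norm_ite (by simp), fun p b => d2_norm_ite (norm_mu_le b),
    fun p b hp h => ?_, fun n hn hR => ?_⟩
  · have h' : nu w b ≤ ρ ∧ (∀ q ∈ pf b, N q ≤ w → ι q < ι p) ∧ N b ≤ R ∧ R < N b * N p := by
      by_contra h'
      exact h (if_neg h')
    exact ⟨h'.2.2.1, h'.2.2.2.trans_le (mul_le_mul_of_nonneg_left hp (N_nonneg b)), h'.1⟩
  · have hn0 := hn.1.ne_zero
    have hnu : ∀ J ⊆ pf n, nu w (∏ p ∈ J, p) = ((J.filter fun p => ¬ N p ≤ w).val.map box).sum := by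
      intro J hJ
      unfold nu
      rw [(pf_prod hn hJ).1]
      simp only [not_le]
    have key := d2_R hι (fun q => N q ≤ w) (ν := N) (R := R)
      (fun J => ((J.filter fun p => ¬ N p ≤ w).val.map box).sum ≤ ρ)
      (fun J J' h hc => by rw [← h]; exact hc) (pf n)
      (fun p hp => one_le_N ((mem_pf hn0).1 hp).1.ne_zero)
      (fun J hJ h1 h2 => by
        rw [← N_prod J fun p => p]
        refine hR _ ?_ ?_ (by rw [hnu J hJ]; exact h2)
        · refine (mem_pdiv hn0).2 ⟨(pf_prod hn hJ).2.1.1, ?_⟩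
          conv_rhs => rw [← hn.prod_pf]
          exact Finset.prod_dvd_prod_of_subset _ _ _ hJ
        · intro p hp
          rw [(pf_prod hn hJ).1] at hp
          exact not_le.1 (h1 p hp))
    have hsub : (pf n).filter (fun q => N q ≤ w) ⊆ (sfb w).filter Prime := by
      intro p hp
      obtain ⟨h1, h2⟩ := Finset.mem_filter.1 hp
      obtain ⟨h3, h4, -⟩ := (mem_pf hn0).1 h1
      exact Finset.mem_filter.2 ⟨mem_sfb.2 ⟨⟨h4, h3.squarefree⟩, h2⟩, h3⟩
    rw [Finset.sum_filter, sum_pdiv_powerset hn, ← Finset.sum_subset hsub]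
    · refine Eq.trans (Finset.sum_congr rfl fun J hJ => ?_) (key.trans
        (Finset.sum_congr rfl fun p _ => ?_))
      · have hJ' := Finset.mem_powerset.1 hJ
        rw [N_prod J fun p => p, hnu J hJ', (pf_prod hn hJ').2.2.1]
      · rw [d2_conv hn]
        refine Finset.sum_congr rfl fun B hB => ?_
        have hB' := Finset.mem_powerset.1 hB
        simp only [d2_pf_sdiff hn, N_prod B fun p => p, hnu B hB', (pf_prod hn hB').1,
          (pf_prod hn hB').2.2.1]
    · intro p hp hp'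
      rw [d2_conv hn]
      refine Finset.sum_eq_zero fun B _ => ?_
      beta_reduce
      rw [d2_pf_sdiff hn, if_neg, zero_mul]
      exact fun h => hp' (Finset.mem_filter.2 ⟨(Finset.mem_sdiff.1 h.1).1,
        (mem_sfb.1 (Finset.mem_filter.1 hp).1).2⟩)

/-- **a prime of small box.**  `Cm_cons` for each prime `p ∣ n` with `box p < j₀`, averaged over these
`ω_s(n) = ω_s(a) + ω_s(b)` primes: `α i j a = [Rough w a] #{p ∈ pf a, box p = i}/(ω_s(a) + j)`,
`F i j M = (-1)^{card M} [M.sum ≤ ρ₀ < M.sum + i] [countP (· < j₀) M = j]`. -/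
theorem dec_S (w : ℝ) (ρ1 j0 J : ℕ) : ∃ (α : ℕ → ℕ → O → ℂ) (F : ℕ → ℕ → Multiset ℕ → ℂ),
    (∀ i j a, ‖α i j a‖ ≤ 1) ∧ (∀ i j M, ‖F i j M‖ ≤ 1) ∧
    (∀ i j M, i < j0 → F i j M ≠ 0 → ρ1 < M.sum ∧ M.sum ≤ ρ1 + j0) ∧
    ∀ n, SF n → (pf n).card ≤ J →
      (if Rough w n ∧ ∃ p ∈ pf n, box p < j0 then Cm (ρ1 + j0) (bx n) else 0) =
        ∑ i ∈ Finset.range j0, ∑ j ∈ Finset.range (J + 1), conv (α i j) (bet w (F i j)) n := by
  refine ⟨fun i j a => if Rough w a then
      (((pf a).filter fun p => box p < j0 ∧ box p = i).card : ℂ) /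
        ((((pf a).filter fun p => box p < j0).card : ℂ) + j) else 0,
    fun i j M => if Multiset.countP (· < j0) M = j then
      (if M.sum ≤ ρ1 + j0 ∧ ρ1 + j0 < M.sum + i then (-1 : ℂ) ^ Multiset.card M else 0) else 0,
    fun i j a => d2_norm_ite ?_, fun i j M => d2_norm_ite (d2_norm_ite (by simp)),
    fun i j M hi h => ?_, fun n hn hJ => ?_⟩
  · rw [← Nat.cast_add, norm_div, Complex.norm_natCast, Complex.norm_natCast]
    refine div_le_one_of_le₀ ?_ (Nat.cast_nonneg _)
    refine Nat.cast_le.2 (le_trans (Finset.card_le_card fun p hp => ?_) (Nat.le_add_right _ _))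
    exact Finset.mem_filter.2 ⟨(Finset.mem_filter.1 hp).1, (Finset.mem_filter.1 hp).2.1⟩
  · have h' : M.sum ≤ ρ1 + j0 ∧ ρ1 + j0 < M.sum + i := by
      by_contra h'
      exact h (by simp only [if_neg h', ite_self])
    omega
  · by_cases hr : Rough w n
    · have key := d2_S box j0 J (pf n) hJ (fun i B =>
        if (B.val.map box).sum ≤ ρ1 + j0 ∧ ρ1 + j0 < (B.val.map box).sum + i then
          (-1 : ℂ) ^ Multiset.card (B.val.map box) else 0) (Cm (ρ1 + j0) (bx n))
        (fun p hp _ => by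
          have e : bx n = box p ::ₘ ((pf n).erase p).val.map box := by
            rw [bx, ← Multiset.map_cons, Finset.erase_val, Multiset.cons_erase hp]
          rw [e, Cm_cons, d2_powerset_map])
      simp only [hr, true_and]
      rw [← key]
      refine Finset.sum_congr rfl fun i _ => Finset.sum_congr rfl fun j _ => ?_
      rw [d2_conv hn]
      refine Finset.sum_congr rfl fun B hB => ?_
      have hB' := Finset.mem_powerset.1 hB
      have h1 : Rough w (∏ p ∈ pf n \ B, p) := fun p hp => by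
        rw [d2_pf_sdiff hn] at hp
        exact hr p (Finset.mem_sdiff.1 hp).1
      have h2 : Rough w (∏ p ∈ B, p) := fun p hp => by
        rw [(pf_prod hn hB').1] at hp
        exact hr p (hB' hp)
      simp only [bet, if_pos h1, if_pos h2, bx, d2_pf_sdiff hn, (pf_prod hn hB').1, d2_countP]
    · simp only [hr, false_and, if_false]
      refine (Finset.sum_eq_zero fun i _ => Finset.sum_eq_zero fun j _ => ?_).symm
      rw [d2_conv hn]
      refine Finset.sum_eq_zero fun B hB => ?_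
      have hB' := Finset.mem_powerset.1 hB
      by_cases h2 : Rough w (∏ p ∈ B, p)
      · rw [if_neg, zero_mul]
        refine fun h1 => hr fun p hp => ?_
        by_cases hpB : p ∈ B
        · exact h2 p (by rw [(pf_prod hn hB').1]; exact hpB)
        · exact h1 p (by rw [d2_pf_sdiff hn]; exact Finset.mem_sdiff.2 ⟨hp, hpB⟩)
      · rw [bet, if_neg h2, mul_zero]

/-- multisets with at most `K` entries and sum at most `J` -/
theorem exists_multisets (K J : ℕ) : ∃ 𝓜 : Finset (Multiset ℕ), 𝓜.card ≤ (J + 2) ^ K ∧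
    ∀ M, M ∈ 𝓜 ↔ Multiset.card M ≤ K ∧ M.sum ≤ J := by
  obtain ⟨𝓜, h1, h2⟩ := d2_multisets K J
  refine ⟨𝓜.filter fun M => Multiset.card M ≤ K ∧ M.sum ≤ J,
    (Finset.card_filter_le _ _).trans h1, fun M => ?_⟩
  rw [Finset.mem_filter]
  exact ⟨fun h => h.2, fun h => ⟨h2 M h.1 fun i hi =>
    (Multiset.single_le_sum (fun _ _ => Nat.zero_le _) i hi).trans h.2, h⟩⟩

theorem d2_sel (ρ1 : ℕ) (M : Multiset ℕ) : ∃ S : Multiset ℕ,
    (∃ M' ≤ M, ρ1 ≤ M'.sum ∧ M'.sum + ρ1 ≤ M.sum) → S ≤ M ∧ ρ1 ≤ S.sum ∧ 2 * S.sum ≤ M.sum := by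
  by_cases h : ∃ M' ≤ M, ρ1 ≤ M'.sum ∧ M'.sum + ρ1 ≤ M.sum
  · obtain ⟨M', h1, h2, h3⟩ := h
    by_cases h4 : 2 * M'.sum ≤ M.sum
    · exact ⟨M', fun _ => ⟨h1, h2, h4⟩⟩
    · have e : (M - M').sum + M'.sum = M.sum := by
        rw [← Multiset.sum_add, Multiset.sub_add_cancel h1]
      exact ⟨M - M', fun _ => ⟨Multiset.sub_le_self _ _, by omega, by omega⟩⟩
  · exact ⟨0, fun h' => absurd h' h⟩

/-- the convolution that picks out `bx n = M` -/
theorem d2_conv_sel {w : ℝ} {j0 : ℕ} (hw : w < 2 ^ j0) {n : O} (hn : SF n) {M S : Multiset ℕ}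
    (hS : ∀ i ∈ S, j0 ≤ i) :
    conv (fun a => if bx a + S = M then 1 else 0) (bet w fun M' => if M' = S then 1 else 0) n =
      if bx n = M then (Multiset.count S M.powerset : ℂ) else 0 := by
  have hn0 := hn.1.ne_zero
  have h1 : ∀ B ∈ (pf n).powerset,
      (if bx (∏ p ∈ pf n \ B, p) + S = M then (1 : ℂ) else 0) *
        bet w (fun M' => if M' = S then 1 else 0) (∏ p ∈ B, p) =
      if bx n = M then (if B.val.map box = S then 1 else 0) else 0 := by
    intro B hB
    have hB' := Finset.mem_powerset.1 hB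
    have e1 : bx (∏ p ∈ B, p) = B.val.map box := by rw [bx, (pf_prod hn hB').1]
    by_cases h : B.val.map box = S
    · have h2 : Rough w (∏ p ∈ B, p) := fun p hp => by
        rw [(pf_prod hn hB').1] at hp
        have h3 : j0 ≤ box p := hS _ (h ▸ Multiset.mem_map_of_mem box hp)
        exact hw.trans_le ((pow_le_pow_right₀ one_le_two h3).trans
          (d2_pow_box_le ((mem_pf hn0).1 (hB' hp)).1.ne_zero))
      have e2 : bx (∏ p ∈ pf n \ B, p) + S = bx n := by
        rw [← h, bx, d2_pf_sdiff hn, ← Multiset.map_add, Finset.sdiff_val,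
          Multiset.sub_add_cancel (Finset.val_le_iff.2 hB'), bx]
      rw [bet, if_pos h2, e1, e2, if_pos h, mul_one]
    · rw [bet, e1, if_neg h, ite_self, mul_zero, ite_self]
  rw [d2_conv hn, Finset.sum_congr rfl h1]
  split_ifs with h
  · rw [← h, bx, ← d2_powerset_map box (pf n) fun M' => if M' = S then (1 : ℂ) else 0]
    generalize ((pf n).val.map box).powerset = Q
    induction Q using Multiset.induction_on with
    | empty => simp
    | cons a Q ih =>
      rw [Multiset.map_cons, Multiset.sum_cons, ih, Multiset.count_cons]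
      by_cases ha : a = S
      · rw [if_pos ha, if_pos ha.symm]; push_cast; ring
      · rw [if_neg ha, if_neg (Ne.symm ha)]; simp
  · simp

/-- **all primes of large box.**  `F₀ = Cm` on the narrow multisets.  For the other `M` (entries `≥ j₀`,
`card ≥ 2`, `Cm ≠ 0`) `narrow_comb` gives `sel M ≤ M` with `ρ₁ ≤ sum`, `2 sum ≤ M.sum` (pass to the
complement if necessary); `α M a = [bx a = M - sel M]`, `F M M' = [M' = sel M]`,
`c M = Cm M / count (sel M) M.powerset` (`sum_pdiv_bx`); `c M = 0` for all remaining `M`. -/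
theorem dec_L {w : ℝ} {ρ1 j0 : ℕ} (K J : ℕ) (hw : w < 2 ^ j0) (hρ : 1 ≤ ρ1) :
    ∃ (F0 : Multiset ℕ → ℂ) (𝓜 : Finset (Multiset ℕ)) (c : Multiset ℕ → ℂ) (α : Multiset ℕ → O → ℂ)
      (F : Multiset ℕ → Multiset ℕ → ℂ), (∀ M, ‖F0 M‖ ≤ 8) ∧
    (∀ M, F0 M ≠ 0 → Multiset.card M = 3 ∧ ∀ i ∈ M, M.sum < i + 2 * ρ1 ∧ i < ρ1) ∧
    𝓜.card ≤ (J + 2) ^ K ∧ (∀ M, ‖c M‖ ≤ 2 ^ K) ∧ (∀ M a, ‖α M a‖ ≤ 1) ∧ (∀ M M', ‖F M M'‖ ≤ 1) ∧
    (∀ M, ZR j0 (F M)) ∧
    (∀ M M', F M M' ≠ 0 → ρ1 ≤ M'.sum ∧ 2 * M'.sum ≤ J ∧ Multiset.card M' ≤ K) ∧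
    ∀ n, SF n → (Prime n → j0 ≤ box n) →
      ((∀ p ∈ pf n, j0 ≤ box p) → (pf n).card ≤ K ∧ (bx n).sum ≤ J ∧
        2 * ρ1 + j0 ≤ (bx n).sum ∧ 8 * ρ1 < 3 * (bx n).sum) →
      (if ∀ p ∈ pf n, j0 ≤ box p then Cm (ρ1 + j0) (bx n) else 0) =
        (if Prime n then 1 else 0) + F0 (bx n) + ∑ M ∈ 𝓜, c M * conv (α M) (bet w (F M)) n := by
  obtain ⟨𝓜, hcard, h𝓜⟩ := exists_multisets K J
  choose sel hsel using d2_sel ρ1
  set Nr : Multiset ℕ → Prop := fun M =>
    Multiset.card M = 3 ∧ ∀ i ∈ M, M.sum < i + 2 * ρ1 ∧ i < ρ1 with hNr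
  set Cd : Multiset ℕ → Prop := fun M => M ∈ 𝓜 ∧ (∀ i ∈ M, j0 ≤ i) ∧ 2 ≤ Multiset.card M ∧ ¬ Nr M ∧
    ∃ M' ≤ M, ρ1 ≤ M'.sum ∧ M'.sum + ρ1 ≤ M.sum with hCd
  have hF : ∀ M M', (if Cd M then (fun M' => if M' = sel M then (1 : ℂ) else 0) else 0) M' ≠ 0 →
      Cd M ∧ M' = sel M := by
    intro M M' h
    by_cases h1 : Cd M
    · rw [if_pos h1] at h
      exact ⟨h1, by by_contra h2; exact h (if_neg h2)⟩
    · rw [if_neg h1] at h
      exact absurd rfl h
  have hcount : ∀ M, Cd M → Multiset.count (sel M) M.powerset ≠ 0 := fun M h =>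
    Multiset.count_ne_zero.2 (Multiset.mem_powerset.2 (hsel M h.2.2.2.2).1)
  refine ⟨fun M => if Nr M ∧ ∀ i ∈ M, j0 ≤ i then Cm (ρ1 + j0) M else 0, 𝓜,
    fun M => if Cd M then Cm (ρ1 + j0) M / (Multiset.count (sel M) M.powerset : ℂ) else 0,
    fun M a => if bx a + sel M = M then 1 else 0,
    fun M => if Cd M then (fun M' => if M' = sel M then (1 : ℂ) else 0) else 0,
    fun M => ?_, fun M h => ?_, hcard, fun M => ?_, fun M a => d2_norm_ite (by simp),
    fun M M' => ?_, fun M M' h i hi => ?_, fun M M' h => ?_, fun n hn hpr hbig => ?_⟩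
  · beta_reduce
    split_ifs with h
    · refine (norm_Cm_le _ _).trans ?_
      rw [h.1.1]; norm_num
    · simp
  · by_contra h'
    exact h (if_neg fun h2 => h' h2.1)
  · beta_reduce
    split_ifs with h
    · rw [norm_div, Complex.norm_natCast]
      refine (div_le_self (norm_nonneg _) ?_).trans ((norm_Cm_le _ _).trans
        (pow_le_pow_right₀ one_le_two ((h𝓜 M).1 h.1).1))
      exact_mod_cast Nat.one_le_iff_ne_zero.2 (hcount M h)
    · simp
  · beta_reduce
    split_ifs with h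
    · exact d2_norm_ite (by simp)
    · simp
  · obtain ⟨h1, rfl⟩ := hF M M' h
    exact h1.2.1 i (Multiset.mem_of_le (hsel M h1.2.2.2.2).1 hi)
  · obtain ⟨h1, rfl⟩ := hF M M' h
    obtain ⟨h2, h3, h4⟩ := hsel M h1.2.2.2.2
    obtain ⟨h5, h6⟩ := (h𝓜 M).1 h1.1
    exact ⟨h3, h4.trans h6, (Multiset.card_le_card h2).trans h5⟩
  · have hsum : ∑ M ∈ 𝓜,
        (if Cd M then Cm (ρ1 + j0) M / (Multiset.count (sel M) M.powerset : ℂ) else 0) *
          conv (fun a => if bx a + sel M = M then 1 else 0)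
            (bet w (if Cd M then (fun M' => if M' = sel M then (1 : ℂ) else 0) else 0)) n =
        if Cd (bx n) then Cm (ρ1 + j0) (bx n) else 0 := by
      have h1 : ∀ M ∈ 𝓜,
          (if Cd M then Cm (ρ1 + j0) M / (Multiset.count (sel M) M.powerset : ℂ) else 0) *
          conv (fun a => if bx a + sel M = M then 1 else 0)
            (bet w (if Cd M then (fun M' => if M' = sel M then (1 : ℂ) else 0) else 0)) n =
          if bx n = M then (if Cd M then Cm (ρ1 + j0) M else 0) else 0 := by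
        intro M _
        by_cases h : Cd M
        · rw [if_pos h, if_pos h, if_pos h, d2_conv_sel hw hn fun i hi =>
            h.2.1 i (Multiset.mem_of_le (hsel M h.2.2.2.2).1 hi)]
          split_ifs
          · exact div_mul_cancel₀ _ (by exact_mod_cast hcount M h)
          · exact mul_zero _
        · rw [if_neg h, zero_mul, if_neg h, ite_self]
      rw [Finset.sum_congr rfl h1, Finset.sum_ite_eq]
      split_ifs with h2 h3 h3
      · rfl
      · rfl
      · exact absurd h3.1 h2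
      · rfl
    beta_reduce
    rw [hsum]
    have hall : (∀ p ∈ pf n, j0 ≤ box p) ↔ ∀ i ∈ bx n, j0 ≤ i := by
      unfold bx
      simp only [Multiset.mem_map, Finset.mem_val, forall_exists_index, and_imp,
        forall_apply_eq_imp_iff₂]
    have hc : Multiset.card (bx n) = (pf n).card := by rw [bx, Multiset.card_map]; rfl
    by_cases hp : Prime n
    · have e := bx_prime hp hn.1
      have h1 : ∀ p ∈ pf n, j0 ≤ box p := hall.2 fun i hi => by
        rw [e, Multiset.mem_singleton] at hi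
        rw [hi]; exact hpr hp
      have h2 := (hbig h1).2.2.1
      have h3 : Multiset.card (bx n) = 1 := by rw [e, Multiset.card_singleton]
      rw [if_pos h1, if_pos hp, if_neg fun h => by have := h.1.1; omega,
        if_neg fun h => by have := h.2.2.1; omega, e]
      rw [e, Multiset.sum_singleton] at h2
      have h4 : ¬ box n ≤ ρ1 + j0 := by omega
      rw [← Multiset.cons_zero, Cm, Multiset.powerset_cons]
      simp [h4]
    · rw [if_neg hp, zero_add]
      by_cases h1 : ∀ p ∈ pf n, j0 ≤ box p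
      · obtain ⟨h2, h3, h4, h5⟩ := hbig h1
        have h6 : 2 ≤ Multiset.card (bx n) := by
          by_contra h6
          have h7 : Multiset.card (bx n) = 0 ∨ (pf n).card = 1 := by omega
          rcases h7 with h7 | h7
          · rw [Multiset.card_eq_zero] at h7
            rw [h7, Multiset.sum_zero] at h4
            omega
          · obtain ⟨p, h8⟩ := Finset.card_eq_one.1 h7
            have h9 := hn.prod_pf
            rw [h8, Finset.prod_singleton] at h9
            have h10 : p ∈ pf n := by rw [h8]; exact Finset.mem_singleton_self p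
            exact hp (h9 ▸ ((mem_pf hn.1.ne_zero).1 h10).1)
        rw [if_pos h1]
        by_cases hN : Nr (bx n)
        · rw [if_pos ⟨hN, hall.1 h1⟩, if_neg fun h => h.2.2.2.1 hN, add_zero]
        · rw [if_neg fun h => hN h.1, zero_add]
          split_ifs with h7
          · rfl
          · by_contra h8
            refine hN (narrow_comb (Nat.le_add_right ρ1 j0) (by omega) h5 h6 h8 fun M' hM' => ?_)
            by_contra h9
            exact h7 ⟨(h𝓜 _).2 ⟨by omega, h3⟩, hall.1 h1, h6, hN, M', hM', by omega, by omega⟩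
      · rw [if_neg h1, if_neg fun h => h1 (hall.2 h.2), if_neg fun h => h1 (hall.2 h.2.1), add_zero]

end Crest.Agent.R12
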