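import Crest.Agent.R17.VoC5
import Crest.Agent.R17.VoGam

/-!
# R12 / LWangAux : the theta transformation with complex shifts and its derivatives
-/

set_option autoImplicit false

noncomputable section

open scoped Classical ComplexConjugate Topology Real
open MeasureTheory Filter Complex

namespace Crest.Agent.R12

open Crest.Agent.R17 Crest.Agent.R17.Po

/-- the hexagonal theta transformation with complex shifts -/
theorem lw_theta_hex {t : ℝ} (ht : 0 < t) (u v : ℂ) :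
    ∑' p : ℤ × ℤ, cexp (-π * t * (((p.1 : ℂ) + u) ^ 2 - (p.1 + u) * (p.2 + v) + (p.2 + v) ^ 2)) =
      ((2 / (√3 * t) : ℝ) : ℂ) * ∑' p : ℤ × ℤ,
        cexp (-π * (4 / (3 * t)) * ((p.1 : ℂ) ^ 2 + p.1 * p.2 + (p.2 : ℂ) ^ 2) +
          2 * π * (v * p.1 + u * p.2) * I) := by
  have ht0 : (t : ℂ) ≠ 0 := ofReal_ne_zero.2 ht.ne'
  have s0 : Summable (Gl t ((-t / 2 : ℝ) : ℂ) t (-t * (2 * u - v) / 2) (-t * (2 * v - u) / 2)) :=
    summable_Gl _ _ (by simpa using ht) (by simpa using ht)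
      (by simp only [ofReal_re]; nlinarith)
  have r1 : 0 < (((3 * t / 4 : ℝ) : ℂ)).re := by rw [ofReal_re]; positivity
  have r2 : 0 < (((1 / t : ℝ) : ℂ)).re := by rw [ofReal_re]; positivity
  have r3 : 0 < (((4 / (3 * t) : ℝ) : ℂ)).re := by rw [ofReal_re]; positivity
  have s1 : Summable (Gl ((3 * t / 4 : ℝ) : ℂ) (I / 2) ((1 / t : ℝ) : ℂ) (-3 * t * u / 4)
      (I * (2 * v - u) / 2)) :=
    summable_Gl _ _ r1 r2 (by
      have : (I / 2).re = 0 := by simp
      rw [this, zero_pow two_ne_zero]; exact mul_pos r1 r2)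
  have s1' : Summable (Gl ((1 / t : ℝ) : ℂ) (I / 2) ((3 * t / 4 : ℝ) : ℂ) (I * (2 * v - u) / 2)
      (-3 * t * u / 4)) :=
    summable_Gl _ _ r2 r1 (by
      have : (I / 2).re = 0 := by simp
      rw [this, zero_pow two_ne_zero]; exact mul_pos r2 r1)
  have s2 : Summable (Gl ((4 / (3 * t) : ℝ) : ℂ) ((2 / (3 * t) : ℝ) : ℂ) ((4 / (3 * t) : ℝ) : ℂ)
      (I * v) (I * u)) :=
    summable_Gl _ _ r3 r3 (by
      simp only [ofReal_re]
      have h1 : 0 < 1 / (3 * t) := by positivity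
      have h2 : 2 / (3 * t) = 2 * (1 / (3 * t)) := by ring
      have h3 : 4 / (3 * t) = 4 * (1 / (3 * t)) := by ring
      rw [h2, h3]; nlinarith)
  have k1 := tsum_step (by simpa using ht) s0 s1 (by push_cast; field_simp; ring)
    (by push_cast; field_simp) (by push_cast; rfl) (by push_cast; field_simp; ring)
    (by field_simp)
  have k2 := tsum_step r1 s1' s2
    (by push_cast; field_simp; linear_combination (4 : ℂ) * I_sq)
    (by push_cast; field_simp; linear_combination (4 : ℂ) * I_sq)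
    (by push_cast; field_simp) (by push_cast; field_simp; ring) (by push_cast; field_simp)
  rw [tsum_swap ((3 * t / 4 : ℝ) : ℂ), k2] at k1
  have e1 : ∀ p : ℤ × ℤ,
      cexp (-π * t * (((p.1 : ℂ) + u) ^ 2 - (p.1 + u) * (p.2 + v) + (p.2 + v) ^ 2)) =
      cexp (-π * t * ((u : ℂ) ^ 2 - u * v + v ^ 2)) *
        Gl t ((-t / 2 : ℝ) : ℂ) t (-t * (2 * u - v) / 2) (-t * (2 * v - u) / 2) p := by
    intro p
    rw [Gl, ← Complex.exp_add]
    congr 1
    push_cast
    ring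
  have e2 : ∀ p : ℤ × ℤ,
      cexp (-π * (4 / (3 * t)) * ((p.1 : ℂ) ^ 2 + p.1 * p.2 + (p.2 : ℂ) ^ 2) +
          2 * π * (v * p.1 + u * p.2) * I) =
      Gl ((4 / (3 * t) : ℝ) : ℂ) ((2 / (3 * t) : ℝ) : ℂ) ((4 / (3 * t) : ℝ) : ℂ)
        (I * v) (I * u) p := by
    intro p
    rw [Gl]
    congr 1
    push_cast
    ring
  simp only [e1, e2, tsum_mul_left, k1]
  have e3 : (1 / (t : ℂ) ^ (1 / 2 : ℂ)) * (1 / ((3 * t / 4 : ℝ) : ℂ) ^ (1 / 2 : ℂ)) =
      ((2 / (√3 * t) : ℝ) : ℂ) := by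
    have a1 : (t : ℂ) ^ (1 / 2 : ℂ) = ((√t : ℝ) : ℂ) := by
      rw [Real.sqrt_eq_rpow, ofReal_cpow ht.le]; norm_num
    have a2 : ((3 * t / 4 : ℝ) : ℂ) ^ (1 / 2 : ℂ) = ((√(3 * t / 4) : ℝ) : ℂ) := by
      rw [Real.sqrt_eq_rpow, ofReal_cpow (by positivity)]; norm_num
    have a3 : √t * √(3 * t / 4) = √3 * t / 2 := by
      rw [← Real.sqrt_mul ht.le, show t * (3 * t / 4) = 3 * (t / 2) ^ 2 by ring,
        Real.sqrt_mul (by norm_num), Real.sqrt_sq (by positivity)]
      ring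
    rw [a1, a2, div_mul_div_comm, ← ofReal_mul, a3]
    push_cast
    field_simp
  have e4 : cexp (-π * t * ((u : ℂ) ^ 2 - u * v + v ^ 2)) *
      cexp (π * (-t * (2 * v - u) / 2) ^ 2 / t) *
      cexp (π * (-3 * t * u / 4) ^ 2 / ((3 * t / 4 : ℝ) : ℂ)) = 1 := by
    rw [← Complex.exp_add, ← Complex.exp_add, ← Complex.exp_zero]
    congr 1
    push_cast
    field_simp
    ring
  rw [← e3]
  linear_combination (1 / (t : ℂ) ^ (1 / 2 : ℂ) * (1 / ((3 * t / 4 : ℝ) : ℂ) ^ (1 / 2 : ℂ)) *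
    ∑' p, Gl ((4 / (3 * t) : ℝ) : ℂ) ((2 / (3 * t) : ℝ) : ℂ) ((4 / (3 * t) : ℝ) : ℂ)
      (I * v) (I * u) p) * e4

theorem lw_conj_om : conj omC = -1 - omC := by
  apply Complex.ext
  · simp [omC]; norm_num
  · simp [omC]

theorem lw_om : 2 * omC + 1 = (√3 : ℝ) * I := by
  apply Complex.ext
  · simp [omC]; norm_num
  · simp [omC]; ring

/-- `poisson_gauss` with `ξ` and `conj ξ` replaced by independent variables -/
theorem lw_gauss (a b : ℂ) {X : ℝ} (hX : 0 < X) :
    ∑' x : O, cexp (-(c0 / X) * ((toC x + a) * (conj (toC x) + b))) =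
      X * ∑' h : O, (Om (X * N h) : ℂ) * cexp (c0 * (toC h * a - conj (toC h) * b)) := by
  have h1 : 0 < √3 := by positivity
  have h1' : ((√3 : ℝ) : ℂ) ≠ 0 := ofReal_ne_zero.2 h1.ne'
  have hX' : (X : ℂ) ≠ 0 := ofReal_ne_zero.2 hX.ne'
  have h2 : 2 * omC + 1 ≠ 0 := by rw [lw_om]; exact mul_ne_zero h1' I_ne_zero
  obtain ⟨u, v, rfl, rfl⟩ : ∃ u v : ℂ, a = u + v * omC ∧ b = u + v * (-1 - omC) :=
    ⟨a - (a - b) / (2 * omC + 1) * omC, (a - b) / (2 * omC + 1), by ring, by field_simp; ring⟩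
  have ht : 0 < 2 / (√3 * X) := by positivity
  have key := lw_theta_hex ht u v
  have e0 : 2 / (√3 * (2 / (√3 * X))) = X := by field_simp
  rw [e0] at key
  rw [← Po.e1.tsum_eq, ← Po.e2.tsum_eq]
  refine Eq.trans (tsum_congr fun p => ?_) (key.trans (congrArg _ (tsum_congr fun p => ?_)))
  · congr 1
    simp only [toC_apply, Po.e1, Equiv.coe_fn_mk, map_add, map_mul, map_intCast, lw_conj_om, c0]
    push_cast
    linear_combination (2 * π / (√3 : ℝ) / X * ((p.2 : ℂ) + v) ^ 2) * omC_sq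
  · have e' : 4 / (3 * (2 / (√3 * X))) = 2 / √3 * X := by
      have h3 : √3 * √3 = 3 := Real.mul_self_sqrt (by norm_num)
      field_simp
      nlinarith
    have e'' : (4 / (3 * ((2 / (√3 * X) : ℝ) : ℂ)) : ℂ) = ((2 / √3 * X : ℝ) : ℂ) := by
      rw [← e']; push_cast; rfl
    have e : toC (Po.e2 p) * (u + v * omC) - conj (toC (Po.e2 p)) * (u + v * (-1 - omC)) =
        (√3 : ℝ) * I * (v * p.1 + u * p.2) := by
      simp only [toC_apply, Po.e2, Equiv.coe_fn_mk, map_add, map_mul, map_intCast, lw_conj_om, ← lw_om]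
      push_cast
      ring
    rw [e, Om, Complex.ofReal_exp, ← Complex.exp_add, Po.N_eq, c0, e'']
    congr 1
    simp only [Po.e2, Equiv.coe_fn_mk]
    push_cast
    field_simp
    ring

theorem lw_norm_Om (x : ℝ) : ‖(Om x : ℂ)‖ = Om x := by
  rw [Complex.norm_real, Real.norm_of_nonneg (Om_pos x).le]

/-- Gaussians beat exponentials -/
theorem lw_summable {X : ℝ} (hX : 0 < X) (R : ℝ) :
    Summable fun n : O => Om (N n / X) * Real.exp (R * ‖toC n‖) := by
  have hc := c0_pos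
  have a : Summable (fun k : O => Om (N k / (2 * X))) := by
    simpa using summable_Om (X := 2 * X) (by positivity) 0
  refine Summable.of_nonneg_of_le (fun n => mul_nonneg (Om_pos _).le (Real.exp_pos _).le) (fun n => ?_)
    (a.mul_left (Real.exp (R ^ 2 * X / (2 * c0))))
  rw [Om, Om, ← Real.exp_add, ← Real.exp_add, Real.exp_le_exp, ← norm_toC_sq]
  have h1 : 0 ≤ (c0 * ‖toC n‖ - R * X) ^ 2 / (2 * c0 * X) := by positivity
  have h2 : (c0 * ‖toC n‖ - R * X) ^ 2 / (2 * c0 * X) =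
      R ^ 2 * X / (2 * c0) + -(c0 * (‖toC n‖ ^ 2 / (2 * X))) -
        (-(c0 * (‖toC n‖ ^ 2 / X)) + R * ‖toC n‖) := by
    field_simp
    ring
  linarith

/-- the exponential series under consideration -/
def LwS (A α : O → ℂ) : Prop := ∀ R : ℝ, Summable fun n => ‖A n‖ * Real.exp (R * ‖α n‖)

theorem lwS_of {A α : O → ℂ} {X M C : ℝ} (hX : 0 < X) (hA : ∀ n, ‖A n‖ ≤ M * Om (N n / X))
    (hα : ∀ n, ‖α n‖ ≤ C * ‖toC n‖) : LwS A α := by
  intro R
  refine Summable.of_nonneg_of_le (fun n => by positivity) (fun n => ?_)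
    ((lw_summable hX (|R| * C)).mul_left M)
  rw [← mul_assoc]
  refine mul_le_mul (hA n) (Real.exp_le_exp.2 ?_) (Real.exp_pos _).le ((norm_nonneg _).trans (hA n))
  rw [mul_assoc]
  exact mul_le_mul (le_abs_self R) (hα n) (norm_nonneg _) (abs_nonneg R)

theorem LwS.bd {A α : O → ℂ} (j : ℕ) {R : ℝ} {z : ℂ} (hz : ‖z‖ ≤ R) (n : O) :
    ‖A n * α n ^ j * cexp (α n * z)‖ ≤ j.factorial * (‖A n‖ * Real.exp ((R + 1) * ‖α n‖)) := by
  have h1 : ‖α n‖ ^ j ≤ j.factorial * Real.exp ‖α n‖ := by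
    have := Real.pow_div_factorial_le_exp ‖α n‖ (norm_nonneg _) j
    rwa [div_le_iff₀' (by positivity)] at this
  have h2 : ‖cexp (α n * z)‖ ≤ Real.exp (R * ‖α n‖) := by
    refine (Complex.norm_exp_le_exp_norm _).trans (Real.exp_le_exp.2 ?_)
    rw [norm_mul, mul_comm]
    exact mul_le_mul_of_nonneg_right hz (norm_nonneg _)
  rw [norm_mul, norm_mul, norm_pow, add_mul, one_mul, Real.exp_add]
  calc ‖A n‖ * ‖α n‖ ^ j * ‖cexp (α n * z)‖
      ≤ ‖A n‖ * (j.factorial * Real.exp ‖α n‖) * Real.exp (R * ‖α n‖) := by gcongr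
    _ = _ := by ring

theorem LwS.summable {A α : O → ℂ} (h : LwS A α) (j : ℕ) (z : ℂ) :
    Summable fun n => A n * α n ^ j * cexp (α n * z) :=
  Summable.of_norm_bounded ((h (‖z‖ + 1)).mul_left _) (LwS.bd j le_rfl)

theorem LwS.deriv {A α : O → ℂ} (h : LwS A α) (j : ℕ) (z : ℂ) :
    HasDerivAt (fun z => ∑' n, A n * α n ^ j * cexp (α n * z))
      (∑' n, A n * α n ^ (j + 1) * cexp (α n * z)) z := by
  refine hasDerivAt_tsum_of_isPreconnected ((h (‖z‖ + 1 + 1)).mul_left ((j + 1).factorial : ℝ))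
    (Metric.isOpen_ball (x := (0 : ℂ)) (ε := ‖z‖ + 1)) (convex_ball _ _).isPreconnected
    (g' := fun n z => A n * α n ^ (j + 1) * cexp (α n * z)) (fun n y _ => ?_)
    (fun n y hy => LwS.bd (j + 1) (mem_ball_zero_iff.1 hy).le n) (y₀ := z) (by simp) (h.summable j z)
    (by simp)
  have := (((hasDerivAt_id y).const_mul (α n)).cexp).const_mul (A n * α n ^ j)
  refine this.congr_deriv ?_
  simp only [id]
  ring

theorem LwS.ext {A α B β : O → ℂ} (h : LwS A α) (h' : LwS B β) {c : ℂ}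
    (e : ∀ z, ∑' n, A n * cexp (α n * z) = c * ∑' n, B n * cexp (β n * z)) (j : ℕ) :
    ∑' n, A n * α n ^ j = c * ∑' n, B n * β n ^ j := by
  have key : ∀ z, ∑' n, A n * α n ^ j * cexp (α n * z) = c * ∑' n, B n * β n ^ j * cexp (β n * z) := by
    induction j with
    | zero => simpa using e
    | succ j ih =>
      intro z
      have h1 := h.deriv j z
      rw [funext ih] at h1
      exact h1.unique ((h'.deriv j z).const_mul c)
  simpa using key 0

/-- Poisson summation with a linear exponential -/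
theorem lw_per {q : O} (hq : q ≠ 0) {φ : O → ℂ} (hφ : Per q φ) {K : ℝ} (hK : 0 < K) {r s : ℂ}
    (hrs : r * s = 0) (j : ℕ) :
    ∑' n : O, φ n * (Om (N n / K) : ℂ) * (-(c0 / K) * (r * toC n + s * conj (toC n))) ^ j =
      ((K / N q : ℝ) : ℂ) * ∑' d : O, gs q φ d * (Om (K * N d / N q) : ℂ) *
        (c0 * (s * (toC d / toC q) - r * conj (toC d / toC q))) ^ j := by
  have hM := N_pos hq
  have hX : 0 < K / N q := div_pos hK hM
  have hq0 : toC q ≠ 0 := b4_toC_ne_zero hq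
  have hq1 : conj (toC q) ≠ 0 := by simpa using hq0
  have hK' : (K : ℂ) ≠ 0 := ofReal_ne_zero.2 hK.ne'
  have hc := c0_pos
  have hN : ∀ x : O, (N x : ℂ) = toC x * conj (toC x) := fun x => by
    rw [N_eq_normSq, Complex.mul_conj]
  obtain ⟨M, hM1⟩ := hφ.bdd hq
  have hb : ∀ z : ℂ, ‖r * z + s * conj z‖ ≤ (‖r‖ + ‖s‖) * ‖z‖ := fun z => by
    refine (norm_add_le _ _).trans (le_of_eq ?_)
    rw [norm_mul, norm_mul, Complex.norm_conj]
    ring
  have hb' : ∀ z : ℂ, ‖s * z - r * conj z‖ ≤ (‖r‖ + ‖s‖) * ‖z‖ := fun z => by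
    refine (norm_sub_le _ _).trans (le_of_eq ?_)
    rw [norm_mul, norm_mul, Complex.norm_conj]
    ring
  have S1 : LwS (fun n => φ n * (Om (N n / K) : ℂ))
      fun n => -(c0 / K) * (r * toC n + s * conj (toC n)) := by
    refine lwS_of (M := M) (C := ‖-(c0 / K : ℂ)‖ * (‖r‖ + ‖s‖)) hK (fun n => ?_) fun n => ?_
    · rw [norm_mul, lw_norm_Om]
      exact mul_le_mul_of_nonneg_right (hM1 n) (Om_pos _).le
    · rw [norm_mul, mul_assoc]
      exact mul_le_mul_of_nonneg_left (hb _) (norm_nonneg _)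
  have S2 : ∀ (ψ : O → ℂ) (M' : ℝ), (∀ d, ‖ψ d‖ ≤ M') → LwS (fun d => ψ d * (Om (K * N d / N q) : ℂ))
      fun d => c0 * (s * (toC d / toC q) - r * conj (toC d / toC q)) := by
    intro ψ M' hψ
    refine lwS_of (M := M') (C := ‖(c0 : ℂ)‖ * ((‖r‖ + ‖s‖) * ‖toC q‖⁻¹)) (div_pos hM hK)
      (fun n => ?_) fun n => ?_
    · rw [norm_mul, lw_norm_Om, show K * N n / N q = N n / (N q / K) by field_simp]
      exact mul_le_mul_of_nonneg_right (hψ n) (Om_pos _).le
    · rw [norm_mul, mul_assoc]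
      refine mul_le_mul_of_nonneg_left ((hb' _).trans (le_of_eq ?_)) (norm_nonneg _)
      rw [norm_div]
      ring
  obtain ⟨M2, hM2⟩ := (Per.gs q φ).bdd hq
  refine LwS.ext S1 (S2 _ _ hM2) (fun z => ?_) j
  have s0 := S1.summable 0 z
  simp only [pow_zero, mul_one] at s0
  have s1 : ∀ x : O, Summable (fun d : O => φ x * ad q (d * x) * (Om (K * N d / N q) : ℂ) *
      cexp (c0 * (s * (toC d / toC q) - r * conj (toC d / toC q)) * z)) := by
    intro x
    have := (S2 (fun d => φ x * ad q (d * x)) ‖φ x‖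
      (fun d => by rw [norm_mul, norm_ad, mul_one])).summable 0 z
    simpa only [pow_zero, mul_one] using this
  rw [tsum_res hq s0]
  simp only [gs, Finset.sum_mul]
  rw [Summable.tsum_finsetSum (fun x _ => s1 x), Finset.mul_sum]
  refine Finset.sum_congr rfl fun x _ => ?_
  have key := lw_gauss ((toC x + s * z) / toC q) ((conj (toC x) + r * z) / conj (toC q)) hX
  have e1 : ∀ t : O, φ (x + q * t) * (Om (N (x + q * t) / K) : ℂ) *
      cexp (-(c0 / K) * (r * toC (x + q * t) + s * conj (toC (x + q * t))) * z) =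
      φ x * cexp (-(c0 / ((K / N q : ℝ) : ℂ)) * ((toC t + (toC x + s * z) / toC q) *
        (conj (toC t) + (conj (toC x) + r * z) / conj (toC q)))) := by
    intro t
    rw [hφ x t, mul_assoc, Om, Complex.ofReal_exp, ← Complex.exp_add]
    congr 2
    push_cast
    rw [hN, hN]
    simp only [map_add, map_mul]
    field_simp
    linear_combination (c0 * z ^ 2) * hrs
  have e2 : ∀ d : O, φ x * ad q (d * x) * (Om (K * N d / N q) : ℂ) *
      cexp (c0 * (s * (toC d / toC q) - r * conj (toC d / toC q)) * z) =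
      φ x * ((Om (K / N q * N d) : ℂ) * cexp (c0 * (toC d * ((toC x + s * z) / toC q) -
        conj (toC d) * ((conj (toC x) + r * z) / conj (toC q))))) := by
    intro d
    rw [ad, Vor.voc4_ee, show K * N d / N q = K / N q * N d by ring, mul_assoc, mul_assoc,
      mul_left_comm (cexp _), ← Complex.exp_add]
    congr 3
    simp only [map_mul, map_div₀]
    ring
  simp only [e1, e2, tsum_mul_left, key]
  ring

end Crest.Agent.R12
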