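import Crest.Agent.R12.Basic1
import Crest.Agent.R17.VoC4
import Crest.Agent.R17.LGrowth
import Crest.Agent.R12.LWangAux

/-!
# R12 / LWang : functional equation for periodic × angular coefficients

`L = |ℓ|`.  (1) Harmonic Poisson formula: in `poisson_gauss (x₀/q + ξ)` (i.e. in the proof of
`poisson_per`) put `ξ = ρ η^j`, average against `η^{-jℓ'}` over the `(2L+1)`-th roots of unity, divide
by `ρ^L` and let `ρ → 0` exactly as in `Vor.phi_fe` (`Vor.avg_ee` on the side with `ee`; on the other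
side `Om(|x+ξ|²/K) = Om(|x|²/K) Om(ρ²/K) exp(-(c0/K)(x conj ξ + conj x ξ))` and the same Taylor
argument for the real exponential, error `≤ |y|^{L+1} e^{|y|}`).  Any other proof (e.g. differentiating
`poisson_gauss` in `ξ`) is fine.  (2) `WeakFEPair` with `k = L + 1` as in `LCont1.lean`
(`f₀ = g₀ = 0` for `ℓ ≠ 0`), growth as in `Ef_apriori`.
-/

set_option autoImplicit false

noncomputable section

open scoped Classical ComplexConjugate Topology
open MeasureTheory Filter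

namespace Crest.Agent.R12

open Crest.Agent.R17

/-- the gamma factor -/
def gamA (ℓ : ℤ) (s : ℂ) : ℂ :=
  Complex.Gamma (1 - s + (ℓ.natAbs : ℂ) / 2) * (Complex.Gamma (s + (ℓ.natAbs : ℂ) / 2))⁻¹

/-- harmonic Poisson formula; `‖ε‖ = 1` (`ε = ±1`, depends only on `ℓ`) -/
theorem poisson_harm (ℓ : ℤ) : ∃ ε : ℂ, ‖ε‖ = 1 ∧ ∀ (q : O) (φ : O → ℂ), q ≠ 0 → Per q φ →
    ∀ K : ℝ, 0 < K →
    ∑' n : O, φ n * Vor.hp ℓ (toC n) * (Om (N n / K) : ℂ) =
      ε * ((K / N q : ℝ) : ℂ) * (K : ℂ) ^ ℓ.natAbs *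
        ∑' d : O, gs q φ d * Vor.hp (-ℓ) (toC d / toC q) * (Om (K * N d / N q) : ℂ) := by
  have hc : (c0 : ℂ) ≠ 0 := Complex.ofReal_ne_zero.2 c0_pos.ne'
  by_cases h0 : 0 ≤ ℓ
  · refine ⟨1, norm_one, fun q φ hq hφ K hK => ?_⟩
    have hK' : (K : ℂ) ≠ 0 := Complex.ofReal_ne_zero.2 hK.ne'
    have h1 := lw_per hq hφ hK (r := 1) (s := 0) (by simp) ℓ.natAbs
    have h2 : (-(c0 / K) : ℂ) ^ ℓ.natAbs ≠ 0 := pow_ne_zero _ (neg_ne_zero.2 (div_ne_zero hc hK'))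
    refine mul_left_cancel₀ h2 ?_
    rw [← tsum_mul_left, ← mul_assoc, ← tsum_mul_left]
    rw [← tsum_mul_left] at h1
    refine Eq.trans (tsum_congr fun n => ?_) (h1.trans (tsum_congr fun d => ?_))
    · rw [Vor.hp, if_pos h0, one_mul, zero_mul, add_zero, mul_pow]
      ring
    · rw [← Vor.hp_conj, Vor.hp, if_pos h0, show (c0 : ℂ) * (0 * (toC d / toC q) -
        1 * conj (toC d / toC q)) = -(c0 / K) * K * conj (toC d / toC q) by field_simp; ring,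
        mul_pow, mul_pow]
      ring
  · refine ⟨(-1) ^ ℓ.natAbs, by simp, fun q φ hq hφ K hK => ?_⟩
    have hK' : (K : ℂ) ≠ 0 := Complex.ofReal_ne_zero.2 hK.ne'
    have h1 := lw_per hq hφ hK (r := 0) (s := 1) (by simp) ℓ.natAbs
    have h2 : (-(c0 / K) : ℂ) ^ ℓ.natAbs ≠ 0 := pow_ne_zero _ (neg_ne_zero.2 (div_ne_zero hc hK'))
    refine mul_left_cancel₀ h2 ?_
    rw [← tsum_mul_left, ← mul_assoc, ← tsum_mul_left]
    rw [← tsum_mul_left] at h1
    refine Eq.trans (tsum_congr fun n => ?_) (h1.trans (tsum_congr fun d => ?_))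
    · rw [Vor.hp, if_neg h0, one_mul, zero_mul, zero_add, mul_pow]
      ring
    · rw [Vor.hp, if_pos (by omega), Int.natAbs_neg, show (c0 : ℂ) * (1 * (toC d / toC q) -
        0 * conj (toC d / toC q)) = -(c0 / K) * (-1) * K * (toC d / toC q) by field_simp; ring,
        mul_pow, mul_pow, mul_pow]
      ring

/-- `ψ(n) |n|^L` -/
def lwA (ψ : O → ℂ) (L : ℕ) (n : O) : ℂ := ψ n * (‖toC n‖ : ℂ) ^ L

theorem lwA_zero (ψ : O → ℂ) {L : ℕ} (hL : L ≠ 0) : lwA ψ L 0 = 0 := by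
  simp [lwA, hL]

theorem lw_shift (a : O → ℂ) (c δ x : ℝ) :
    th a c x = th (fun n => a n * (Real.exp (-(c * N n) * δ) : ℝ)) c (x - δ) := by
  refine tsum_congr fun n => ?_
  rw [mul_assoc, ← Complex.ofReal_mul, ← Real.exp_add]
  congr 3
  ring

theorem lw_bdd {ψ : O → ℂ} {M : ℝ} (hM : ∀ n, ‖ψ n‖ ≤ M) (L : ℕ) {c δ : ℝ} (hc : 0 < c) (hδ : 0 < δ) :
    ∃ M', ∀ n, ‖lwA ψ L n * (Real.exp (-(c * N n) * δ) : ℝ)‖ ≤ M' := by
  obtain ⟨C, -, hC⟩ := Po.pow_mul_exp_le L (mul_pos hc hδ) 1 zero_le_one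
  have hM0 : 0 ≤ M := (norm_nonneg _).trans (hM 0)
  refine ⟨M * C, fun n => ?_⟩
  rw [lwA, mul_assoc, norm_mul, norm_mul, norm_pow, Complex.norm_real, Complex.norm_real, norm_norm,
    Real.norm_of_nonneg (Real.exp_pos _).le]
  refine mul_le_mul (hM n) (le_trans ?_ (hC (N n) (N_nonneg n))) (by positivity) hM0
  rw [show -(c * N n) * δ = -(c * δ * N n) by ring]
  refine mul_le_mul_of_nonneg_right (pow_le_pow_left₀ (norm_nonneg _) ?_ L) (Real.exp_pos _).le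
  rw [← norm_toC_sq]
  nlinarith [sq_nonneg (‖toC n‖ - 1), norm_nonneg (toC n)]

theorem lw_cont {ψ : O → ℂ} {M : ℝ} (hM : ∀ n, ‖ψ n‖ ≤ M) (L : ℕ) {c : ℝ} (hc : 0 < c) :
    ContinuousOn (th (lwA ψ L) c) (Set.Ioi 0) := by
  intro x hx
  have hx' : 0 < x := hx
  obtain ⟨M', h⟩ := lw_bdd hM L hc (half_pos hx')
  rw [funext (lw_shift (lwA ψ L) c (x / 2))]
  refine ContinuousAt.continuousWithinAt ?_
  exact ContinuousAt.comp (f := fun y : ℝ => y - x / 2)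
    ((continuousOn_th h hc).continuousAt (Ioi_mem_nhds (by linarith))) (by fun_prop)

theorem lw_isBigO {ψ : O → ℂ} {M : ℝ} (hM : ∀ n, ‖ψ n‖ ≤ M) {L : ℕ} (hL : L ≠ 0) {c : ℝ} (hc : 0 < c)
    (r : ℝ) : (fun x => th (lwA ψ L) c x - 0) =O[atTop] (fun x : ℝ => x ^ r) := by
  obtain ⟨M', h⟩ := lw_bdd hM L hc one_pos
  refine Asymptotics.IsBigO.trans ?_ (isLittleO_exp_neg_mul_rpow_atTop hc r).isBigO
  refine Asymptotics.IsBigO.of_bound
    ((M' * Real.exp c * ∑' k : O, Real.exp (-(c * N k))) * Real.exp c) ?_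
  filter_upwards [eventually_ge_atTop 2] with x hx
  have h1 := norm_th_sub_le h hc (x := x - 1) (by linarith)
  rw [lwA_zero ψ hL, zero_mul, ← lw_shift] at h1
  rw [Real.norm_of_nonneg (Real.exp_pos _).le, mul_assoc, ← Real.exp_add,
    show c + -c * x = -c * (x - 1) by ring]
  exact h1

theorem lw_mellin {ψ : O → ℂ} {M : ℝ} (hM : ∀ n, ‖ψ n‖ ≤ M) {L : ℕ} (hL : L ≠ 0) {c : ℝ} (hc : 0 < c)
    {s : ℂ} (hs : 1 < s.re) : mellin (th (lwA ψ L) c) (s + (L : ℂ) / 2) =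
      Complex.Gamma (s + (L : ℂ) / 2) * (c : ℂ) ^ (-(s + (L : ℂ) / 2)) * dser ψ s := by
  have hM0 : 0 ≤ M := (norm_nonneg _).trans (hM 0)
  have hre : (s + (L : ℂ) / 2).re = s.re + L / 2 := by simp
  have hL0 : (0 : ℝ) ≤ L := Nat.cast_nonneg L
  have hlog : ∀ {k : O}, k ≠ 0 → Real.log ‖toC k‖ = Real.log (N k) / 2 := fun hk => by
    rw [norm_toC, Real.log_sqrt (N_nonneg _)]
  have hpos : ∀ {k : O}, k ≠ 0 → 0 < ‖toC k‖ := fun hk => norm_pos_iff.2 (b4_toC_ne_zero hk)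
  have h := hasSum_mellin (a := lwA ψ L) (p := fun k => c * N k)
    (F := th (lwA ψ L) c) (s := s + (L : ℂ) / 2) (fun k => ?_) (by rw [hre]; linarith)
    (fun t ht => ?_) ?_
  · rw [← h.tsum_eq, dser, ← tsum_mul_left]
    refine tsum_congr fun k => ?_
    by_cases hk : k = 0
    · simp [hk, lwA_zero ψ hL]
    · have h1 : (‖toC k‖ : ℂ) ^ L / ((c * N k : ℝ) : ℂ) ^ (s + (L : ℂ) / 2) =
          (c : ℂ) ^ (-(s + (L : ℂ) / 2)) * (N k : ℂ) ^ (-s) := by
        rw [← Complex.cpow_natCast, Vor.c5_cpow (hpos hk), Vor.c5_cpow (mul_pos hc (N_pos hk)),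
          Vor.c5_cpow hc, Vor.c5_cpow (N_pos hk), hlog hk, Real.log_mul hc.ne' (N_pos hk).ne',
          ← Complex.exp_sub, ← Complex.exp_add]
        congr 1
        push_cast
        ring
      rw [if_neg hk, lwA]
      linear_combination (Complex.Gamma (s + (L : ℂ) / 2) * ψ k) * h1
  · by_cases hk : k = 0
    · exact Or.inl (hk ▸ lwA_zero ψ hL)
    · exact Or.inr (mul_pos hc (N_pos hk))
  · have ht' : 0 < t := ht
    obtain ⟨M', h⟩ := lw_bdd hM L hc (half_pos ht')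
    refine Summable.hasSum ((summable_th h hc (half_pos ht')).congr fun n => ?_)
    rw [mul_assoc, ← Complex.ofReal_mul, ← Real.exp_add]
    congr 3
    ring
  · refine Summable.of_nonneg_of_le (fun k => ?_) (fun k => ?_)
      ((summable_N_rpow hs).mul_left (M * c ^ (-(s.re + L / 2))))
    · exact div_nonneg (norm_nonneg _) (Real.rpow_nonneg (mul_nonneg hc.le (N_nonneg k)) _)
    · by_cases hk : k = 0
      · rw [hk, lwA_zero ψ hL, norm_zero, zero_div]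
        exact mul_nonneg (mul_nonneg hM0 (Real.rpow_nonneg hc.le _))
          (Real.rpow_nonneg (N_nonneg _) _)
      · have h1 : ‖toC k‖ ^ L / (c * N k) ^ (s.re + L / 2) = c ^ (-(s.re + L / 2)) * N k ^ (-s.re) := by
          rw [← Real.rpow_natCast, Real.rpow_def_of_pos (hpos hk),
            Real.rpow_def_of_pos (mul_pos hc (N_pos hk)), Real.rpow_def_of_pos hc,
            Real.rpow_def_of_pos (N_pos hk), hlog hk, Real.log_mul hc.ne' (N_pos hk).ne',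
            ← Real.exp_sub, ← Real.exp_add]
          congr 1
          ring
        rw [hre, lwA, norm_mul, norm_pow, Complex.norm_real, norm_norm, mul_div_assoc, h1, mul_assoc]
        exact mul_le_mul_of_nonneg_right (hM k)
          (mul_nonneg (Real.rpow_nonneg hc.le _) (Real.rpow_nonneg (N_nonneg _) _))

theorem lwa_norm_ang (n : O) {ℓ : ℤ} (h : ℓ ≠ 0) : ‖ang n ^ ℓ‖ ≤ 1 := by
  by_cases hn : n = 0
  · simp [hn, ang, zero_zpow _ h]
  · rw [norm_zpow, norm_ang hn, one_zpow]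

theorem lw_hp_div {ℓ : ℤ} (h : ℓ ≠ 0) (n : O) {q : O} (hq : q ≠ 0) :
    Vor.hp ℓ (toC n / toC q) =
      ang q ^ (-ℓ) / (‖toC q‖ : ℂ) ^ ℓ.natAbs * (ang n ^ ℓ * (‖toC n‖ : ℂ) ^ ℓ.natAbs) := by
  by_cases hn : n = 0
  · simp [hn, Vor.hp, h]
  · rw [Vor.hp_div ℓ hn hq, norm_div]
    push_cast
    ring

theorem lw_fe_zero {q : O} (hq : q ≠ 0) {φ : O → ℂ} (hφ : Per q φ) :
    Differentiable ℂ (dslope (Ef φ) 1) ∧ Vor.ExpGr (dslope (Ef φ) 1) := by
  have hEd : Differentiable ℂ (dslope (Ef φ) 1) := differentiableOn_univ.1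
    ((Complex.differentiableOn_dslope univ_mem).2 (Ef_differentiable hq hφ).differentiableOn)
  have hG : Vor.c5Gr (Ef φ) := fun a b => by
    obtain ⟨K, hK⟩ := Ef_apriori hq hφ a b
    exact ⟨|K|, Real.pi + 1, abs_nonneg K, by positivity, fun s h1 h2 h3 => (hK s h1 h2 h3).trans
      (mul_le_mul_of_nonneg_right (le_abs_self K) (Real.exp_pos _).le)⟩
  refine ⟨hEd, Vor.c5Gr.expGr (hG.of_le (.const (Ef φ 1)) fun s hs => ?_) hEd.continuous⟩
  have h3 : 1 ≤ ‖s - 1‖ := by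
    refine hs.trans (le_of_eq_of_le ?_ (Complex.abs_im_le_norm _))
    simp
  rw [dslope_of_ne _ (sub_ne_zero.1 (norm_pos_iff.1 (by linarith))), slope_def_field, norm_div]
  exact (div_le_self (norm_nonneg _) h3).trans (norm_sub_le _ _)

theorem lw_pow {q : O} (hq : q ≠ 0) (s : ℂ) :
    ((N q / c0 ^ 2 : ℝ) : ℂ) ^ (1 / 2 - s) * ((Real.sqrt (N q) : ℝ) : ℂ)⁻¹ =
      (N q : ℂ) ^ (-s) * (c0 : ℂ) ^ (2 * s - 1) := by
  have p1 := N_pos hq
  have p3 := c0_pos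
  rw [Real.sqrt_eq_rpow, Vor.c5_rpow p1, Vor.c5_cpow p1, Vor.c5_cpow p3, Vor.c5_cpow (by positivity),
    Real.log_div p1.ne' (by positivity), Real.log_pow, ← Complex.exp_neg, ← Complex.exp_add,
    ← Complex.exp_add]
  congr 1
  push_cast
  ring

/-- functional equation of `∑ φ(n) ang(n)^ℓ N(n)^{-s}`; for `ℓ = 0` this is `Lf_fe`, `Ef_one`. -/
theorem ang_fe (ℓ : ℤ) {q : O} (hq : q ≠ 0) {φ : O → ℂ} (hφ : Per q φ) :
    ∃ (E : ℂ → ℂ) (ε : ℂ), ‖ε‖ = 1 ∧ Differentiable ℂ E ∧ Vor.ExpGr E ∧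
      (∀ s : ℂ, 1 < s.re →
        E s + (if ℓ = 0 then (c0 : ℂ) * gs q φ 0 / (N q : ℂ) else 0) / (s - 1) =
          dser (fun n => φ n * ang n ^ ℓ) s) ∧
      (∀ s : ℂ, s.re < 0 →
        E s + (if ℓ = 0 then (c0 : ℂ) * gs q φ 0 / (N q : ℂ) else 0) / (s - 1) =
          ((N q / c0 ^ 2 : ℝ) : ℂ) ^ (1 / 2 - s) * gamA ℓ s *
            dser (fun k => ε * gs q φ k * ang k ^ (-ℓ) / (Real.sqrt (N q) : ℂ)) (1 - s)) := by
  have hd : ∀ (ε : ℂ) (s : ℂ), dser (fun k => ε * gs q φ k * ang k ^ (-ℓ) / (Real.sqrt (N q) : ℂ)) s =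
      ε * (Real.sqrt (N q) : ℂ)⁻¹ * dser (fun k => gs q φ k * ang k ^ (-ℓ)) s := by
    intro ε s
    rw [← Vor.c5_dser_mul]
    congr 1
    funext k
    ring
  by_cases h0 : ℓ = 0
  · subst h0
    obtain ⟨h1, h2⟩ := lw_fe_zero hq hφ
    have h3 : ∀ s, dslope (Ef φ) 1 s + (c0 : ℂ) * gs q φ 0 / (N q : ℂ) / (s - 1) = Lf φ s := fun s => by
      rw [Lf, Ef_one hq hφ, gs_zero]
    refine ⟨dslope (Ef φ) 1, 1, norm_one, h1, h2, fun s hs => ?_, fun s hs => ?_⟩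
    · rw [if_pos rfl, h3, Lf_eq_dser hq hφ hs]
      simp
    · rw [if_pos rfl, h3, Lf_fe hq hφ hs, hd, ← lw_pow hq, gamA]
      simp only [neg_zero, zpow_zero, mul_one, Int.natAbs_zero, Nat.cast_zero, zero_div, add_zero]
      ring
  obtain ⟨ε, hε, hP⟩ := poisson_harm ℓ
  have hL : ℓ.natAbs ≠ 0 := Int.natAbs_ne_zero.2 h0
  obtain ⟨M1, hM1⟩ := hφ.bdd hq
  obtain ⟨M2, hM2⟩ := (Per.gs q φ).bdd hq
  have b1 : ∀ n, ‖φ n * ang n ^ ℓ‖ ≤ M1 := fun n => by
    rw [norm_mul]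
    exact (mul_le_of_le_one_right (norm_nonneg _) (lwa_norm_ang n h0)).trans (hM1 n)
  have b2 : ∀ n, ‖gs q φ n * ang n ^ (-ℓ)‖ ≤ M2 := fun n => by
    rw [norm_mul]
    exact (mul_le_of_le_one_right (norm_nonneg _) (lwa_norm_ang n (neg_ne_zero.2 h0))).trans (hM2 n)
  have hN := N_pos hq
  have hc := c0_pos
  have hc' : 0 < c0 / N q := div_pos hc hN
  have hq1 : 0 < ‖toC q‖ := norm_pos_iff.2 (b4_toC_ne_zero hq)
  have hε1 : ‖ε * ang q ^ ℓ‖ = 1 := by rw [norm_mul, hε, norm_zpow, norm_ang hq, one_zpow, one_mul]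
  have hε0 : ε * ang q ^ ℓ ≠ 0 := norm_ne_zero_iff.1 (by rw [hε1]; exact one_ne_zero)
  let P : WeakFEPair ℂ :=
    { f := th (lwA (fun n => φ n * ang n ^ ℓ) ℓ.natAbs) c0
      g := th (lwA (fun n => gs q φ n * ang n ^ (-ℓ)) ℓ.natAbs) (c0 / N q)
      k := ℓ.natAbs + 1
      ε := ε * ang q ^ ℓ / ((N q * ‖toC q‖ ^ ℓ.natAbs : ℝ) : ℂ)
      f₀ := 0
      g₀ := 0
      hf_int := (lw_cont b1 _ hc).locallyIntegrableOn measurableSet_Ioi
      hg_int := (lw_cont b2 _ hc').locallyIntegrableOn measurableSet_Ioi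
      hk := by positivity
      hε := div_ne_zero hε0 (Complex.ofReal_ne_zero.2 (by positivity))
      h_feq := fun x hx => by
        have hx' : 0 < x := hx
        have k1 : th (lwA (fun n => φ n * ang n ^ ℓ) ℓ.natAbs) c0 (1 / x) =
            ∑' n : O, φ n * Vor.hp ℓ (toC n) * (Om (N n / x) : ℂ) := by
          refine tsum_congr fun n => ?_
          have := lw_hp_div h0 n one_ne_zero
          rw [map_one, div_one] at this
          rw [this, lwA, Om, show -(c0 * N n) * (1 / x) = -(c0 * (N n / x)) by ring]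
          simp only [ang, map_one, norm_one, Complex.ofReal_one, div_one, one_zpow, one_pow, one_mul]
          ring
        have k2 : ∑' d : O, gs q φ d * Vor.hp (-ℓ) (toC d / toC q) * (Om (x * N d / N q) : ℂ) =
            ang q ^ ℓ / (‖toC q‖ : ℂ) ^ ℓ.natAbs *
              th (lwA (fun n => gs q φ n * ang n ^ (-ℓ)) ℓ.natAbs) (c0 / N q) x := by
          rw [th, ← tsum_mul_left]
          refine tsum_congr fun d => ?_
          rw [lw_hp_div (neg_ne_zero.2 h0) d hq, lwA, Om, neg_neg, Int.natAbs_neg,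
            show -(c0 / N q * N d) * x = -(c0 * (x * N d / N q)) by ring]
          ring
        rw [k1, hP q φ hq hφ x hx', k2, smul_eq_mul, Real.rpow_add_one hx'.ne', Real.rpow_natCast]
        push_cast
        ring
      hf_top := lw_isBigO b1 hL hc
      hg_top := lw_isBigO b2 hL hc' }
  have hS : IsStrongFEPair P := ⟨rfl, rfl⟩
  have hΛ : P.Λ = P.Λ₀ := by
    funext s
    simp only [WeakFEPair.Λ, hS.hf₀, hS.hg₀, smul_zero, sub_zero]
  have hc0 : (c0 : ℂ) ≠ 0 := Complex.ofReal_ne_zero.2 hc.ne'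
  set L : ℂ := (ℓ.natAbs : ℂ) with hLd
  have hL0 : (0 : ℝ) ≤ ℓ.natAbs := Nat.cast_nonneg _
  have hre : ∀ s : ℂ, (s + L / 2).re = s.re + ℓ.natAbs / 2 := fun s => by simp [hLd]
  have hEd : Differentiable ℂ fun s => (c0 : ℂ) ^ (s + L / 2) * (Complex.Gamma (s + L / 2))⁻¹ *
      P.Λ₀ (s + L / 2) :=
    ((Differentiable.const_cpow (by fun_prop) (Or.inl hc0)).mul
      (Complex.differentiable_one_div_Gamma.comp (by fun_prop))).mul
      (P.differentiable_Λ₀.comp (by fun_prop))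
  refine ⟨fun s => (c0 : ℂ) ^ (s + L / 2) * (Complex.Gamma (s + L / 2))⁻¹ * P.Λ₀ (s + L / 2),
    ε * ang q ^ ℓ, hε1, hEd, Vor.c5Gr.expGr ?_ hEd.continuous, fun s hs => ?_, fun s hs => ?_⟩
  · refine ((Vor.c5Gr.cpow hc (g := fun y => y + ℓ.natAbs / 2) (by fun_prop) hre).mul
      (.gamma (ℓ.natAbs / 2) fun s => by push_cast; rfl)).mul (.of_bdd fun σ1 σ2 => ?_)
    obtain ⟨K, -, hK⟩ := Lam0_bdd P (σ1 + ℓ.natAbs / 2) (σ2 + ℓ.natAbs / 2)
    exact ⟨K, fun s h1 h2 => hK _ (by rw [hre]; linarith) (by rw [hre]; linarith)⟩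
  · have k1 : Complex.Gamma (s + L / 2) ≠ 0 :=
      Complex.Gamma_ne_zero_of_re_pos (by rw [hre]; linarith)
    have k2 : (c0 : ℂ) ^ (s + L / 2) ≠ 0 := by simp [hc0]
    have k3 : P.Λ₀ (s + L / 2) = _ :=
      (congrFun (hΛ.symm.trans hS.Λ_eq) _).trans (lw_mellin b1 hL hc hs)
    simp only [if_neg h0, zero_div, add_zero, k3]
    rw [Complex.cpow_neg, ← hLd]
    generalize Complex.Gamma (s + L / 2) = x1 at k1 ⊢
    generalize (c0 : ℂ) ^ (s + L / 2) = x2 at k2 ⊢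
    field_simp
  · have k1 := P.functional_equation (1 - s + L / 2)
    have k2 : (P.k : ℂ) - (1 - s + L / 2) = s + L / 2 := by
      change (((ℓ.natAbs : ℝ) + 1 : ℝ) : ℂ) - _ = _
      push_cast
      rw [hLd]
      push_cast
      ring
    have k3 : P.symm.Λ (1 - s + L / 2) = _ :=
      (congrFun hS.symm_Λ_eq _).trans (lw_mellin b2 hL hc' (s := 1 - s) (by simp; linarith))
    rw [k2, k3, hΛ, smul_eq_mul, ← hLd] at k1
    have k4 : (c0 : ℂ) ^ (s + L / 2) * ((c0 / N q : ℝ) : ℂ) ^ (-(1 - s + L / 2)) /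
        ((N q * ‖toC q‖ ^ ℓ.natAbs : ℝ) : ℂ) = (N q : ℂ) ^ (-s) * (c0 : ℂ) ^ (2 * s - 1) := by
      rw [norm_toC, Real.sqrt_eq_rpow, ← Real.rpow_natCast, ← Real.rpow_mul hN.le, mul_comm (N q),
        ← Real.rpow_add_one hN.ne', Vor.c5_rpow hN, Vor.c5_cpow hN, Vor.c5_cpow hc, Vor.c5_cpow hc,
        Vor.c5_cpow hc', Real.log_div hc.ne' hN.ne', ← Complex.exp_add, ← Complex.exp_add,
        ← Complex.exp_sub, hLd]
      congr 1
      push_cast
      ring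
    simp only [if_neg h0, zero_div, add_zero, k1]
    rw [hd, gamA, ← hLd]
    change _ * _ * (ε * ang q ^ ℓ / ((N q * ‖toC q‖ ^ ℓ.natAbs : ℝ) : ℂ) * _) = _
    linear_combination (ε * ang q ^ ℓ * Complex.Gamma (1 - s + L / 2) * (Complex.Gamma (s + L / 2))⁻¹ *
      dser (fun n => gs q φ n * ang n ^ (-ℓ)) (1 - s)) * (k4 - lw_pow hq s)

theorem gamA_diff (ℓ : ℤ) : DifferentiableOn ℂ (gamA ℓ) {s | s.re < 1} := by
  intro s hs
  have hs' : s.re < 1 := hs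
  have hL0 : (0 : ℝ) ≤ ℓ.natAbs := Nat.cast_nonneg _
  refine DifferentiableAt.differentiableWithinAt ?_
  unfold gamA
  refine DifferentiableAt.mul ?_ ?_
  · refine (Vor.vogam_diffAt ?_).comp s (by fun_prop)
    simp only [Complex.sub_re, Complex.add_re, Complex.div_ofNat_re, Complex.natCast_re,
      Complex.one_re]
    linarith
  · exact (Complex.differentiable_one_div_Gamma _).comp s (by fun_prop)
theorem gamA_growth (ℓ : ℤ) (σ1 σ2 : ℝ) (h : σ2 < 1) : ∃ C, ∀ s : ℂ,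
    σ1 ≤ s.re → s.re ≤ σ2 → ‖gamA ℓ s‖ ≤ C * Real.exp (C * |s.im|) := by
  set L : ℝ := (ℓ.natAbs : ℝ) with hL
  have hL0 : 0 ≤ L := Nat.cast_nonneg _
  obtain ⟨K1, hK10, hK1⟩ := Vor.vogam_num (a := 1 - σ2 + L / 2) (by linarith) (1 - σ1 + L / 2)
  obtain ⟨K2, hK20, hK2⟩ := Vor.vogam_den (σ1 + L / 2) (σ2 + L / 2)
  refine ⟨K1 * K2 + Real.pi, fun s h1 h2 => ?_⟩
  have r1 : (1 - s + (ℓ.natAbs : ℂ) / 2).re = 1 - s.re + L / 2 := by simp [hL]
  have r3 : (s + (ℓ.natAbs : ℂ) / 2).re = s.re + L / 2 := by simp [hL]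
  have i3 : (s + (ℓ.natAbs : ℂ) / 2).im = s.im := by simp
  have a1 := hK1 _ (by rw [r1]; linarith) (by rw [r1]; linarith)
  have a3 := hK2 _ (by rw [r3]; linarith) (by rw [r3]; linarith)
  rw [i3] at a3
  have hpi := Real.pi_pos
  have ht := abs_nonneg s.im
  have h3 := mul_nonneg hK10 hK20
  unfold gamA
  rw [norm_mul]
  calc _ ≤ K1 * (K2 * Real.exp (Real.pi * |s.im|)) := by gcongr
    _ = K1 * K2 * Real.exp (Real.pi * |s.im|) := by ring
    _ ≤ _ := by gcongr <;> linarith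
/-- as `norm_Gamma_ratio` (if `s + L/2` is a pole of `Γ`, the inverse is `0`) -/
theorem norm_gamA_left (ℓ : ℤ) (j : ℕ) {s : ℂ} (hs : s.re = 1 / 2 - j) :
    ‖gamA ℓ s‖ ≤ (2 * j + ℓ.natAbs + 1 + |s.im|) ^ (2 * j) := by
  set z : ℂ := s + (ℓ.natAbs : ℂ) / 2 with hz
  by_cases h0 : Complex.Gamma z = 0
  · rw [gamA, ← hz, h0, inv_zero, mul_zero, norm_zero]
    positivity
  have hL0 : (0 : ℝ) ≤ ℓ.natAbs := Nat.cast_nonneg _
  have hre : z.re = 1 / 2 - j + ℓ.natAbs / 2 := by simp [hz, hs]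
  have him : z.im = s.im := by simp [hz]
  rw [gamA, norm_mul]
  refine Vor.vogam_ratio (by positivity) ?_ fun i hi => ⟨fun h => h0 ?_, ?_⟩
  · apply Complex.ext
    · rw [Complex.conj_re, Complex.add_re z, hre]
      simp [hs]
      ring
    · rw [Complex.conj_im, Complex.add_im z, him]
      simp
  · exact (Complex.Gamma_eq_zero_iff z).2 ⟨i, eq_neg_of_add_eq_zero_left h⟩
  · have hi' : (i : ℝ) + 1 ≤ 2 * j := by exact_mod_cast hi
    have hi0 : (0 : ℝ) ≤ i := Nat.cast_nonneg i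
    refine le_trans (Complex.norm_le_abs_re_add_abs_im _) ?_
    have h6 : |(z + i).re| ≤ 2 * j + ℓ.natAbs + 1 := by
      rw [Complex.add_re, Complex.natCast_re, hre, abs_le]
      constructor <;> linarith
    have h7 : (z + i).im = s.im := by simp [him]
    rw [h7]
    linarith

end Crest.Agent.R12
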