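import Crest.Agent.R12.WinFE
import Crest.Agent.R12.LWang

/-!
# R12 / LW : lattice windows, annulus counts, the `t`-average
-/

set_option autoImplicit false

noncomputable section

open scoped Classical ComplexConjugate Topology
open MeasureTheory Filter

namespace Crest.Agent.R12

open Crest.Agent.R17

theorem lw_kern {γ : ℂ → ℂ} {T σ x K : ℝ} {s : ℂ} (hT : 1 ≤ T) {κ : ℝ → ℂ}
    (hκ : ∀ τ, ‖κ τ‖ ≤ K * mT T τ) {u : ℝ}
    (h : kernT γ T σ s u =
      Real.exp ((x - s.re) * u) * ∫ τ : ℝ, κ τ * Complex.exp (τ * u * Complex.I)) :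
    ‖kernT γ T σ s u‖ ≤ 2 * K * Real.exp ((x - s.re) * u) := by
  have hT0 : 0 < T := by linarith
  have h1 : ‖∫ τ : ℝ, κ τ * Complex.exp (τ * u * Complex.I)‖ ≤ ∫ τ : ℝ, K * mT T τ := by
    refine norm_integral_le_of_norm_le ((integrable_mT hT0).const_mul K)
      (Eventually.of_forall fun τ => ?_)
    rw [norm_mul, ← Complex.ofReal_mul, Complex.norm_exp_ofReal_mul_I, mul_one]
    exact hκ τ
  rw [integral_const_mul, integral_mT hT0] at h1
  rw [h, norm_mul, Complex.norm_real, Real.norm_of_nonneg (Real.exp_pos _).le]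
  nlinarith [Real.exp_pos ((x - s.re) * u)]

theorem lw_sum : ∃ C : ℝ, 0 ≤ C ∧ ∀ (A w U : ℝ) (f : O → ℝ), 0 ≤ A → 0 < U → f 0 = 0 →
    (∀ k, k ≠ 0 → f k ≤ A * Real.exp (w / 2) * N k ^ (-(1 / 2 : ℝ))) →
    (∀ k, k ≠ 0 → f k ≤ A * U ^ 4 * Real.exp (-(3 / 2 * w)) * N k ^ (-(5 / 2 : ℝ))) →
    ∀ S : Finset O, ∑ k ∈ S, f k ≤ C * A * U := by
  obtain ⟨C1, h1⟩ := sum_ball_rpow (σ := 1 / 2) (by norm_num)
  obtain ⟨C2, h2⟩ := tsum_tail_N_rpow (σ := 5 / 2) (by norm_num)
  refine ⟨|C1| + |C2|, by positivity, fun A w U f hA hU hf0 ha hb S => ?_⟩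
  obtain ⟨X, hX⟩ : ∃ X, X = Real.exp (2 * Real.log U - w) := ⟨_, rfl⟩
  have hX0 : 0 < X := hX ▸ Real.exp_pos _
  have hb1 : ∑ n ∈ ball X, N n ^ (-(1 / 2 : ℝ)) ≤ |C1| * X ^ (1 - 1 / 2 : ℝ) := by
    rcases lt_or_ge X 1 with h | h
    · rw [ball_eq_empty h, Finset.sum_empty]; positivity
    · exact (h1 X h).trans (mul_le_mul_of_nonneg_right (le_abs_self _) (by positivity))
  have hs : Summable fun n : O => if X < N n then N n ^ (-(5 / 2 : ℝ)) else 0 := by
    refine Summable.of_nonneg_of_le (fun n => ?_) (fun n => ?_)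
      (summable_N_rpow (σ := 5 / 2) (by norm_num))
    · split_ifs
      · exact Real.rpow_nonneg (N_nonneg _) _
      · exact le_rfl
    · split_ifs
      · exact le_rfl
      · exact Real.rpow_nonneg (N_nonneg _) _
  have hb2 : ∑ n ∈ S, (if X < N n then N n ^ (-(5 / 2 : ℝ)) else 0) ≤
      |C2| * X ^ (1 - 5 / 2 : ℝ) := by
    refine (hs.sum_le_tsum S fun n _ => ?_).trans ((h2 X hX0).trans
      (mul_le_mul_of_nonneg_right (le_abs_self _) (by positivity)))
    split_ifs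
    · exact Real.rpow_nonneg (N_nonneg _) _
    · exact le_rfl
  have hb3 : ∑ n ∈ S, (if n ∈ ball X then N n ^ (-(1 / 2 : ℝ)) else 0) ≤
      |C1| * X ^ (1 - 1 / 2 : ℝ) := by
    rw [← Finset.sum_filter]
    refine le_trans (Finset.sum_le_sum_of_subset_of_nonneg (fun n hn => (Finset.mem_filter.1 hn).2)
      fun n _ _ => Real.rpow_nonneg (N_nonneg _) _) hb1
  have e1 : Real.exp (w / 2) * X ^ (1 - 1 / 2 : ℝ) = U := by
    rw [hX, ← Real.exp_mul, ← Real.exp_add,
      show w / 2 + (2 * Real.log U - w) * (1 - 1 / 2) = Real.log U by ring, Real.exp_log hU]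
  have e2 : U ^ 4 * Real.exp (-(3 / 2 * w)) * X ^ (1 - 5 / 2 : ℝ) = U := by
    have e3 : U ^ 4 = Real.exp (4 * Real.log U) := by
      rw [show (4 : ℝ) * Real.log U = (4 : ℕ) * Real.log U by norm_num, Real.exp_nat_mul,
        Real.exp_log hU]
    rw [hX, e3, ← Real.exp_mul, ← Real.exp_add, ← Real.exp_add,
      show 4 * Real.log U + -(3 / 2 * w) + (2 * Real.log U - w) * (1 - 5 / 2) = Real.log U by ring,
      Real.exp_log hU]
  calc ∑ k ∈ S, f k ≤ ∑ k ∈ S, (A * Real.exp (w / 2) *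
          (if k ∈ ball X then N k ^ (-(1 / 2 : ℝ)) else 0) +
        A * U ^ 4 * Real.exp (-(3 / 2 * w)) * (if X < N k then N k ^ (-(5 / 2 : ℝ)) else 0)) := by
        refine Finset.sum_le_sum fun k _ => ?_
        by_cases hk : k = 0
        · rw [hk, hf0, if_neg (fun h => (mem_ball.1 h).1 rfl), if_neg (by rw [N_zero]; linarith)]
          simp
        · rcases lt_or_ge X (N k) with h | h
          · rw [if_neg (fun h' => absurd (mem_ball.1 h').2 (not_le.2 h)), if_pos h, mul_zero,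
              zero_add]
            exact hb k hk
          · rw [if_pos (mem_ball.2 ⟨hk, h⟩), if_neg (not_lt.2 h), mul_zero, add_zero]
            exact ha k hk
    _ ≤ A * Real.exp (w / 2) * (|C1| * X ^ (1 - 1 / 2 : ℝ)) +
        A * U ^ 4 * Real.exp (-(3 / 2 * w)) * (|C2| * X ^ (1 - 5 / 2 : ℝ)) := by
        rw [Finset.sum_add_distrib, ← Finset.mul_sum, ← Finset.mul_sum]
        exact add_le_add (mul_le_mul_of_nonneg_left hb3 (by positivity))
          (mul_le_mul_of_nonneg_left hb2 (by positivity))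
    _ = A * |C1| * (Real.exp (w / 2) * X ^ (1 - 1 / 2 : ℝ)) +
        A * |C2| * (U ^ 4 * Real.exp (-(3 / 2 * w)) * X ^ (1 - 5 / 2 : ℝ)) := by ring
    _ = _ := by rw [e1, e2]; ring

theorem lw_norm_ang1 (ℓ : ℤ) {n : O} (hn : n ≠ 0) : ‖ang n ^ ℓ‖ = 1 := by
  rw [norm_zpow, norm_ang hn, one_zpow]

/-- the size of one dual term -/
theorem lw_term {q k : O} (hq : q ≠ 0) (hk : k ≠ 0) {b z : ℂ} {G K x v : ℝ} {s : ℂ} (hG : 0 ≤ G)
    (hb : ‖b‖ ≤ G / Real.sqrt (N q))
    (hz : ‖z‖ ≤ K * Real.exp ((x - s.re) * (lg k + v - Real.log (N q / c0 ^ 2)))) :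
    ‖((N q / c0 ^ 2 : ℝ) : ℂ) ^ (1 / 2 - s)‖ * ‖b * (N k : ℂ) ^ (s - 1) * z‖ ≤
      G * K * Real.exp (-(s.re * v)) * Real.exp (x * (v - Real.log (N q / c0 ^ 2))) *
        N k ^ (x - 1) := by
  have hq0 := N_pos hq
  have hk0 := N_pos hk
  have hc := one_lt_c0
  have hρ : 0 < N q / c0 ^ 2 := by positivity
  have hK : 0 ≤ K := nonneg_of_mul_nonneg_left ((norm_nonneg z).trans hz) (Real.exp_pos _)
  obtain ⟨r, hr⟩ : ∃ r, r = Real.log (N q / c0 ^ 2) := ⟨_, rfl⟩
  have e1 : ‖((N q / c0 ^ 2 : ℝ) : ℂ) ^ (1 / 2 - s)‖ = Real.exp (r * (1 / 2 - s.re)) := by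
    rw [Complex.norm_cpow_eq_rpow_re_of_pos hρ, Real.rpow_def_of_pos hρ, hr]
    simp
  have e2 : ‖(N k : ℂ) ^ (s - 1)‖ = Real.exp (lg k * (s.re - 1)) := by
    rw [Complex.norm_cpow_eq_rpow_re_of_pos hk0, Real.rpow_def_of_pos hk0, lg]
    simp
  have e3 : Real.exp (r / 2) ≤ Real.sqrt (N q) := by
    refine Real.le_sqrt_of_sq_le ?_
    rw [← Real.exp_nat_mul, show ((2 : ℕ) : ℝ) * (r / 2) = r by push_cast; ring, hr,
      Real.exp_log hρ]
    exact div_le_self hq0.le (by nlinarith)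
  have e4 : G / Real.sqrt (N q) ≤ G * Real.exp (-(r / 2)) := by
    rw [Real.exp_neg, ← div_eq_mul_inv]
    exact div_le_div_of_nonneg_left hG (Real.exp_pos _) e3
  rw [← hr] at hz ⊢
  rw [e1, norm_mul, norm_mul, e2, Real.rpow_def_of_pos hk0]
  calc _ ≤ Real.exp (r * (1 / 2 - s.re)) * (G * Real.exp (-(r / 2)) *
        Real.exp (lg k * (s.re - 1)) * (K * Real.exp ((x - s.re) * (lg k + v - r)))) := by
        gcongr
        exact hb.trans e4
    _ = G * K * (Real.exp (r * (1 / 2 - s.re)) * Real.exp (-(r / 2)) *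
        Real.exp (lg k * (s.re - 1)) * Real.exp ((x - s.re) * (lg k + v - r))) := by ring
    _ = G * K * (Real.exp (-(s.re * v)) * Real.exp (x * (v - r)) *
        Real.exp (Real.log (N k) * (x - 1))) := by
        simp only [← Real.exp_add, lg]
        congr 2
        ring
    _ = _ := by ring

/-- **Lattice windows.**  `win_fe` with `ang_fe`; `ρ = N q/c0²`, `T' = T + |Im s|`,
`x = N k e^v/ρ`.  By `kernT_rep` on the lines `1/2` and `-3/2` the `k`-th dual term is
`≤ C G e^{-v Re s} N k⁻¹ min(x^{1/2}, T'⁴ x^{-3/2})`; split at `x = T'²` (`sum_ball_rpow`,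
`tsum_tail_N_rpow`): the sum is `≤ C G T' e^{-v Re s}`. -/
theorem lw (ℓ : ℤ) : ∃ C : ℝ, 0 ≤ C ∧ ∀ (q : O) (φ : O → ℂ) (G : ℝ), q ≠ 0 → Per q φ →
    (∀ k, k ≠ 0 → ‖gs q φ k‖ ≤ G) → ∀ (v T : ℝ) (s : ℂ), 1 ≤ T → |s.re| ≤ 4 →
    ‖winS (fun n => φ n * ang n ^ ℓ) v T s -
      (if ℓ = 0 then (c0 : ℂ) * gs q φ 0 / (N q : ℂ) else 0) * mainW 1 s v T‖ ≤
      C * G * (T + |s.im|) * Real.exp (-(s.re * v)) := by
  obtain ⟨C0, hC0, h0⟩ := kernT_rep 0 6
  obtain ⟨C4, hC4, h4⟩ := kernT_rep 4 6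
  obtain ⟨C, hC, hS⟩ := lw_sum
  obtain ⟨M, hM⟩ : ∃ M : ℝ, M = (5 + ℓ.natAbs) ^ 4 := ⟨_, rfl⟩
  have hM0 : 0 ≤ M := hM ▸ by positivity
  refine ⟨C * (2 * C0 + 2 * C4 * M), by positivity, fun q φ G hq hφ hG v T s hT hs => ?_⟩
  obtain ⟨E, ε, hε, hE, hgE, hR, hL⟩ := ang_fe ℓ hq hφ
  have hG0 : 0 ≤ G := (norm_nonneg _).trans (hG 1 one_ne_zero)
  have hq0 := N_pos hq
  have hc := one_lt_c0
  have hρ : 0 < N q / c0 ^ 2 := by positivity
  have hbn : ∀ k : O, k ≠ 0 →
      ‖ε * gs q φ k * ang k ^ (-ℓ) / (Real.sqrt (N q) : ℂ)‖ ≤ G / Real.sqrt (N q) := fun k hk => by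
    rw [norm_div, norm_mul, norm_mul, hε, lw_norm_ang1 _ hk, one_mul, mul_one, Complex.norm_real,
      Real.norm_of_nonneg (Real.sqrt_nonneg _)]
    exact div_le_div_of_nonneg_right (hG k hk) (Real.sqrt_nonneg _)
  have ha : PolyBd fun n => φ n * ang n ^ ℓ := by
    obtain ⟨B, hB⟩ := hφ.bdd hq
    exact ⟨B, 0, fun n hn => by
      rw [norm_mul, lw_norm_ang1 _ hn, mul_one, pow_zero, mul_one]; exact hB n⟩
  have hb : PolyBd fun k => ε * gs q φ k * ang k ^ (-ℓ) / (Real.sqrt (N q) : ℂ) :=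
    ⟨G / Real.sqrt (N q), 0, fun n hn => by rw [pow_zero, mul_one]; exact hbn n hn⟩
  have hσ : s.re + -s.re < 1 := by linarith
  obtain ⟨hsum, hw⟩ := win_fe ha hb hρ hE hgE (gamA_diff ℓ) (gamA_growth ℓ) ⟨1, hR⟩ ⟨0, hL⟩ hT hσ v
  have hs' := abs_le.1 hs
  obtain ⟨κ0, -, hκ0, hk0⟩ := h0 (gamA ℓ) 1 (1 / 2) 1 (gamA_diff ℓ) (gamA_growth ℓ) (by norm_num)
    (fun z hz => by simpa using norm_gamA_left ℓ 0 (s := z) (by simpa using hz)) T s hT
    (abs_le.2 ⟨by linarith, by linarith⟩)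
  obtain ⟨κ4, -, hκ4, hk4⟩ := h4 (gamA ℓ) 1 (-(3 / 2)) M (gamA_diff ℓ) (gamA_growth ℓ) (by norm_num)
    (fun z hz => by
      refine (norm_gamA_left ℓ 2 (s := z) (by rw [hz]; norm_num)).trans ?_
      rw [hM, ← mul_pow]
      have h1 : (0 : ℝ) ≤ ℓ.natAbs := Nat.cast_nonneg _
      have h2 := abs_nonneg z.im
      refine pow_le_pow_left₀ (by positivity) ?_ 4
      push_cast
      nlinarith [mul_nonneg h1 h2]) T s hT
    (abs_le.2 ⟨by linarith, by linarith⟩)
  have hU : 0 < T + |s.im| := by linarith [abs_nonneg s.im]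
  rw [hw, add_sub_cancel_left, norm_mul]
  refine (mul_le_mul_of_nonneg_left (norm_tsum_le_tsum_norm hsum) (norm_nonneg _)).trans ?_
  rw [← tsum_mul_left]
  have hA : 0 ≤ G * (2 * C0 + 2 * C4 * M) * Real.exp (-(s.re * v)) := by positivity
  refine (tsum_le_of_sum_le' (by positivity) (hS _ (v - Real.log (N q / c0 ^ 2)) (T + |s.im|) _
    hA hU (by simp) (fun k hk => ?_) (fun k hk => ?_))).trans_eq (by ring)
  · rw [if_neg hk]
    refine (lw_term hq hk hG0 (hbn k hk) (lw_kern hT hκ0 (hk0 _ _ hσ))).trans ?_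
    have h1 := N_nonneg k
    rw [show (1 / 2 - 1 : ℝ) = -(1 / 2) by norm_num, show 1 / 2 * (v - Real.log (N q / c0 ^ 2)) =
      (v - Real.log (N q / c0 ^ 2)) / 2 by ring]
    gcongr
    have : 0 ≤ C4 * M := by positivity
    simp only [pow_zero]
    linarith
  · rw [if_neg hk]
    refine (lw_term hq hk hG0 (hbn k hk) (lw_kern hT hκ4 (hk4 _ _ hσ))).trans ?_
    have h1 := N_nonneg k
    rw [show (-(3 / 2) - 1 : ℝ) = -(5 / 2) by norm_num, neg_mul (3 / 2 : ℝ)]
    gcongr ?_ * _ * _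
    have h2 : 0 ≤ G * C0 * (T + |s.im|) ^ 4 * Real.exp (-(s.re * v)) := by positivity
    nlinarith

/-- primary elements: `q = 3`, `gs 3 (prim 1) 0 = 1` -/
theorem lw_prim (ℓ : ℤ) : ∃ C : ℝ, 0 ≤ C ∧ ∀ (v T : ℝ) (s : ℂ), 1 ≤ T → |s.re| ≤ 4 →
    ‖winS (prim (fun n => ang n ^ ℓ)) v T s -
      (if ℓ = 0 then (c0 : ℂ) / 9 else 0) * mainW 1 s v T‖ ≤
      C * (T + |s.im|) * Real.exp (-(s.re * v)) := by
  obtain ⟨C, hC, h⟩ := lw ℓ
  have h3 : (3 : O) ≠ 0 := by norm_num
  have hN : N 3 = 9 := by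
    have : nm 3 = 9 := by decide
    unfold N
    rw [this]
    norm_num
  have hp : Per 3 (prim fun _ => 1) := by
    simpa using Per.prim (q := 1) (φ := fun _ => 1) (fun _ _ => rfl)
  have hg : gs 3 (prim fun _ => 1) 0 = 1 := by
    obtain ⟨r, hr, h⟩ := exists_res h3 1
    have h1 : Prim r := by
      unfold Prim
      rw [show r - 1 = -(1 - r) by ring]
      exact h.neg_right
    rw [gs_zero, Finset.sum_eq_single r, prim, if_pos h1]
    · intro x hx hxr
      rw [prim, if_neg]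
      intro h2
      refine hxr (res_inj h3 hx hr ?_)
      rw [show x - r = (x - 1) - (r - 1) by ring]
      exact dvd_sub h2 h1
    · exact fun h2 => absurd hr h2
  refine ⟨C * 9, by positivity, fun v T s hT hs => ?_⟩
  have h1 := h 3 (prim fun _ => 1) 9 h3 hp (fun k _ => hN ▸ norm_gs_le_N h3 (fun n => by
    unfold prim; split_ifs <;> simp) k) v T s hT hs
  have e : (fun n => prim (fun _ => 1) n * ang n ^ ℓ) = prim fun n => ang n ^ ℓ := by
    funext n
    unfold prim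
    split_ifs <;> simp
  rw [e, hg, hN, mul_one] at h1
  simpa using h1

theorem lw_gw_mono {T1 T : ℝ} (h0 : 0 ≤ T1) (h : T1 ≤ T) (x : ℝ) : gw (T * x) ≤ gw (T1 * x) := by
  unfold gw
  refine Real.exp_le_exp.2 (neg_le_neg ?_)
  rw [mul_pow, mul_pow]
  exact mul_le_mul_of_nonneg_right (pow_le_pow_left₀ h0 h 2) (sq_nonneg x)

theorem lw_nonneg (v T : ℝ) (n : O) : 0 ≤ if n = 0 then 0 else gw (T * (lg n - v)) := by
  split_ifs
  · exact le_rfl
  · exact (gw_pos _).le

theorem lw_le (v : ℝ) {T1 T : ℝ} (h0 : 0 ≤ T1) (h : T1 ≤ T) (n : O) :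
    (if n = 0 then 0 else gw (T * (lg n - v))) ≤ if n = 0 then 0 else gw (T1 * (lg n - v)) := by
  split_ifs
  · exact le_rfl
  · exact lw_gw_mono h0 h _

theorem summable_an (v : ℝ) {T : ℝ} (hT : 1 ≤ T) :
    Summable (fun n : O => if n = 0 then 0 else gw (T * (lg n - v))) := by
  refine Summable.of_nonneg_of_le (lw_nonneg v T) (lw_le v zero_le_one hT) ?_
  simpa [lg] using summable_gw_rpow 0 v

/-- **Annulus count.**  `lw` with `q = 1`, `φ = 1` and width `min T (e^{v/2})` for `v ≥ 0`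
(`gw (T x)` decreases in `T`); `tsum_gw_rpow 0` gives `≤ C e^v` in general. -/
theorem an : ∃ C : ℝ, 0 ≤ C ∧ ∀ v T : ℝ, 1 ≤ T →
    (∑' n : O, if n = 0 then 0 else gw (T * (lg n - v))) ≤
      C * (Real.exp v / T + Real.exp (v / 2)) ∧
    (∑' n : O, if n = 0 then 0 else gw (T * (lg n - v))) ≤ C * Real.exp v := by
  obtain ⟨C1, h1⟩ := tsum_gw_rpow 0
  obtain ⟨C2, hC2, h2⟩ := lw 0
  have hc := c0_pos
  have hmono : ∀ (v : ℝ) {T1 T : ℝ}, 1 ≤ T1 → T1 ≤ T →
      (∑' n : O, if n = 0 then 0 else gw (T * (lg n - v))) ≤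
        ∑' n : O, if n = 0 then 0 else gw (T1 * (lg n - v)) := fun v T1 T hT1 hT =>
    (summable_an v (hT1.trans hT)).tsum_le_tsum (lw_le v (by linarith) hT) (summable_an v hT1)
  have hA : ∀ v T : ℝ, 1 ≤ T →
      (∑' n : O, if n = 0 then 0 else gw (T * (lg n - v))) ≤ |C1| * Real.exp v := fun v T hT => by
    refine (hmono v le_rfl hT).trans (le_trans ?_
      (mul_le_mul_of_nonneg_right (le_abs_self C1) (Real.exp_pos _).le))
    simpa [lg] using h1 v
  have hB : ∀ v T : ℝ, 1 ≤ T → (∑' n : O, if n = 0 then 0 else gw (T * (lg n - v))) ≤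
      c0 * (2 * Real.exp 7 / T * Real.exp v) + C2 * T := fun v T hT => by
    have hg : ∀ k, ‖gs 1 (fun _ => 1) k‖ ≤ 1 := fun k => by
      simpa using norm_gs_le_N (q := 1) (φ := fun _ => 1) one_ne_zero (fun _ => by simp) k
    have h3 := h2 1 (fun _ => 1) 1 one_ne_zero (fun _ _ => rfl) (fun k _ => hg k) v T 0 hT
      (by simp)
    have h4 := norm_mainW_le (p := 1) (s := 0) v hT (by simp)
    have e : winS (fun n => (fun _ => (1 : ℂ)) n * ang n ^ (0 : ℤ)) v T 0 =
        ((∑' n : O, if n = 0 then 0 else gw (T * (lg n - v)) : ℝ) : ℂ) := by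
      rw [Complex.ofReal_tsum, winS]
      refine tsum_congr fun n => ?_
      split_ifs <;> simp
    rw [e, if_pos rfl] at h3
    have h5 : ‖(c0 : ℂ) * gs 1 (fun _ => 1) 0 / (N 1 : ℂ) * mainW 1 0 v T‖ ≤
        c0 * (2 * Real.exp 7 / T * Real.exp v) := by
      rw [norm_mul, N_one, Complex.ofReal_one, div_one, norm_mul, Complex.norm_real,
        Real.norm_of_nonneg hc.le]
      refine mul_le_mul (mul_le_of_le_one_right hc.le (hg 0)) ?_ (norm_nonneg _) hc.le
      simpa using h4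
    have h6 := norm_le_norm_add_norm_sub'
      (((∑' n : O, if n = 0 then 0 else gw (T * (lg n - v)) : ℝ) : ℂ))
      ((c0 : ℂ) * gs 1 (fun _ => 1) 0 / (N 1 : ℂ) * mainW 1 0 v T)
    rw [Complex.norm_real] at h6
    simp only [Complex.zero_im, Complex.zero_re, abs_zero, add_zero, zero_mul, neg_zero,
      Real.exp_zero, mul_one] at h3
    linarith [le_abs_self (∑' n : O, if n = 0 then 0 else gw (T * (lg n - v))),
      Real.norm_eq_abs (∑' n : O, if n = 0 then 0 else gw (T * (lg n - v)))]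
  have hD : 0 ≤ c0 * (2 * Real.exp 7) := by positivity
  refine ⟨|C1| + c0 * (2 * Real.exp 7) + C2, by positivity, fun v T hT => ⟨?_, ?_⟩⟩
  · have hT0 : 0 < T := by linarith
    have e0 := Real.exp_pos (v / 2)
    have e1 : 0 ≤ Real.exp v / T := by positivity
    rcases le_total v 0 with hv | hv
    · have h3 : Real.exp v ≤ Real.exp (v / 2) := Real.exp_le_exp.2 (by linarith)
      refine (hA v T hT).trans (mul_le_mul (by linarith) (by linarith) (Real.exp_pos _).le
        (by positivity))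
    · have h3 : 1 ≤ Real.exp (v / 2) := Real.one_le_exp (by linarith)
      have e2 : Real.exp v = Real.exp (v / 2) * Real.exp (v / 2) := by
        rw [← Real.exp_add]; congr 1; ring
      have habs := abs_nonneg C1
      rcases le_total T (Real.exp (v / 2)) with h4 | h4
      · refine (hB v T hT).trans ?_
        have h5 : C2 * T ≤ C2 * Real.exp (v / 2) := mul_le_mul_of_nonneg_left h4 hC2
        have e3 : c0 * (2 * Real.exp 7 / T * Real.exp v) =
            c0 * (2 * Real.exp 7) * (Real.exp v / T) := by ring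
        rw [e3]
        nlinarith [mul_nonneg habs e1, mul_nonneg habs e0.le, mul_nonneg hD e0.le,
          mul_nonneg hC2 e1]
      · refine (hmono v h3 h4).trans ((hB v _ h3).trans ?_)
        have e3 : c0 * (2 * Real.exp 7 / Real.exp (v / 2) * Real.exp v) =
            c0 * (2 * Real.exp 7) * Real.exp (v / 2) := by
          rw [e2]; field_simp
        rw [e3]
        nlinarith [mul_nonneg habs e1, mul_nonneg habs e0.le, mul_nonneg hD e1,
          mul_nonneg hC2 e1]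
  · exact (hA v T hT).trans (mul_le_mul_of_nonneg_right (by linarith) (Real.exp_pos _).le)

/-- tails: for `|lg n - v| ≥ 1`, `gw (T x) ≤ e^{-(T²-1)} gw x`; `tsum_gw_rpow` -/
theorem an_tail (j : ℕ) : ∃ C : ℝ, 0 ≤ C ∧ ∀ v T : ℝ, 1 ≤ T → ∀ S : Finset O,
    (∀ n ∈ S, n ≠ 0 ∧ 1 ≤ |lg n - v|) →
    ∑ n ∈ S, N n ^ j * gw (T * (lg n - v)) ≤ C * Real.exp ((j + 1) * v - T ^ 2) := by
  obtain ⟨C, h⟩ := tsum_gw_rpow j
  refine ⟨|C| * Real.exp 1, by positivity, fun v T hT S hS => ?_⟩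
  have h1 : ∑ n ∈ S, (if n = 0 then 0 else N n ^ (j : ℝ) * gw (Real.log (N n) - v)) ≤
      |C| * Real.exp ((j + 1) * v) := by
    refine ((summable_gw_rpow j v).sum_le_tsum S fun n _ => ?_).trans ((h v).trans
      (mul_le_mul_of_nonneg_right (le_abs_self C) (Real.exp_pos _).le))
    split_ifs
    · exact le_rfl
    · exact mul_nonneg (Real.rpow_nonneg (N_nonneg _) _) (gw_pos _).le
  calc _ ≤ ∑ n ∈ S, Real.exp (1 - T ^ 2) *
        (if n = 0 then 0 else N n ^ (j : ℝ) * gw (Real.log (N n) - v)) := by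
        refine Finset.sum_le_sum fun n hn => ?_
        obtain ⟨h2, h3⟩ := hS n hn
        rw [if_neg h2, Real.rpow_natCast, mul_left_comm]
        refine mul_le_mul_of_nonneg_left ?_ (pow_nonneg (N_nonneg _) _)
        unfold gw
        rw [← Real.exp_add]
        refine Real.exp_le_exp.2 ?_
        have h4 : 1 ≤ (lg n - v) ^ 2 := by rw [← sq_abs]; nlinarith
        have h5 : 1 ≤ T ^ 2 := by nlinarith
        unfold lg at h4 ⊢
        nlinarith
    _ ≤ Real.exp (1 - T ^ 2) * (|C| * Real.exp ((j + 1) * v)) := by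
        rw [← Finset.mul_sum]
        exact mul_le_mul_of_nonneg_left h1 (Real.exp_pos _).le
    _ = _ := by
        rw [mul_left_comm, mul_assoc, ← Real.exp_add, ← Real.exp_add]
        congr 2
        ring

/-- the Fourier transform of `mT` -/
theorem lw_ft {T : ℝ} (hT : 0 < T) (x : ℝ) :
    ∫ τ : ℝ, (mT T τ : ℂ) * Complex.exp (τ * x * Complex.I) =
      ((2 / (1 + (T * x) ^ 2) : ℝ) : ℂ) := by
  have hT' : (T : ℂ) ≠ 0 := Complex.ofReal_ne_zero.2 hT.ne'
  have h1 : (-(T : ℂ)⁻¹ + x * Complex.I).re < 0 := by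
    simpa using hT
  have h2 : 0 < ((T : ℂ)⁻¹ + x * Complex.I).re := by
    simpa using hT
  have e1 : ∀ τ ∈ Set.Ioi (0 : ℝ), (mT T τ : ℂ) * Complex.exp (τ * x * Complex.I) =
      (T : ℂ)⁻¹ * Complex.exp ((-(T : ℂ)⁻¹ + x * Complex.I) * τ) := fun τ hτ => by
    rw [mT, abs_of_pos hτ]
    push_cast
    rw [mul_assoc, ← Complex.exp_add]
    congr 2
    ring
  have e2 : ∀ τ ∈ Set.Iic (0 : ℝ), (mT T τ : ℂ) * Complex.exp (τ * x * Complex.I) =
      (T : ℂ)⁻¹ * Complex.exp (((T : ℂ)⁻¹ + x * Complex.I) * τ) := fun τ hτ => by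
    rw [mT, abs_of_nonpos hτ]
    push_cast
    rw [mul_assoc, ← Complex.exp_add]
    congr 2
    ring
  have i1 : IntegrableOn (fun τ : ℝ => (mT T τ : ℂ) * Complex.exp (τ * x * Complex.I))
      (Set.Ioi 0) :=
    (integrableOn_congr_fun e1 measurableSet_Ioi).2
      ((integrableOn_exp_mul_complex_Ioi h1 0).const_mul _)
  have i2 : IntegrableOn (fun τ : ℝ => (mT T τ : ℂ) * Complex.exp (τ * x * Complex.I))
      (Set.Iic 0) :=
    (integrableOn_congr_fun e2 measurableSet_Iic).2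
      ((integrableOn_exp_mul_complex_Iic h2 0).const_mul _)
  rw [← intervalIntegral.integral_Iic_add_Ioi i2 i1, setIntegral_congr_fun measurableSet_Ioi e1,
    setIntegral_congr_fun measurableSet_Iic e2, integral_const_mul, integral_const_mul,
    integral_exp_mul_complex_Ioi h1, integral_exp_mul_complex_Iic h2]
  have n1 : -(T : ℂ)⁻¹ + x * Complex.I ≠ 0 := fun h => by rw [h] at h1; simp at h1
  have n2 : (T : ℂ)⁻¹ + x * Complex.I ≠ 0 := fun h => by rw [h] at h2; simp at h2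
  have n3 : (1 : ℂ) + (T * x) ^ 2 ≠ 0 := by
    have : (0 : ℝ) < 1 + (T * x) ^ 2 := by positivity
    exact_mod_cast this.ne'
  have e3 : (1 : ℂ) + (T * x) ^ 2 =
      -(T : ℂ) ^ 2 * ((-(T : ℂ)⁻¹ + x * Complex.I) * ((T : ℂ)⁻¹ + x * Complex.I)) := by
    field_simp
    linear_combination ((T : ℂ) * x) ^ 2 * Complex.I_sq
  push_cast
  rw [mul_zero, mul_zero, Complex.exp_zero, e3]
  generalize hu : -(T : ℂ)⁻¹ + x * Complex.I = u at n1 ⊢
  have e4 : (T : ℂ)⁻¹ + x * Complex.I = u + 2 * (T : ℂ)⁻¹ := by rw [← hu]; ring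
  rw [e4] at n2 ⊢
  generalize hw : u + 2 * (T : ℂ)⁻¹ = w at n2 ⊢
  have e5 : (w - u) * T = 2 := by rw [← hw]; field_simp; ring
  field_simp
  linear_combination -e5

theorem lw_zsum : ∃ Z : ℝ, 0 ≤ Z ∧ ∀ J : Finset ℤ, ∑ j ∈ J, (1 + (j : ℝ) ^ 2)⁻¹ ≤ Z := by
  have hs : Summable fun j : ℤ => (1 + (j : ℝ) ^ 2)⁻¹ := by
    refine Summable.of_norm_bounded_eventually (Real.summable_one_div_int_pow.2 one_lt_two) ?_
    filter_upwards [(Set.finite_singleton (0 : ℤ)).compl_mem_cofinite] with j hj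
    have h0 : (j : ℝ) ≠ 0 := by exact_mod_cast hj
    rw [Real.norm_of_nonneg (by positivity), one_div]
    exact inv_anti₀ (by positivity) (by linarith)
  exact ⟨_, tsum_nonneg fun j => by positivity,
    fun J => hs.sum_le_tsum J fun j _ => by positivity⟩

/-- the row sums -/
theorem lw_row : ∃ C : ℝ, 0 ≤ C ∧ ∀ (B T x : ℝ) (S : Finset O), 1 ≤ B → 1 ≤ T →
    (∀ b ∈ S, B ≤ N b ∧ N b ≤ 16 * B) →
    ∑ b ∈ S, 2 / (1 + (T * (lg b - x)) ^ 2) ≤ C * (B / T + Real.sqrt B) := by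
  obtain ⟨C, hC, h⟩ := an
  obtain ⟨Z, hZ, hz⟩ := lw_zsum
  refine ⟨Z * (8 * C * 32), by positivity, fun B T x S hB hT hS => ?_⟩
  have hT0 : 0 < T := by linarith
  have he : Real.exp (1 / 2) ≤ 2 := by
    have := Real.exp_one_lt_d9
    have e : Real.exp 1 = Real.exp (1 / 2) ^ 2 := by rw [← Real.exp_nat_mul]; norm_num
    nlinarith [Real.exp_pos (1 / 2 : ℝ)]
  have hW : 0 ≤ B / T + Real.sqrt B := by positivity
  rw [← Finset.sum_fiberwise_of_maps_to (t := S.image fun b => round (T * (lg b - x)))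
    (g := fun b => round (T * (lg b - x))) fun b hb => Finset.mem_image_of_mem _ hb]
  calc _ ≤ ∑ j ∈ S.image fun b => round (T * (lg b - x)),
        (1 + (j : ℝ) ^ 2)⁻¹ * (8 * C * 32 * (B / T + Real.sqrt B)) := by
        refine Finset.sum_le_sum fun j hj => ?_
        obtain ⟨b0, hb0, hj0⟩ := Finset.mem_image.1 hj
        have hv : Real.exp (x + j / T) ≤ 32 * B := by
          have h1 := (abs_le.1 (abs_sub_round (T * (lg b0 - x)))).1
          rw [hj0] at h1
          have h2 : x + j / T ≤ lg b0 + 1 / 2 := by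
            have : (j : ℝ) / T ≤ lg b0 - x + 1 / 2 := by
              rw [div_le_iff₀ hT0]; nlinarith
            linarith
          have h3 := (hS b0 hb0)
          refine (Real.exp_le_exp.2 h2).trans ?_
          rw [Real.exp_add, lg, Real.exp_log (by linarith [h3.1])]
          nlinarith [h3.2]
        have hv2 : Real.exp ((x + j / T) / 2) ≤ 32 * Real.sqrt B := by
          rw [Real.exp_half]
          refine Real.sqrt_le_iff.2 ⟨by positivity, ?_⟩
          rw [mul_pow, Real.sq_sqrt (by linarith)]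
          linarith
        have h4 : ∑ b ∈ S with round (T * (lg b - x)) = j,
            (if b = 0 then 0 else gw (T * (lg b - (x + j / T)))) ≤
            C * 32 * (B / T + Real.sqrt B) := by
          refine ((summable_an _ hT).sum_le_tsum _ fun n _ => lw_nonneg _ _ n).trans
            ((h _ T hT).1.trans ?_)
          rw [mul_assoc, mul_add (32 : ℝ), ← mul_div_assoc]
          gcongr
        calc _ ≤ ∑ b ∈ S with round (T * (lg b - x)) = j, (1 + (j : ℝ) ^ 2)⁻¹ * 8 *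
              (if b = 0 then 0 else gw (T * (lg b - (x + j / T)))) := by
              refine Finset.sum_le_sum fun b hb => ?_
              obtain ⟨hb1, hb2⟩ := Finset.mem_filter.1 hb
              have hb0 : b ≠ 0 := fun h0 => by
                have := (hS b hb1).1
                rw [h0, N_zero] at this
                linarith
              have h1 := abs_sub_round (T * (lg b - x))
              rw [hb2] at h1
              have e : T * (lg b - (x + j / T)) = T * (lg b - x) - j := by field_simp; ring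
              rw [if_neg hb0, e]
              generalize T * (lg b - x) = y at h1 ⊢
              have h2 : (y - j) ^ 2 ≤ 1 / 4 := by rw [← sq_abs]; nlinarith [abs_nonneg (y - j)]
              have h3 : 1 / 2 ≤ gw (y - j) := by
                unfold gw
                nlinarith [Real.add_one_le_exp (-(y - j) ^ 2)]
              have h5 : 2 / (1 + y ^ 2) ≤ (1 + (j : ℝ) ^ 2)⁻¹ * 4 := by
                rw [inv_mul_eq_div, div_le_div_iff₀ (by positivity) (by positivity)]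
                nlinarith [sq_nonneg (y + (y - j))]
              have h6 : 0 < (1 + (j : ℝ) ^ 2)⁻¹ := by positivity
              nlinarith
          _ ≤ _ := by
              rw [← Finset.mul_sum, mul_assoc]
              refine mul_le_mul_of_nonneg_left ?_ (by positivity)
              linarith
    _ ≤ _ := by
        rw [← Finset.sum_mul, mul_assoc Z]
        exact mul_le_mul_of_nonneg_right (hz _) (by positivity)

/-- **`t`-average.**  Expand the square; `∫ mT T τ e^{iτx} dτ = 2/(1 + T²x²)`; Schur test with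
`(1 + T²x²)⁻¹ ≤ C ∑_{j ∈ ℤ} (1+j²)⁻¹ gw(T x - j)` and `an` (or any other majorisation). -/
theorem tavg : ∃ C : ℝ, 0 ≤ C ∧ ∀ (B T : ℝ) (S : Finset O) (c : O → ℂ), 1 ≤ B → 1 ≤ T →
    (∀ b ∈ S, B ≤ N b ∧ N b ≤ 16 * B) →
    ∫ τ : ℝ, mT T τ * ‖∑ b ∈ S, c b * pw B b (τ * Complex.I)‖ ^ 2 ≤
      C * (B / T + Real.sqrt B) * n2 S c := by
  obtain ⟨C, hC, h⟩ := lw_row
  refine ⟨C, hC, fun B T S c hB hT hS => ?_⟩
  have hT0 : 0 < T := by linarith
  have hp : ∀ b ∈ S, ∀ τ : ℝ, pw B b (τ * Complex.I) =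
      Complex.exp (τ * (lg b - Real.log B : ℝ) * Complex.I) := fun b hb τ => by
    have h1 : 0 < N b := by linarith [(hS b hb).1]
    have h2 : 0 < N b / B := by positivity
    rw [pw, Complex.cpow_def_of_ne_zero (Complex.ofReal_ne_zero.2 h2.ne'),
      ← Complex.ofReal_log h2.le, Real.log_div h1.ne' (by linarith), lg]
    congr 1
    ring
  have e1 : ∀ τ : ℝ, ((mT T τ * ‖∑ b ∈ S, c b * pw B b (τ * Complex.I)‖ ^ 2 : ℝ) : ℂ) =
      ∑ b ∈ S, ∑ b' ∈ S, c b * conj (c b') *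
        ((mT T τ : ℂ) * Complex.exp (τ * (lg b - lg b' : ℝ) * Complex.I)) := fun τ => by
    rw [Complex.ofReal_mul, Complex.ofReal_pow, ← Complex.mul_conj', map_sum, Finset.sum_mul_sum,
      Finset.mul_sum]
    refine Finset.sum_congr rfl fun b hb => ?_
    rw [Finset.mul_sum]
    refine Finset.sum_congr rfl fun b' hb' => ?_
    rw [hp b hb, hp b' hb', map_mul, ← Complex.exp_conj]
    have e2 : Complex.exp (τ * (lg b - lg b' : ℝ) * Complex.I) =
        Complex.exp (τ * (lg b - Real.log B : ℝ) * Complex.I) *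
          Complex.exp (conj (τ * (lg b' - Real.log B : ℝ) * Complex.I)) := by
      rw [← Complex.exp_add, map_mul, map_mul, Complex.conj_ofReal, Complex.conj_ofReal,
        Complex.conj_I]
      congr 1
      push_cast
      ring
    rw [e2]
    ring
  have hi : ∀ x : ℝ, Integrable fun τ : ℝ => (mT T τ : ℂ) * Complex.exp (τ * x * Complex.I) :=
    fun x => by
      refine (integrable_mT hT0).ofReal.mul_bdd (c := 1) (by fun_prop)
        (Eventually.of_forall fun τ => ?_)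
      rw [← Complex.ofReal_mul, Complex.norm_exp_ofReal_mul_I]
  have e2 : ((∫ τ : ℝ, mT T τ * ‖∑ b ∈ S, c b * pw B b (τ * Complex.I)‖ ^ 2 : ℝ) : ℂ) =
      ∑ b ∈ S, ∑ b' ∈ S, c b * conj (c b') * ((2 / (1 + (T * (lg b - lg b')) ^ 2) : ℝ) : ℂ) := by
    rw [← integral_complex_ofReal]
    simp only [e1]
    rw [integral_finsetSum _ fun b _ => integrable_finsetSum _ fun b' _ => (hi _).const_mul _]
    refine Finset.sum_congr rfl fun b _ => ?_
    rw [integral_finsetSum _ fun b' _ => (hi _).const_mul _]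
    refine Finset.sum_congr rfl fun b' _ => ?_
    rw [integral_const_mul, lw_ft hT0]
  have h1 : ∫ τ : ℝ, mT T τ * ‖∑ b ∈ S, c b * pw B b (τ * Complex.I)‖ ^ 2 ≤
      ∑ b ∈ S, ∑ b' ∈ S, (‖c b‖ ^ 2 / 2 * (2 / (1 + (T * (lg b' - lg b)) ^ 2)) +
        ‖c b'‖ ^ 2 / 2 * (2 / (1 + (T * (lg b - lg b')) ^ 2))) := by
    refine (le_abs_self _).trans ?_
    rw [← Real.norm_eq_abs, ← Complex.norm_real, e2]
    refine (norm_sum_le _ _).trans (Finset.sum_le_sum fun b _ =>
      (norm_sum_le _ _).trans (Finset.sum_le_sum fun b' _ => ?_))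
    have h2 : 0 ≤ 2 / (1 + (T * (lg b - lg b')) ^ 2) := by positivity
    rw [norm_mul, norm_mul, Complex.norm_conj, Complex.norm_real, Real.norm_of_nonneg h2,
      show (T * (lg b' - lg b)) ^ 2 = (T * (lg b - lg b')) ^ 2 by ring, ← add_mul]
    exact mul_le_mul_of_nonneg_right (by nlinarith [sq_nonneg (‖c b‖ - ‖c b'‖)]) h2
  refine h1.trans ?_
  simp only [Finset.sum_add_distrib]
  rw [Finset.sum_comm (f := fun b b' => ‖c b'‖ ^ 2 / 2 * (2 / (1 + (T * (lg b - lg b')) ^ 2))),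
    ← Finset.sum_add_distrib, n2, Finset.mul_sum]
  refine Finset.sum_le_sum fun b _ => ?_
  rw [← Finset.mul_sum]
  nlinarith [h B T (lg b) S hB hT hS, sq_nonneg ‖c b‖]

end Crest.Agent.R12
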