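import Crest.Agent.R12.Dec2
import Crest.Agent.R12.LW

/-!
# R12 / Dec3 : **the decomposition of primes** into type I, type II, rare and narrow sums
-/

set_option autoImplicit false

noncomputable section

open scoped Classical ComplexConjugate Topology
open MeasureTheory Filter

namespace Crest.Agent.R12

open Crest.Agent.R17

theorem dec3_far {v : ℝ} {n : O} (hn : SF n) (h : n ∉ sfI (Real.exp (v - 1)) (Real.exp (v + 1))) :
    n ≠ 0 ∧ 1 ≤ |lg n - v| := by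
  have h0 := hn.1.ne_zero
  refine ⟨h0, ?_⟩
  rw [mem_sfI] at h
  have hp := N_pos h0
  by_cases h1 : Real.exp (v - 1) < N n
  · have h2 : Real.exp (v + 1) < N n := lt_of_not_ge fun h2 => h ⟨hn, h1, h2⟩
    have := (Real.lt_log_iff_exp_lt hp).2 h2
    exact le_abs.2 (Or.inl (by unfold lg; linarith))
  · have := (Real.log_le_iff_le_exp hp).2 (le_of_not_gt h1)
    exact le_abs.2 (Or.inr (by unfold lg; linarith))

theorem dec3_tail : ∃ C : ℝ, 0 ≤ C ∧ ∀ v T : ℝ, 1 ≤ T → ∀ S : Finset O,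
    (∀ n ∈ S, SF n ∧ n ∉ sfI (Real.exp (v - 1)) (Real.exp (v + 1))) →
    ∑ n ∈ S, N n * gw (T * (lg n - v)) ≤ C * Real.exp (2 * v - T ^ 2) := by
  obtain ⟨C, hC, h⟩ := an_tail 1
  refine ⟨C, hC, fun v T hT S hS => ?_⟩
  have := h v T hT S fun n hn => dec3_far (hS n hn).1 (hS n hn).2
  simp only [pow_one, Nat.cast_one] at this
  rwa [show (1 + 1 : ℝ) = 2 by norm_num] at this

/-- `an_tail 1` -/
theorem win_trunc : ∃ C : ℝ, 0 ≤ C ∧ ∀ (a : O → ℂ) (M v T : ℝ), (∀ n, ‖a n‖ ≤ M * N n) →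
    (∀ n, a n ≠ 0 → SF n) → 1 ≤ T →
    ‖win a v T - ∑ n ∈ sfI (Real.exp (v - 1)) (Real.exp (v + 1)), a n * (gw (T * (lg n - v)) : ℂ)‖ ≤
      C * M * Real.exp (2 * v - T ^ 2) := by
  obtain ⟨C, hC, h⟩ := dec3_tail
  refine ⟨C, hC, fun a M v T ha hsf hT => ?_⟩
  have hM : 0 ≤ M := by simpa using (norm_nonneg _).trans (ha 1)
  set W := sfI (Real.exp (v - 1)) (Real.exp (v + 1)) with hW
  set f : O → ℂ := fun n => if n = 0 then 0 else a n * (gw (T * (lg n - v)) : ℂ) with hf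
  have hs : Summable fun n => ‖f n‖ := by
    have := summable_winS (a := a) ⟨M, 1, fun n _ => by simpa using ha n⟩ v hT 0
    simpa only [neg_zero, Complex.cpow_zero, mul_one] using this
  have e1 : ∑ n ∈ W, a n * (gw (T * (lg n - v)) : ℂ) = ∑ n ∈ W, f n :=
    Finset.sum_congr rfl fun n hn => by
      rw [hf]
      exact (if_neg (mem_sfI.1 hn).1.1.ne_zero).symm
  have e2 := hs.of_norm.sum_add_tsum_compl (s := W)
  have e3 : win a v T = ∑' n, f n := rfl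
  rw [e1, e3, ← e2, add_sub_cancel_left]
  refine (norm_tsum_le_tsum_norm (hs.subtype _)).trans
    (Real.tsum_le_of_sum_le (fun _ => norm_nonneg _) fun u => ?_)
  have e4 : ∑ x ∈ u, ‖f x‖ = ∑ n ∈ u.map (Function.Embedding.subtype _), ‖f n‖ :=
    (Finset.sum_map u (Function.Embedding.subtype _) fun n => ‖f n‖).symm
  rw [e4, ← Finset.sum_filter_of_ne (p := SF) fun n _ hn => hsf n fun h0 => hn (by simp [hf, h0])]
  refine le_trans (Finset.sum_le_sum (g := fun n => M * (N n * gw (T * (lg n - v)))) fun n hn => ?_) ?_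
  · rw [hf]
    simp only [if_neg (Finset.mem_filter.1 hn).2.1.ne_zero]
    rw [norm_mul, Complex.norm_real, Real.norm_of_nonneg (gw_pos _).le, ← mul_assoc]
    exact mul_le_mul_of_nonneg_right (ha n) (gw_pos _).le
  · rw [← Finset.mul_sum, mul_comm C, mul_assoc]
    refine mul_le_mul_of_nonneg_left (h v T hT _ fun n hn => ?_) hM
    obtain ⟨h1, h2⟩ := Finset.mem_filter.1 hn
    obtain ⟨x, -, rfl⟩ := Finset.mem_map.1 h1
    exact ⟨h2, x.2⟩

theorem dec3_dv_le {n : O} (hn : SF n) : dv n ≤ N n := by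
  have h1 := card_pf_le hn.1.ne_zero
  rw [hn.dv_eq]
  rw [← Real.log_pow, lg] at h1
  exact (Real.log_le_log_iff (by positivity) (N_pos hn.1.ne_zero)).1 h1

theorem dec3_dyadic {E : Type*} [AddCommMonoid E] (g : O → E) {B0 : ℝ} (hB : 0 < B0) (J : ℕ) :
    ∑ i ∈ Finset.range J, ∑ b ∈ sfI (2 ^ i * B0) (2 * (2 ^ i * B0)), g b =
      ∑ b ∈ sfI B0 (2 ^ J * B0), g b := by
  induction J with
  | zero =>
    rw [Finset.sum_range_zero, Finset.sum_eq_zero]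
    intro b hb
    obtain ⟨-, h1, h2⟩ := mem_sfI.1 hb
    simp only [pow_zero, one_mul] at h2
    exact absurd h1 (not_lt.2 h2)
  | succ J ih =>
    have h1 : B0 ≤ 2 ^ J * B0 := le_mul_of_one_le_left hB.le (one_le_pow₀ one_le_two)
    rw [Finset.sum_range_succ, ih, ← Finset.sum_union]
    · refine Finset.sum_congr ?_ fun _ _ => rfl
      ext b
      rw [Finset.mem_union, mem_sfI, mem_sfI, mem_sfI, pow_succ]
      constructor
      · rintro (⟨a1, a2, a3⟩ | ⟨a1, a2, a3⟩)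
        · exact ⟨a1, a2, by linarith⟩
        · exact ⟨a1, by linarith, by linarith⟩
      · rintro ⟨a1, a2, a3⟩
        by_cases h : N b ≤ 2 ^ J * B0
        · exact Or.inl ⟨a1, a2, h⟩
        · exact Or.inr ⟨a1, lt_of_not_ge h, by linarith⟩
    · rw [Finset.disjoint_left]
      intro b hb hb'
      exact absurd (mem_sfI.1 hb').2.1 (not_lt.2 (mem_sfI.1 hb).2.2)

/-- one row of a bilinear form against the window -/
theorem dec3_row (ℓ : ℤ) {y v T B : ℝ} (α β : O → ℂ) (h1 : y - 1 ≤ v) (h2 : v ≤ y) (hB : 0 < B)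
    (hα : ∀ a, ‖α a‖ ≤ 1) (hβ : ∀ b, ‖β b‖ ≤ 1) {b : O} (hb : b ∈ sfI B (2 * B)) :
    ‖∑ a ∈ SA y B, α a * β b * ff ℓ (a * b) * (gw (T * (lg (a * b) - v)) : ℂ) -
      ∑ n ∈ sfI (Real.exp (v - 1)) (Real.exp (v + 1)),
        (if b ∣ n then ff ℓ n * (α (n / b) * β b) * (gw (T * (lg n - v)) : ℂ) else 0)‖ ≤
      ∑ n ∈ sfb (2 * Real.exp (y + 1)) \ sfI (Real.exp (v - 1)) (Real.exp (v + 1)),
        (if b ∣ n then (1 + cP) * gw (T * (lg n - v)) else 0) := by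
  obtain ⟨b1, b2, b3⟩ := mem_sfI.1 hb
  have b0 := b1.1.ne_zero
  have bp := N_pos b0
  have hcP := cP_pos
  set W := sfI (Real.exp (v - 1)) (Real.exp (v + 1)) with hW
  set t : O → ℂ := fun n => ff ℓ n * (α (n / b) * β b) * (gw (T * (lg n - v)) : ℂ) with ht
  have hinj : Set.InjOn (fun a => a * b) (SA y B : Set O) := fun a _ a' _ h =>
    mul_right_cancel₀ b0 h
  have e1 : ∑ a ∈ SA y B, α a * β b * ff ℓ (a * b) * (gw (T * (lg (a * b) - v)) : ℂ) =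
      ∑ n ∈ (SA y B).image (fun a => a * b), t n := by
    rw [Finset.sum_image hinj]
    refine Finset.sum_congr rfl fun a _ => ?_
    simp only [ht, mul_div_cancel_right₀ a b0]
    ring
  have hsub : W.filter (fun n => b ∣ n) ⊆ (SA y B).image (fun a => a * b) := by
    intro n hn
    obtain ⟨n1, n2⟩ := Finset.mem_filter.1 hn
    obtain ⟨c1, c2, c3⟩ := mem_sfI.1 n1
    have e : n / b * b = n := by rw [mul_comm]; exact EuclideanDomain.mul_div_cancel' b0 n2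
    have eN : N (n / b) * N b = N n := by rw [← N_mul, e]
    have a0 := N_nonneg (n / b)
    refine Finset.mem_image.2 ⟨n / b, mem_sfI.2 ⟨(c1.div b1.1 n2).1, ?_, ?_⟩, e⟩
    · rw [div_lt_iff₀ hB]
      have h3 : Real.exp (y - 3) * 2 ≤ Real.exp (v - 1) := by
        have h4 : Real.exp (y - 3 + 1) ≤ Real.exp (v - 1) := Real.exp_le_exp.2 (by linarith)
        rw [Real.exp_add] at h4
        have := Real.add_one_le_exp (1 : ℝ)
        nlinarith [Real.exp_pos (y - 3)]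
      nlinarith
    · rw [le_div_iff₀ hB]
      have h3 : Real.exp (v + 1) ≤ Real.exp (y + 1) := Real.exp_le_exp.2 (by linarith)
      nlinarith
  rw [e1, ← Finset.sum_filter, ← Finset.sum_filter, ← Finset.sum_sdiff hsub, add_sub_cancel_right,
    ← Finset.sum_filter_of_ne (p := SF) fun n _ hn => by
      by_contra h0
      exact hn (by simp [ht, ff, h0])]
  refine (norm_sum_le _ _).trans (le_trans (Finset.sum_le_sum
    (g := fun n => (1 + cP) * gw (T * (lg n - v))) fun n _ => ?_)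
    (Finset.sum_le_sum_of_subset_of_nonneg (fun n hn => ?_) fun n _ _ =>
      mul_nonneg (by linarith) (gw_pos _).le))
  · rw [ht]
    simp only
    rw [norm_mul, norm_mul, norm_mul, Complex.norm_real, Real.norm_of_nonneg (gw_pos _).le]
    refine mul_le_mul_of_nonneg_right ?_ (gw_pos _).le
    exact (mul_le_of_le_one_right (norm_nonneg _)
      (mul_le_one₀ (hα _) (norm_nonneg _) (hβ _))).trans (norm_ff_le ℓ n)
  · obtain ⟨n1, n2⟩ := Finset.mem_filter.1 hn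
    obtain ⟨n3, n4⟩ := Finset.mem_sdiff.1 n1
    obtain ⟨a, ha, rfl⟩ := Finset.mem_image.1 n3
    have hd : b ∣ a * b := Dvd.intro_left a rfl
    refine Finset.mem_filter.2 ⟨Finset.mem_sdiff.2 ⟨mem_sfb.2 ⟨n2, ?_⟩, fun h =>
      n4 (Finset.mem_filter.2 ⟨h, hd⟩)⟩, hd⟩
    have h3 := (mem_sfI.1 ha).2.2
    rw [le_div_iff₀ hB] at h3
    rw [N_mul]
    nlinarith [N_nonneg a]

/-- every pair `(n/b, b)` with `n` in the window and `β b ≠ 0` occurs in exactly one `BF`; the other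
pairs of the `BF` have `|lg (ab) - v| ≥ 1` (or `ff (ab) = 0`), at most `dv n ≤ N n` pairs per `n`,
`an_tail 1` -/
theorem win_conv : ∃ C : ℝ, 0 ≤ C ∧ ∀ (ℓ : ℤ) (y v T B0 E : ℝ) (J : ℕ) (α β : O → ℂ), y - 1 ≤ v →
    v ≤ y → 1 ≤ T → 0 < B0 → (∀ a, ‖α a‖ ≤ 1) → (∀ b, ‖β b‖ ≤ 1) →
    (∀ b, SF b → lg b ≤ y + 1 → β b ≠ 0 → B0 < N b ∧ N b ≤ 2 ^ J * B0) →
    (∀ i < J, ‖BF ℓ (SA y (2 ^ i * B0)) (sfI (2 ^ i * B0) (2 * (2 ^ i * B0))) α β v T‖ ≤ E) →
    ‖∑ n ∈ sfI (Real.exp (v - 1)) (Real.exp (v + 1)),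
        ff ℓ n * conv α β n * (gw (T * (lg n - v)) : ℂ)‖ ≤ J * E + C * Real.exp (2 * y - T ^ 2) := by
  obtain ⟨C, hC, h⟩ := dec3_tail
  have hcP := cP_pos
  refine ⟨(1 + cP) * C, by positivity, fun ℓ y v T B0 E J α β h1 h2 hT hB hα hβ hs hE => ?_⟩
  set W := sfI (Real.exp (v - 1)) (Real.exp (v + 1)) with hW
  set Z := sfb (2 * Real.exp (y + 1)) \ W with hZ
  set s : O → ℂ := fun b => ∑ n ∈ W,
    (if b ∣ n then ff ℓ n * (α (n / b) * β b) * (gw (T * (lg n - v)) : ℂ) else 0) with hs'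
  set z : O → ℝ := fun b => ∑ n ∈ Z, (if b ∣ n then (1 + cP) * gw (T * (lg n - v)) else 0) with hz
  have e1 : ∑ n ∈ W, ff ℓ n * conv α β n * (gw (T * (lg n - v)) : ℂ) =
      ∑ i ∈ Finset.range J, ∑ b ∈ sfI (2 ^ i * B0) (2 * (2 ^ i * B0)), s b := by
    rw [dec3_dyadic s hB J, hs', Finset.sum_comm]
    refine Finset.sum_congr rfl fun n hn => ?_
    obtain ⟨c1, c2, c3⟩ := mem_sfI.1 hn
    have n0 := c1.1.ne_zero
    rw [← Finset.sum_filter, conv, Finset.mul_sum, Finset.sum_mul]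
    refine (Finset.sum_subset (fun b hb => ?_) fun b hb hb' => ?_).symm
    · obtain ⟨d1, d2⟩ := Finset.mem_filter.1 hb
      exact (mem_pdiv n0).2 ⟨(mem_sfI.1 d1).1.1, d2⟩
    · obtain ⟨d1, d2⟩ := (mem_pdiv n0).1 hb
      have d3 := c1.of_dvd d1 d2
      have d4 : lg b ≤ y + 1 := by
        rw [lg, Real.log_le_iff_le_exp (N_pos d1.ne_zero)]
        exact (N_le_of_dvd n0 d2).trans (c3.trans (Real.exp_le_exp.2 (by linarith)))
      have : β b = 0 := by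
        by_contra h0
        exact hb' (Finset.mem_filter.2 ⟨mem_sfI.2 ⟨d3, hs b d3 d4 h0⟩, d2⟩)
      simp [this]
  have e2 : ∀ i < J, ‖∑ b ∈ sfI (2 ^ i * B0) (2 * (2 ^ i * B0)), s b‖ ≤
      E + ∑ b ∈ sfI (2 ^ i * B0) (2 * (2 ^ i * B0)), z b := by
    intro i hi
    have h3 := hE i hi
    rw [BF, Finset.sum_comm] at h3
    refine (norm_le_norm_add_norm_sub' _ _).trans (add_le_add h3 ?_)
    rw [norm_sub_rev, ← Finset.sum_sub_distrib]
    exact (norm_sum_le _ _).trans (Finset.sum_le_sum fun b hb =>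
      dec3_row ℓ α β h1 h2 (by positivity) hα hβ hb)
  have e3 : ∑ b ∈ sfI B0 (2 ^ J * B0), z b ≤ (1 + cP) * C * Real.exp (2 * y - T ^ 2) := by
    rw [hz, Finset.sum_comm]
    have hZ' : ∀ n ∈ Z, SF n ∧ n ∉ W := fun n hn =>
      ⟨(mem_sfb.1 (Finset.mem_sdiff.1 hn).1).1, (Finset.mem_sdiff.1 hn).2⟩
    refine le_trans (Finset.sum_le_sum (g := fun n => (1 + cP) * (N n * gw (T * (lg n - v))))
      fun n hn => ?_) ?_
    · have c1 := (hZ' n hn).1
      rw [← Finset.sum_filter, Finset.sum_const, nsmul_eq_mul, mul_left_comm]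
      refine mul_le_mul_of_nonneg_left (mul_le_mul_of_nonneg_right (le_trans ?_ (dec3_dv_le c1))
        (gw_pos _).le) (by linarith)
      rw [dv, Nat.cast_le]
      refine Finset.card_le_card fun b hb => ?_
      obtain ⟨d1, d2⟩ := Finset.mem_filter.1 hb
      exact (mem_pdiv c1.1.ne_zero).2 ⟨(mem_sfI.1 d1).1.1, d2⟩
    · rw [← Finset.mul_sum, mul_assoc]
      refine mul_le_mul_of_nonneg_left ((h v T hT Z hZ').trans
        (mul_le_mul_of_nonneg_left (Real.exp_le_exp.2 (by linarith)) hC)) (by linarith)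
  rw [e1]
  refine (norm_sum_le _ _).trans ((Finset.sum_le_sum fun i hi =>
    e2 i (Finset.mem_range.1 hi)).trans ?_)
  rw [Finset.sum_add_distrib, dec3_dyadic z hB J, Finset.sum_const, Finset.card_range, nsmul_eq_mul]
  exact add_le_add le_rfl e3


/-- sums over the window -/
def dec3_WS (ℓ : ℤ) (v T : ℝ) (g : O → ℂ) : ℂ :=
  ∑ n ∈ sfI (Real.exp (v - 1)) (Real.exp (v + 1)), ff ℓ n * g n * (gw (T * (lg n - v)) : ℂ)

theorem dec3_WS_sum {ι : Type*} (ℓ : ℤ) (v T : ℝ) (I : Finset ι) (g : ι → O → ℂ) :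
    dec3_WS ℓ v T (fun n => ∑ i ∈ I, g i n) = ∑ i ∈ I, dec3_WS ℓ v T (g i) := by
  unfold dec3_WS
  rw [Finset.sum_comm]
  exact Finset.sum_congr rfl fun n _ => by rw [Finset.mul_sum, Finset.sum_mul]

theorem dec3_WS_smul (ℓ : ℤ) (v T : ℝ) (c : ℂ) (g : O → ℂ) :
    dec3_WS ℓ v T (fun n => c * g n) = c * dec3_WS ℓ v T g := by
  unfold dec3_WS
  rw [Finset.mul_sum]
  exact Finset.sum_congr rfl fun n _ => by ring

theorem dec3_WS_le {ι : Type*} (ℓ : ℤ) (v T : ℝ) (I : Finset ι) (g : ι → O → ℂ) {D K : ℝ}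
    (hD : 0 ≤ D) (hK : (I.card : ℝ) ≤ K) (h : ∀ i ∈ I, ‖dec3_WS ℓ v T (g i)‖ ≤ D) :
    ‖dec3_WS ℓ v T (fun n => ∑ i ∈ I, g i n)‖ ≤ K * D := by
  rw [dec3_WS_sum]
  refine (norm_sum_le _ _).trans ((Finset.sum_le_card_nsmul _ _ _ h).trans ?_)
  rw [nsmul_eq_mul]
  exact mul_le_mul_of_nonneg_right hK hD

theorem dec3_J {B0 U y : ℝ} (hB : 0 < B0) (hy : 1 ≤ y) (h : U ≤ Real.exp y * B0) :
    ∃ J : ℕ, (J : ℝ) ≤ 3 * y ∧ U ≤ 2 ^ J * B0 ∧ ∀ i < J, 2 ^ i * B0 ≤ U := by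
  have hex : ∃ J : ℕ, U ≤ 2 ^ J * B0 := by
    obtain ⟨J, hJ⟩ := pow_unbounded_of_one_lt (U / B0) (one_lt_two (α := ℝ))
    exact ⟨J, ((div_lt_iff₀ hB).1 hJ).le⟩
  have hmin : ∀ i < Nat.find hex, 2 ^ i * B0 ≤ U := fun i hi =>
    (lt_of_not_ge (Nat.find_min hex hi)).le
  refine ⟨Nat.find hex, ?_, Nat.find_spec hex, hmin⟩
  rcases Nat.eq_zero_or_eq_succ_pred (Nat.find hex) with h0 | h0
  · rw [h0, Nat.cast_zero]; linarith
  · have h1 := (hmin (Nat.find hex).pred (by omega)).trans h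
    have h2 := le_of_mul_le_mul_right h1 hB
    rw [← Real.log_le_iff_le_exp (by positivity), Real.log_pow] at h2
    rw [h0, Nat.succ_eq_add_one]
    push_cast
    have l2 : 1 / 2 ≤ Real.log 2 := by linarith [Real.log_two_gt_d9]
    nlinarith [Nat.cast_nonneg (α := ℝ) (Nat.find hex).pred]

theorem dec3_pack : ∃ C : ℝ, 0 ≤ C ∧ ∀ (ℓ : ℤ) (y v T B0 U E : ℝ) (α β : O → ℂ), y - 1 ≤ v →
    v ≤ y → 1 ≤ T → 1 ≤ y → 0 < B0 → U ≤ Real.exp y * B0 → 0 ≤ E → (∀ a, ‖α a‖ ≤ 1) →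
    (∀ b, ‖β b‖ ≤ 1) → (∀ b, SF b → lg b ≤ y + 1 → β b ≠ 0 → B0 < N b ∧ N b ≤ U) →
    (∀ B, B0 ≤ B → B ≤ U → ‖BF ℓ (SA y B) (sfI B (2 * B)) α β v T‖ ≤ E) →
    ‖dec3_WS ℓ v T (conv α β)‖ ≤ 3 * y * E + C * Real.exp (2 * y - T ^ 2) := by
  obtain ⟨C, hC, h⟩ := win_conv
  refine ⟨C, hC, fun ℓ y v T B0 U E α β h1 h2 hT hy hB hU hE hα hβ hs hBF => ?_⟩
  obtain ⟨J, j1, j2, j3⟩ := dec3_J hB hy hU
  refine (h ℓ y v T B0 E J α β h1 h2 hT hB hα hβ
    (fun b b1 b2 b3 => ⟨(hs b b1 b2 b3).1, (hs b b1 b2 b3).2.trans j2⟩) fun i hi =>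
      hBF _ (le_mul_of_one_le_left hB.le (one_le_pow₀ one_le_two)) (j3 i hi)).trans ?_
  exact add_le_add (mul_le_mul_of_nonneg_right j1 hE) le_rfl

/-- the constant of `dec3_pack` -/
def dec3_C : ℝ := dec3_pack.choose

theorem dec3_C_nonneg : 0 ≤ dec3_C := dec3_pack.choose_spec.1

theorem dec3_two_pow (k : ℕ) : (2 : ℝ) ^ k = Real.exp (k * Real.log 2) := by
  rw [Real.exp_nat_mul, Real.exp_log two_pos]

theorem dec3_lg_le {n d : O} {x : ℝ} (hn : n ≠ 0) (h : d ∣ n) (hx : lg n ≤ x) : lg d ≤ x :=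
  (Real.log_le_log (N_pos (ne_zero_of_dvd_ne_zero hn h)) (N_le_of_dvd hn h)).trans hx

/-- the type I part -/
theorem dec3_I : ∃ C : ℝ, 0 ≤ C ∧ ∀ (ℓ : ℤ) (y v T R : ℝ) (c : O → ℂ), v ≤ y → 1 ≤ T → 0 ≤ R →
    (∀ r, ‖c r‖ ≤ 1) →
    ‖dec3_WS ℓ v T (fun n => ∑ r ∈ (pdiv n).filter (fun r => ¬ R < N r), c r)‖ ≤
      ∑ r ∈ sfb R, ‖win (dvR r (ff ℓ)) v T‖ + C * R * Real.exp (2 * y - T ^ 2) := by
  obtain ⟨C, hC, h⟩ := win_trunc
  have hcP := cP_pos
  refine ⟨18 * (C * (1 + cP)), by positivity, fun ℓ y v T R c hv hT hR hc => ?_⟩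
  have e1 : dec3_WS ℓ v T (fun n => ∑ r ∈ (pdiv n).filter (fun r => ¬ R < N r), c r) =
      ∑ r ∈ sfb R, c r * ∑ n ∈ sfI (Real.exp (v - 1)) (Real.exp (v + 1)),
        dvR r (ff ℓ) n * (gw (T * (lg n - v)) : ℂ) := by
    unfold dec3_WS
    simp only [Finset.mul_sum]
    rw [Finset.sum_comm]
    refine Finset.sum_congr rfl fun n hn => ?_
    have c1 := (mem_sfI.1 hn).1
    have e2 : (pdiv n).filter (fun r => ¬ R < N r) = (sfb R).filter (fun r => r ∣ n) := by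
      ext r
      rw [Finset.mem_filter, Finset.mem_filter, mem_pdiv c1.1.ne_zero, mem_sfb, not_lt]
      exact ⟨fun h => ⟨⟨c1.of_dvd h.1.1 h.1.2, h.2⟩, h.1.2⟩, fun h => ⟨⟨h.1.1.1, h.2⟩, h.1.2⟩⟩
    rw [e2, Finset.sum_filter, Finset.sum_mul]
    refine Finset.sum_congr rfl fun r _ => ?_
    unfold dvR
    split_ifs <;> ring
  have hff : ∀ n, ff ℓ n ≠ 0 → SF n := fun n hn => by
    by_contra h0
    exact hn (by simp [ff, h0])
  have e3 : ∀ r, ‖c r * ∑ n ∈ sfI (Real.exp (v - 1)) (Real.exp (v + 1)),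
      dvR r (ff ℓ) n * (gw (T * (lg n - v)) : ℂ)‖ ≤
      ‖win (dvR r (ff ℓ)) v T‖ + C * (1 + cP) * Real.exp (2 * y - T ^ 2) := by
    intro r
    have h1 := h (dvR r (ff ℓ)) (1 + cP) v T (fun n => by
      by_cases h0 : SF n
      · refine le_trans ?_ (le_mul_of_one_le_right (by linarith) (one_le_N h0.1.ne_zero))
        unfold dvR
        split_ifs
        · exact norm_ff_le ℓ n
        · rw [norm_zero]; linarith
      · have : dvR r (ff ℓ) n = 0 := by simp [dvR, ff, h0]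
        rw [this, norm_zero]
        exact mul_nonneg (by linarith) (N_nonneg n))
      (fun n hn => hff n fun h0 => hn (by simp [dvR, h0])) hT
    rw [norm_mul]
    refine (mul_le_of_le_one_left (norm_nonneg _) (hc r)).trans
      ((norm_le_norm_add_norm_sub' _ _).trans (add_le_add le_rfl ?_))
    rw [norm_sub_rev]
    exact h1.trans (mul_le_mul_of_nonneg_left (Real.exp_le_exp.2 (by linarith)) (by positivity))
  rw [e1]
  refine (norm_sum_le _ _).trans ((Finset.sum_le_sum fun r _ => e3 r).trans ?_)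
  rw [Finset.sum_add_distrib, Finset.sum_const, nsmul_eq_mul]
  refine add_le_add le_rfl ?_
  have h2 : ((sfb R).card : ℝ) ≤ 18 * R :=
    (Nat.cast_le.2 (Finset.card_filter_le _ _)).trans (card_ball_le hR)
  exact (mul_le_mul_of_nonneg_right h2 (by positivity)).trans_eq (by ring)

theorem dec3_sqrt {y : ℝ} (hy : 10 ^ 6 ≤ y) : Real.sqrt y ≤ y / 1000 := by
  rw [Real.sqrt_le_iff]
  exact ⟨by linarith, by nlinarith⟩

/-- the rare part -/
theorem dec3_R {y w : ℝ} {ρ : ℕ} (hy : 10 ^ 6 ≤ y) (hρ : ρ * Real.log 2 ≤ y / 2)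
    (hw1 : 2 ^ 1000 ≤ w) (hw2 : w ≤ Real.exp (Real.sqrt y)) :
    ∃ G : O → ℂ, (∀ n, SF n → lg n ≤ y + 1 →
      ∑ r ∈ (pdiv n).filter (fun r => 2 ^ ρ * Real.exp (y / 200) < N r),
        (if nu w r ≤ ρ then mu r else 0) = G n) ∧
      ∀ (ℓ : ℤ) (v T E : ℝ), y - 1 ≤ v → v ≤ y → 1 ≤ T → 0 ≤ E →
      (∀ (B : ℝ) (α β : O → ℂ), 2 ^ ρ * Real.exp (y / 200) / w ≤ B →
        B ≤ 2 ^ ρ * Real.exp (y / 200) → (∀ a, ‖α a‖ ≤ 1) → (∀ b, ‖β b‖ ≤ 1) →
        (∀ b, β b ≠ 0 → Rare w (Real.exp (1 / 500 * y)) b) →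
        ‖BF ℓ (SA y B) (sfI B (2 * B)) α β v T‖ ≤ E) →
      ‖dec3_WS ℓ v T G‖ ≤ 18 * w * (3 * y * E + dec3_C * Real.exp (2 * y - T ^ 2)) := by
  obtain ⟨α, β, hα, hβ, hs, hid⟩ := dec_R w (2 ^ ρ * Real.exp (y / 200)) ρ
  have hw0 : 0 < w := lt_of_lt_of_le (by positivity) hw1
  have hsq := dec3_sqrt hy
  have hC := dec3_C_nonneg
  have hy0 : 1 ≤ y := by linarith
  have hβ' : ∀ p b, ‖if SF b then β p b else 0‖ ≤ 1 := fun p b => by
    split_ifs
    · exact hβ p b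
    · simp
  refine ⟨fun n => ∑ p ∈ (sfb w).filter Prime, conv (α p) (fun b => if SF b then β p b else 0) n,
    fun n hn hl => ?_, fun ℓ v T E h1 h2 hT hE hBF => ?_⟩
  · rw [hid n hn fun r hr r1 r2 => ?_]
    · refine Finset.sum_congr rfl fun p _ => Finset.sum_congr rfl fun b hb => ?_
      obtain ⟨d1, d2⟩ := (mem_pdiv hn.1.ne_zero).1 hb
      simp only [if_pos (hn.of_dvd d1 d2)]
    · obtain ⟨d1, d2⟩ := (mem_pdiv hn.1.ne_zero).1 hr
      obtain ⟨e1, e2⟩ := rough_le hw1 (hn.of_dvd d1 d2) r1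
      have := dec3_lg_le hn.1.ne_zero d2 hl
      exact e2.trans (mul_le_mul (pow_le_pow_right₀ one_le_two (e1 ▸ r2))
        (Real.exp_le_exp.2 (by linarith)) (Real.exp_pos _).le (by positivity))
  · refine dec3_WS_le ℓ v T _ _ (by positivity) ((Nat.cast_le.2 ((Finset.card_filter_le _ _).trans
      (Finset.card_filter_le _ _))).trans (card_ball_le hw0.le)) fun p hp => ?_
    have hp' : N p ≤ w := (mem_sfb.1 (Finset.mem_filter.1 hp).1).2
    have hb0 : ∀ b, (if SF b then β p b else 0) ≠ 0 → SF b ∧ β p b ≠ 0 := fun b hb => by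
      by_cases h0 : SF b
      · exact ⟨h0, by simpa [h0] using hb⟩
      · exact absurd (if_neg h0) hb
    refine dec3_pack.choose_spec.2 ℓ y v T (2 ^ ρ * Real.exp (y / 200) / w)
      (2 ^ ρ * Real.exp (y / 200)) E _ _ h1 h2 hT hy0 (by positivity) ?_ hE (hα p) (hβ' p)
      (fun b _ _ hb => ?_) fun B b1 b2 => hBF B _ _ b1 b2 (hα p) (hβ' p) fun b hb => ?_
    · rw [← mul_div_assoc, le_div_iff₀ hw0, mul_comm]
      exact mul_le_mul_of_nonneg_right (hw2.trans (Real.exp_le_exp.2 (by linarith))) (by positivity)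
    · obtain ⟨a1, a2, -⟩ := hs p b hp' (hb0 b hb).2
      exact ⟨(div_lt_iff₀ hw0).2 a2, a1⟩
    · obtain ⟨a1, a2, a3⟩ := hs p b hp' (hb0 b hb).2
      have b0 := N_pos (hb0 b hb).1.1.ne_zero
      refine rare_of hw1 (hb0 b hb).1 ?_
      have a4 : lg b ≤ y := by
        rw [lg, Real.log_le_iff_le_exp b0]
        refine a1.trans ?_
        rw [dec3_two_pow, ← Real.exp_add]
        exact Real.exp_le_exp.2 (by linarith)
      have a5 : Real.exp (1 / 500 * y) * (2 ^ nu w b * Real.exp (lg b / 1000)) * w ≤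
          Real.exp (1 / 500 * y) * (2 ^ ρ * Real.exp (y / 1000)) * Real.exp (y / 1000) :=
        mul_le_mul (mul_le_mul_of_nonneg_left (mul_le_mul (pow_le_pow_right₀ one_le_two a3)
          (Real.exp_le_exp.2 (by linarith)) (Real.exp_pos _).le (by positivity)) (Real.exp_pos _).le)
          (hw2.trans (Real.exp_le_exp.2 hsq)) hw0.le (by positivity)
      have a6 : Real.exp (1 / 500 * y) * (2 ^ ρ * Real.exp (y / 1000)) * Real.exp (y / 1000) ≤
          2 ^ ρ * Real.exp (y / 200) := by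
        rw [mul_left_comm, mul_assoc, ← Real.exp_add, ← Real.exp_add]
        exact mul_le_mul_of_nonneg_left (Real.exp_le_exp.2 (by linarith)) (by positivity)
      exact le_of_mul_le_mul_right (a5.trans (a6.trans a2.le)) hw0

theorem dec3_bet_le (w : ℝ) {F : Multiset ℕ → ℂ} (hF : ∀ M, ‖F M‖ ≤ 1) (b : O) :
    ‖bet w F b‖ ≤ 1 := by
  unfold bet
  split_ifs
  · exact hF _
  · simp

theorem dec3_bet_ne {w : ℝ} {F : Multiset ℕ → ℂ} {b : O} (h : bet w F b ≠ 0) :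
    Rough w b ∧ F (bx b) ≠ 0 := by
  unfold bet at h
  by_cases h0 : Rough w b
  · exact ⟨h0, by simpa [h0] using h⟩
  · exact absurd (if_neg h0) h

/-- the part with a prime of small box -/
theorem dec3_S {y w : ℝ} {ρ1 j0 : ℕ} (hy : 10 ^ 6 ≤ y) (hρ0 : 1 ≤ ρ1)
    (hρ : ρ1 * Real.log 2 ≤ y / 3 + y / 1000) (hj : j0 * Real.log 2 ≤ y / 100)
    (hw1 : 2 ^ 1000 ≤ w) :
    ∃ G : O → ℂ, (∀ n, SF n → lg n ≤ y + 1 →
      (if Rough w n ∧ ∃ p ∈ pf n, box p < j0 then Cm (ρ1 + j0) (bx n) else 0) = G n) ∧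
      ∀ (ℓ : ℤ) (v T E : ℝ), y - 1 ≤ v → v ≤ y → 1 ≤ T → 0 ≤ E →
      (∀ (B : ℝ) (α : O → ℂ) (F : Multiset ℕ → ℂ), 2 ^ ρ1 / 2 ≤ B → B ≤ Real.exp (y / 2 + 80) →
        (∀ a, ‖α a‖ ≤ 1) → (∀ M, ‖F M‖ ≤ 1) → (Real.exp (2 / 5 * y) < B → ZR j0 F) →
        ‖BF ℓ (SA y B) (sfI B (2 * B)) α (bet w F) v T‖ ≤ E) →
      ‖dec3_WS ℓ v T G‖ ≤ y * (3 * y * (3 * y * E + dec3_C * Real.exp (2 * y - T ^ 2))) := by
  obtain ⟨α, F, hα, hF, hs, hid⟩ := dec_S w ρ1 j0 ⌈2 * y⌉₊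
  have hC := dec3_C_nonneg
  have hy0 : 1 ≤ y := by linarith
  have l2 : 0.69 ≤ Real.log 2 := by linarith [Real.log_two_gt_d9]
  refine ⟨fun n => ∑ i ∈ Finset.range j0, ∑ j ∈ Finset.range (⌈2 * y⌉₊ + 1),
    conv (α i j) (bet w (F i j)) n, fun n hn hl => hid n hn ?_,
    fun ℓ v T E h1 h2 hT hE hBF => ?_⟩
  · have h3 := (card_pf_le hn.1.ne_zero).trans hl
    have h4 : ((pf n).card : ℝ) ≤ 2 * y := by
      nlinarith [Nat.cast_nonneg (α := ℝ) (pf n).card]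
    exact_mod_cast h4.trans (Nat.le_ceil _)
  · refine dec3_WS_le ℓ v T _ (fun i n => ∑ j ∈ Finset.range (⌈2 * y⌉₊ + 1),
      conv (α i j) (bet w (F i j)) n) (by positivity) ?_ fun i hi => ?_
    · rw [Finset.card_range]
      nlinarith [Nat.cast_nonneg (α := ℝ) j0]
    refine dec3_WS_le ℓ v T _ _ (by positivity) ?_ fun j _ => ?_
    · rw [Finset.card_range]
      push_cast
      linarith [Nat.ceil_lt_add_one (show 0 ≤ 2 * y by linarith)]
    have hB : (1 : ℝ) ≤ 2 ^ ρ1 / 2 := by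
      rw [le_div_iff₀ two_pos, one_mul]
      exact le_self_pow₀ one_le_two (by omega)
    refine dec3_pack.choose_spec.2 ℓ y v T (2 ^ ρ1 / 2) (Real.exp (2 / 5 * y)) E _ _ h1 h2 hT hy0
      (by positivity) ?_ hE (hα i j) (dec3_bet_le w (hF i j)) (fun b b1 b2 hb => ?_)
      fun B b1 b2 => hBF B _ _ b1 (b2.trans (Real.exp_le_exp.2 (by linarith))) (hα i j) (hF i j)
        fun h => absurd b2 (not_le.2 h)
    · exact (Real.exp_le_exp.2 (by linarith)).trans (le_mul_of_one_le_right (Real.exp_pos _).le hB)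
    · obtain ⟨a1, a2⟩ := dec3_bet_ne hb
      obtain ⟨a3, a4⟩ := hs i j _ (Finset.mem_range.1 hi) a2
      refine ⟨lt_of_lt_of_le (half_lt_self (by positivity))
        ((pow_le_pow_right₀ one_le_two a3.le).trans b1.N_bx.1), (rough_le hw1 b1 a1).2.trans ?_⟩
      refine (mul_le_mul_of_nonneg_right (pow_le_pow_right₀ one_le_two a4)
        (Real.exp_pos _).le).trans ?_
      rw [dec3_two_pow, ← Real.exp_add]
      push_cast
      exact Real.exp_le_exp.2 (by linarith)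

theorem dec3_bx {n : O} (hn : SF n) : ((bx n).sum : ℝ) * Real.log 2 ≤ lg n ∧
    lg n ≤ ((bx n).sum + (Multiset.card (bx n) : ℝ)) * Real.log 2 := by
  obtain ⟨h1, h2⟩ := hn.N_bx
  have h0 := N_pos hn.1.ne_zero
  rw [dec3_two_pow] at h1 h2
  rw [Nat.cast_add] at h2
  exact ⟨(Real.le_log_iff_exp_le h0).2 h1, (Real.log_le_iff_le_exp h0).2 h2⟩

theorem dec3_pow {c J K : ℕ} {x : ℝ} (h : c ≤ (J + 2) ^ K) (hJ : (J : ℝ) + 2 ≤ x) :
    (c : ℝ) ≤ x ^ K := by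
  have h1 : (c : ℝ) ≤ ((J : ℝ) + 2) ^ K := by exact_mod_cast h
  exact h1.trans (pow_le_pow_left₀ (by positivity) hJ _)

/-- the part with all primes of large box -/
theorem dec3_L {y w : ℝ} {ρ1 j0 : ℕ} (hy : 10 ^ 6 ≤ y) (hρ0 : 1 ≤ ρ1)
    (hρ : ρ1 * Real.log 2 ≤ y / 3 + y / 1000) (hj0 : y / 100 - 1 ≤ j0 * Real.log 2)
    (hj : j0 * Real.log 2 ≤ y / 100) (hw : w < 2 ^ j0) :
    ∃ (F0 : Multiset ℕ → ℂ) (G : O → ℂ), (∀ M, ‖F0 M‖ ≤ 8) ∧
      (∀ M, F0 M ≠ 0 → Multiset.card M = 3 ∧ ∀ i ∈ M, M.sum < i + 2 * ρ1 ∧ i < ρ1) ∧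
      (∀ n, SF n → y - 2 < lg n → lg n ≤ y + 1 →
      (if ∀ p ∈ pf n, j0 ≤ box p then Cm (ρ1 + j0) (bx n) else 0) =
        (if Prime n then 1 else 0) + F0 (bx n) + G n) ∧
      ∀ (ℓ : ℤ) (v T E : ℝ), y - 1 ≤ v → v ≤ y → 1 ≤ T → 0 ≤ E →
      (∀ (B : ℝ) (α : O → ℂ) (F : Multiset ℕ → ℂ), 2 ^ ρ1 / 2 ≤ B → B ≤ Real.exp (y / 2 + 80) →
        (∀ a, ‖α a‖ ≤ 1) → (∀ M, ‖F M‖ ≤ 1) → (Real.exp (2 / 5 * y) < B → ZR j0 F) →
        ‖BF ℓ (SA y B) (sfI B (2 * B)) α (bet w F) v T‖ ≤ E) →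
      ‖dec3_WS ℓ v T G‖ ≤
        (3 * y) ^ 110 * (2 ^ 110 * (3 * y * E + dec3_C * Real.exp (2 * y - T ^ 2))) := by
  obtain ⟨F0, 𝓜, c, α, F, hF0, hF0', hM, hc, hα, hF, hZ, hs, hid⟩ :=
    dec_L 110 ⌊(y + 1) / Real.log 2⌋₊ hw hρ0
  have hC := dec3_C_nonneg
  have hy0 : 1 ≤ y := by linarith
  have l2 : 0.69 ≤ Real.log 2 := by linarith [Real.log_two_gt_d9]
  have l2' : Real.log 2 ≤ 0.7 := by linarith [Real.log_two_lt_d9]
  have hJ : (⌊(y + 1) / Real.log 2⌋₊ : ℝ) * Real.log 2 ≤ y + 1 := by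
    rw [← le_div_iff₀ (by linarith)]
    exact Nat.floor_le (by positivity)
  refine ⟨F0, fun n => ∑ M ∈ 𝓜, c M * conv (α M) (bet w (F M)) n, hF0, hF0',
    fun n hn hl1 hl2 => hid n hn (fun _ => ?_) fun hp => ?_, fun ℓ v T E h1 h2 hT hE hBF => ?_⟩
  · refine Nat.le_log_of_pow_le one_lt_two ?_
    have h3 : (2 : ℝ) ^ j0 ≤ N n := by
      rw [dec3_two_pow, ← Real.le_log_iff_exp_le (N_pos hn.1.ne_zero)]
      unfold lg at hl1
      linarith
    unfold N at h3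
    exact_mod_cast h3
  · obtain ⟨a1, a2⟩ := dec3_bx hn
    have a3 : Multiset.card (bx n) = (pf n).card := by simp [bx]
    have a4 : (pf n).card * j0 ≤ (bx n).sum := by
      have := Finset.card_nsmul_le_sum (pf n) box j0 hp
      rw [smul_eq_mul] at this
      exact this
    have a5 : (pf n).card ≤ 110 := by
      by_contra h0
      have b1 : 111 * j0 ≤ (bx n).sum := (Nat.mul_le_mul_right _ (by omega)).trans a4
      have b2 : (111 : ℝ) * j0 ≤ (bx n).sum := by exact_mod_cast b1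
      have b3 := mul_le_mul_of_nonneg_right b2 (show 0 ≤ Real.log 2 by linarith)
      linarith
    have a6 : (Multiset.card (bx n) : ℝ) ≤ 110 := by rw [a3]; exact_mod_cast a5
    have a7 : y - 79 < (bx n).sum * Real.log 2 := by
      have := mul_le_mul a6 l2' (by linarith) (by norm_num)
      linarith
    refine ⟨a5, Nat.le_floor ((le_div_iff₀ (by linarith)).2 (by linarith)), ?_, ?_⟩
    · have : ((2 * ρ1 + j0 : ℕ) : ℝ) ≤ (bx n).sum := by
        refine le_of_mul_le_mul_right ?_ (show 0 < Real.log 2 by linarith)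
        rw [Nat.cast_add, Nat.cast_mul, Nat.cast_ofNat]
        linarith
      exact_mod_cast this
    · have : ((8 * ρ1 : ℕ) : ℝ) < (3 * (bx n).sum : ℕ) := by
        refine lt_of_mul_lt_mul_right ?_ (show 0 ≤ Real.log 2 by linarith)
        rw [Nat.cast_mul, Nat.cast_mul, Nat.cast_ofNat, Nat.cast_ofNat]
        linarith
      exact_mod_cast this
  · refine dec3_WS_le ℓ v T _ (fun M n => c M * conv (α M) (bet w (F M)) n) (by positivity) ?_
      fun M _ => ?_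
    · refine dec3_pow hM ?_
      have := mul_le_mul_of_nonneg_left l2 (Nat.cast_nonneg (α := ℝ) ⌊(y + 1) / Real.log 2⌋₊)
      linarith
    rw [dec3_WS_smul, norm_mul]
    refine mul_le_mul (hc M) ?_ (norm_nonneg _) (by positivity)
    have hB : (1 : ℝ) ≤ 2 ^ ρ1 / 2 := by
      rw [le_div_iff₀ two_pos, one_mul]
      exact le_self_pow₀ one_le_two (by omega)
    refine dec3_pack.choose_spec.2 ℓ y v T (2 ^ ρ1 / 2) (Real.exp (y / 2 + 80)) E _ _ h1 h2 hT hy0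
      (by positivity) ?_ hE (hα M) (dec3_bet_le w (hF M)) (fun b b1 b2 hb => ?_)
      fun B b1 b2 => hBF B _ _ b1 b2 (hα M) (hF M) fun _ => hZ M
    · exact (Real.exp_le_exp.2 (by linarith)).trans (le_mul_of_one_le_right (Real.exp_pos _).le hB)
    · obtain ⟨a3, a4, a5⟩ := hs M _ (dec3_bet_ne hb).2
      refine ⟨lt_of_lt_of_le (half_lt_self (by positivity))
        ((pow_le_pow_right₀ one_le_two a3).trans b1.N_bx.1), ?_⟩
      rw [← Real.log_le_iff_le_exp (N_pos b1.1.ne_zero)]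
      refine (dec3_bx b1).2.trans ?_
      have a6 : (2 : ℝ) * (bx b).sum ≤ ⌊(y + 1) / Real.log 2⌋₊ := by exact_mod_cast a4
      have a7 : (Multiset.card (bx b) : ℝ) ≤ 110 := by exact_mod_cast a5
      have a8 := mul_le_mul a7 l2' (by linarith) (by norm_num)
      have a9 := mul_le_mul_of_nonneg_right a6 (show 0 ≤ Real.log 2 by linarith)
      linarith


theorem dec3_split {w : ℝ} {j0 : ℕ} (hw : w < 2 ^ j0) (n : O) (x : ℂ) :
    (if Rough w n then x else 0) = (if Rough w n ∧ ∃ p ∈ pf n, box p < j0 then x else 0) +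
      (if ∀ p ∈ pf n, j0 ≤ box p then x else 0) := by
  by_cases h : ∀ p ∈ pf n, j0 ≤ box p
  · have h1 : Rough w n := fun p hp => by
      refine hw.trans_le ((pow_le_pow_right₀ one_le_two (h p hp)).trans ?_)
      have h2 : Prime p := (Finset.mem_filter.1 hp).2
      have h3 := Nat.pow_log_le_self 2 (nm_pos h2.ne_zero).ne'
      unfold N box
      exact_mod_cast h3
    rw [if_pos h1, if_pos h, if_neg, zero_add]
    rintro ⟨-, p, hp, h2⟩
    exact absurd (h p hp) (not_le.2 h2)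
  · rw [if_neg h, add_zero]
    push Not at h
    simp only [h, and_true]

/-- the final numerics -/
theorem dec3_num {y w T R E2 E3 C K1 K2 : ℝ} (hy : 10 ^ 6 ≤ y) (hK : K1 + K2 + 20 * C ≤ y)
    (hC : 0 ≤ C) (hK1 : 0 ≤ K1) (hK2 : 0 ≤ K2) (hT : y ≤ T) (hE2 : 0 ≤ E2) (hE3 : 0 ≤ E3)
    (hw0 : 0 ≤ w) (hw : w ≤ Real.exp y) (hR : R ≤ Real.exp y) :
    K1 * Real.exp (2 * y - T ^ 2) + K2 * R * Real.exp (2 * y - T ^ 2) +
      18 * w * (3 * y * E3 + C * Real.exp (2 * y - T ^ 2)) +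
      y * (3 * y * (3 * y * E2 + C * Real.exp (2 * y - T ^ 2))) +
      (3 * y) ^ 110 * (2 ^ 110 * (3 * y * E2 + C * Real.exp (2 * y - T ^ 2))) ≤
      y ^ 222 * (E2 + w * E3) + 1 := by
  have hy1 : 1 ≤ y := by linarith
  have a1 : (3 * y) ^ 110 * 2 ^ 110 ≤ y ^ 220 := by
    rw [← mul_pow, show y ^ 220 = (y ^ 2) ^ 110 by rw [← pow_mul]]
    exact pow_le_pow_left₀ (by positivity) (by nlinarith) _
  have a2 : y * (3 * y) ≤ y ^ 220 :=
    le_trans (by nlinarith [mul_le_mul_of_nonneg_left (show 3 ≤ y by linarith) (sq_nonneg y)])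
      (pow_le_pow_right₀ hy1 (show 3 ≤ 220 by norm_num))
  have a3 : y ^ 220 ≤ Real.exp (220 * y) := by
    rw [show (220 : ℝ) = (220 : ℕ) by norm_num, Real.exp_nat_mul]
    exact pow_le_pow_left₀ (by linarith) (by linarith [Real.add_one_le_exp y]) _
  have a4 : y ^ 220 * (6 * y) ≤ y ^ 222 := by
    rw [show y ^ 222 = y ^ 220 * y ^ 2 by rw [← pow_add]]
    exact mul_le_mul_of_nonneg_left (by nlinarith) (by positivity)
  have a5 : 54 * y ≤ y ^ 222 :=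
    le_trans (by nlinarith) (pow_le_pow_right₀ hy1 (show 2 ≤ 222 by norm_num))
  have a6 : Real.exp y ≤ Real.exp (220 * y) := Real.exp_le_exp.2 (by linarith)
  have a7 : 1 ≤ Real.exp (220 * y) := Real.one_le_exp (by linarith)
  have a8 : y * (Real.exp (220 * y) * Real.exp (2 * y - T ^ 2)) ≤ 1 := by
    refine (mul_le_mul_of_nonneg_right (show y ≤ Real.exp y by linarith [Real.add_one_le_exp y])
      (by positivity)).trans ?_
    rw [← Real.exp_add, ← Real.exp_add, Real.exp_le_one_iff]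
    nlinarith
  have x0 := (Real.exp_pos (2 * y - T ^ 2)).le
  generalize Real.exp (2 * y - T ^ 2) = x at *
  generalize Real.exp (220 * y) = X at *
  rw [← mul_assoc ((3 * y) ^ 110), ← mul_assoc y]
  generalize (3 * y) ^ 110 * 2 ^ 110 = P at *
  generalize y * (3 * y) = Q at *
  generalize y ^ 222 = Y2 at *
  generalize y ^ 220 = Y at *
  have hD : 0 ≤ 3 * y * E2 + C * x := by positivity
  have b1 := mul_le_mul_of_nonneg_right a1 hD
  have b2 := mul_le_mul_of_nonneg_right a2 hD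
  have b3 := mul_le_mul_of_nonneg_right a4 hE2
  have b4 := mul_le_mul_of_nonneg_right a5 (mul_nonneg hw0 hE3)
  have b5 := mul_le_mul_of_nonneg_right a3 (mul_nonneg hC x0)
  have b6 := mul_le_mul_of_nonneg_right (hw.trans a6) (mul_nonneg hC x0)
  have b7 := mul_le_mul_of_nonneg_right (hR.trans a6) (mul_nonneg hK2 x0)
  have b8 := mul_le_mul_of_nonneg_right a7 (mul_nonneg hK1 x0)
  have b9 := mul_le_mul_of_nonneg_right hK (mul_nonneg (zero_le_one.trans a7) x0)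
  linarith

/-- `ρ₀ = ρ₁ + j₀`, `R₂ = 2^{ρ₀} e^{y/200}`.  For `n` in the window (`y - 2 < lg n ≤ y + 1`):
`dec_c` = (`N r ≤ R₂`: type I) + `dec_R` (`rough_le`, `rare_of`; `B₀ = R₂/w`) and
= `dec_S` (`J = ⌈2y⌉`, `card_pf_le`; `2^{ρ₁} ≤ N b ≤ e^{0.39y}` by `rough_le`; `B₀ = 2^{ρ₁}/2`)
+ `dec_L` (`K = 110`, `J = ⌊(y+1)/log 2⌋`, `N b ≤ 2^{J/2 + 110} ≤ e^{y/2+80}`; all boxes `≥ j₀` implies
rough as `w < 2^{j₀}`).  In `win_conv` take the least `J` with `2^J B₀ ≥` the upper bound.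
`F₀` is that of `dec_L` times `[|sum · log 2 - y| ≤ 5]` (automatic in the window).  All tails together
are `≤ 1`. -/
theorem decomp : ∃ (Cd : ℕ) (y0 : ℝ), ∀ y : ℝ, y0 ≤ y → ∀ (ρ1 j0 : ℕ) (w : ℝ),
    y / 5 ≤ ρ1 * Real.log 2 → ρ1 * Real.log 2 ≤ y / 3 + y / 1000 →
    y / 100 - 1 ≤ j0 * Real.log 2 → j0 * Real.log 2 ≤ y / 100 → 2 ^ 1000 ≤ w →
    w ≤ Real.exp (Real.sqrt y) →
    ∃ F0 : Multiset ℕ → ℂ, (∀ M, ‖F0 M‖ ≤ 8) ∧
      (∀ M, F0 M ≠ 0 → Multiset.card M = 3 ∧ (∀ i ∈ M, M.sum < i + 2 * ρ1 ∧ i < ρ1) ∧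
        |(M.sum : ℝ) * Real.log 2 - y| ≤ 5) ∧
      ∀ (ℓ : ℤ) (v T E1 E2 E3 : ℝ), y - 1 ≤ v → v ≤ y → y ≤ T → 0 ≤ E2 → 0 ≤ E3 →
      ∑ r ∈ sfb (2 ^ (ρ1 + j0) * Real.exp (y / 200)), ‖win (dvR r (ff ℓ)) v T‖ ≤ E1 →
      (∀ (B : ℝ) (α : O → ℂ) (F : Multiset ℕ → ℂ), 2 ^ ρ1 / 2 ≤ B → B ≤ Real.exp (y / 2 + 80) →
        (∀ a, ‖α a‖ ≤ 1) → (∀ M, ‖F M‖ ≤ 1) → (Real.exp (2 / 5 * y) < B → ZR j0 F) →
        ‖BF ℓ (SA y B) (sfI B (2 * B)) α (bet w F) v T‖ ≤ E2) →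
      (∀ (B : ℝ) (α β : O → ℂ), 2 ^ (ρ1 + j0) * Real.exp (y / 200) / w ≤ B →
        B ≤ 2 ^ (ρ1 + j0) * Real.exp (y / 200) → (∀ a, ‖α a‖ ≤ 1) → (∀ b, ‖β b‖ ≤ 1) →
        (∀ b, β b ≠ 0 → Rare w (Real.exp (1 / 500 * y)) b) →
        ‖BF ℓ (SA y B) (sfI B (2 * B)) α β v T‖ ≤ E3) →
      ‖win (fun n => fP ℓ n + ff ℓ n * F0 (bx n)) v T‖ ≤ E1 + y ^ Cd * (E2 + w * E3) + 1 := by
  obtain ⟨C1, hC1, htr⟩ := win_trunc
  obtain ⟨C2, hC2, hI⟩ := dec3_I
  have hcP := cP_pos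
  have hC := dec3_C_nonneg
  refine ⟨222, max (10 ^ 6) (C1 * ((1 + cP) * 9) + C2 + 20 * dec3_C),
    fun y hy ρ1 j0 w r1 r2 s1 s2 w1 w2 => ?_⟩
  have hy1 : 10 ^ 6 ≤ y := (le_max_left _ _).trans hy
  have hy2 := (le_max_right _ _).trans hy
  have hsq := dec3_sqrt hy1
  have l2' : Real.log 2 ≤ 0.7 := by linarith [Real.log_two_lt_d9]
  have hρ0 : 1 ≤ ρ1 := Nat.one_le_iff_ne_zero.2 fun h => by
    rw [h, Nat.cast_zero, zero_mul] at r1
    linarith
  have hw : w < 2 ^ j0 := by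
    rw [dec3_two_pow]
    exact w2.trans_lt (Real.exp_lt_exp.2 (by linarith))
  have hρ : ((ρ1 + j0 : ℕ) : ℝ) * Real.log 2 ≤ y / 2 := by
    rw [Nat.cast_add]
    linarith
  obtain ⟨GR, hR1, hR2⟩ := dec3_R hy1 hρ w1 w2
  obtain ⟨GS, hS1, hS2⟩ := dec3_S hy1 hρ0 r2 s2 w1
  obtain ⟨F0, GLp, hF1, hF2, hL1, hL2⟩ := dec3_L hy1 hρ0 r2 s1 s2 hw
  set F1 : Multiset ℕ → ℂ := fun M => if |(M.sum : ℝ) * Real.log 2 - y| ≤ 5 then F0 M else 0 with hF
  have hF3 : ∀ M, ‖F1 M‖ ≤ 8 := fun M => by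
    rw [hF]
    simp only
    split_ifs
    · exact hF1 M
    · simp
  refine ⟨F1, hF3, fun M hM => ?_, fun ℓ v T E1 E2 E3 h1 h2 hT hE2 hE3 hE1 hB2 hB3 => ?_⟩
  · by_cases h0 : |(M.sum : ℝ) * Real.log 2 - y| ≤ 5
    · have h1 := hF2 M (by simpa only [hF, if_pos h0] using hM)
      exact ⟨h1.1, h1.2, h0⟩
    · exact absurd (if_neg h0) hM
  have hT1 : 1 ≤ T := by linarith
  have hz : ∀ n, ¬ SF n → fP ℓ n + ff ℓ n * F1 (bx n) = 0 := fun n h0 => by simp [fP, ff, h0]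
  have t1 := htr (fun n => fP ℓ n + ff ℓ n * F1 (bx n)) ((1 + cP) * 9) v T (fun n => by
    by_cases h0 : SF n
    · refine le_trans ?_ (le_mul_of_one_le_right (by positivity) (one_le_N h0.1.ne_zero))
      refine (norm_add_le _ _).trans ?_
      rw [norm_mul]
      have := mul_le_mul (norm_ff_le ℓ n) (hF3 (bx n)) (norm_nonneg _) (by positivity)
      linarith [norm_fP_le ℓ n]
    · simp only [hz n h0, norm_zero]
      exact mul_nonneg (by positivity) (N_nonneg n)) (fun n hn => by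
        by_contra h0
        exact hn (hz n h0)) hT1
  have t2 := hI ℓ y v T (2 ^ (ρ1 + j0) * Real.exp (y / 200))
    (fun r => if nu w r ≤ ρ1 + j0 then mu r else 0) h2 hT1 (by positivity) fun r => by
      split_ifs
      · exact norm_mu_le r
      · simp
  have t3 := hR2 ℓ v T E3 h1 h2 hT1 hE3 hB3
  have t4 := hS2 ℓ v T E2 h1 h2 hT1 hE2 hB2
  have t5 := hL2 ℓ v T E2 h1 h2 hT1 hE2 hB2
  have e1 : ∑ n ∈ sfI (Real.exp (v - 1)) (Real.exp (v + 1)),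
      (fP ℓ n + ff ℓ n * F1 (bx n)) * (gw (T * (lg n - v)) : ℂ) =
      dec3_WS ℓ v T (fun n => ∑ r ∈ (pdiv n).filter
        (fun r => ¬ 2 ^ (ρ1 + j0) * Real.exp (y / 200) < N r), if nu w r ≤ ρ1 + j0 then mu r else 0) +
      dec3_WS ℓ v T GR - dec3_WS ℓ v T GS - dec3_WS ℓ v T GLp := by
    unfold dec3_WS
    rw [← Finset.sum_add_distrib, ← Finset.sum_sub_distrib, ← Finset.sum_sub_distrib]
    refine Finset.sum_congr rfl fun n hn => ?_
    obtain ⟨c1, c2, c3⟩ := mem_sfI.1 hn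
    have n0 := N_pos c1.1.ne_zero
    have c4 : y - 2 < lg n := by
      have := (Real.lt_log_iff_exp_lt n0).2 c2
      unfold lg
      linarith
    have c5 : lg n ≤ y + 1 := by
      have := (Real.log_le_iff_le_exp n0).2 c3
      unfold lg
      linarith
    have d1 := dec_c w (ρ1 + j0) c1
    rw [dec3_split hw, hS1 n c1 c5, hL1 n c1 c4 c5, ← Finset.sum_filter_add_sum_filter_not _
      (fun r => 2 ^ (ρ1 + j0) * Real.exp (y / 200) < N r), hR1 n c1 c5] at d1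
    have d2 : F1 (bx n) = F0 (bx n) := by
      by_cases h0 : F0 (bx n) = 0
      · simp only [hF, h0, ite_self]
      · obtain ⟨a1, a2⟩ := dec3_bx c1
        rw [(hF2 _ h0).1] at a2
        refine if_pos (abs_le.2 ⟨?_, by linarith⟩)
        rw [Nat.cast_ofNat] at a2
        linarith
    have d3 : fP ℓ n = ff ℓ n * (if Prime n then 1 else 0) := by
      unfold fP
      split_ifs <;> simp
    rw [d2, d3]
    linear_combination (-(ff ℓ n * (gw (T * (lg n - v)) : ℂ))) * d1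
  have t6 := dec3_num (R := 2 ^ (ρ1 + j0) * Real.exp (y / 200)) hy1 hy2 hC (by positivity) hC2 hT
    hE2 hE3 (le_trans (by positivity) w1) (w2.trans (Real.exp_le_exp.2 (by linarith))) (by
      rw [dec3_two_pow, ← Real.exp_add]
      exact Real.exp_le_exp.2 (by linarith))
  have t7 : C1 * ((1 + cP) * 9) * Real.exp (2 * v - T ^ 2) ≤
      C1 * ((1 + cP) * 9) * Real.exp (2 * y - T ^ 2) :=
    mul_le_mul_of_nonneg_left (Real.exp_le_exp.2 (by linarith)) (by positivity)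
  rw [e1] at t1
  refine (norm_le_norm_add_norm_sub' _ _).trans ((add_le_add ((norm_sub_le _ _).trans
    (add_le_add ((norm_sub_le _ _).trans (add_le_add ((norm_add_le _ _).trans (add_le_add t2 t3)) t4))
    t5)) (t1.trans t7)).trans ?_)
  linarith

end Crest.Agent.R12
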