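import Crest.Agent.R17.VoC0
import Crest.Agent.R17.Reflect

/-!
# R12 / Defs : Patterson's conjecture (rid 12, S0013 + S0014), unconditional.  Owner helper54.

Notation of `R17` (`O = ℤ[ω]`, `N`, `Prim`, `ball`, `pdiv`, `res`, `mu`, `cub n d = (d/n)₃`, `g3`, `ang`,
`tau`, `gs`, `dser`, `gw u = e^{-u²}`, `Om`, `c0`).  `GG n = g̃(n)` is the normalised cubic Gauss sum of
the statement; `GG (a b) = GG a GG b conj (cub b a)` for squarefree primary `a, b`.
Goal (`Final.main_O`): `∑_{N p ≤ X} ff ℓ p = o(X^{5/6}/log X)`.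

## Overview (each file has complete proofs in its docstrings)
* `Basic1-3`: algebra of `GG`, divisor moments, Rankin, prime counts, cube decompositions.
* `WinFE`: functional equation ⇒ summation formula for windows `gw (T (log N n - v))`.
  `LW`: lattice windows (periodic × angular), annulus count, `t`-average.  `SM`: smoothing.
* `PW`, `PStep`: one Poisson step for `∑_d V(d) |∑ c_n (d/n)₃|²`.  `LS0`: classical large sieve,
  major / middle frequencies.  `CLS`: Heath-Brown's cubic large sieve.  `MLS`: minor frequencies.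
* `VoDiv`: Voronoi with a divisibility condition; `Const*`: the residue is `cP c0/9`.
  `TI`: type I bounds;  `VA`: Voronoi on average;  `PV`: Pólya–Vinogradov on average.
* `Core`: the large sieve at the self-dual point for sequences not correlating with `conj GG`.
  `Disp`: dispersion estimates;  `BF`: bilinear forms with windows.
* `SW`: Siegel–Walfisz for cubic × angular characters;  `H2`: power saving in `∑ β GG`.
  `Model`: Heath-Brown's model for small `T`;  `TypeII`: all type II bounds.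
* `Decomp`: combinatorial decomposition of primes;  `Narrow`;  `Props`;  `Final`;  `Bridge`.
-/

set_option autoImplicit false

noncomputable section

open scoped Classical ComplexConjugate
open MeasureTheory

namespace Crest.Agent.R12

open Crest.Agent.R17

/-! ## the arithmetic functions -/

/-- the normalised Gauss sum for the additive character `e(Tr(x/n))` -/
def GG (n : O) : ℂ := g3 n * conj (cub n lam)
/-- Patterson's constant -/
def cP : ℝ := (2 * Real.pi) ^ ((2 : ℝ) / 3) / (3 * Real.Gamma (2 / 3))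
/-- squarefree primary -/
def SF (n : O) : Prop := Prim n ∧ Squarefree n
/-- the defect -/
def ff (ℓ : ℤ) (n : O) : ℂ :=
  if SF n then ang n ^ ℓ * (GG n - ((cP * N n ^ (-(1 / 6 : ℝ)) : ℝ) : ℂ)) else 0
/-- the defect on primes -/
def fP (ℓ : ℤ) (n : O) : ℂ := if Prime n then ff ℓ n else 0
/-- `log N n` -/
def lg (n : O) : ℝ := Real.log (N n)
/-- number of primary divisors -/
def dv (n : O) : ℝ := (pdiv n).card
/-- primary prime divisors -/
def pf (n : O) : Finset O := (pdiv n).filter Prime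
/-- squarefree primary elements of norm `≤ X` -/
def sfb (X : ℝ) : Finset O := (ball X).filter SF
/-- squarefree primary elements of norm in `(X, Y]` -/
def sfI (X Y : ℝ) : Finset O := (ball Y).filter (fun n => SF n ∧ X < N n)
/-- `S` consists of squarefree primary elements of norm in `[B, 16 B]` -/
def In (S : Finset O) (B : ℝ) : Prop := ∀ n ∈ S, SF n ∧ B ≤ N n ∧ N n ≤ 16 * B
/-- `ℓ²` norm squared -/
def n2 (S : Finset O) (x : O → ℂ) : ℝ := ∑ n ∈ S, ‖x n‖ ^ 2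
/-- divisor-weighted `ℓ²` norm squared -/
def nt (S : Finset O) (x : O → ℂ) : ℝ := ∑ n ∈ S, ‖x n‖ ^ 2 * dv n ^ 3
/-- `(N n / B) ^ s` -/
def pw (B : ℝ) (n : O) (s : ℂ) : ℂ := ((N n / B : ℝ) : ℂ) ^ s

/-! ## windows -/

/-- `∑_{n ≠ 0} a(n) N(n)^{-s} gw(T (log N n - v))` -/
def winS (a : O → ℂ) (v T : ℝ) (s : ℂ) : ℂ :=
  ∑' n : O, if n = 0 then 0 else a n * (N n : ℂ) ^ (-s) * (gw (T * (lg n - v)) : ℂ)
/-- `∑_{n ≠ 0} a(n) gw(T (log N n - v))` -/
def win (a : O → ℂ) (v T : ℝ) : ℂ :=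
  ∑' n : O, if n = 0 then 0 else a n * (gw (T * (lg n - v)) : ℂ)
/-- the contribution of a simple pole at `p` with residue one -/
def mainW (p s : ℂ) (v T : ℝ) : ℂ :=
  ((Real.sqrt Real.pi / T : ℝ) : ℂ) * Complex.exp ((p - s) ^ 2 / (4 * T ^ 2) + (p - s) * v)
/-- the dual kernel on the line `Re w = σ` -/
def kernT (γ : ℂ → ℂ) (T σ : ℝ) (s : ℂ) (u : ℝ) : ℂ :=
  (1 / (2 * Real.pi) : ℂ) * ∫ τ : ℝ, γ (s + (σ + τ * Complex.I)) *
    (((Real.sqrt Real.pi / T : ℝ) : ℂ) *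
      Complex.exp ((σ + τ * Complex.I) ^ 2 / (4 * T ^ 2) + (σ + τ * Complex.I) * u))
/-- the averaging weight `T⁻¹ e^{-|τ|/T}` -/
def mT (T τ : ℝ) : ℝ := T⁻¹ * Real.exp (-(|τ| / T))
/-- the Fourier weight: `gw (T x) = ∫ gh T t e^{i t x} dt` -/
def gh (T t : ℝ) : ℝ := (2 * T * Real.sqrt Real.pi)⁻¹ * Real.exp (-(t ^ 2 / (4 * T ^ 2)))
/-- smoothed indicator of `(y₁, y₂]` -/
def Pl (T y1 y2 u : ℝ) : ℝ := T / Real.sqrt Real.pi * ∫ v in y1..y2, gw (T * (u - v))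

/-! ## Poisson weights -/

/-- the window weight -/
def Vw (D T : ℝ) (d : O) : ℝ := if d = 0 then 0 else gw (T * (lg d - Real.log D))
/-- the ball weight -/
def Vo (D : ℝ) (d : O) : ℝ := Om (N d / D)

/-- `V` is a weight of length `D` and width `1/T` with a Poisson formula whose kernel has Mellin
representations on the lines `1/6, 1/2, 5/2`. -/
structure PW (V : O → ℝ) (D T C : ℝ) : Prop where
  nonneg : ∀ d, 0 ≤ V d
  summ : Summable V
  tot : ∑' d, V d ≤ C * (D / T + Real.sqrt D)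
  ker : ∃ (κ : ℝ → ℂ) (μ : ℝ → ℝ → ℂ),
    (∀ (q : O) (φ : O → ℂ), q ≠ 0 → Per q φ → gs q φ 0 = 0 → φ 0 = 0 →
      HasSum (fun k : O => if k = 0 then 0 else
        ((D / N q : ℝ) : ℂ) * gs q φ k * κ (D * N k / N q)) (∑' d, φ d * (V d : ℂ))) ∧
    ∀ σ ∈ ({1 / 6, 1 / 2, 5 / 2} : Finset ℝ), Continuous (μ σ) ∧
      (∀ τ, ‖μ σ τ‖ ≤ C * (if σ = 5 / 2 then T ^ 4 else 1) * mT T τ) ∧
      ∀ x : ℝ, 0 < x → κ x = ∫ τ : ℝ, μ σ τ * (x : ℂ) ^ (-(σ + τ * Complex.I))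

/-- the dual sums after one Poisson step -/
def Xs (S : Finset O) (c : O → ℂ) (B : ℝ) (g r k : O) (s : ℂ) : ℂ :=
  ∑ n ∈ S.filter (fun n => g * r ∣ n), c n * g3 (n / g) * conj (cub (n / g) k) * pw B n s

/-! ## large sieve objects -/

/-- `∑_{n ∈ S} x(n) (k/n)₃` -/
def cs (S : Finset O) (x : O → ℂ) (k : O) : ℂ := ∑ n ∈ S, x n * cub n k
/-- major frequencies: a cube times an element of norm `≤ Q` -/
def Maj (Q : ℝ) (k : O) : Prop := ∃ k0 m : O, k = k0 * m ^ 3 ∧ N k0 ≤ Q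
/-- `k = u λ^j k₁ k₂² m³` -/
def Dec (k k1 : O) : Prop := ∃ (u : O) (j : ℕ) (k2 m : O), IsUnit u ∧ j < 3 ∧ SF k1 ∧ SF k2 ∧
  IsCoprime k1 k2 ∧ k = u * lam ^ j * k1 * k2 ^ 2 * m ^ 3
/-- frequencies with small first-power part -/
def Low (X : ℝ) (k : O) : Prop := ∃ k1, Dec k k1 ∧ N k1 ≤ X

/-- the real exponents that occur -/
def Sg : Finset ℝ := {-1 / 3, 0, 2, -1 / 2, -1 / 6, 11 / 6}
/-- correlation with a cubic character on multiples of `h` -/
def fam1 (S : Finset O) (γ : O → ℂ) (B : ℝ) (h k : O) (s : ℂ) : ℂ :=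
  ∑ b ∈ S.filter (fun b => h ∣ b), γ b * cub (b / h) k * pw B b s
/-- correlation with `conj GG` on a residue class -/
def fam2 (S : Finset O) (γ : O → ℂ) (B : ℝ) (q a : O) (s : ℂ) : ℂ :=
  ∑ b ∈ S.filter (fun b => q ∣ b - a), γ b * GG b * pw B b s
def N1 (S : Finset O) (γ : O → ℂ) (B H T : ℝ) : ℝ :=
  ∑ h ∈ sfb H, ∑ k ∈ ball H, ∑ σ ∈ Sg, ∫ τ : ℝ, mT T τ * ‖fam1 S γ B h k (σ + τ * Complex.I)‖ ^ 2
def N2 (S : Finset O) (γ : O → ℂ) (B Q : ℝ) : ℝ :=
  ∑ q ∈ ball Q, ∑ a ∈ res q, ∑ σ ∈ Sg, ∫ τ : ℝ, mT 1 τ * ‖fam2 S γ B q a (σ + τ * Complex.I)‖ ^ 2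
/-- the dispersion -/
def Disp (S : Finset O) (γ : O → ℂ) (D T : ℝ) : ℝ :=
  ∑' d : O, Vw D T d * ‖∑ b ∈ S, γ b * GG b * conj (cub b d)‖ ^ 2

/-! ## bilinear forms -/

def BG (SA SB : Finset O) (α β : O → ℂ) (v T : ℝ) : ℂ :=
  ∑ a ∈ SA, ∑ b ∈ SB, α a * β b * GG (a * b) * (gw (T * (lg (a * b) - v)) : ℂ)
def BM (SA SB : Finset O) (α β : O → ℂ) (v T : ℝ) : ℂ :=
  ∑ a ∈ SA, ∑ b ∈ SB, α a * β b *
    (if Squarefree (a * b) then ((N (a * b) ^ (-(1 / 6 : ℝ)) : ℝ) : ℂ) else 0) *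
    (gw (T * (lg (a * b) - v)) : ℂ)
def BF (ℓ : ℤ) (SA SB : Finset O) (α β : O → ℂ) (v T : ℝ) : ℂ :=
  ∑ a ∈ SA, ∑ b ∈ SB, α a * β b * ff ℓ (a * b) * (gw (T * (lg (a * b) - v)) : ℂ)
/-- the `a`-range belonging to `b ∈ (B, 2B]` and `N(ab) ≈ e^y` -/
def SA (y B : ℝ) : Finset O := sfI (Real.exp (y - 3) / B) (Real.exp (y + 1) / B)

/-! ## sieve objects -/

/-- dyadic box of a prime -/
def box (p : O) : ℕ := Nat.log 2 (nm p)
/-- the multiset of boxes of the prime factors -/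
def bx (n : O) : Multiset ℕ := (pf n).val.map box
/-- all prime factors have norm `> w` -/
def Rough (w : ℝ) (n : O) : Prop := ∀ p ∈ pf n, w < N p
/-- the class of type II coefficients -/
def bet (w : ℝ) (F : Multiset ℕ → ℂ) (b : O) : ℂ := if Rough w b then F (bx b) else 0
/-- `F` is supported on multisets with all entries `≥ j` -/
def ZR (j : ℕ) (F : Multiset ℕ → ℂ) : Prop := ∀ M, F M ≠ 0 → ∀ i ∈ M, j ≤ i
/-- `b` has a `w`-smooth divisor of norm `≥ Y` -/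
def Rare (w Y : ℝ) (b : O) : Prop := ∃ d, d ∣ b ∧ SF d ∧ (∀ p ∈ pf d, N p ≤ w) ∧ Y ≤ N d
/-- `F` is supported on three boxes near `y/3` with total near `y` -/
def Nar (y A : ℝ) (F : Multiset ℕ → ℂ) : Prop := ∀ M, F M ≠ 0 → Multiset.card M = 3 ∧
  (∀ i ∈ M, |(i : ℝ) * Real.log 2 - y / 3| ≤ A * Real.log y) ∧ |(M.sum : ℝ) * Real.log 2 - y| ≤ 5
/-- the cubic character `n ↦ (k/n)₃` is non-principal on primary elements -/
def NP (k : O) : Prop := ∃ n, Prim n ∧ IsCoprime n k ∧ cub n k ≠ 1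

/-! ## Voronoi objects -/

/-- twisted theta coefficients -/
def th3 (ℓ : ℤ) (φ : O → ℂ) (m : O) : ℂ := tau m * ang m ^ ℓ * φ m
/-- twisted conjugate Gauss sums -/
def h3 (ℓ : ℤ) (φ : O → ℂ) (m : O) : ℂ := if Prim m then conj (g3 m) * ang m ^ ℓ * φ m else 0
/-- restriction to multiples of `r` -/
def dvR (r : O) (a : O → ℂ) (m : O) : ℂ := if r ∣ m then a m else 0
/-- `dser a` is an entire function plus `R/(s - 5/6)` -/
def IsRes (a : O → ℂ) (R : ℂ) : Prop := ∃ E : ℂ → ℂ, Differentiable ℂ E ∧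
  ∃ σ0 : ℝ, ∀ s : ℂ, σ0 < s.re → E s + R / (s - 5 / 6) = dser a s
/-- the residue at `5/6` -/
def resid (ℓ : ℤ) (φ : O → ℂ) : ℂ :=
  if h : ∃ R, IsRes (prim (th3 ℓ φ)) R then h.choose else 0
/-- the singular series of `∑_{r ∣ m} h3 ℓ φ m` -/
def ser (ℓ : ℤ) (φ : O → ℂ) (r : O) : ℂ :=
  ∑' d : O, if Prim d then mu d * ((N (EuclideanDomain.gcd r d) / (N d ^ 2 * N r) : ℝ) : ℂ) *
    resid ℓ (fun m => φ (d ^ 3 * m)) else 0
/-- `m ↦ (r/m)₃` on primary `m` -/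
def phr (r : O) (m : O) : ℂ := if Prim m then cub m r else 0
/-- `ζ(2)` over primary elements -/
def Z2 : ℂ := dser (prim (fun _ => 1)) 2

/-! ## the model -/

/-- Euler's function of a squarefree element -/
def ph (q : O) : ℝ := ∏ p ∈ pf q, (N p - 1)
/-- Heath-Brown's sieve weights -/
def lamD (D1 : ℝ) (d : O) : ℂ :=
  mu d * ((N d * ∑ q ∈ (sfb D1).filter (fun q => d ∣ q), (ph q)⁻¹ : ℝ) : ℂ)
/-- the smoothed density of `β` -/
def Wb (S : Finset O) (β : O → ℂ) (H u : ℝ) : ℂ :=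
  ∑ b' ∈ S, β b' * ((H / (Real.sqrt Real.pi * (c0 / 9) * N b') * gw (H * (u - lg b')) : ℝ) : ℂ)
/-- the model of `β` -/
def mdl (S : Finset O) (β : O → ℂ) (D1 H : ℝ) (b : O) : ℂ :=
  (∑ d ∈ (sfb D1).filter (fun d => d ∣ b), lamD D1 d) * Wb S β H (lg b)

end Crest.Agent.R12
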