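import Crest.Agent.R12.LW

/-!
# R12 / SM : Gaussian identities and smoothing of sharp cut-offs
-/

set_option autoImplicit false

noncomputable section

open scoped Classical ComplexConjugate Topology
open MeasureTheory Filter

namespace Crest.Agent.R12

open Crest.Agent.R17

theorem sm_sqrt_pi_pos : 0 < Real.sqrt Real.pi := Real.sqrt_pos.2 Real.pi_pos

theorem sm_sqrt_pi_ge : 3 / 2 ≤ Real.sqrt Real.pi :=
  Real.le_sqrt_of_sq_le (by linarith [Real.pi_gt_three])

theorem sm_gh_eq {T : ℝ} (t : ℝ) :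
    gh T t = (2 * T * Real.sqrt Real.pi)⁻¹ * Real.exp (-(4 * T ^ 2)⁻¹ * t ^ 2) := by
  unfold gh
  congr 2
  ring

theorem sm_sqrt {T : ℝ} (hT : 0 < T) : Real.sqrt (Real.pi / (4 * T ^ 2)⁻¹) = 2 * T * Real.sqrt Real.pi := by
  rw [div_inv_eq_mul, Real.sqrt_mul Real.pi_pos.le, show 4 * T ^ 2 = (2 * T) ^ 2 by ring,
    Real.sqrt_sq (by positivity), mul_comm]

theorem gw_fourier {T : ℝ} (hT : 0 < T) (x : ℝ) :
    (gw (T * x) : ℂ) = ∫ t : ℝ, (gh T t : ℂ) * Complex.exp (t * x * Complex.I) := by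
  have hb : 0 < (4 * T ^ 2)⁻¹ := by positivity
  have h := fourierIntegral_gaussian (b := (((4 * T ^ 2)⁻¹ : ℝ) : ℂ)) (by rwa [Complex.ofReal_re]) (x : ℂ)
  have h1 : ((Real.pi : ℂ) / (((4 * T ^ 2)⁻¹ : ℝ) : ℂ)) ^ (1 / 2 : ℂ) = ((2 * T * Real.sqrt Real.pi : ℝ) : ℂ) := by
    rw [← sm_sqrt hT, Real.sqrt_eq_rpow, Complex.ofReal_cpow (by positivity), Complex.ofReal_div]
    norm_num
  have h2 : ∀ t : ℝ, (gh T t : ℂ) * Complex.exp (t * x * Complex.I) = (((2 * T * Real.sqrt Real.pi)⁻¹ : ℝ) : ℂ) *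
      (Complex.exp (Complex.I * x * t) * Complex.exp (-(((4 * T ^ 2)⁻¹ : ℝ) : ℂ) * t ^ 2)) := by
    intro t
    rw [sm_gh_eq, Complex.ofReal_mul, Complex.ofReal_exp, mul_assoc, mul_comm (Complex.exp _)]
    congr 3
    · ring
    · push_cast
      ring
  simp_rw [h2]
  rw [integral_const_mul, h, h1, ← mul_assoc, ← Complex.ofReal_mul,
    inv_mul_cancel₀ (by have := sm_sqrt_pi_pos; positivity), Complex.ofReal_one, one_mul, gw, Complex.ofReal_exp]
  congr 1
  have : (T : ℂ) ≠ 0 := Complex.ofReal_ne_zero.2 hT.ne'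
  push_cast
  field_simp

theorem gh_nonneg (T t : ℝ) (hT : 0 < T) : 0 ≤ gh T t := by
  unfold gh
  positivity

theorem integrable_gh {T : ℝ} (hT : 0 < T) : Integrable (gh T) := by
  have h := (integrable_exp_neg_mul_sq (b := (4 * T ^ 2)⁻¹) (by positivity)).const_mul
    (2 * T * Real.sqrt Real.pi)⁻¹
  exact h.congr (Eventually.of_forall fun t => (sm_gh_eq t).symm)

theorem integral_gh {T : ℝ} (hT : 0 < T) : ∫ t, gh T t = 1 := by
  simp_rw [sm_gh_eq]
  rw [integral_const_mul, integral_gaussian, sm_sqrt hT]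
  exact inv_mul_cancel₀ (by have := sm_sqrt_pi_pos; positivity)

theorem gh_le_mT {T : ℝ} (hT : 0 < T) (t : ℝ) : gh T t ≤ mT T t := by
  have h1 : -(t ^ 2 / (4 * T ^ 2)) ≤ 1 + -(|t| / T) := by
    have e : t ^ 2 / (4 * T ^ 2) = (|t| / T) ^ 2 / 4 := by
      rw [div_pow, sq_abs]
      field_simp
    rw [e]
    nlinarith [sq_nonneg (|t| / T - 2)]
  have h2 := Real.exp_le_exp.2 h1
  rw [Real.exp_add] at h2
  have h3 : Real.exp 1 ≤ 2 * Real.sqrt Real.pi := by linarith [Real.exp_one_lt_three, sm_sqrt_pi_ge]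
  have h4 := sm_sqrt_pi_pos
  unfold gh mT
  calc _ ≤ (2 * T * Real.sqrt Real.pi)⁻¹ * (2 * Real.sqrt Real.pi * Real.exp (-(|t| / T))) := by
        gcongr
        exact h2.trans (by gcongr)
    _ = _ := by field_simp

theorem sm_integral_le {g g' f : ℝ → ℝ} {R a b κ : ℝ} (hg : Integrable g) (hg' : Integrable g')
    (hg0 : ∀ t, 0 ≤ g t) (hg0' : ∀ t, 0 ≤ g' t) (hκ : 0 ≤ κ) (ha : 0 ≤ a) (htail : ∀ t, R < |t| → g t ≤ κ * g' t)
    (hf0 : ∀ t, 0 ≤ f t) (hfa : ∀ t, |t| ≤ R → f t ≤ a) (hfb : ∀ t, f t ≤ b) :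
    ∫ t, g t * f t ≤ a * (∫ t, g t) + b * κ * ∫ t, g' t := by
  have hb : 0 ≤ b := (hf0 0).trans (hfb 0)
  rw [← integral_const_mul, ← integral_const_mul, ← integral_add (hg.const_mul _) (hg'.const_mul _)]
  refine integral_mono_of_nonneg (Eventually.of_forall fun t => mul_nonneg (hg0 t) (hf0 t))
    ((hg.const_mul _).add (hg'.const_mul _)) (Eventually.of_forall fun t => ?_)
  have h1 := hg0 t
  have h2 := hg0' t
  rcases le_or_gt |t| R with h | h
  · calc g t * f t ≤ g t * a := mul_le_mul_of_nonneg_left (hfa t h) h1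
      _ ≤ a * g t + b * κ * g' t := by rw [mul_comm]; exact le_add_of_nonneg_right (by positivity)
  · calc g t * f t ≤ κ * g' t * b := mul_le_mul (htail t h) (hfb t) (hf0 t) (by positivity)
      _ = b * κ * g' t := by ring
      _ ≤ a * g t + b * κ * g' t := le_add_of_nonneg_left (by positivity)

/-- if `0 ≤ f ≤ a` on `|t| ≤ R` and `f ≤ b` everywhere -/
theorem integral_gh_le {T R a b : ℝ} (hT : 0 < T) (hR : 0 ≤ R) (ha : 0 ≤ a) {f : ℝ → ℝ}
    (hf0 : ∀ t, 0 ≤ f t) (hfa : ∀ t, |t| ≤ R → f t ≤ a) (hfb : ∀ t, f t ≤ b) :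
    ∫ t, gh T t * f t ≤ a + 2 * b * Real.exp (-(R ^ 2 / (8 * T ^ 2))) := by
  have hT2 : 0 < 2 * T := by positivity
  have h := sm_integral_le (κ := 2 * Real.exp (-(R ^ 2 / (8 * T ^ 2)))) (integrable_gh hT) (integrable_gh hT2)
    (fun t => gh_nonneg T t hT) (fun t => gh_nonneg _ t hT2) (by positivity) ha (fun t ht => ?_) hf0 hfa hfb
  · rw [integral_gh hT, integral_gh hT2] at h
    linarith
  · have h1 : R ^ 2 ≤ t ^ 2 := by
      rw [← sq_abs t]
      exact pow_le_pow_left₀ hR ht.le 2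
    have h2 : -(t ^ 2 / (4 * T ^ 2)) ≤ -(R ^ 2 / (8 * T ^ 2)) + -(t ^ 2 / (4 * (2 * T) ^ 2)) := by
      have e : -(R ^ 2 / (8 * T ^ 2)) + -(t ^ 2 / (4 * (2 * T) ^ 2)) + t ^ 2 / (4 * T ^ 2) =
          (3 * t ^ 2 - 2 * R ^ 2) / (16 * T ^ 2) := by
        field_simp
        ring
      have : 0 ≤ (3 * t ^ 2 - 2 * R ^ 2) / (16 * T ^ 2) := div_nonneg (by nlinarith [sq_nonneg t]) (by positivity)
      linarith
    have h3 := Real.exp_le_exp.2 h2
    rw [Real.exp_add] at h3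
    have h4 := sm_sqrt_pi_pos
    unfold gh
    calc _ ≤ (2 * T * Real.sqrt Real.pi)⁻¹ *
          (Real.exp (-(R ^ 2 / (8 * T ^ 2))) * Real.exp (-(t ^ 2 / (4 * (2 * T) ^ 2)))) := by gcongr
      _ = _ := by field_simp

theorem integral_mT_le {T R a b : ℝ} (hT : 0 < T) (hR : 0 ≤ R) (ha : 0 ≤ a) {f : ℝ → ℝ}
    (hf0 : ∀ t, 0 ≤ f t) (hfa : ∀ t, |t| ≤ R → f t ≤ a) (hfb : ∀ t, f t ≤ b) :
    ∫ t, mT T t * f t ≤ 2 * a + 4 * b * Real.exp (-(R / (2 * T))) := by
  have hT2 : 0 < 2 * T := by positivity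
  have h0 : ∀ S : ℝ, 0 < S → ∀ t, 0 ≤ mT S t := fun S hS t => by
    unfold mT
    positivity
  have h := sm_integral_le (κ := 2 * Real.exp (-(R / (2 * T)))) (integrable_mT hT) (integrable_mT hT2)
    (h0 T hT) (h0 _ hT2) (by positivity) ha (fun t ht => ?_) hf0 hfa hfb
  · rw [integral_mT hT, integral_mT hT2] at h
    linarith
  · have h2 : -(|t| / T) ≤ -(R / (2 * T)) + -(|t| / (2 * T)) := by
      have e : -(R / (2 * T)) + -(|t| / (2 * T)) + |t| / T = (|t| - R) / (2 * T) := by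
        field_simp
        ring
      have : 0 ≤ (|t| - R) / (2 * T) := div_nonneg (by linarith) hT2.le
      linarith
    have h3 := Real.exp_le_exp.2 h2
    rw [Real.exp_add] at h3
    unfold mT
    calc _ ≤ T⁻¹ * (Real.exp (-(R / (2 * T))) * Real.exp (-(|t| / (2 * T)))) := by gcongr
      _ = _ := by field_simp

theorem sm_integral_shift (b m : ℝ) : ∫ s : ℝ, Real.exp (-b * (s - m) ^ 2) = Real.sqrt (Real.pi / b) := by
  rw [integral_sub_right_eq_self (fun s => Real.exp (-b * s ^ 2)) m, integral_gaussian]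

theorem sm_gw_eq (T x s : ℝ) : gw (T * (x - s)) = Real.exp (-T ^ 2 * (s - x) ^ 2) := by
  unfold gw
  congr 1
  ring

theorem sm_integrable_gw {T : ℝ} (hT : 0 < T) (x : ℝ) : Integrable fun s : ℝ => gw (T * (x - s)) := by
  simp_rw [sm_gw_eq]
  exact (integrable_exp_neg_mul_sq (b := T ^ 2) (by positivity)).comp_sub_right x

theorem sm_continuous_gw : Continuous gw := by
  unfold gw
  fun_prop

theorem sm_gw_comm (T x s : ℝ) : gw (T * (x - s)) = gw (T * (s - x)) := by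
  unfold gw
  congr 1
  ring

theorem sm_gw_anti {S T : ℝ} (hS : 0 ≤ S) (h : S ≤ T) (x : ℝ) : gw (T * x) ≤ gw (S * x) := by
  unfold gw
  refine Real.exp_le_exp.2 (neg_le_neg ?_)
  rw [mul_pow, mul_pow]
  gcongr

/-- convolution of two Gaussians -/
theorem sm_conv {A B S : ℝ} (hA : 0 < A) (hB : 0 < B) (hS : 0 < S) (h : S ^ 2 * (A ^ 2 + B ^ 2) = A ^ 2 * B ^ 2)
    (x y : ℝ) : ∫ s : ℝ, gw (A * (x - s)) * gw (B * (s - y)) =
      Real.sqrt Real.pi * S / (A * B) * gw (S * (x - y)) := by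
  have hp : 0 < A ^ 2 + B ^ 2 := by positivity
  have hS2 : S ^ 2 = A ^ 2 * B ^ 2 / (A ^ 2 + B ^ 2) := eq_div_of_mul_eq hp.ne' h
  have e : ∀ s : ℝ, gw (A * (x - s)) * gw (B * (s - y)) = gw (S * (x - y)) *
      Real.exp (-(A ^ 2 + B ^ 2) * (s - (A ^ 2 * x + B ^ 2 * y) / (A ^ 2 + B ^ 2)) ^ 2) := by
    intro s
    unfold gw
    rw [← Real.exp_add, ← Real.exp_add, mul_pow S, hS2]
    congr 1
    field_simp
    ring
  simp_rw [e]
  rw [integral_const_mul, sm_integral_shift, mul_comm]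
  congr 1
  have e2 : A ^ 2 + B ^ 2 = (A * B / S) ^ 2 := by
    rw [div_pow, mul_pow, ← h]
    field_simp
  rw [e2, Real.sqrt_div Real.pi_pos.le, Real.sqrt_sq (by positivity)]
  field_simp

/-- the semigroup law -/
theorem gw_semigroup {T : ℝ} (hT : 0 < T) (x y : ℝ) : gw (T * (x + y)) =
    2 * T / Real.sqrt Real.pi *
      ∫ s : ℝ, gw (Real.sqrt 2 * T * (x - s)) * gw (Real.sqrt 2 * T * (y + s)) := by
  have h2 : Real.sqrt 2 ^ 2 = 2 := Real.sq_sqrt (by norm_num)
  have hA : 0 < Real.sqrt 2 * T := by positivity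
  have h := sm_conv hA hA hT (by rw [mul_pow, h2]; ring) x (-y)
  simp only [sub_neg_eq_add] at h
  simp_rw [add_comm y]
  rw [h, show Real.sqrt 2 * T * (Real.sqrt 2 * T) = Real.sqrt 2 ^ 2 * T ^ 2 by ring, h2]
  have := sm_sqrt_pi_pos
  field_simp

theorem integral_gw {T : ℝ} (hT : 0 < T) (x : ℝ) :
    ∫ s : ℝ, gw (T * (x - s)) = Real.sqrt Real.pi / T := by
  simp_rw [sm_gw_eq]
  rw [sm_integral_shift, Real.sqrt_div Real.pi_pos.le, Real.sqrt_sq hT.le]

theorem Pl_mem {T y1 y2 : ℝ} (hT : 0 < T) (h : y1 ≤ y2) (u : ℝ) :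
    0 ≤ Pl T y1 y2 u ∧ Pl T y1 y2 u ≤ 1 := by
  have hp := sm_sqrt_pi_pos
  unfold Pl
  refine ⟨mul_nonneg (by positivity) (intervalIntegral.integral_nonneg h fun v _ => (gw_pos _).le), ?_⟩
  rw [intervalIntegral.integral_of_le h]
  calc _ ≤ T / Real.sqrt Real.pi * ∫ v, gw (T * (u - v)) := by
        refine mul_le_mul_of_nonneg_left ?_ (by positivity)
        exact setIntegral_le_integral (sm_integrable_gw hT u) (Eventually.of_forall fun v => (gw_pos _).le)
    _ = 1 := by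
        rw [integral_gw hT]
        field_simp

theorem sm_split (T : ℝ) {u c v : ℝ} (h : 0 ≤ (u - c) * (c - v)) :
    gw (T * (u - v)) ≤ gw (T * (u - c)) * gw (T * (c - v)) := by
  unfold gw
  rw [← Real.exp_add]
  refine Real.exp_le_exp.2 ?_
  nlinarith [mul_nonneg (sq_nonneg T) h]

/-- `π^{-1/2} ∫_x^∞ e^{-t²} dt ≤ e^{-x²}/2` for `x ≥ 0` -/
theorem Pl_sub_le {T y1 y2 : ℝ} (hT : 0 < T) (h : y1 ≤ y2) (u : ℝ) :
    |(if y1 < u ∧ u ≤ y2 then 1 else 0) - Pl T y1 y2 u| ≤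
      gw (T * (u - y1)) + gw (T * (u - y2)) := by
  have hp := sm_sqrt_pi_pos
  have hi := sm_integrable_gw hT
  set χ : ℝ := if y1 < u ∧ u ≤ y2 then 1 else 0 with hχ
  have e : χ - Pl T y1 y2 u = T / Real.sqrt Real.pi *
      ∫ v, (χ * gw (T * (u - v)) - (Set.Ioc y1 y2).indicator (fun v => gw (T * (u - v))) v) := by
    rw [integral_sub ((hi u).const_mul χ) ((hi u).indicator measurableSet_Ioc), integral_const_mul, integral_gw hT,
      integral_indicator measurableSet_Ioc, Pl, intervalIntegral.integral_of_le h]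
    field_simp
  have hb : ‖∫ v, (χ * gw (T * (u - v)) - (Set.Ioc y1 y2).indicator (fun v => gw (T * (u - v))) v)‖ ≤
      ∫ v, (gw (T * (u - y1)) * gw (T * (y1 - v)) + gw (T * (u - y2)) * gw (T * (y2 - v))) := by
    refine norm_integral_le_of_norm_le (((hi y1).const_mul _).add ((hi y2).const_mul _))
      (Eventually.of_forall fun v => ?_)
    have p1 : 0 ≤ gw (T * (u - y1)) * gw (T * (y1 - v)) := mul_nonneg (gw_pos _).le (gw_pos _).le
    have p2 : 0 ≤ gw (T * (u - y2)) * gw (T * (y2 - v)) := mul_nonneg (gw_pos _).le (gw_pos _).le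
    by_cases hu : y1 < u ∧ u ≤ y2 <;> by_cases hv : v ∈ Set.Ioc y1 y2
    · rw [hχ, if_pos hu, Set.indicator_of_mem hv, one_mul, sub_self, norm_zero]
      positivity
    · rw [hχ, if_pos hu, Set.indicator_of_notMem hv, one_mul, sub_zero, Real.norm_of_nonneg (gw_pos _).le]
      rcases not_and_or.1 hv with h1 | h1
      · exact le_add_of_le_of_nonneg
          (sm_split T (mul_nonneg (by linarith [hu.1]) (by linarith [not_lt.1 h1]))) p2
      · exact le_add_of_nonneg_of_le p1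
          (sm_split T (mul_nonneg_of_nonpos_of_nonpos (by linarith [hu.2]) (by linarith [not_le.1 h1])))
    · rw [hχ, if_neg hu, Set.indicator_of_mem hv, zero_mul, zero_sub, norm_neg, Real.norm_of_nonneg (gw_pos _).le]
      rcases not_and_or.1 hu with h1 | h1
      · exact le_add_of_le_of_nonneg
          (sm_split T (mul_nonneg_of_nonpos_of_nonpos (by linarith [not_lt.1 h1]) (by linarith [hv.1]))) p2
      · exact le_add_of_nonneg_of_le p1
          (sm_split T (mul_nonneg (by linarith [not_le.1 h1]) (by linarith [hv.2])))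
    · rw [hχ, if_neg hu, Set.indicator_of_notMem hv, zero_mul, sub_self, norm_zero]
      positivity
  rw [integral_add ((hi y1).const_mul _) ((hi y2).const_mul _), integral_const_mul, integral_const_mul,
    integral_gw hT, integral_gw hT] at hb
  rw [e, abs_mul, abs_of_pos (by positivity : 0 < T / Real.sqrt Real.pi)]
  calc _ ≤ T / Real.sqrt Real.pi * (gw (T * (u - y1)) * (Real.sqrt Real.pi / T) +
        gw (T * (u - y2)) * (Real.sqrt Real.pi / T)) := by gcongr; exact hb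
    _ = _ := by field_simp

theorem sm_continuous_Pl (T y1 y2 : ℝ) : Continuous (Pl T y1 y2) := by
  unfold Pl
  refine continuous_const.mul (intervalIntegral.continuous_parametric_intervalIntegral_of_continuous' ?_ y1 y2)
  exact sm_continuous_gw.comp (by fun_prop)

/-- the plateau of width `S` as a convolution -/
theorem sm_Pl_conv {A B S y1 y2 : ℝ} (hA : 0 < A) (hB : 0 < B) (hS : 0 < S)
    (h : S ^ 2 * (A ^ 2 + B ^ 2) = A ^ 2 * B ^ 2) (hy : y1 ≤ y2) (u : ℝ) :
    Pl S y1 y2 u = B / Real.sqrt Real.pi * ∫ v, Pl A y1 y2 v * gw (B * (u - v)) := by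
  have hp := sm_sqrt_pi_pos
  have hint : Integrable (Function.uncurry fun v w : ℝ => gw (B * (u - v)) * gw (A * (v - w)))
      (volume.prod (volume.restrict (Set.Ioc y1 y2))) := by
    refine ((sm_integrable_gw hB u).mul_prod (integrable_const (1 : ℝ))).mono' ?_ (Eventually.of_forall fun z => ?_)
    · exact ((sm_continuous_gw.comp (by fun_prop)).mul (sm_continuous_gw.comp (by fun_prop))).aestronglyMeasurable
    · rw [Function.uncurry, Real.norm_of_nonneg (mul_nonneg (gw_pos _).le (gw_pos _).le)]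
      exact mul_le_mul_of_nonneg_left (gw_le_one _) (gw_pos _).le
  have e : ∀ v, Pl A y1 y2 v * gw (B * (u - v)) =
      A / Real.sqrt Real.pi * ∫ w in Set.Ioc y1 y2, gw (B * (u - v)) * gw (A * (v - w)) := by
    intro v
    rw [Pl, intervalIntegral.integral_of_le hy, integral_const_mul]
    ring
  simp_rw [e]
  rw [integral_const_mul, integral_integral_swap hint]
  simp_rw [sm_conv hB hA hS (by linarith)]
  rw [integral_const_mul, Pl, intervalIntegral.integral_of_le hy]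
  field_simp

/-- the plateau sum -/
def plS (a : O → ℂ) (T y1 y2 : ℝ) : ℂ :=
  ∑' n : O, if n = 0 then 0 else a n * (Pl T y1 y2 (lg n) : ℂ)

theorem sm_bd {a : O → ℂ} (ha : PolyBd a) : ∃ C x : ℝ, 0 ≤ C ∧ 0 ≤ x ∧ ∀ T : ℝ, 1 ≤ T → ∀ (v : ℝ) (n : O),
    ‖if n = 0 then 0 else a n * (gw (T * (lg n - v)) : ℂ)‖ ≤ C * Real.exp (x * v) * N n ^ (-2 : ℝ) := by
  obtain ⟨C, j, hC⟩ := ha
  refine ⟨|C| * Real.exp (((j : ℝ) + 2) ^ 2 / 4), j + 2, by positivity, by positivity, fun T hT v n => ?_⟩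
  have h0 : 0 ≤ N n ^ (-2 : ℝ) := Real.rpow_nonneg (N_nonneg n) _
  split_ifs with hn
  · rw [norm_zero]
    positivity
  · have h1 := bl1_pt j v 2 hn
    have h2 : gw (T * (lg n - v)) ≤ gw (Real.log (N n) - v) := by
      simpa only [one_mul, lg] using sm_gw_anti zero_le_one hT (lg n - v)
    have h3 : ‖a n‖ ≤ |C| * N n ^ (j : ℝ) := by
      rw [Real.rpow_natCast]
      exact (hC n hn).trans (mul_le_mul_of_nonneg_right (le_abs_self C) (pow_nonneg (N_nonneg n) j))
    rw [norm_mul, Complex.norm_real, Real.norm_of_nonneg (gw_pos _).le]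
    calc _ ≤ |C| * N n ^ (j : ℝ) * gw (Real.log (N n) - v) :=
          mul_le_mul h3 h2 (gw_pos _).le ((norm_nonneg _).trans h3)
      _ ≤ |C| * (Real.exp ((j + 2) * v + (j + 2) ^ 2 / 4) * N n ^ (-2 : ℝ)) := by
          rw [mul_assoc]
          exact mul_le_mul_of_nonneg_left h1 (abs_nonneg C)
      _ = _ := by
          rw [Real.exp_add]
          ring

theorem sm_summable_win {a : O → ℂ} (ha : PolyBd a) {T : ℝ} (hT : 1 ≤ T) (v : ℝ) :
    Summable fun n : O => if n = 0 then 0 else a n * (gw (T * (lg n - v)) : ℂ) := by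
  obtain ⟨C, x, -, -, h⟩ := sm_bd ha
  exact Summable.of_norm_bounded ((summable_N_rpow (σ := 2) one_lt_two).mul_left _) (h T hT v)

theorem sm_continuous_term (a : O → ℂ) (T : ℝ) (n : O) :
    Continuous fun v : ℝ => if n = 0 then 0 else a n * (gw (T * (lg n - v)) : ℂ) := by
  split_ifs
  · exact continuous_const
  · exact continuous_const.mul (Complex.continuous_ofReal.comp (sm_continuous_gw.comp (by fun_prop)))

theorem continuous_win {a : O → ℂ} (ha : PolyBd a) {T : ℝ} (hT : 1 ≤ T) :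
    Continuous (fun v => win a v T) := by
  obtain ⟨C, x, hC, hx, h⟩ := sm_bd ha
  refine continuous_iff_continuousAt.2 fun v0 => ?_
  refine (continuousOn_tsum (s := Set.Iio (v0 + 1)) (fun n => (sm_continuous_term a T n).continuousOn)
    ((summable_N_rpow (σ := 2) one_lt_two).mul_left (C * Real.exp (x * (v0 + 1)))) fun n v hv => ?_).continuousAt
    (Iio_mem_nhds (lt_add_one v0))
  refine (h T hT v n).trans (mul_le_mul_of_nonneg_right ?_ (Real.rpow_nonneg (N_nonneg n) _))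
  gcongr
  exact le_of_lt hv

theorem sm_hasSum_plS {a : O → ℂ} (ha : PolyBd a) {T : ℝ} (hT : 1 ≤ T) (y1 y2 : ℝ) :
    HasSum (fun n : O => if n = 0 then 0 else a n * (Pl T y1 y2 (lg n) : ℂ))
      (((T / Real.sqrt Real.pi : ℝ) : ℂ) * ∫ v in y1..y2, win a v T) := by
  obtain ⟨C, x, hC, hx, h⟩ := sm_bd ha
  have hs := (summable_N_rpow (σ := 2) one_lt_two).mul_left (C * Real.exp (x * max y1 y2))
  have h1 := intervalIntegral.hasSum_integral_of_dominated_convergence (μ := volume) (a := y1) (b := y2)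
    (f := fun v => win a v T) (fun n _ => C * Real.exp (x * max y1 y2) * N n ^ (-2 : ℝ))
    (fun n => (sm_continuous_term a T n).aestronglyMeasurable)
    (fun n => Eventually.of_forall fun v hv => (h T hT v n).trans (mul_le_mul_of_nonneg_right
      (by gcongr; exact hv.2) (Real.rpow_nonneg (N_nonneg n) _)))
    (Eventually.of_forall fun _ _ => hs) intervalIntegrable_const
    (Eventually.of_forall fun v _ => (sm_summable_win ha hT v).hasSum)
  refine (h1.mul_left _).congr_fun fun n => ?_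
  split_ifs
  · rw [intervalIntegral.integral_zero, mul_zero]
  · rw [intervalIntegral.integral_const_mul, intervalIntegral.integral_ofReal, Pl, Complex.ofReal_mul]
    ring

theorem plS_eq {a : O → ℂ} (ha : PolyBd a) {T : ℝ} (hT : 1 ≤ T) (y1 y2 : ℝ) :
    plS a T y1 y2 = ((T / Real.sqrt Real.pi : ℝ) : ℂ) * ∫ v in y1..y2, win a v T :=
  (sm_hasSum_plS ha hT y1 y2).tsum_eq

theorem plS_add {a b : O → ℂ} (ha : PolyBd a) (hb : PolyBd b) {T : ℝ} (hT : 1 ≤ T) (y1 y2 : ℝ) :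
    plS (fun n => a n + b n) T y1 y2 = plS a T y1 y2 + plS b T y1 y2 := by
  unfold plS
  rw [← (sm_hasSum_plS ha hT y1 y2).summable.tsum_add (sm_hasSum_plS hb hT y1 y2).summable]
  refine tsum_congr fun n => ?_
  split_ifs
  · rw [add_zero]
  · rw [add_mul]

theorem norm_plS_le {a : O → ℂ} (ha : PolyBd a) {T y1 y2 W : ℝ} (hT : 1 ≤ T) (h : y1 ≤ y2)
    (hW : ∀ v, y1 ≤ v → v ≤ y2 → ‖win a v T‖ ≤ W) : ‖plS a T y1 y2‖ ≤ T * (y2 - y1) * W := by
  have hW0 : 0 ≤ W := (norm_nonneg _).trans (hW y1 le_rfl h)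
  have h1 := intervalIntegral.norm_integral_le_of_norm_le_const (a := y1) (b := y2) (f := fun v => win a v T)
    (C := W) fun v hv => by
      rw [Set.uIoc_of_le h] at hv
      exact hW v hv.1.le hv.2
  rw [abs_of_nonneg (sub_nonneg.2 h)] at h1
  have h2 : T / Real.sqrt Real.pi ≤ T := div_le_self (by linarith) (by linarith [sm_sqrt_pi_ge])
  have hp := sm_sqrt_pi_pos
  rw [plS_eq ha hT, norm_mul, Complex.norm_real, Real.norm_of_nonneg (by positivity)]
  calc _ ≤ T * (W * (y2 - y1)) := mul_le_mul h2 h1 (norm_nonneg _) (by linarith)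
    _ = _ := by ring

/-- sharp versus plateau: `Pl_sub_le`, `an` -/
theorem sharp_sub_plS : ∃ C : ℝ, 0 ≤ C ∧ ∀ (a : O → ℂ) (M T y1 y2 : ℝ), (∀ n, ‖a n‖ ≤ M) →
    1 ≤ T → y1 ≤ y2 →
    ‖∑ n ∈ (ball (Real.exp y2)).filter (fun n => Real.exp y1 < N n), a n - plS a T y1 y2‖ ≤
      C * M * (Real.exp y2 / T + Real.exp (y2 / 2)) := by
  obtain ⟨C, hC, han⟩ := an
  refine ⟨2 * C, by positivity, fun a M T y1 y2 ha hT h => ?_⟩
  have hM : 0 ≤ M := (norm_nonneg _).trans (ha 0)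
  have hT0 : 0 < T := by linarith
  have hmem : ∀ n : O, n ∈ (ball (Real.exp y2)).filter (fun n => Real.exp y1 < N n) ↔
      n ≠ 0 ∧ y1 < lg n ∧ lg n ≤ y2 := by
    intro n
    rw [Finset.mem_filter, mem_ball, and_assoc]
    refine and_congr_right fun hn => ?_
    rw [lg, Real.lt_log_iff_exp_lt (N_pos hn), Real.log_le_iff_le_exp (N_pos hn), and_comm]
  have h1 : HasSum (fun n : O => if n = 0 then 0 else a n * ((if y1 < lg n ∧ lg n ≤ y2 then 1 else 0 : ℝ) : ℂ))
      (∑ n ∈ (ball (Real.exp y2)).filter (fun n => Real.exp y1 < N n), a n) := by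
    have e : ∑ n ∈ (ball (Real.exp y2)).filter (fun n => Real.exp y1 < N n), a n =
        ∑ n ∈ (ball (Real.exp y2)).filter (fun n => Real.exp y1 < N n),
          if n = 0 then 0 else a n * ((if y1 < lg n ∧ lg n ≤ y2 then 1 else 0 : ℝ) : ℂ) := by
      refine Finset.sum_congr rfl fun n hn => ?_
      rw [if_neg ((hmem n).1 hn).1, if_pos ((hmem n).1 hn).2, Complex.ofReal_one, mul_one]
    rw [e]
    refine hasSum_sum_of_ne_finset_zero fun n hn => ?_
    split_ifs with h0 h2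
    · rfl
    · exact absurd ((hmem n).2 ⟨h0, h2⟩) hn
    · rw [Complex.ofReal_zero, mul_zero]
  have h2 := (sm_hasSum_plS (polyBd_of_le ha) hT y1 y2).summable.hasSum
  have h3 := (((summable_an y1 hT).hasSum.add (summable_an y2 hT).hasSum).mul_left M)
  refine ((h1.sub h2).norm_le_of_bounded h3 fun n => ?_).trans ?_
  · by_cases hn : n = 0
    · simp only [if_pos hn, sub_self, norm_zero, add_zero, mul_zero, le_refl]
    · simp only [if_neg hn]
      rw [← mul_sub, ← Complex.ofReal_sub, norm_mul, Complex.norm_real, Real.norm_eq_abs]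
      exact mul_le_mul (ha n) (Pl_sub_le hT0 h _) (abs_nonneg _) hM
  · have h4 : C * (Real.exp y1 / T + Real.exp (y1 / 2)) ≤ C * (Real.exp y2 / T + Real.exp (y2 / 2)) := by gcongr
    calc _ ≤ M * (C * (Real.exp y2 / T + Real.exp (y2 / 2)) + C * (Real.exp y2 / T + Real.exp (y2 / 2))) :=
          mul_le_mul_of_nonneg_left (add_le_add ((han y1 T hT).1.trans h4) (han y2 T hT).1) hM
      _ = _ := by ring

theorem sm_exp_gw {T x : ℝ} (hT : 1 ≤ T) (c v : ℝ) :
    gw (T * (v - c)) * Real.exp (x * v) ≤ Real.exp (x * c + x ^ 2) * gw (1 / 2 * (c - v)) := by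
  refine (mul_le_mul_of_nonneg_right (sm_gw_anti zero_le_one hT _) (Real.exp_pos _).le).trans ?_
  unfold gw
  rw [← Real.exp_add, ← Real.exp_add]
  refine Real.exp_le_exp.2 ?_
  nlinarith [sq_nonneg (v - c - 2 * x), sq_nonneg (v - c)]

theorem sm_tail {T c v : ℝ} (hT : 1 ≤ T) (h : 1 ≤ |v - c|) :
    gw (T * (v - c)) * Real.exp v ≤ Real.exp (c + 1 - T ^ 2 / 2) * gw (T / 2 * (c - v)) := by
  unfold gw
  rw [← Real.exp_add, ← Real.exp_add]
  refine Real.exp_le_exp.2 ?_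
  have h1 : 1 ≤ (v - c) ^ 2 := by
    rw [← sq_abs]
    exact one_le_pow₀ h
  have h2 : 1 ≤ T ^ 2 := one_le_pow₀ hT
  nlinarith [sq_nonneg (v - c - 2), mul_nonneg (sub_nonneg.2 h1) (sq_nonneg T),
    mul_nonneg (sub_nonneg.2 h2) (sq_nonneg (v - c))]

/-- exchange of sum and integral against a weight with Gaussian majorant -/
theorem sm_hasSum_int {a : O → ℂ} (ha : PolyBd a) {T B y1 y2 : ℝ} (hT : 1 ≤ T) (hB : 1 ≤ B) {D : ℝ → ℝ}
    (hD : Continuous D) (hDb : ∀ v, |D v| ≤ 2 * (gw (T * (v - y1)) + gw (T * (v - y2)))) :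
    HasSum (fun n : O => if n = 0 then 0 else a n * ((∫ v, D v * gw (B * (lg n - v)) : ℝ) : ℂ))
      (∫ v, (D v : ℂ) * win a v B) := by
  obtain ⟨C, x, hC, hx, h⟩ := sm_bd ha
  have hs := summable_N_rpow (σ := 2) one_lt_two
  have hi := sm_integrable_gw (T := 1 / 2) (by norm_num)
  have h1 := hasSum_integral_of_dominated_convergence (μ := volume) (f := fun v => (D v : ℂ) * win a v B)
    (F := fun n v => (D v : ℂ) * if n = 0 then 0 else a n * (gw (B * (lg n - v)) : ℂ))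
    (fun n v => 2 * C * (Real.exp (x * y1 + x ^ 2) * gw (1 / 2 * (y1 - v)) +
      Real.exp (x * y2 + x ^ 2) * gw (1 / 2 * (y2 - v))) * N n ^ (-2 : ℝ))
    (fun n => ((Complex.continuous_ofReal.comp hD).mul (sm_continuous_term a B n)).aestronglyMeasurable)
    (fun n => Eventually.of_forall fun v => ?_) (Eventually.of_forall fun _ => hs.mul_left _) ?_
    (Eventually.of_forall fun v => (sm_summable_win ha hB v).hasSum.mul_left _)
  · refine h1.congr_fun fun n => ?_
    split_ifs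
    · simp only [mul_zero, integral_zero]
    · rw [← integral_complex_ofReal, ← integral_const_mul]
      refine integral_congr_ae (Eventually.of_forall fun v => ?_)
      simp only [Complex.ofReal_mul]
      ring
  · have h0 : 0 ≤ N n ^ (-2 : ℝ) := Real.rpow_nonneg (N_nonneg n) _
    rw [norm_mul, Complex.norm_real, Real.norm_eq_abs]
    calc _ ≤ 2 * (gw (T * (v - y1)) + gw (T * (v - y2))) * (C * Real.exp (x * v) * N n ^ (-2 : ℝ)) :=
          mul_le_mul (hDb v) (h B hB v n) (norm_nonneg _) ((abs_nonneg _).trans (hDb v))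
      _ = 2 * C * (gw (T * (v - y1)) * Real.exp (x * v) + gw (T * (v - y2)) * Real.exp (x * v)) *
          N n ^ (-2 : ℝ) := by ring
      _ ≤ _ := mul_le_mul_of_nonneg_right (mul_le_mul_of_nonneg_left
          (add_le_add (sm_exp_gw hT y1 v) (sm_exp_gw hT y2 v)) (by positivity)) h0
  · simp_rw [tsum_mul_left]
    exact ((((hi y1).const_mul _).add ((hi y2).const_mul _)).const_mul _).mul_const _

theorem sm_integrable_Pl {A B y1 y2 : ℝ} (hA : 0 < A) (hB : 0 < B) (hy : y1 ≤ y2) (u : ℝ) :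
    Integrable fun v => Pl A y1 y2 v * gw (B * (u - v)) :=
  (sm_integrable_gw hB u).bdd_mul (c := 1) (sm_continuous_Pl A y1 y2).aestronglyMeasurable
    (Eventually.of_forall fun v => by
      rw [Real.norm_of_nonneg (Pl_mem hA hy v).1]
      exact (Pl_mem hA hy v).2)

/-- One doubling step.  With `g_T(x) = (T/√π) gw(T x)`, `g_{2T} = g_{a₁} * g_{4T}`,
`g_T = g_{a₂} * g_{4T}`, `a₁ = 4T/√3`, `a₂ = 4T/√15 ≥ T`; so
`Pl (2T) u - Pl T u = (4T/√π) ∫ (Pl a₁ - Pl a₂)(v) gw(4T(u - v)) dv` and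
`|Pl a₁ - Pl a₂|(v) ≤ 2 (gw(T(v-y₁)) + gw(T(v-y₂)))` (`Pl_sub_le`).  Use `W` for
`v ∈ [y₁-1, y₂+1]` and `‖win a v (4T)‖ ≤ C M e^v` (`an`) elsewhere. -/
theorem plS_step : ∃ C : ℝ, 0 ≤ C ∧ ∀ (a : O → ℂ) (M T y1 y2 W : ℝ), (∀ n, ‖a n‖ ≤ M) →
    1 ≤ T → y1 ≤ y2 → 0 ≤ W → (∀ v, y1 - 1 ≤ v → v ≤ y2 + 1 → ‖win a v (4 * T)‖ ≤ W) →
    ‖plS a (2 * T) y1 y2 - plS a T y1 y2‖ ≤
      C * W + C * M * Real.exp (y2 - T ^ 2 / 2) := by
  obtain ⟨C, hC, han⟩ := an
  refine ⟨16 + 32 * Real.exp 1 * C, by positivity, fun a M T y1 y2 W ha hT hy hW0 hW => ?_⟩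
  have hM : 0 ≤ M := (norm_nonneg _).trans (ha 0)
  have hT0 : 0 < T := by linarith
  have hT4 : 1 ≤ 4 * T := by linarith
  have hB : 0 < 4 * T := by linarith
  have hp := sm_sqrt_pi_pos
  have hpb := polyBd_of_le ha
  obtain ⟨a1, ha1, ha1'⟩ : ∃ a1 : ℝ, 0 < a1 ∧ a1 ^ 2 = 16 / 3 * T ^ 2 :=
    ⟨Real.sqrt (16 / 3 * T ^ 2), Real.sqrt_pos.2 (by positivity), Real.sq_sqrt (by positivity)⟩
  obtain ⟨a2, ha2, ha2'⟩ : ∃ a2 : ℝ, 0 < a2 ∧ a2 ^ 2 = 16 / 15 * T ^ 2 :=
    ⟨Real.sqrt (16 / 15 * T ^ 2), Real.sqrt_pos.2 (by positivity), Real.sq_sqrt (by positivity)⟩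
  have hT1 : T ≤ a1 := (pow_le_pow_iff_left₀ hT0.le ha1.le two_ne_zero).1 (by nlinarith [sq_nonneg T])
  have hT2 : T ≤ a2 := (pow_le_pow_iff_left₀ hT0.le ha2.le two_ne_zero).1 (by nlinarith [sq_nonneg T])
  let D : ℝ → ℝ := fun v => Pl a1 y1 y2 v - Pl a2 y1 y2 v
  have hD : Continuous D := (sm_continuous_Pl _ _ _).sub (sm_continuous_Pl _ _ _)
  have hDb : ∀ v, |D v| ≤ 2 * (gw (T * (v - y1)) + gw (T * (v - y2))) := fun v => by
    have h1 := abs_le.1 (Pl_sub_le ha1 hy v)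
    have h2 := abs_le.1 (Pl_sub_le ha2 hy v)
    have h3 := sm_gw_anti hT0.le hT1 (v - y1)
    have h4 := sm_gw_anti hT0.le hT1 (v - y2)
    have h5 := sm_gw_anti hT0.le hT2 (v - y1)
    have h6 := sm_gw_anti hT0.le hT2 (v - y2)
    exact abs_le.2 ⟨by simp only [D]; linarith [h1.1, h1.2, h2.1, h2.2],
      by simp only [D]; linarith [h1.1, h1.2, h2.1, h2.2]⟩
  have hPl : ∀ u, Pl (2 * T) y1 y2 u - Pl T y1 y2 u =
      4 * T / Real.sqrt Real.pi * ∫ v, D v * gw (4 * T * (u - v)) := fun u => by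
    rw [sm_Pl_conv ha1 hB (by positivity : 0 < 2 * T) (by rw [ha1']; ring) hy,
      sm_Pl_conv ha2 hB hT0 (by rw [ha2']; ring) hy, ← mul_sub,
      ← integral_sub (sm_integrable_Pl ha1 hB hy u) (sm_integrable_Pl ha2 hB hy u)]
    simp only [D, sub_mul]
  have e : plS a (2 * T) y1 y2 - plS a T y1 y2 =
      ((4 * T / Real.sqrt Real.pi : ℝ) : ℂ) * ∫ v, (D v : ℂ) * win a v (4 * T) := by
    refine ((sm_hasSum_plS hpb (by linarith) y1 y2).summable.hasSum.sub
      (sm_hasSum_plS hpb hT y1 y2).summable.hasSum).unique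
      (((sm_hasSum_int hpb hT hT4 hD hDb).mul_left _).congr_fun fun n => ?_)
    split_ifs
    · rw [sub_self, mul_zero]
    · rw [← mul_sub, ← Complex.ofReal_sub, hPl, Complex.ofReal_mul]
      ring
  have hwin : ∀ v, ‖win a v (4 * T)‖ ≤ M * (C * Real.exp v) := fun v => by
    refine (tsum_of_norm_bounded ((summable_an v hT4).hasSum.mul_left M) fun n => ?_).trans
      (mul_le_mul_of_nonneg_left (han v _ hT4).2 hM)
    split_ifs
    · rw [norm_zero, mul_zero]
    · rw [norm_mul, Complex.norm_real, Real.norm_of_nonneg (gw_pos _).le]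
      exact mul_le_mul_of_nonneg_right (ha n) (gw_pos _).le
  have hi := sm_integrable_gw hT0
  have hi2 := sm_integrable_gw (half_pos hT0)
  set E := Real.exp (y2 + 1 - T ^ 2 / 2) with hE
  have hE0 : 0 < E := Real.exp_pos _
  have hb : ‖∫ v, (D v : ℂ) * win a v (4 * T)‖ ≤ ∫ v, (2 * W * (gw (T * (y1 - v)) + gw (T * (y2 - v))) +
      2 * M * C * E * (gw (T / 2 * (y1 - v)) + gw (T / 2 * (y2 - v)))) := by
    refine norm_integral_le_of_norm_le ((((hi y1).add (hi y2)).const_mul _).add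
      (((hi2 y1).add (hi2 y2)).const_mul _)) (Eventually.of_forall fun v => ?_)
    have p1 := gw_pos (T * (y1 - v))
    have p2 := gw_pos (T * (y2 - v))
    have p3 := gw_pos (T / 2 * (y1 - v))
    have p4 := gw_pos (T / 2 * (y2 - v))
    rw [norm_mul, Complex.norm_real, Real.norm_eq_abs]
    by_cases hv : y1 - 1 ≤ v ∧ v ≤ y2 + 1
    · refine le_add_of_le_of_nonneg ?_ (by positivity)
      calc _ ≤ 2 * (gw (T * (v - y1)) + gw (T * (v - y2))) * W :=
            mul_le_mul (hDb v) (hW v hv.1 hv.2) (norm_nonneg _) ((abs_nonneg _).trans (hDb v))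
        _ = _ := by
            rw [sm_gw_comm T v y1, sm_gw_comm T v y2]
            ring
    · refine le_add_of_nonneg_of_le (by positivity) ?_
      have h1 : 1 ≤ |v - y1| ∧ 1 ≤ |v - y2| := by
        rcases not_and_or.1 hv with h1 | h1
        · exact ⟨le_abs.2 (Or.inr (by linarith [not_le.1 h1])), le_abs.2 (Or.inr (by linarith [not_le.1 h1]))⟩
        · exact ⟨le_abs.2 (Or.inl (by linarith [not_le.1 h1])), le_abs.2 (Or.inl (by linarith [not_le.1 h1]))⟩
      have h2 : Real.exp (y1 + 1 - T ^ 2 / 2) ≤ E := Real.exp_le_exp.2 (by linarith)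
      calc _ ≤ 2 * (gw (T * (v - y1)) + gw (T * (v - y2))) * (M * (C * Real.exp v)) :=
            mul_le_mul (hDb v) (hwin v) (norm_nonneg _) ((abs_nonneg _).trans (hDb v))
        _ = 2 * M * C * (gw (T * (v - y1)) * Real.exp v + gw (T * (v - y2)) * Real.exp v) := by ring
        _ ≤ 2 * M * C * (E * gw (T / 2 * (y1 - v)) + E * gw (T / 2 * (y2 - v))) :=
            mul_le_mul_of_nonneg_left (add_le_add
              ((sm_tail hT h1.1).trans (mul_le_mul_of_nonneg_right h2 p3.le)) (sm_tail hT h1.2)) (by positivity)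
        _ = _ := by ring
  have hi3 : Integrable fun v => gw (T * (y1 - v)) + gw (T * (y2 - v)) := (hi y1).add (hi y2)
  have hi4 : Integrable fun v => gw (T / 2 * (y1 - v)) + gw (T / 2 * (y2 - v)) := (hi2 y1).add (hi2 y2)
  rw [integral_add (hi3.const_mul _) (hi4.const_mul _), integral_const_mul,
    integral_const_mul, integral_add (hi y1) (hi y2), integral_add (hi2 y1) (hi2 y2), integral_gw hT0,
    integral_gw hT0, integral_gw (half_pos hT0), integral_gw (half_pos hT0)] at hb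
  have hE' : E = Real.exp 1 * Real.exp (y2 - T ^ 2 / 2) := by
    rw [hE, ← Real.exp_add]
    congr 1
    ring
  rw [e, norm_mul, Complex.norm_real, Real.norm_of_nonneg (by positivity)]
  calc _ ≤ 4 * T / Real.sqrt Real.pi * (2 * W * (Real.sqrt Real.pi / T + Real.sqrt Real.pi / T) +
        2 * M * C * E * (Real.sqrt Real.pi / (T / 2) + Real.sqrt Real.pi / (T / 2))) :=
        mul_le_mul_of_nonneg_left hb (by positivity)
    _ = 16 * W + 32 * Real.exp 1 * C * M * Real.exp (y2 - T ^ 2 / 2) := by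
        rw [hE']
        field_simp
        ring
    _ ≤ _ := by
        gcongr
        · exact le_add_of_nonneg_right (by positivity)
        · exact le_add_of_nonneg_left (by norm_num)

end Crest.Agent.R12
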