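import Crest.Agent.R12.PStep
import Crest.Agent.R12.PW
import Crest.Agent.R12.LS0
import Crest.Agent.R12.LW
import Crest.Agent.R12.SM

/-!
# R12 / Disp1Aux : elementary part of `Disp1` (`norm_Xs_le`, `Sdiv`, `sum_pairs_le`, `d1_key`)
-/

set_option autoImplicit false

noncomputable section

open scoped Classical ComplexConjugate Topology
open MeasureTheory Filter

namespace Crest.Agent.R12

open Crest.Agent.R17

theorem d1_symP_lam (d : O) : symP 3 lam d = 0 := by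
  have h : (nm lam - 1) / 3 = 0 := by rw [nm_lam]
  have hs : (units6.filter fun u : O => u ^ 3 = 1 ∧ lam ∣ 1 - u) = {1, om, om ^ 2} := by
    ext u
    simp only [units6, Finset.mem_filter, Finset.mem_insert, Finset.mem_singleton, b1_lam_dvd_iff]
    constructor
    · rintro ⟨h1 | h1 | h1 | h1 | h1 | h1, h2, -⟩ <;> subst h1 <;> revert h2 <;> decide
    · rintro (h1 | h1 | h1) <;> subst h1 <;> decide
  unfold symP
  rw [h]
  simp only [pow_zero]
  rw [← Finset.sum_filter, hs, ← map_sum, Finset.sum_insert (by decide),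
    Finset.sum_insert (by decide), Finset.sum_singleton]
  have : (1 : O) + (om + om ^ 2) = 0 := by decide
  rw [this, map_zero]

theorem d1_cub_mul (n a b : O) : cub n (a * b) = cub n a * cub n b := by
  unfold cub sym
  rw [← Multiset.prod_map_mul]
  congr 1
  refine Multiset.map_congr rfl fun p hp => ?_
  have hp' := UniqueFactorizationMonoid.prime_of_factor p hp
  by_cases h : p ∣ ((3 : ℕ) : O)
  · have h1 : p ∣ lam := by
      refine hp'.dvd_of_dvd_pow (n := 2) ?_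
      rw [lam_sq]
      exact (dvd_neg.2 (by simpa using h))
    have h2 : Associated p lam := hp'.associated_of_dvd prime_lam h1
    rw [s1_symP_assoc 3 h2, s1_symP_assoc 3 h2, d1_symP_lam, d1_symP_lam, zero_mul]
  · exact s1_symP_mul (Or.inr (Or.inl rfl)) hp' h a b

theorem d1_cub_left {a b : O} (ha : a ≠ 0) (hb : b ≠ 0) (d : O) :
    cub (a * b) d = cub a d * cub b d := sym_mul_left 3 ha hb d

theorem d1_conj_pw {B : ℝ} (hB : 0 ≤ B) (b : O) (s : ℂ) : conj (pw B b s) = pw B b (conj s) := by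
  have h : ((N b / B : ℝ) : ℂ).arg ≠ Real.pi := by
    rw [Complex.arg_ofReal_of_nonneg (div_nonneg (N_nonneg b) hB)]
    exact Real.pi_pos.ne
  rw [pw, pw, Complex.cpow_conj _ _ h, Complex.conj_ofReal]

theorem d1_B_pos {S : Finset O} {B : ℝ} (hS : In S B) {b : O} (hb : b ∈ S) : 0 < B := by
  have h1 := one_le_N (hS b hb).1.1.ne_zero
  have h2 := (hS b hb).2.2
  linarith

theorem d1_div_mul {a b : O} (ha : a ≠ 0) : a * b / a = b := mul_div_cancel_left₀ b ha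

/-- `GG b = g3 b · conj (cub b λ)`, `g3 (g b') = g3 g g3 b' conj (cub b' g)`, `‖g3 b'‖ = 1`, `cub_sq`;
`cub (b/g) κ = cub r κ · cub (b/(gr)) κ`. -/
theorem norm_Xs_le {S : Finset O} {B : ℝ} (hS : In S B) (γ : O → ℂ) {g r : O} (hg : SF g) (hr : SF r)
    (k : O) (s : ℂ) :
    ‖Xs S (fun b => conj (γ b * GG b)) B g r k s‖ ≤
      ‖fam1 S γ B (g * r) (k * (g ^ 2 * lam ^ 2)) (conj s)‖ := by
  have hg0 := hg.1.ne_zero
  have hr0 := hr.1.ne_zero
  have key : conj (Xs S (fun b => conj (γ b * GG b)) B g r k s) =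
      GG g * cub r (k * (g ^ 2 * lam ^ 2)) * fam1 S γ B (g * r) (k * (g ^ 2 * lam ^ 2)) (conj s) := by
    unfold Xs fam1
    rw [map_sum, Finset.mul_sum]
    refine Finset.sum_congr rfl fun n hn => ?_
    obtain ⟨hn, m, rfl⟩ := Finset.mem_filter.1 hn
    have hB := d1_B_pos hS hn
    have hn' := (hS _ hn).1
    have hm0 : m ≠ 0 := by
      rintro rfl
      exact hn'.1.ne_zero (mul_zero _)
    have e1 : g * r * m / g = r * m := by rw [mul_assoc, d1_div_mul hg0]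
    have e2 : g * r * m / (g * r) = m := d1_div_mul (mul_ne_zero hg0 hr0)
    have hb : SF (r * m) := by
      have := (hn'.div hg.1 ⟨r * m, by ring⟩).1
      rwa [e1] at this
    have h1 : g3 (r * m) * conj (g3 (r * m)) = 1 := by
      rw [Complex.mul_conj', norm_g3 hb.1.isCoprime_three hb.2]; norm_num
    have h2 : cub (r * m) (k * (g ^ 2 * lam ^ 2)) =
        cub (r * m) k * (conj (cub (r * m) g) * conj (cub (r * m) lam)) := by
      rw [d1_cub_mul, d1_cub_mul, cub_sq hb.1, cub_sq hb.1]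
    have h3 : GG (g * r * m) = GG g * (g3 (r * m) * conj (cub (r * m) lam)) * conj (cub (r * m) g) := by
      rw [mul_assoc, GG_mul hg hb.1]; rfl
    rw [e1, e2]
    simp only [map_mul, Complex.conj_conj]
    rw [d1_conj_pw hB.le, h3]
    have h4 : cub r (k * (g ^ 2 * lam ^ 2)) * cub m (k * (g ^ 2 * lam ^ 2)) =
        cub (r * m) k * (conj (cub (r * m) g) * conj (cub (r * m) lam)) := by
      rw [← d1_cub_left hr0 hm0, h2]
    linear_combination
      (γ (g * r * m) * GG g * conj (cub (r * m) lam) * conj (cub (r * m) g) * cub (r * m) k *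
        pw B (g * r * m) (conj s)) * h1 - (GG g * γ (g * r * m) * pw B (g * r * m) (conj s)) * h4
  rw [← Complex.norm_conj, key, norm_mul, norm_mul, norm_GG hg, one_mul]
  exact mul_le_of_le_one_left (norm_nonneg _) (ps_cub_le hr.1 _)

/-- the sequence `n ↦ γ(hn) pw B (hn) s cub n κ` on `S/h` -/
def Sdiv (S : Finset O) (h : O) : Finset O := (S.filter (fun b => h ∣ b)).image (fun b => b / h)

theorem d1_sum_Sdiv {M : Type*} [AddCommMonoid M] {h : O} (hh : h ≠ 0) (S : Finset O) (f : O → M) :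
    ∑ n ∈ Sdiv S h, f n = ∑ b ∈ S.filter (fun b => h ∣ b), f (b / h) := by
  refine Finset.sum_image fun a ha b hb e => ?_
  obtain ⟨-, a', rfl⟩ := Finset.mem_filter.1 (Finset.mem_coe.1 ha)
  obtain ⟨-, b', rfl⟩ := Finset.mem_filter.1 (Finset.mem_coe.1 hb)
  simp only [d1_div_mul hh] at e
  rw [e]

theorem fam1_eq_cs {h : O} (hh : h ≠ 0) (S : Finset O) (γ : O → ℂ) (B : ℝ) (k κ : O) (s : ℂ) :
    fam1 S γ B h (k * κ) s = cs (Sdiv S h) (fun n => γ (h * n) * pw B (h * n) s * cub n κ) k := by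
  unfold fam1 cs
  rw [d1_sum_Sdiv hh]
  refine Finset.sum_congr rfl fun b hb => ?_
  obtain ⟨-, m, rfl⟩ := Finset.mem_filter.1 hb
  rw [d1_div_mul hh, d1_cub_mul]
  ring

theorem in_Sdiv {S : Finset O} {B : ℝ} (hS : In S B) {h : O} (hh : SF h) : In (Sdiv S h) (B / N h) := by
  intro n hn
  obtain ⟨b, hb, rfl⟩ := Finset.mem_image.1 hn
  obtain ⟨hb, m, rfl⟩ := Finset.mem_filter.1 hb
  obtain ⟨h1, h2, h3⟩ := hS _ hb
  have h0 := N_pos hh.1.ne_zero
  refine ⟨(h1.div hh.1 (dvd_mul_right _ _)).1, ?_, ?_⟩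
  · rw [d1_div_mul hh.1.ne_zero, div_le_iff₀ h0, mul_comm, ← N_mul]; exact h2
  · rw [d1_div_mul hh.1.ne_zero, ← mul_div_assoc, le_div_iff₀ h0, mul_comm, ← N_mul]; exact h3

/-- `∑_{g, r} ∑_{gr ∣ b} |γ b|² dv b ≤ nt` (`3^ω 2^ω ≤ 8^ω`, `SF.dv_eq`) -/
theorem sum_pairs_le {S : Finset O} (hS : ∀ b ∈ S, SF b) (γ : O → ℂ) (X : ℝ) :
    ∑ g ∈ sfb X, ∑ r ∈ sfb X, ∑ b ∈ S.filter (fun b => g * r ∣ b), ‖γ b‖ ^ 2 * dv b ≤ nt S γ := by
  have h1 : ∀ b ∈ S, ∑ g ∈ sfb X, (if g ∣ b then (1 : ℝ) else 0) ≤ dv b := fun b hb => by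
    rw [Finset.sum_boole]
    refine Nat.cast_le.2 (Finset.card_le_card fun g hg => ?_)
    obtain ⟨hg, hgb⟩ := Finset.mem_filter.1 hg
    exact (mem_pdiv (hS b hb).1.ne_zero).2 ⟨(mem_sfb.1 hg).1.1, hgb⟩
  calc _ ≤ ∑ g ∈ sfb X, ∑ r ∈ sfb X, ∑ b ∈ S, ‖γ b‖ ^ 2 * dv b *
        ((if g ∣ b then (1 : ℝ) else 0) * (if r ∣ b then (1 : ℝ) else 0)) := by
        refine Finset.sum_le_sum fun g _ => Finset.sum_le_sum fun r _ => ?_
        rw [Finset.sum_filter]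
        refine Finset.sum_le_sum fun b _ => ?_
        have h0 : 0 ≤ ‖γ b‖ ^ 2 * dv b := mul_nonneg (sq_nonneg _) (bb_dv_nonneg b)
        by_cases h : g * r ∣ b
        · rw [if_pos h, if_pos (dvd_of_mul_right_dvd h), if_pos (dvd_of_mul_left_dvd h)]
          simp
        · rw [if_neg h]
          exact mul_nonneg h0 (mul_nonneg (by split_ifs <;> norm_num) (by split_ifs <;> norm_num))
    _ = ∑ b ∈ S, ‖γ b‖ ^ 2 * dv b * ((∑ g ∈ sfb X, (if g ∣ b then (1 : ℝ) else 0)) *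
        ∑ r ∈ sfb X, (if r ∣ b then (1 : ℝ) else 0)) := by
        simp only [Finset.sum_mul_sum]
        simp only [Finset.mul_sum]
        rw [Finset.sum_comm (s := S)]
        refine Finset.sum_congr rfl fun g _ => ?_
        rw [Finset.sum_comm]
    _ ≤ _ := by
        refine Finset.sum_le_sum fun b hb => ?_
        have h0 : 0 ≤ ‖γ b‖ ^ 2 * dv b := mul_nonneg (sq_nonneg _) (bb_dv_nonneg b)
        have h2 : 0 ≤ ∑ g ∈ sfb X, (if g ∣ b then (1 : ℝ) else 0) :=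
          Finset.sum_nonneg fun g _ => by split_ifs <;> norm_num
        calc _ ≤ ‖γ b‖ ^ 2 * dv b * (dv b * dv b) :=
              mul_le_mul_of_nonneg_left (mul_le_mul (h1 b hb) (h1 b hb) h2 (bb_dv_nonneg b)) h0
          _ = _ := by ring

theorem d1_norm_pw {S : Finset O} {B : ℝ} (hS : In S B) {b : O} (hb : b ∈ S) {s : ℂ}
    (hs : s.re ≤ 2) : ‖pw B b s‖ ≤ 256 := by
  have hB := d1_B_pos hS hb
  obtain ⟨-, h1, h2⟩ := hS b hb
  have h3 : 1 ≤ N b / B := (one_le_div hB).2 h1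
  have h4 : N b / B ≤ 16 := (div_le_iff₀ hB).2 h2
  rw [pw, Complex.norm_cpow_eq_rpow_re_of_pos (by linarith)]
  calc (N b / B) ^ s.re ≤ (N b / B) ^ (2 : ℝ) := Real.rpow_le_rpow_of_exponent_le h3 hs
    _ = (N b / B) ^ 2 := Real.rpow_two _
    _ ≤ 16 ^ 2 := pow_le_pow_left₀ (by linarith) h4 2
    _ = 256 := by norm_num

/-- weighted mass on the multiples of `h` -/
def d1W (S : Finset O) (γ : O → ℂ) (h : O) : ℝ :=
  ∑ b ∈ S.filter (fun b => h ∣ b), ‖γ b‖ ^ 2 * dv b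

theorem d1W_nonneg (S : Finset O) (γ : O → ℂ) (h : O) : 0 ≤ d1W S γ h :=
  Finset.sum_nonneg fun b _ => mul_nonneg (sq_nonneg _) (bb_dv_nonneg b)

theorem d1_coef {a p c : ℂ} (hp : ‖p‖ ≤ 256) (hc : ‖c‖ ≤ 1) :
    ‖a * p * c‖ ^ 2 ≤ 65536 * ‖a‖ ^ 2 := by
  have h1 : ‖a * p * c‖ ≤ ‖a‖ * 256 * 1 := by
    rw [norm_mul, norm_mul]
    gcongr
  calc _ ≤ (‖a‖ * 256 * 1) ^ 2 := pow_le_pow_left₀ (norm_nonneg _) h1 2
    _ = _ := by ring

theorem d1_x_le {S : Finset O} {B : ℝ} (hS : In S B) (γ : O → ℂ) {h : O} (hh : SF h) (κ : O) {s : ℂ}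
    (hs : s.re ≤ 2) :
    ∑ n ∈ Sdiv S h, ‖γ (h * n) * pw B (h * n) s * cub n κ‖ ^ 2 * dv n ≤ 65536 * d1W S γ h := by
  rw [d1_sum_Sdiv hh.1.ne_zero, d1W, Finset.mul_sum]
  refine Finset.sum_le_sum fun b hb => ?_
  obtain ⟨hb, m, rfl⟩ := Finset.mem_filter.1 hb
  have hm := ((hS _ hb).1.div hh.1 (dvd_mul_right _ _)).1
  rw [d1_div_mul hh.1.ne_zero] at hm ⊢
  rw [← mul_assoc]
  exact mul_le_mul (d1_coef (d1_norm_pw hS hb hs) (ps_cub_le hm.1 κ))
    (dv_le_of_dvd (hS _ hb).1.1.ne_zero (dvd_mul_left _ _)) (bb_dv_nonneg _) (by positivity)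

theorem d1_n2_le {S : Finset O} (hS : ∀ n ∈ S, n ≠ 0) (x : O → ℂ) :
    n2 S x ≤ ∑ n ∈ S, ‖x n‖ ^ 2 * dv n :=
  Finset.sum_le_sum fun n hn => le_mul_of_one_le_right (sq_nonneg _) (one_le_dv (hS n hn))

theorem d1_inner {S : Finset O} (hS : ∀ b ∈ S, b ≠ 0) (γ : O → ℂ) (B : ℝ) {h d : O} (hh : h ≠ 0)
    (hd : Prim d) (κ k0 : O) (s : ℂ) :
    ‖∑ n ∈ (Sdiv S h).filter (fun n => d ∣ n), γ (h * n) * pw B (h * n) s * cub n κ * cub n k0‖ ≤
      ‖fam1 S γ B (h * d) (k0 * κ) s‖ := by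
  have key : ∑ n ∈ (Sdiv S h).filter (fun n => d ∣ n),
      γ (h * n) * pw B (h * n) s * cub n κ * cub n k0 =
      cub d (k0 * κ) * fam1 S γ B (h * d) (k0 * κ) s := by
    rw [Finset.sum_filter, d1_sum_Sdiv hh, Finset.sum_filter, fam1, Finset.sum_filter,
      Finset.mul_sum]
    refine Finset.sum_congr rfl fun b hb => ?_
    by_cases h1 : h * d ∣ b
    · obtain ⟨m, rfl⟩ := h1
      have hm : m ≠ 0 := by
        rintro rfl
        exact hS _ hb (mul_zero _)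
      have e1 : h * d * m / h = d * m := by rw [mul_assoc, d1_div_mul hh]
      have e2 : cub (d * m) κ * cub (d * m) k0 = cub d (k0 * κ) * cub m (k0 * κ) := by
        rw [mul_comm, ← d1_cub_mul, d1_cub_left hd.ne_zero hm]
      rw [if_pos ⟨d * m, by ring⟩, e1, if_pos (dvd_mul_right _ _), if_pos (dvd_mul_right _ _),
        d1_div_mul (mul_ne_zero hh hd.ne_zero), ← mul_assoc h d m, mul_assoc _ (cub _ κ), e2]
      ring
    · rw [if_neg h1, mul_zero]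
      split_ifs with h2 h3
      · obtain ⟨m, rfl⟩ := h2
        rw [d1_div_mul hh] at h3
        exact absurd (mul_dvd_mul_left h h3) h1
      · rfl
      · rfl
  rw [key, norm_mul]
  exact mul_le_of_le_one_left (norm_nonneg _) (ps_cub_le hd _)

theorem d1_sum_mul_le {c : O} (hc : c ≠ 0) (A A' : Finset O) (f : O → ℝ) (hf : ∀ a, 0 ≤ f a)
    (h : ∀ a ∈ A, f (c * a) ≠ 0 → c * a ∈ A') : ∑ a ∈ A, f (c * a) ≤ ∑ a ∈ A', f a := by
  rw [← Finset.sum_filter_ne_zero, ← Finset.sum_image (g := fun a => c * a)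
    (fun a _ b _ e => mul_left_cancel₀ hc e)]
  refine Finset.sum_le_sum_of_subset_of_nonneg ?_ fun a _ _ => hf a
  intro x hx
  obtain ⟨a, ha, rfl⟩ := Finset.mem_image.1 hx
  exact h a (Finset.mem_filter.1 ha).1 (Finset.mem_filter.1 ha).2

theorem d1_fam1_zero {S : Finset O} {h : O} (hh : ∀ b ∈ S, ¬ h ∣ b) (γ : O → ℂ) (B : ℝ) (k : O)
    (s : ℂ) : fam1 S γ B h k s = 0 := by
  rw [fam1, Finset.filter_false_of_mem hh, Finset.sum_empty]

/-- the family at one exponent -/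
def d1F0 (S : Finset O) (γ : O → ℂ) (B H : ℝ) (s : ℂ) : ℝ :=
  ∑ h ∈ sfb H, ∑ k ∈ ball H, ‖fam1 S γ B h k s‖ ^ 2

theorem d1F0_nonneg (S : Finset O) (γ : O → ℂ) (B H : ℝ) (s : ℂ) : 0 ≤ d1F0 S γ B H s :=
  Finset.sum_nonneg fun _ _ => Finset.sum_nonneg fun _ _ => sq_nonneg _

theorem d1_F_le {S : Finset O} (hS : ∀ b ∈ S, SF b) (γ : O → ℂ) (B : ℝ) {h κ : O} (hh : Prim h)
    (hκ : κ ≠ 0) {H D0 H' : ℝ} (h1 : N h * D0 ≤ H') (h2 : N κ * H ≤ H') (s : ℂ) :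
    ∑ k0 ∈ ball H, ∑ d ∈ sfb D0, ‖fam1 S γ B (h * d) (k0 * κ) s‖ ^ 2 ≤ d1F0 S γ B H' s := by
  rw [Finset.sum_comm]
  calc _ ≤ ∑ d ∈ sfb D0, ∑ k ∈ ball H', ‖fam1 S γ B (h * d) k s‖ ^ 2 := by
        refine Finset.sum_le_sum fun d _ => ?_
        simp only [mul_comm _ κ]
        refine d1_sum_mul_le hκ _ _ (fun k => ‖fam1 S γ B (h * d) k s‖ ^ 2)
          (fun _ => sq_nonneg _) fun k hk _ => ?_
        obtain ⟨hk0, hk⟩ := mem_ball.1 hk
        refine mem_ball.2 ⟨mul_ne_zero hκ hk0, ?_⟩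
        rw [N_mul]
        exact (mul_le_mul_of_nonneg_left hk (N_nonneg κ)).trans h2
    _ ≤ _ := by
        refine d1_sum_mul_le hh.ne_zero _ _ (fun h' => ∑ k ∈ ball H', ‖fam1 S γ B h' k s‖ ^ 2)
          (fun _ => Finset.sum_nonneg fun _ _ => sq_nonneg _) fun d hd hne => ?_
        obtain ⟨hd, hd'⟩ := mem_sfb.1 hd
        refine mem_sfb.2 ⟨?_, ?_⟩
        · by_contra hsf
          refine hne (Finset.sum_eq_zero fun k _ => ?_)
          rw [d1_fam1_zero fun b hb hdv => hsf ((hS b hb).of_dvd (hh.mul hd.1) hdv)]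
          simp
        · rw [N_mul]
          exact (mul_le_mul_of_nonneg_left hd' (N_nonneg h)).trans h1

theorem d1_split (Y Q : ℝ) (f : O → ℝ) : ∑ k ∈ ball Y, f k = ∑ k ∈ (ball Y).filter (Maj Q), f k +
    ∑ k ∈ (ball Y).filter (fun k => ¬ Maj Q k ∧ Maj Y k), f k := by
  rw [← Finset.sum_filter_add_sum_filter_not (ball Y) (Maj Q)]
  congr 2
  refine Finset.filter_congr fun k hk => ?_
  exact ⟨fun h => ⟨h, k, 1, by ring, (mem_ball.1 hk).2⟩, fun h => h.1⟩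

theorem d1_arith {C1 C2 C3 y β η W F Z : ℝ} (h1 : 0 ≤ C1) (h2 : 0 ≤ C2) (h3 : C2 ≤ C3) (hy : 0 ≤ y)
    (hβ : 0 ≤ β) (hη : 0 ≤ η) (hW : 0 ≤ W) (hF : 0 ≤ F) (hZ : 0 ≤ Z) :
    C2 * y * (F + 16 * β * η * (65536 * W)) + (C1 * y * (16 * β * η) + C1 * Z) * (65536 * W) ≤
      16 * 65536 * (C1 + C3) * (y * (β * η * W + F) + Z * W) := by
  have ha : 0 ≤ y * (β * η * W) := by positivity
  have hb : 0 ≤ y * F := by positivity
  have hc : 0 ≤ Z * W := by positivity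
  have e : C2 * y * (F + 16 * β * η * (65536 * W)) + (C1 * y * (16 * β * η) + C1 * Z) * (65536 * W) =
      C2 * (y * F) + 16 * 65536 * (C1 + C2) * (y * (β * η * W)) + 65536 * C1 * (Z * W) := by ring
  rw [e, mul_add y]
  generalize y * (β * η * W) = a at ha ⊢
  generalize y * F = b at hb ⊢
  generalize Z * W = c at hc ⊢
  have h4 : 0 ≤ C3 := h2.trans h3
  nlinarith [mul_nonneg h1 hb, mul_nonneg h4 hb, mul_nonneg h1 hc, mul_nonneg h4 hc,
    mul_le_mul_of_nonneg_right h3 ha, mul_le_mul_of_nonneg_right h3 hb]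

theorem d1_key : ∃ C : ℝ, 0 ≤ C ∧ ∀ (S : Finset O) (γ : O → ℂ) (B H Y : ℝ) (g r : O) (s : ℂ),
    0 < B → In S B → 1 ≤ H → 0 < Y → SF g → SF r → s.re ≤ 2 →
    ∑ k ∈ ball Y, ‖fam1 S γ B (g * r) (k * (g ^ 2 * lam ^ 2)) s‖ ^ 2 ≤
      C * (Y ^ (1 / 3 : ℝ) *
        (B / N (g * r) * (if N (g * r) ≤ H then H ^ (-(1 / 3 : ℝ)) else 1) * d1W S γ (g * r) +
        (if N (g * r) ≤ H then H ^ (4 / 3 : ℝ) * d1F0 S γ B (9 * H ^ 3) s else 0)) +
        Y ^ 2 * d1W S γ (g * r)) := by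
  obtain ⟨C1, hC1, mid⟩ := mid_bound
  obtain ⟨C2, hC2, maj⟩ := maj_bound
  obtain ⟨C3, hC3, one⟩ := maj_one
  refine ⟨16 * 65536 * (C1 + (C2 + C3)), by positivity, fun S γ B H Y g r s hB hS hH hY hg hr hs => ?_⟩
  have hH0 : 0 < H := by linarith
  have hW := d1W_nonneg S γ (g * r)
  have hF := d1F0_nonneg S γ B (9 * H ^ 3) s
  have hp : Prim (g * r) := hg.1.mul hr.1
  have hN := N_pos hp.ne_zero
  have hβ : 0 ≤ B / N (g * r) := by positivity
  by_cases hex : ∀ b ∈ S, ¬ g * r ∣ b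
  · rw [Finset.sum_eq_zero fun k _ => by rw [d1_fam1_zero hex]; simp]
    have : 0 ≤ (if N (g * r) ≤ H then H ^ (-(1 / 3 : ℝ)) else 1) := by split_ifs <;> positivity
    have : 0 ≤ (if N (g * r) ≤ H then H ^ (4 / 3 : ℝ) * d1F0 S γ B (9 * H ^ 3) s else 0) := by
      split_ifs <;> positivity
    positivity
  push Not at hex
  obtain ⟨b, hb, hdv⟩ := hex
  have hh : SF (g * r) := (hS b hb).1.of_dvd hp hdv
  have hM : 1 ≤ 16 * (B / N (g * r)) := by
    rw [← mul_div_assoc, le_div_iff₀ hN, one_mul]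
    exact (N_le_of_dvd (hS b hb).1.1.ne_zero hdv).trans (hS b hb).2.2
  have hsub : Sdiv S (g * r) ⊆ sfb (16 * (B / N (g * r))) := fun n hn =>
    mem_sfb.2 ⟨(in_Sdiv hS hh n hn).1, (in_Sdiv hS hh n hn).2.2⟩
  have hx := d1_x_le hS γ hh (g ^ 2 * lam ^ 2) hs
  have hin := fun d (hd : Prim d) k0 => d1_inner (fun b hb => (hS b hb).1.1.ne_zero) γ B hp.ne_zero hd
    (g ^ 2 * lam ^ 2) k0 s
  simp only [fam1_eq_cs hp.ne_zero S γ B _ (g ^ 2 * lam ^ 2) s]
  obtain ⟨x, hxd⟩ : ∃ x : O → ℂ,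
      x = fun n => γ (g * r * n) * pw B (g * r * n) s * cub n (g ^ 2 * lam ^ 2) := ⟨_, rfl⟩
  have hx' : ∑ n ∈ Sdiv S (g * r), ‖x n‖ ^ 2 * dv n ≤ 65536 * d1W S γ (g * r) := by
    rw [hxd]; exact hx
  have hin' : ∀ d, Prim d → ∀ k0, ‖∑ n ∈ (Sdiv S (g * r)).filter (fun n => d ∣ n), x n * cub n k0‖ ≤
      ‖fam1 S γ B (g * r * d) (k0 * (g ^ 2 * lam ^ 2)) s‖ := by
    rw [hxd]; exact hin
  rw [← hxd]
  have hn2 := (d1_n2_le (fun n hn => (in_Sdiv hS hh n hn).1.1.ne_zero) x).trans hx'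
  have hy : 0 ≤ Y ^ (1 / 3 : ℝ) := by positivity
  have hYY : Y ^ (1 / 3 : ℝ) * Y ^ (5 / 3 : ℝ) = Y ^ 2 := by
    rw [← Real.rpow_add hY]; norm_num
  have hmid : ∀ Q : ℝ, 1 ≤ Q → ∑ k ∈ (ball Y).filter (fun k => ¬ Maj Q k ∧ Maj Y k),
      ‖cs (Sdiv S (g * r)) x k‖ ^ 2 ≤ (C1 * Y ^ (1 / 3 : ℝ) *
        (16 * (B / N (g * r)) * Q ^ (-(1 / 3 : ℝ))) + C1 * Y ^ 2) * (65536 * d1W S γ (g * r)) := by
    intro Q hQ
    have hQ0 : 0 < Q := by linarith
    refine (mid _ Y Q Y _ x hM hY.le hQ hY.le hsub).trans ?_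
    rw [← hYY, mul_add (C1 * _), mul_assoc C1 _ (Y ^ (5 / 3 : ℝ))]
    exact mul_le_mul_of_nonneg_left hn2 (by positivity)
  split_ifs with hc
  · rw [d1_split Y H]
    refine le_trans (add_le_add ?_ (hmid H hH)) (d1_arith hC1 hC2 (le_add_of_nonneg_right hC3) hy hβ
      (by positivity) hW (by positivity) (by positivity))
    have hD0 : 1 ≤ H ^ (4 / 3 : ℝ) := Real.one_le_rpow hH (by norm_num)
    refine (maj _ Y H _ _ x (by linarith) hY.le hH hD0 hsub).trans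
      (mul_le_mul_of_nonneg_left (add_le_add (mul_le_mul_of_nonneg_left ?_ (by positivity)) ?_)
        (by positivity))
    · have hg1 : N g ≤ H := (N_le_of_dvd hp.ne_zero (dvd_mul_right _ _)).trans hc
      have hl : N lam = 3 := by rw [N, nm_lam]; norm_num
      refine le_trans (Finset.sum_le_sum fun k0 _ => Finset.sum_le_sum fun d hd =>
        pow_le_pow_left₀ (norm_nonneg _) (hin' d (mem_sfb.1 hd).1.1 k0) 2)
        (d1_F_le (fun b hb => (hS b hb).1) γ B hp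
          (mul_ne_zero (pow_ne_zero _ hg.1.ne_zero) (pow_ne_zero _ prime_lam.ne_zero)) ?_ ?_ s)
      · have h1 : H ^ (4 / 3 : ℝ) ≤ H ^ 2 := by
          rw [← Real.rpow_two]
          exact Real.rpow_le_rpow_of_exponent_le hH (by norm_num)
        calc _ ≤ H * H ^ 2 := mul_le_mul hc h1 (by positivity) hH0.le
          _ = 1 * H ^ 3 := by ring
          _ ≤ _ := mul_le_mul_of_nonneg_right (by norm_num) (by positivity)
      · rw [N_mul, N_pow, N_pow, hl]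
        calc _ ≤ H ^ 2 * 3 ^ 2 * H := by gcongr; exact N_nonneg g
          _ = _ := by ring
    · have e : H * (16 * (B / N (g * r))) / H ^ (4 / 3 : ℝ) =
          16 * (B / N (g * r)) * H ^ (-(1 / 3 : ℝ)) := by
        rw [show (-(1 / 3 : ℝ)) = 1 - 4 / 3 by norm_num, Real.rpow_sub hH0, Real.rpow_one]
        ring
      rw [e]
      exact mul_le_mul_of_nonneg_left hx' (by positivity)
  · rw [d1_split Y 1]
    have h1 := hmid 1 le_rfl
    rw [Real.one_rpow] at h1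
    refine le_trans (add_le_add ?_ h1) (d1_arith hC1 hC3 (le_add_of_nonneg_left hC2) hy hβ
      zero_le_one hW le_rfl (by positivity))
    refine (one _ Y _ x (by linarith) hY.le hsub).trans ?_
    rw [zero_add, mul_one, mul_assoc (C3 * _)]
    exact mul_le_mul_of_nonneg_left (mul_le_mul_of_nonneg_left hn2 (by positivity)) (by positivity)

end Crest.Agent.R12
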