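import Crest.Agent.R12.Core3
import Crest.Agent.R12.BF

/-!
# R12 / Disp2 : the dispersion estimate up to the self-dual point
-/

set_option autoImplicit false

noncomputable section

open scoped Classical ComplexConjugate Topology
open MeasureTheory Filter

namespace Crest.Agent.R12

open Crest.Agent.R17

theorem d2_inj {α β : Type*} (s : Finset α) (t : Finset β) (φ : α → β) (F : β → ℝ) (hF : ∀ b, 0 ≤ F b)
    (hi : Set.InjOn φ s) (hm : ∀ a ∈ s, φ a ∈ t) : ∑ a ∈ s, F (φ a) ≤ ∑ b ∈ t, F b := by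
  rw [← Finset.sum_image hi]
  exact Finset.sum_le_sum_of_subset_of_nonneg (Finset.image_subset_iff.2 hm) fun _ _ _ => hF _

theorem d2_N9 : N (9 : O) = 81 := by
  have := nm_natCast 9
  unfold N
  rw [show (9 : O) = ((9 : ℕ) : O) by norm_num, this]
  norm_num

theorem d2_Nlam : N lam = 3 := by
  unfold N
  rw [nm_lam]
  norm_num

theorem d2_F2_nonneg (S : Finset O) (x : O → ℂ) (M Q : ℝ) : 0 ≤ F2 S x M Q :=
  Finset.sum_nonneg fun _ _ => Finset.sum_nonneg fun _ _ => by positivity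

theorem d2_F2_congr {S : Finset O} {x y : O → ℂ} (h : ∀ n ∈ S, x n = y n) (M Q : ℝ) :
    F2 S x M Q = F2 S y M Q := by
  unfold F2 fam2
  refine Finset.sum_congr rfl fun q _ => Finset.sum_congr rfl fun a _ => ?_
  rw [Finset.sum_congr rfl fun b hb => by rw [h b (Finset.mem_filter.1 hb).1]]

theorem d2_mem_Sdiv {S : Finset O} {h n : O} (hh : h ≠ 0) : n ∈ Sdiv S h ↔ h * n ∈ S := by
  simp only [Sdiv, Finset.mem_image, Finset.mem_filter]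
  constructor
  · rintro ⟨b, ⟨hb, hd⟩, rfl⟩
    rwa [EuclideanDomain.mul_div_cancel' hh hd]
  · intro hn
    exact ⟨h * n, ⟨hn, dvd_mul_right _ _⟩, mul_div_cancel_left₀ _ hh⟩

theorem d2_sum_Sdiv {M : Type*} [AddCommMonoid M] {S : Finset O} {h : O} (hh : h ≠ 0) (p p' : O → Prop)
    [DecidablePred p] [DecidablePred p'] (h1 : ∀ b, p' b → h ∣ b) (h2 : ∀ n, p' (h * n) ↔ p n) (f : O → M) :
    ∑ n ∈ (Sdiv S h).filter p, f (h * n) = ∑ b ∈ S.filter p', f b := by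
  refine Finset.sum_bij (fun n _ => h * n) (fun n hn => ?_) (fun a _ b _ e => mul_left_cancel₀ hh e)
    (fun b hb => ?_) fun _ _ => rfl
  · obtain ⟨a1, a2⟩ := Finset.mem_filter.1 hn
    exact Finset.mem_filter.2 ⟨(d2_mem_Sdiv hh).1 a1, (h2 n).2 a2⟩
  · obtain ⟨a1, a2⟩ := Finset.mem_filter.1 hb
    obtain ⟨n, rfl⟩ := h1 b a2
    exact ⟨n, Finset.mem_filter.2 ⟨(d2_mem_Sdiv hh).2 a1, (h2 n).1 a2⟩, rfl⟩

theorem d2_sf_split {h n : O} (hh : Prim h) (hn : SF (h * n)) : SF h ∧ SF n ∧ IsCoprime h n := by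
  have := hn.div hh (dvd_mul_right _ _)
  rw [mul_div_cancel_left₀ _ hh.ne_zero] at this
  exact ⟨hn.of_dvd hh (dvd_mul_right _ _), this⟩

theorem d2_Sdiv_empty {S : Finset O} (hS : ∀ b ∈ S, SF b) {h : O} (hh : Prim h) (h1 : ¬ SF h) :
    Sdiv S h = ∅ :=
  Finset.eq_empty_of_forall_notMem fun _ hn =>
    h1 (d2_sf_split hh (hS _ ((d2_mem_Sdiv hh.ne_zero).1 hn))).1

theorem d2_pw_div {B : ℝ} (hB : 0 < B) {h : O} (hh : h ≠ 0) (n : O) (z : ℂ) :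
    pw (B / N h) n z = pw B (h * n) z := by
  have := N_pos hh
  unfold pw
  rw [N_mul, show N n / (B / N h) = N h * N n / B by field_simp]

theorem d2_pw_add {B : ℝ} (hB : 0 < B) {b : O} (hb : b ≠ 0) (s z : ℂ) :
    pw B b (s + z) = pw B b s * pw B b z :=
  Complex.cpow_add _ _ (Complex.ofReal_ne_zero.2 (div_pos (N_pos hb) hB).ne')

theorem d2_phr_per {h κ : O} (hκ : κ ≠ 0) (H : ∀ p, Prime p → p ∣ κ → p ∣ 9 * h) :
    Per (9 * h) (phr κ) := by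
  intro x t
  have h9 : (9 : O) ∣ x + 9 * h * t - x := ⟨h * t, by ring⟩
  unfold phr
  by_cases hx : Prim x
  · have hx' := b1_prim_congr hx h9
    rw [if_pos hx, if_pos hx']
    exact cub_congr hx' hx hκ h9 fun p hp hpk => (H p hp hpk).trans ⟨t, by ring⟩
  · rw [if_neg hx, if_neg fun h => hx (b1_prim_congr h (dvd_sub_comm.1 h9))]

theorem d2_fam2_congr (S : Finset O) (γ : O → ℂ) (B : ℝ) {q a a' : O} (h : q ∣ a - a') (s : ℂ) :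
    fam2 S γ B q a s = fam2 S γ B q a' s := by
  unfold fam2
  rw [Finset.filter_congr fun b _ => show q ∣ b - a ↔ q ∣ b - a' from
    ⟨fun e => by simpa using dvd_add e h, fun e => by
      have := dvd_sub e h
      rwa [show b - a' - (a - a') = b - a by ring] at this⟩]

/-- `GG (h n) = GG h GG n conj (cub n h)`; `n ↦ [n ≡ a (q)] cub n (h κ)` depends only on `h n` modulo
`9 q h²` when every prime of `κ` divides `3h` (here `κ = g²λ²`, `g ∣ h`); `q ↦ 9 q h²` is injective -/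
theorem F2_Sdiv_le {S : Finset O} {B : ℝ} (hB : 0 < B) (hS : In S B) (γ : O → ℂ) {g r : O} (hg : SF g)
    (hr : SF r) (Q : ℝ) (s : ℂ) :
    F2 (Sdiv S (g * r)) (fun n => γ (g * r * n) * pw B (g * r * n) s * cub n (g ^ 2 * lam ^ 2))
        (B / N (g * r)) Q ≤
      81 * N (g * r) * ∑ q ∈ ball (81 * Q * N (g * r) ^ 2), ∑ a ∈ res q,
        ‖fam2 S γ B q a (s - 1 / 6)‖ ^ 2 := by
  have hp : Prim (g * r) := hg.1.mul hr.1
  have hgh : g ∣ g * r := dvd_mul_right _ _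
  generalize g * r = h at hp hgh ⊢
  have h0 := hp.ne_zero
  have hN := N_pos h0
  by_cases hh : SF h
  swap
  · rw [d2_Sdiv_empty (fun b hb => (hS b hb).1) hp hh]
    refine le_trans (le_of_eq ?_) (mul_nonneg (by positivity)
      (Finset.sum_nonneg fun _ _ => Finset.sum_nonneg fun _ _ => by positivity))
    simp [F2, fam2]
  have hs := fun n hn => d2_sf_split hp (hS _ ((d2_mem_Sdiv (S := S) (n := n) h0).1 hn)).1
  have hκ : h * (g ^ 2 * lam ^ 2) ≠ 0 :=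
    mul_ne_zero h0 (mul_ne_zero (pow_ne_zero _ hg.1.ne_zero) (pow_ne_zero _ prime_lam.ne_zero))
  have h9 : (9 : O) * h ≠ 0 := mul_ne_zero (by norm_num) h0
  have hper : Per (9 * h) (phr (h * (g ^ 2 * lam ^ 2))) := d2_phr_per hκ fun p hp hpk => by
    rcases hp.dvd_or_dvd hpk with a | a
    · exact a.mul_left _
    rcases hp.dvd_or_dvd a with a | a
    · exact ((hp.dvd_of_dvd_pow a).trans hgh).mul_left _
    · exact ((hp.dvd_of_dvd_pow a).trans (b1_lam_dvd_three.trans ⟨3, by norm_num⟩)).mul_right _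
  have e1 : ∀ n ∈ Sdiv S h, γ (h * n) * pw B (h * n) s * cub n (g ^ 2 * lam ^ 2) =
      γ (h * n) * pw B (h * n) s * conj (cub n h) * phr (h * (g ^ 2 * lam ^ 2)) n := fun n hn => by
    obtain ⟨-, a1, a2⟩ := hs n hn
    have a3 : conj (cub n h) * cub n h = 1 := by
      rw [Complex.conj_mul', (rcub_isChar a1.1).norm_eq_one a1.1.ne_zero a2]
      norm_num
    rw [phr, if_pos a1.1, (rcub_isChar a1.1).mul h]
    linear_combination (-(γ (h * n) * pw B (h * n) s * cub n (g ^ 2 * lam ^ 2))) * a3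
  rw [d2_F2_congr e1]
  refine (F2_twist _ (fun n => γ (h * n) * pw B (h * n) s * conj (cub n h)) _ Q h9 hper
    (norm_phr_le _)).trans ?_
  rw [N_mul, d2_N9]
  refine mul_le_mul_of_nonneg_left ?_ (by positivity)
  refine le_trans (Finset.sum_le_sum fun q hq => ?_) (d2_inj _ _ (fun q => q * h)
    (fun q => ∑ a ∈ res q, ‖fam2 S γ B q a (s - 1 / 6)‖ ^ 2)
    (fun _ => Finset.sum_nonneg fun _ _ => by positivity)
    (fun a _ b _ e => mul_right_cancel₀ h0 e) fun q hq => ?_)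
  · have q0 := (mem_ball.1 hq).1
    have qh := mul_ne_zero q0 h0
    refine le_trans (le_of_eq (Finset.sum_congr rfl fun a _ => ?_)) (d2_inj _ _ (fun a => (h * a) % (q * h))
      (fun a => ‖fam2 S γ B (q * h) a (s - 1 / 6)‖ ^ 2) (fun _ => by positivity)
      (fun a ha b hb e => res_inj q0 ha hb ?_) fun a _ => b4_mod_mem_res qh _)
    · rw [← d2_fam2_congr S γ B (b4_dvd_sub_mod (q * h) (h * a)), ← one_mul ‖fam2 (Sdiv S h) _ _ _ _ _‖,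
        ← norm_GG hh, ← norm_mul, fam2, fam2, Finset.mul_sum,
        ← d2_sum_Sdiv h0 (fun n => q ∣ n - a) (fun b => q * h ∣ b - h * a) (fun b hb => by
          simpa using dvd_add (Dvd.dvd.trans (dvd_mul_left h q) hb) (dvd_mul_right h a))
          (fun n => by rw [← mul_sub, mul_comm q, mul_dvd_mul_iff_left h0]),
        Finset.sum_congr rfl fun n hn => ?_]
      obtain ⟨-, a1, -⟩ := hs n (Finset.mem_filter.1 hn).1
      rw [d2_pw_div hB h0, GG_mul hh a1.1, show s - 1 / 6 = s + -1 / 6 by ring,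
        d2_pw_add hB (mul_ne_zero h0 a1.1.ne_zero)]
      ring
    · have a1 := b4_dvd_sub_mod (q * h) (h * a)
      have a2 := b4_dvd_sub_mod (q * h) (h * b)
      rw [show h * a % (q * h) = h * b % (q * h) from e] at a1
      have a3 := dvd_sub a1 a2
      rwa [sub_sub_sub_cancel_right, ← mul_sub, mul_comm q, mul_dvd_mul_iff_left h0] at a3
  · obtain ⟨q0, q1⟩ := mem_ball.1 hq
    refine mem_ball.2 ⟨mul_ne_zero q0 h0, ?_⟩
    rw [N_mul]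
    calc _ ≤ Q * (81 * N h) * N h := by gcongr
      _ = _ := by ring

theorem d2_split {α : Type*} (s : Finset α) (p q r : α → Prop) [DecidablePred p] [DecidablePred q]
    [DecidablePred r] (h : ∀ k, p k → q k ∨ r k) (F : α → ℝ) (hF : ∀ k, 0 ≤ F k) :
    ∑ k ∈ s.filter p, F k ≤ ∑ k ∈ s.filter q, F k + ∑ k ∈ s.filter r, F k := by
  simp only [Finset.sum_filter, ← Finset.sum_add_distrib]
  refine Finset.sum_le_sum fun k _ => ?_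
  have := hF k
  have := h k
  split_ifs <;> first | linarith | tauto

theorem d2_dyad {X W Λ : ℝ} (hX : 0 < X) (hW : 0 ≤ W) (hΛ : 0 ≤ Λ) (F : O → ℝ) (hF : ∀ k, 0 ≤ F k)
    (h : ∀ K, X ≤ K → K ≤ W → ∑ k ∈ sfI K (2 * K), F k ≤ Λ) :
    ∑ k ∈ sfI X W, F k ≤ W / X * Λ := by
  refine (mls_cover _ ((Finset.range ⌊W / X⌋₊).filter fun i => 2 ^ i * X ≤ W)
    (fun i => sfI (2 ^ i * X) (2 * (2 ^ i * X))) (fun _ j => j) F hF fun k hk => ?_).trans ?_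
  · obtain ⟨a1, a2, a3⟩ := mem_sfI.1 hk
    have a4 : 1 < N k / X := (one_lt_div hX).2 a2
    obtain ⟨n, b1, b2⟩ := exists_mem_Ioc_zpow (zero_lt_one.trans a4) (one_lt_two (α := ℝ))
    have b3 : 0 < n + 1 := (one_lt_zpow_iff_right₀ one_lt_two).1 (a4.trans_le b2)
    obtain ⟨i, rfl⟩ := Int.eq_ofNat_of_zero_le (show 0 ≤ n by omega)
    rw [zpow_add_one₀ two_ne_zero, div_le_iff₀ hX] at b2
    rw [lt_div_iff₀ hX] at b1
    rw [zpow_natCast] at b1 b2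
    refine ⟨i, Finset.mem_filter.2 ⟨Finset.mem_range.2 ?_, by linarith⟩, k,
      mem_sfI.2 ⟨a1, b1, by linarith⟩, rfl⟩
    refine Nat.lt_two_pow_self.trans_le (Nat.le_floor ?_)
    rw [le_div_iff₀ hX]
    push_cast
    linarith
  · refine (Finset.sum_le_card_nsmul _ _ Λ fun i hi => h _ (le_mul_of_one_le_left hX.le
      (one_le_pow₀ one_le_two)) (Finset.mem_filter.1 hi).2).trans ?_
    rw [nsmul_eq_mul]
    refine mul_le_mul_of_nonneg_right (le_trans ?_ (Nat.floor_le (div_nonneg hW hX.le))) hΛ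
    exact_mod_cast (Finset.card_filter_le _ _).trans (Finset.card_range _).le

theorem d2_exp16 : ∃ l : ℝ, 0 ≤ l ∧ Real.exp l = 16 :=
  ⟨_, Real.log_nonneg (by norm_num), Real.exp_log (by norm_num)⟩

theorem d2_exp {Z : ℝ} (hZ : 0 < Z) : ∃ z, Real.exp z = Z := ⟨_, Real.exp_log hZ⟩

theorem d2_numA {Z Y M κ η : ℝ} (hZ : 1 ≤ Z) (hY : 1 ≤ Y) (hM : 0 < M) (hκ : 0 < κ) (h1 : 1000 * κ ≤ 1)
    (h2 : 1000 * κ ≤ η) (h3 : Y ≤ Z ^ (1 + κ)) (h4 : M ≤ Z ^ (1 + κ)) :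
    (Y * (16 * M)) ^ (κ / 4) * (Y + Y ^ (1 / 3 : ℝ) * (16 * M + Y) * (Z ^ η) ^ (-(1 / 30 : ℝ)) +
      Y ^ (1 / 2 : ℝ) * (16 * M) ^ (2 / 3 : ℝ) * (Z ^ (1 - 250 * κ)) ^ (1 / 6 : ℝ)) ≤
      4 * (16 * 16 * (Y ^ (1 / 3 : ℝ) * Z * Z ^ (-κ))) := by
  obtain ⟨z, rfl⟩ := d2_exp (zero_lt_one.trans_le hZ)
  obtain ⟨y, rfl⟩ := d2_exp (zero_lt_one.trans_le hY)
  obtain ⟨m, rfl⟩ := d2_exp hM
  obtain ⟨l, hl, e⟩ := d2_exp16
  rw [Real.one_le_exp_iff] at hZ hY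
  rw [← Real.exp_mul, Real.exp_le_exp] at h3 h4
  have a1 : κ * z ≤ z / 1000 := by nlinarith
  have a2 : κ * y ≤ 2 * (κ * z) := by nlinarith
  have a3 : κ * m ≤ 2 * (κ * z) := by nlinarith
  have a4 : κ * l ≤ l := by nlinarith
  have a5 : 1000 * (κ * z) ≤ η * z := by nlinarith
  have a6 : 0 ≤ κ * z := by positivity
  rw [← e, show ∀ t : ℝ, 4 * t = t + (t + t) + t from fun t => by ring, mul_add (Real.exp y ^ (1 / 3 : ℝ)),
    add_mul, mul_add, mul_add, mul_add]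
  simp only [← Real.exp_mul, ← Real.exp_add]
  refine add_le_add (add_le_add ?_ (add_le_add ?_ ?_)) ?_ <;> exact Real.exp_le_exp.2 (by linarith)

theorem d2_numB {Z Y κ κ0 δ : ℝ} (hZ : 1 ≤ Z) (hY : 0 < Y) (hκ : 0 < κ) (h1 : 1000 * κ ≤ κ0)
    (h2 : κ0 ≤ δ / 4) (h3 : Y ≤ Z ^ (1 + κ)) :
    Y / Z ^ (1 - 250 * κ) ≤ Z ^ (δ / 4) ∧
    (Y / Z ^ (1 - 250 * κ)) ^ 2 * Z ^ (4 / 3 : ℝ) * Z ^ (-κ0) ≤ Y ^ (1 / 3 : ℝ) * Z * Z ^ (-κ) ∧
    (Y / Z ^ (1 - 250 * κ)) ^ 3 * Z ^ (4 / 3 : ℝ) * Z ^ (δ / 4 - 1) ≤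
      Y ^ (1 / 3 : ℝ) * Z * Z ^ (δ - 1) := by
  obtain ⟨z, rfl⟩ := d2_exp (zero_lt_one.trans_le hZ)
  obtain ⟨y, rfl⟩ := d2_exp hY
  rw [Real.one_le_exp_iff] at hZ
  rw [← Real.exp_mul, Real.exp_le_exp] at h3
  have a1 : 1000 * (κ * z) ≤ κ0 * z := by nlinarith
  have a2 : κ0 * z ≤ δ * z / 4 := by nlinarith
  have a6 : 0 ≤ κ * z := by positivity
  simp only [← Real.exp_mul, ← Real.exp_add, ← Real.exp_sub, ← Real.exp_nat_mul, Real.exp_le_exp]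
  push_cast
  refine ⟨?_, ?_, ?_⟩ <;> linarith

theorem d2_bdd {Z c δ : ℝ} (hZ : 0 ≤ Z) (hδ : 0 < δ) (h : Z ^ δ ≤ c) : Z ≤ c ^ δ⁻¹ :=
  (Real.rpow_rpow_inv hZ hδ.ne').symm.trans_le (Real.rpow_le_rpow (by positivity) h (by positivity))

theorem d2_in_sub {S : Finset O} {M : ℝ} (hS : In S M) : S ⊆ sfb (16 * M) := fun n hn =>
  mem_sfb.2 ⟨(hS n hn).1, (hS n hn).2.2⟩

theorem d2_finA {C0 C1 C2 R t u v A F a b c d s1 s2 : ℝ} (hC0 : 0 ≤ C0) (hC1 : 0 ≤ C1) (hC2 : 0 ≤ C2)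
    (hA : 0 ≤ A) (hF : 0 ≤ F) (hu : 0 ≤ u) (hv : 0 ≤ v) (n1 : c * d ≤ 4 * (16 * 16 * u))
    (n3 : R ^ 2 * t * a ≤ u) (n4 : R ^ 3 * t * b ≤ v) (b1 : s1 ≤ C1 * c * d * A)
    (b2 : s2 ≤ 18 * R * (R * (C0 * t * (a * A + b * (81 * R * F))))) :
    s1 + s2 ≤ (C2 + 1024 * C1 + 1458 * C0) * (u * A + v * F) := by
  have b4 := mul_le_mul_of_nonneg_left (mul_le_mul_of_nonneg_right n3 hA) hC0
  have b5 := mul_le_mul_of_nonneg_left (mul_le_mul_of_nonneg_right n4 hF) hC0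
  have b6 := mul_le_mul_of_nonneg_left (mul_le_mul_of_nonneg_right n1 hA) hC1
  have b7 : 0 ≤ C2 * (u * A + v * F) := by positivity
  have b8 : 0 ≤ C1 * (v * F) := by positivity
  have b9 : 0 ≤ C0 * (u * A) := by positivity
  linarith

theorem d2_finB {C0 C1 C2 Z Z0 Y M u v A F κ : ℝ} (hC0 : 0 ≤ C0) (hC1 : 0 ≤ C1) (hC2 : 0 ≤ C2)
    (hA : 0 ≤ A) (hF : 0 ≤ F) (hu : 1 ≤ u) (hv : 0 ≤ v) (hZ : 1 ≤ Z) (hκ : κ ≤ 1) (a1 : Z ≤ Z0)
    (hM : 0 ≤ M) (h1 : Y ≤ Z ^ (1 + κ)) (h2 : M ≤ Z ^ (1 + κ)) :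
    C2 * (Y + (16 * M) ^ 2) * A ≤ (257 * C2 * Z0 ^ 4 + 1024 * C1 + 1458 * C0) * (u * A + v * F) := by
  have a2 : Z ^ (1 + κ) ≤ Z0 ^ 2 := ((Real.rpow_le_rpow_of_exponent_le hZ (by linarith)).trans_eq
    (Real.rpow_two Z)).trans (by gcongr)
  have a3 : Z0 ^ 2 ≤ Z0 ^ 4 := pow_le_pow_right₀ (by linarith) (by norm_num)
  have a4 : M ^ 2 ≤ (Z0 ^ 2) ^ 2 := pow_le_pow_left₀ hM (by linarith) 2
  have a5 : A ≤ u * A + v * F := (le_mul_of_one_le_left hA hu).trans (le_add_of_nonneg_right (by positivity))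
  have a6 : Y + (16 * M) ^ 2 ≤ 257 * Z0 ^ 4 := by linarith
  exact mul_le_mul (by linarith [mul_le_mul_of_nonneg_left a6 hC2]) a5 hA (by positivity)

theorem d2_high {S : Finset O} {M : ℝ} (hS : In S M) (x : O → ℂ) {X Y Q Q' t a b : ℝ} (hX : 0 < X)
    (hY : 0 < Y) (hQ : 0 ≤ Q) (ht : 0 ≤ t) (ha : 0 ≤ a) (hb : 0 ≤ b) (hQ' : Q * (81 * (Y / X)) ≤ Q')
    (h : ∀ (K : ℝ) (x : O → ℂ), X ≤ K → K ≤ Y →
      ∑ k ∈ sfI K (2 * K), ‖cs S x k‖ ^ 2 ≤ t * (a * n2 S x + b * F2 S x M Q)) :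
    ∑ k ∈ (ball Y).filter (fun k => ¬ Low X k), ‖cs S x k‖ ^ 2 ≤
      18 * (Y / X) * (Y / X * (t * (a * n2 S x + b * (81 * (Y / X) * F2 S x M Q')))) := by
  have hR := (div_pos hY hX).le
  have hF := d2_F2_nonneg S x M Q'
  have hΛ : 0 ≤ t * (a * n2 S x + b * (81 * (Y / X) * F2 S x M Q')) :=
    mul_nonneg ht (add_nonneg (mul_nonneg ha (cl_n2 S x)) (mul_nonneg hb (mul_nonneg (by positivity) hF)))
  refine (high_le (Y := Y) hX (fun k => ‖cs S x k‖ ^ 2) fun _ => by positivity).trans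
    ((Finset.sum_le_card_nsmul _ _ _ fun c hc => ?_).trans ((nsmul_eq_mul _ _).trans_le
      (mul_le_mul_of_nonneg_right (card_ball_le hR) (mul_nonneg hR hΛ))))
  obtain ⟨c0, c1⟩ := mem_ball.1 hc
  have c2 := one_le_N c0
  have c3 : Y / N c ≤ Y := div_le_self hY.le c2
  refine (d2_dyad hX (div_nonneg hY.le (N_nonneg c)) hΛ _ (fun _ => sq_nonneg _) fun K K1 K2 => ?_).trans
    (mul_le_mul_of_nonneg_right (div_le_div_of_nonneg_right c3 hX.le) hΛ)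
  have c5 : n2 S (fun n => x n * phr c n) ≤ n2 S x := Finset.sum_le_sum fun n _ => by
    rw [norm_mul]
    exact pow_le_pow_left₀ (mul_nonneg (norm_nonneg _) (norm_nonneg _))
      (mul_le_of_le_one_right (norm_nonneg _) (norm_phr_le _ _)) 2
  have c6 := F2_twist S x M Q (mul_ne_zero (by norm_num) c0) (phr_per c0) (norm_phr_le c)
  rw [N_mul, d2_N9] at c6
  have c7 : F2 S x M (Q * (81 * N c)) ≤ F2 S x M Q' := F2_mono _ _ _
    ((mul_le_mul_of_nonneg_left (by linarith) hQ).trans hQ')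
  refine le_trans (le_of_eq (Finset.sum_congr rfl fun k _ => ?_))
    ((h K (fun n => x n * phr c n) K1 (K2.trans c3)).trans (mul_le_mul_of_nonneg_left (add_le_add
      (mul_le_mul_of_nonneg_left c5 ha) (mul_le_mul_of_nonneg_left (c6.trans (mul_le_mul (by linarith) c7
        (d2_F2_nonneg _ _ _ _) (by linarith))) hb)) ht))
  rw [cs, cs, Finset.sum_congr rfl fun n hn => ?_]
  rw [phr, if_pos (hS n hn).1.1, (rcub_isChar (hS n hn).1.1).mul, mul_assoc]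

/-- `κ₀` from `core (δ/4)`, `κ = min(κ₀, η)/1000`.  `Y < 1`: empty; bounded `Z`: trivial.
`Y ≤ Z^{1-κ₀/2}`: `mls` with `X = Y`.  Otherwise `X = Z^{1-κ₀/2}`, `mls` for `Low X`, and `high_le`,
dyadic pieces, `core` for `x · cub · c = x · phr c` on `S`, `F2_twist` (`c := 9c`). -/
theorem minor (δ η : ℝ) (hδ : 0 < δ) (hη : 0 < η) : ∃ κ C : ℝ, 0 < κ ∧ κ ≤ δ ∧ 0 ≤ C ∧
    ∀ (Z M Y : ℝ) (S : Finset O) (x : O → ℂ), 1 ≤ Z → Z ^ (1 - κ) ≤ M → M ≤ Z ^ (1 + κ) → 0 < Y →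
    Y ≤ Z ^ (1 + κ) → In S M →
    ∑ k ∈ (ball Y).filter (fun k => ¬ Maj (Z ^ η) k), ‖cs S x k‖ ^ 2 ≤
      C * Y ^ (1 / 3 : ℝ) * Z * (Z ^ (-κ) * n2 S x + Z ^ (δ - 1) * F2 S x M (Z ^ δ)) := by
  obtain ⟨κ0, C0, hκ0, hκδ, hC0, hcore⟩ := core (δ / 4) (by positivity)
  obtain ⟨κ, hκ, k1, k2, k3⟩ : ∃ κ : ℝ, 0 < κ ∧ 1000 * κ ≤ κ0 ∧ 1000 * κ ≤ η ∧ 1000 * κ ≤ 1 := by
    refine ⟨min (min κ0 η) 1 / 1000, by positivity, ?_, ?_, ?_⟩ <;> rw [mul_div_cancel₀ _ (by norm_num)]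
    exacts [(min_le_left _ _).trans (min_le_left _ _), (min_le_left _ _).trans (min_le_right _ _),
      min_le_right _ _]
  obtain ⟨C1, hC1, hm⟩ := mls (κ / 4) (by positivity)
  obtain ⟨C2, hC2, hl⟩ := ls1
  refine ⟨κ, 257 * C2 * ((81 : ℝ) ^ (δ / 2)⁻¹) ^ 4 + 1024 * C1 + 1458 * C0, hκ, by linarith, by positivity,
    fun Z M Y S x hZ hM1 hM2 hY0 hY2 hS => ?_⟩
  have hZp : 0 < Z := by linarith
  have hu0 : 0 ≤ Y ^ (1 / 3 : ℝ) * Z * Z ^ (-κ) := by positivity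
  have hv0 : 0 ≤ Y ^ (1 / 3 : ℝ) * Z * Z ^ (δ - 1) := by positivity
  have hC : 0 ≤ 257 * C2 * ((81 : ℝ) ^ (δ / 2)⁻¹) ^ 4 := by positivity
  have hA := cl_n2 S x
  have hF := d2_F2_nonneg S x M (Z ^ δ)
  rw [show ∀ C : ℝ, C * Y ^ (1 / 3 : ℝ) * Z * (Z ^ (-κ) * n2 S x + Z ^ (δ - 1) * F2 S x M (Z ^ δ)) =
    C * (Y ^ (1 / 3 : ℝ) * Z * Z ^ (-κ) * n2 S x + Y ^ (1 / 3 : ℝ) * Z * Z ^ (δ - 1) * F2 S x M (Z ^ δ))
    from fun C => by ring]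
  rcases lt_or_ge Y 1 with hY | hY
  · rw [ball_eq_empty hY, Finset.filter_empty, Finset.sum_empty]
    exact mul_nonneg (by linarith) (add_nonneg (mul_nonneg hu0 hA) (mul_nonneg hv0 hF))
  have hM : 1 ≤ M := (Real.one_le_rpow hZ (by linarith)).trans hM1
  rcases le_total (Z ^ (δ / 2)) 81 with h81 | h81
  · refine ((cl_rows (Finset.filter_subset _ _) _).trans (hl (16 * M) Y S x (by linarith) hY0.le
      (d2_in_sub hS))).trans (d2_finB hC0 hC1 hC2 hA hF ?_ hv0 hZ (by linarith)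
        (d2_bdd hZp.le (half_pos hδ) h81) (by linarith) hY2 hM2)
    rw [mul_assoc, ← Real.rpow_one_add' hZp.le (by linarith)]
    exact one_le_mul_of_one_le_of_one_le (Real.one_le_rpow hY (by norm_num))
      (Real.one_le_rpow hZ (by linarith))
  have hX1 : 1 ≤ Z ^ (1 - 250 * κ) := Real.one_le_rpow hZ (by linarith)
  obtain ⟨n2', n3, n4⟩ := d2_numB hZ hY0 hκ k1 hκδ hY2
  have e1 : ∀ a b : ℝ, a ≤ b → Z ^ a ≤ Z ^ b := fun a b => Real.rpow_le_rpow_of_exponent_le hZ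
  have e2 := fun a => (Real.rpow_pos_of_pos hZp a).le
  refine (d2_split _ _ (fun k => ¬ Maj (Z ^ η) k ∧ Low (Z ^ (1 - 250 * κ)) k)
    (fun k => ¬ Low (Z ^ (1 - 250 * κ)) k) (fun k => by tauto) _ fun _ => sq_nonneg _).trans
    (d2_finA hC0 hC1 hC hA hF hu0 hv0 (d2_numA hZ hY (by linarith) hκ k3 k2 hY2 hM2) n3 n4
      (hm Y (16 * M) _ _ S x hY (by linarith) (Real.one_le_rpow hZ hη.le) hX1 (d2_in_sub hS))
      (d2_high hS x (by linarith) hY0 (e2 (δ / 4)) (mul_nonneg hC0 (e2 _)) (e2 _) (e2 _) ?_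
        fun K x K1 K2 => hcore Z K M S x hZ ((e1 _ _ (by linarith)).trans K1)
          (K2.trans (hY2.trans (e1 _ _ (by linarith)))) ((e1 _ _ (by linarith)).trans hM1)
          (hM2.trans (e1 _ _ (by linarith))) hS))
  refine (mul_le_mul_of_nonneg_left (mul_le_mul h81 n2' (div_nonneg hY0.le (e2 _)) (e2 _)) (e2 _)).trans_eq ?_
  rw [← Real.rpow_add hZp, ← Real.rpow_add hZp]
  congr 1
  ring

theorem d2_numC {B K G h ρ P κ : ℝ} (hB : 1 ≤ B) (hK : 0 < K) (hG : 1 ≤ G) (hh : G ≤ h) (hρ : 0 < ρ)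
    (p1 : ρ ^ (1 / 3 : ℝ) ≤ P) (p2 : ρ ^ 2 ≤ P) (hκ : 0 < κ) (k1 : κ ≤ 1 / 10)
    (h1 : K ≤ B ^ (1 + κ / 100)) (h2 : B ^ κ ≤ h ∨ B ^ (κ / 2) ≤ ρ) :
    G * ((16 * (B / h)) ^ (κ / 100) * ((ρ * (K / G ^ 2)) ^ (1 / 3 : ℝ) * (16 * (B / h)) +
      (ρ * (K / G ^ 2)) ^ (1 : ℝ) + (ρ * (K / G ^ 2) * (16 * (B / h))) ^ (2 / 3 : ℝ))) ≤
      3 * (16 * 16 * (K ^ (1 / 3 : ℝ) * P * B * B ^ (-(κ / 100)))) := by
  obtain ⟨p, rfl⟩ := d2_exp ((pow_pos hρ 2).trans_le p2)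
  obtain ⟨b, rfl⟩ := d2_exp (zero_lt_one.trans_le hB)
  obtain ⟨η, rfl⟩ := d2_exp (zero_lt_one.trans_le (hG.trans hh))
  obtain ⟨g, rfl⟩ := d2_exp (zero_lt_one.trans_le hG)
  obtain ⟨k, rfl⟩ := d2_exp hK
  obtain ⟨r, rfl⟩ := d2_exp hρ
  obtain ⟨l, hl, e⟩ := d2_exp16
  rw [Real.one_le_exp_iff] at hB hG
  simp only [← Real.exp_mul, ← Real.exp_nat_mul, Real.exp_le_exp] at hh p1 p2 h1 h2
  push_cast at p2
  have a1 : κ * b ≤ b / 10 := by nlinarith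
  have a2 : 0 ≤ κ * η := by nlinarith
  have a4 : κ * l ≤ l := by nlinarith
  have a6 : 0 ≤ κ * b := by positivity
  rw [← e, show ∀ t : ℝ, 3 * t = t + t + t from fun t => by ring, mul_add, mul_add, mul_add, mul_add]
  simp only [← Real.exp_mul, ← Real.exp_add, ← Real.exp_sub, ← Real.exp_nat_mul]
  push_cast
  rcases h2 with h2 | h2 <;> refine add_le_add_three ?_ ?_ ?_ <;> exact Real.exp_le_exp.2 (by linarith)

theorem d2_numD {B K G h ρ P κ δ H : ℝ} (hB : 1 ≤ B) (hK : 0 < K) (hG : 1 ≤ G) (hh : G ≤ h) (hρ : 0 < ρ)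
    (p1 : ρ ^ (1 / 3 : ℝ) ≤ P) (hκ : 0 < κ) (k1 : κ ≤ δ) (k2 : δ ≤ 1 / 10) (hH : 1 ≤ H)
    (h1 : K ≤ B ^ (1 + κ / 100)) (h2 : h ≤ B ^ κ) (h3 : ρ ≤ B ^ (κ / 2)) :
    ρ * (K / G ^ 2) ≤ B ^ (1 + κ) ∧ B ^ (1 - κ) ≤ B / h ∧ B / h ≤ B ^ (1 + κ) ∧
    G * (ρ * (K / G ^ 2)) ^ (1 / 3 : ℝ) * B * B ^ (-κ) ≤ K ^ (1 / 3 : ℝ) * P * B * B ^ (-(κ / 100)) ∧
    G * (ρ * (K / G ^ 2)) ^ (1 / 3 : ℝ) * B * B ^ (δ - 1) ≤ K ^ (1 / 3 : ℝ) * P * B ^ (2 * δ) ∧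
    G * (ρ * (K / G ^ 2)) ^ (1 / 3 : ℝ) * (B / h) * H ^ (-(1 / 3 : ℝ)) ≤
      K ^ (1 / 3 : ℝ) * P * B * H ^ (-(1 / 3 : ℝ)) ∧
    G * (ρ * (K / G ^ 2)) ^ (1 / 3 : ℝ) * (B ^ (1 / 100 : ℝ)) ^ (5 / 3 : ℝ) ≤
      K ^ (1 / 3 : ℝ) * P * B * B ^ (-(κ / 100)) ∧
    (H ≤ h → G * (ρ * (K / G ^ 2)) ^ (1 / 3 : ℝ) * (B / h) ≤
      K ^ (1 / 3 : ℝ) * P * B * H ^ (-(1 / 3 : ℝ))) ∧
    (h ≤ H → G * (ρ * (K / G ^ 2)) ^ (1 / 3 : ℝ) * H ^ (4 / 3 : ℝ) ≤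
      K ^ (1 / 3 : ℝ) * P * H ^ (5 / 3 : ℝ)) ∧
    H / H ^ (4 / 3 : ℝ) = H ^ (-(1 / 3 : ℝ)) := by
  obtain ⟨p, rfl⟩ := d2_exp ((Real.rpow_pos_of_pos hρ _).trans_le p1)
  obtain ⟨b, rfl⟩ := d2_exp (zero_lt_one.trans_le hB)
  obtain ⟨η, rfl⟩ := d2_exp (zero_lt_one.trans_le (hG.trans hh))
  obtain ⟨g, rfl⟩ := d2_exp (zero_lt_one.trans_le hG)
  obtain ⟨k, rfl⟩ := d2_exp hK
  obtain ⟨r, rfl⟩ := d2_exp hρ
  obtain ⟨t, rfl⟩ := d2_exp (zero_lt_one.trans_le hH)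
  rw [Real.one_le_exp_iff] at hB hG hH
  simp only [← Real.exp_mul, Real.exp_le_exp] at hh p1 h1 h2 h3
  have a1 : κ * b ≤ δ * b := by nlinarith
  have a2 : δ * b ≤ b / 10 := by nlinarith
  have a6 : 0 ≤ κ * b := by positivity
  simp only [← Real.exp_mul, ← Real.exp_add, ← Real.exp_sub, ← Real.exp_nat_mul, Real.exp_le_exp,
    Real.exp_eq_exp]
  push_cast
  refine ⟨?_, ?_, ?_, ?_, ?_, ?_, ?_, fun _ => ?_, fun _ => ?_, ?_⟩ <;> linarith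

theorem d2_finC {Cm Cd Cb Co Ca G y M B b1 b2 q u v g1 g2 a A F G2 e s1 s2 s3 W1 W2 W3 : ℝ} (hm : 0 ≤ Cm)
    (hd : 0 ≤ Cd) (hb : 0 ≤ Cb) (ho : 0 ≤ Co) (ha : 0 ≤ Ca) (hG : 0 ≤ G) (a0 : 0 ≤ a) (a1 : a ≤ A)
    (F0 : 0 ≤ F) (F1 : F ≤ G2) (g0 : 0 ≤ g1) (w1 : 0 ≤ W1) (w2 : 0 ≤ W2) (w3 : 0 ≤ W3)
    (eu : u = W1 * A) (ev : v = W2 * A) (eg : g2 = W3 * G2)
    (h1 : G * s1 ≤ Cb * g1 + 16 * (Cb + Co) * u) (h2 : s2 ≤ Cd * y * (16 * M * e + q) * a)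
    (h3 : s3 ≤ Cm * y * B * (b1 * a + b2 * F)) (n1 : G * y * B * b1 ≤ W2) (n2 : G * y * B * b2 ≤ W3)
    (n3 : G * y * M * e ≤ W1) (n4 : G * y * q ≤ W2) :
    G * (s1 + s2 + s3) ≤ (Ca + Cm + 16 * Cd + 16 * Cb + 16 * Co) * (u + v + g1 + g2) := by
  have c1 : W1 * a ≤ u := eu ▸ mul_le_mul_of_nonneg_left a1 w1
  have c2 : W2 * a ≤ v := ev ▸ mul_le_mul_of_nonneg_left a1 w2
  have c3 : W3 * F ≤ g2 := eg ▸ mul_le_mul_of_nonneg_left F1 w3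
  have u0 : 0 ≤ u := (mul_nonneg w1 a0).trans c1
  have v0 : 0 ≤ v := (mul_nonneg w2 a0).trans c2
  have g20 : 0 ≤ g2 := (mul_nonneg w3 F0).trans c3
  have d1 := mul_le_mul_of_nonneg_left ((mul_le_mul_of_nonneg_right n1 a0).trans c2) hm
  have d2 := mul_le_mul_of_nonneg_left ((mul_le_mul_of_nonneg_right n2 F0).trans c3) hm
  have d3 := mul_le_mul_of_nonneg_left ((mul_le_mul_of_nonneg_right n3 a0).trans c1) hd
  have d4 := mul_le_mul_of_nonneg_left ((mul_le_mul_of_nonneg_right n4 a0).trans c2) hd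
  have d5 := mul_le_mul_of_nonneg_left h2 hG
  have d6 := mul_le_mul_of_nonneg_left h3 hG
  have e1 : 0 ≤ Ca * (u + v + g1 + g2) := by positivity
  have e2 : 0 ≤ Cm * (u + g1) := by positivity
  have e3 : 0 ≤ Cd * (15 * v + 16 * g1 + 16 * g2) := by positivity
  have e4 : 0 ≤ Cb * (16 * v + 15 * g1 + 16 * g2) := by positivity
  have e5 : 0 ≤ Co * (v + g1 + g2) := by positivity
  linarith

theorem d2_point (δ : ℝ) (hδ : 0 < δ) (hδ1 : δ ≤ 1 / 10) : ∃ κ C : ℝ, 0 < κ ∧ κ ≤ δ ∧ 0 ≤ C ∧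
    ∀ (S : Finset O) (y : O → ℂ) (B K H G h ρ A G1 G2 : ℝ), 1 ≤ B → 0 < K → K ≤ B ^ (1 + κ / 100) →
    1 ≤ H → 1 ≤ G → G ≤ h → h ≤ 16 * B → In S (B / h) → 0 < ρ → ∑ n ∈ S, ‖y n‖ ^ 2 * dv n ≤ A →
    0 ≤ G1 → 0 ≤ G2 → (h ≤ H → ∑ k0 ∈ ball H, ∑ d ∈ sfb (H ^ (4 / 3 : ℝ)),
      ‖∑ n ∈ S.filter (fun n => d ∣ n), y n * cub n k0‖ ^ 2 ≤ G1) →
    (h ≤ B ^ κ → F2 S y (B / h) (B ^ δ) ≤ G2) →
    G * ∑ k ∈ ball (ρ * (K / G ^ 2)), ‖cs S y k‖ ^ 2 ≤ C * (K ^ (1 / 3 : ℝ) * (ρ ^ (1 / 3 : ℝ) + ρ ^ 2) *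
      (B * (H ^ (-(1 / 3 : ℝ)) + B ^ (-(κ / 100))) * A + H ^ (5 / 3 : ℝ) * G1 + B ^ (2 * δ) * G2)) := by
  obtain ⟨κ, Cm, hκ, hκδ, hCm, hm⟩ := minor δ (1 / 100) hδ (by norm_num)
  obtain ⟨Ca, hCa, ha⟩ := cl_all le_rfl (by norm_num)
    (fun ε hε => by simpa only [Real.rpow_one] using cls ε hε) (κ / 100) (by positivity)
  obtain ⟨Co, hCo, ho⟩ := maj_one
  obtain ⟨Cb, hCb, hb⟩ := maj_bound
  obtain ⟨Cd, hCd, hd⟩ := mid_bound
  refine ⟨κ, 768 * Ca + Cm + 16 * Cd + 16 * Cb + 16 * Co, hκ, hκδ, by positivity,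
    fun S y B K H G h ρ A G1 G2 hB hK hK1 hH hG hh hh1 hS hρ hA g1 g2 hG1 hG2 => ?_⟩
  obtain ⟨P, hP⟩ : ∃ P, P = ρ ^ (1 / 3 : ℝ) + ρ ^ 2 := ⟨_, rfl⟩
  have p1 : ρ ^ (1 / 3 : ℝ) ≤ P := hP ▸ le_add_of_nonneg_right (sq_nonneg _)
  have p2 : ρ ^ 2 ≤ P := hP ▸ le_add_of_nonneg_left (Real.rpow_nonneg hρ.le _)
  have hP0 : 0 ≤ P := (sq_nonneg _).trans p2
  have hB0 : 0 < B := by linarith
  have hH0 : 0 < H := by linarith
  have hG0 : 0 < G := by linarith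
  have hh0 : 0 < h := by linarith
  have hY : 0 < ρ * (K / G ^ 2) := by positivity
  have w1 : 0 ≤ K ^ (1 / 3 : ℝ) * P * B * H ^ (-(1 / 3 : ℝ)) := by positivity
  have w2 : 0 ≤ K ^ (1 / 3 : ℝ) * P * B * B ^ (-(κ / 100)) := by positivity
  have w3 : 0 ≤ K ^ (1 / 3 : ℝ) * P * B ^ (2 * δ) := by positivity
  have w4 : 0 ≤ K ^ (1 / 3 : ℝ) * P * H ^ (5 / 3 : ℝ) * G1 := by positivity
  have w5 : 0 ≤ G * (ρ * (K / G ^ 2)) ^ (1 / 3 : ℝ) * H ^ (4 / 3 : ℝ) := by positivity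
  have hC : 0 ≤ Cm + 16 * Cd + 16 * Cb + 16 * Co := by positivity
  have hM : 1 ≤ 16 * (B / h) := by rw [← mul_div_assoc, one_le_div hh0]; exact hh1
  have hsub := d2_in_sub hS
  have a0 := cl_n2 S y
  have a1 : n2 S y ≤ A := le_trans (Finset.sum_le_sum fun n hn =>
    le_mul_of_one_le_right (sq_nonneg _) (one_le_dv (hS n hn).1.1.ne_zero)) hA
  have a2 := mul_nonneg w1 (a0.trans a1)
  have a3 := mul_nonneg w2 (a0.trans a1)
  have a4 := mul_nonneg w3 g2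
  rw [← hP, show K ^ (1 / 3 : ℝ) * P * (B * (H ^ (-(1 / 3 : ℝ)) + B ^ (-(κ / 100))) * A +
    H ^ (5 / 3 : ℝ) * G1 + B ^ (2 * δ) * G2) = K ^ (1 / 3 : ℝ) * P * B * H ^ (-(1 / 3 : ℝ)) * A +
      K ^ (1 / 3 : ℝ) * P * B * B ^ (-(κ / 100)) * A + K ^ (1 / 3 : ℝ) * P * H ^ (5 / 3 : ℝ) * G1 +
      K ^ (1 / 3 : ℝ) * P * B ^ (2 * δ) * G2 by ring]
  by_cases hc : B ^ κ ≤ h ∨ B ^ (κ / 2) ≤ ρ
  · have b1 := mul_le_mul_of_nonneg_left (mul_le_mul (d2_numC hB hK hG hh hρ p1 p2 hκ (by linarith) hK1 hc)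
      a1 a0 (by linarith)) hCa
    have b2 := mul_le_mul_of_nonneg_left (ha _ _ S y hY hM hsub) hG0.le
    refine le_trans (b := 768 * Ca * (K ^ (1 / 3 : ℝ) * P * B * B ^ (-(κ / 100)) * A)) (by linarith) ?_
    exact mul_le_mul (by linarith) (by linarith) a3 (by linarith)
  rw [not_or, not_le, not_le] at hc
  obtain ⟨n1, n2', n3, n4, n5, n6, n7, n8, n9, n10⟩ :=
    d2_numD hB hK hG hh hρ p1 hκ hκδ hδ1 hH hK1 hc.1.le hc.2.le
  have b1 := hm B (B / h) _ S y hB n2' n3 hY n1 hS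
  have hQ : 0 ≤ B ^ (1 / 100 : ℝ) := Real.rpow_nonneg hB0.le _
  have sp : ∀ H' : ℝ, G * ∑ k ∈ ball (ρ * (K / G ^ 2)), ‖cs S y k‖ ^ 2 ≤
      G * (∑ k ∈ (ball (ρ * (K / G ^ 2))).filter (Maj H'), ‖cs S y k‖ ^ 2 +
        ∑ k ∈ (ball (ρ * (K / G ^ 2))).filter (fun k => ¬ Maj H' k ∧ Maj (B ^ (1 / 100 : ℝ)) k),
          ‖cs S y k‖ ^ 2 +
        ∑ k ∈ (ball (ρ * (K / G ^ 2))).filter (fun k => ¬ Maj (B ^ (1 / 100 : ℝ)) k), ‖cs S y k‖ ^ 2) :=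
    fun H' => by
      refine mul_le_mul_of_nonneg_left ?_ hG0.le
      rw [add_assoc, ← Finset.sum_filter_add_sum_filter_not _ (Maj H')]
      exact add_le_add le_rfl (d2_split _ _ _ _ (fun k => by tauto) _ fun _ => sq_nonneg _)
  rcases le_total h H with hc' | hc'
  · refine (sp H).trans (d2_finC hCm hCd hCb hCo (by linarith) hG0.le a0 a1 (d2_F2_nonneg _ _ _ _)
      (hG2 hc.1.le) w4 w1 w2 w3 rfl rfl rfl ?_ (hd _ _ H _ S y hM hY.le hH hQ hsub) b1 n4 n5 n6 n7)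
    have c1 := mul_le_mul_of_nonneg_left (hb _ _ H _ S y (by linarith) hY.le hH
      (Real.one_le_rpow hH (by norm_num : (0 : ℝ) ≤ 4 / 3)) hsub) hG0.le
    rw [mul_div_right_comm, n10] at c1
    have c2 := mul_le_mul_of_nonneg_left ((mul_le_mul_of_nonneg_left (hG1 hc') w5).trans
      (mul_le_mul_of_nonneg_right (n9 hc') g1)) hCb
    have c3 := mul_le_mul_of_nonneg_left (mul_le_mul n6 hA (Finset.sum_nonneg fun n _ =>
      mul_nonneg (sq_nonneg _) (bb_dv_nonneg n)) w1) hCb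
    have c4 := mul_nonneg hCo a2
    linarith
  · refine (sp 1).trans (d2_finC hCm hCd hCb hCo (by linarith) hG0.le a0 a1 (d2_F2_nonneg _ _ _ _)
      (hG2 hc.1.le) w4 w1 w2 w3 rfl rfl rfl ?_ (hd _ _ 1 _ S y hM hY.le le_rfl hQ hsub) b1 n4 n5
      (by rw [Real.one_rpow, mul_one]; exact n8 hc') n7)
    have c1 := mul_le_mul_of_nonneg_left (ho _ _ S y (by linarith) hY.le hsub) hG0.le
    have c2 := mul_le_mul_of_nonneg_left (mul_le_mul (n8 hc') a1 a0 w1) hCo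
    have c3 := mul_nonneg hCb a2
    have c4 := mul_nonneg hCb w4
    linarith

theorem d2_norm_pw {B : ℝ} (hB : 0 < B) {b : O} (h1 : B ≤ N b) (h2 : N b ≤ 16 * B) {s : ℂ} (hs : s.re ≤ 2) :
    ‖pw B b s‖ ≤ 16 ^ 2 := by
  rw [pw, Complex.norm_cpow_eq_rpow_re_of_pos (div_pos (by linarith) hB)]
  refine (Real.rpow_le_rpow_of_exponent_le ((one_le_div hB).2 h1) hs).trans ?_
  rw [Real.rpow_two]
  exact pow_le_pow_left₀ (div_pos (by linarith) hB).le ((div_le_iff₀ hB).2 h2) 2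

theorem d2_n2y {S : Finset O} {B : ℝ} (hB : 0 < B) (hS : In S B) (γ : O → ℂ) {h : O} (hh : Prim h) (κ : O)
    {s : ℂ} (hs : s.re ≤ 2) :
    ∑ n ∈ Sdiv S h, ‖γ (h * n) * pw B (h * n) s * cub n κ‖ ^ 2 * dv n ≤
      16 ^ 4 * ∑ b ∈ S.filter (fun b => h ∣ b), ‖γ b‖ ^ 2 * dv b := by
  rw [← d2_sum_Sdiv hh.ne_zero (fun _ => True) (fun b => h ∣ b) (fun _ e => e) (by simp),
    Finset.filter_true, Finset.mul_sum]
  refine Finset.sum_le_sum fun n hn => ?_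
  obtain ⟨a1, a2, a3⟩ := hS _ ((d2_mem_Sdiv hh.ne_zero).1 hn)
  have a4 := d2_norm_pw hB a2 a3 hs
  have a5 := cl_cub_le (d2_sf_split hh a1).2.1.1 κ
  have a6 := dv_le_of_dvd a1.1.ne_zero (dvd_mul_left n h)
  have a7 := bb_dv_nonneg n
  rw [norm_mul, norm_mul]
  calc _ ≤ (‖γ (h * n)‖ * 16 ^ 2 * 1) ^ 2 * dv (h * n) := by gcongr
    _ = _ := by ring

theorem d2_maj {S : Finset O} (hS : ∀ b ∈ S, SF b) (γ : O → ℂ) (B : ℝ) {H : ℝ} (hH : 1 ≤ H) {h κ : O}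
    (hh : Prim h) (hκ : κ ≠ 0) (h1 : N h ≤ H) (h2 : N κ ≤ 9 * H ^ 2) (s : ℂ) :
    ∑ k0 ∈ ball H, ∑ d ∈ sfb (H ^ (4 / 3 : ℝ)), ‖∑ n ∈ (Sdiv S h).filter (fun n => d ∣ n),
      γ (h * n) * pw B (h * n) s * cub n κ * cub n k0‖ ^ 2 ≤
      ∑ h' ∈ sfb (9 * H ^ 3), ∑ k ∈ ball (9 * H ^ 3), ‖fam1 S γ B h' k s‖ ^ 2 := by
  have h0 := hh.ne_zero
  have hs := fun n hn => d2_sf_split hh (hS _ ((d2_mem_Sdiv (S := S) (n := n) h0).1 hn))
  rw [Finset.sum_comm, ← Finset.sum_filter_of_ne (p := fun d => SF (h * d)) fun d hd hne => by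
    obtain ⟨k0, -, a1⟩ := Finset.exists_ne_zero_of_sum_ne_zero hne
    obtain ⟨n, hn, -⟩ := Finset.exists_ne_zero_of_sum_ne_zero (norm_ne_zero_iff.1 (pow_ne_zero_iff
      two_ne_zero |>.1 a1))
    obtain ⟨a2, a3⟩ := Finset.mem_filter.1 hn
    exact (hS _ ((d2_mem_Sdiv h0).1 a2)).of_dvd (hh.mul (mem_sfb.1 hd).1.1) (mul_dvd_mul_left h a3)]
  refine le_trans (Finset.sum_le_sum fun d hd => ?_) (d2_inj _ _ (fun d => h * d)
    (fun h' => ∑ k ∈ ball (9 * H ^ 3), ‖fam1 S γ B h' k s‖ ^ 2)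
    (fun _ => Finset.sum_nonneg fun _ _ => sq_nonneg _)
    (fun a _ b _ e => mul_left_cancel₀ h0 e) fun d hd => ?_)
  · have hd' := (mem_sfb.1 (Finset.mem_filter.1 hd).1).1.1
    refine le_trans (Finset.sum_le_sum fun k _ => ?_) (d2_inj _ _ (fun k => k * κ)
      (fun k => ‖fam1 S γ B (h * d) k s‖ ^ 2) (fun _ => sq_nonneg _)
      (fun a _ b _ e => mul_right_cancel₀ hκ e) fun k hk => ?_)
    · refine pow_le_pow_left₀ (norm_nonneg _) (le_trans (le_of_eq ?_) (mul_le_of_le_one_left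
        (norm_nonneg _) (cl_cub_le hd' (k * κ)))) 2
      rw [← norm_mul, fam1, Finset.mul_sum, ← d2_sum_Sdiv h0 (fun n => d ∣ n) (fun b => h * d ∣ b)
        (fun b => dvd_of_mul_right_dvd) (fun n => mul_dvd_mul_iff_left h0), Finset.sum_congr rfl fun n hn => ?_]
      obtain ⟨a1, m, rfl⟩ := Finset.mem_filter.1 hn
      have a2 := (hs _ a1).2.1.1
      rw [← mul_assoc h d m, mul_div_cancel_left₀ _ (hh.mul hd').ne_zero, mul_assoc _ (cub _ κ),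
        ← (rcub_isChar a2).mul, mul_comm κ, rkub_mul_left hd' (a2.of_mul_left hd')]
      ring
    · obtain ⟨a1, a2⟩ := mem_ball.1 hk
      refine mem_ball.2 ⟨mul_ne_zero a1 hκ, ?_⟩
      rw [N_mul]
      exact (mul_le_mul a2 h2 (N_nonneg _) (by linarith)).trans_eq (by ring)
  · obtain ⟨a1, a2⟩ := Finset.mem_filter.1 hd
    refine mem_sfb.2 ⟨a2, ?_⟩
    have a3 := (mem_sfb.1 a1).2.trans ((Real.rpow_le_rpow_of_exponent_le hH (by norm_num)).trans_eq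
      (Real.rpow_two H))
    rw [N_mul]
    refine (mul_le_mul h1 a3 (N_nonneg _) (by linarith)).trans ?_
    have : 0 ≤ H ^ 3 := by positivity
    linarith

theorem d2_int {T : Finset O} {B : ℝ} (hB : 0 < B) (hT : ∀ b ∈ T, b ≠ 0) (w : O → ℂ) (σ : ℝ) :
    Integrable (fun τ : ℝ => mT 1 τ * ‖∑ b ∈ T, w b * pw B b (σ + τ * Complex.I)‖ ^ 2) := by
  refine (integrable_mT one_pos).mul_bdd (c := (∑ b ∈ T, ‖w b‖ * (N b / B) ^ σ) ^ 2)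
    (Continuous.aestronglyMeasurable ?_) (ae_of_all _ fun τ => ?_)
  · refine (continuous_finsetSum _ fun b hb => continuous_const.mul ?_).norm.pow 2
    exact Continuous.const_cpow (by fun_prop)
      (Or.inl (Complex.ofReal_ne_zero.2 (div_pos (N_pos (hT b hb)) hB).ne'))
  · rw [norm_pow, norm_norm]
    refine pow_le_pow_left₀ (norm_nonneg _) ((norm_sum_le _ _).trans_eq
      (Finset.sum_congr rfl fun b hb => ?_)) 2
    rw [norm_mul, pw, Complex.norm_cpow_eq_rpow_re_of_pos (div_pos (N_pos (hT b hb)) hB)]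
    simp

theorem d2_int3 (I : Finset O) (J : O → Finset O) (f : O → O → ℂ → ℂ)
    (hf : ∀ a b (σ : ℝ), Integrable (fun τ : ℝ => mT 1 τ * ‖f a b (σ + τ * Complex.I)‖ ^ 2)) :
    ∃ Φ : ℝ → ℝ, (∀ τ, 0 ≤ Φ τ) ∧ Integrable (fun τ => mT 1 τ * Φ τ) ∧
      ∫ τ, mT 1 τ * Φ τ = ∑ a ∈ I, ∑ b ∈ J a, ∑ σ ∈ Sg,
        ∫ τ : ℝ, mT 1 τ * ‖f a b (σ + τ * Complex.I)‖ ^ 2 ∧
      ∀ σ ∈ Sg, ∀ τ : ℝ, ∑ a ∈ I, ∑ b ∈ J a, ‖f a b (σ + (-τ : ℝ) * Complex.I)‖ ^ 2 ≤ Φ τ := by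
  have hf' : ∀ a b (σ : ℝ), Integrable (fun τ : ℝ =>
      mT 1 τ * ‖f a b (σ + (-τ : ℝ) * Complex.I)‖ ^ 2) := fun a b σ => by
    simpa only [ps_mT_neg] using (hf a b σ).comp_neg
  refine ⟨fun τ => ∑ a ∈ I, ∑ b ∈ J a, ∑ σ ∈ Sg, ‖f a b (σ + (-τ : ℝ) * Complex.I)‖ ^ 2,
    fun τ => Finset.sum_nonneg fun _ _ => Finset.sum_nonneg fun _ _ => Finset.sum_nonneg fun _ _ => sq_nonneg _,
    ?_, ?_, fun σ hσ τ => Finset.sum_le_sum fun a _ => Finset.sum_le_sum fun b _ =>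
      Finset.single_le_sum (f := fun σ : ℝ => ‖f a b (σ + (-τ : ℝ) * Complex.I)‖ ^ 2)
        (fun _ _ => sq_nonneg _) hσ⟩
  · simp only [Finset.mul_sum]
    exact integrable_finsetSum _ fun a _ => integrable_finsetSum _ fun b _ =>
      integrable_finsetSum _ fun σ _ => hf' a b σ
  · simp only [Finset.mul_sum]
    rw [integral_finsetSum _ fun a _ => integrable_finsetSum _ fun b _ =>
      integrable_finsetSum _ fun σ _ => hf' a b σ]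
    refine Finset.sum_congr rfl fun a _ => ?_
    rw [integral_finsetSum _ fun b _ => integrable_finsetSum _ fun σ _ => hf' a b σ]
    refine Finset.sum_congr rfl fun b _ => ?_
    rw [integral_finsetSum _ fun σ _ => hf' a b σ]
    refine Finset.sum_congr rfl fun σ _ => ?_
    simpa only [ps_mT_neg] using
      integral_neg_eq_self (fun τ : ℝ => mT 1 τ * ‖f a b (σ + τ * Complex.I)‖ ^ 2) volume

theorem d2_count (X : ℝ) {H : ℝ} (hH : 0 ≤ H) :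
    ∑ g ∈ sfb X, ∑ r ∈ sfb X, (if N (g * r) ≤ H then (1 : ℝ) else 0) ≤ 324 * H ^ 2 := by
  have h1 : ∑ g ∈ sfb X, (if N g ≤ H then (1 : ℝ) else 0) ≤ 18 * H := by
    rw [Finset.sum_boole]
    refine le_trans (Nat.cast_le.2 (Finset.card_le_card fun g hg => ?_)) (card_ball_le hH)
    exact mem_ball.2 ⟨(mem_sfb.1 (Finset.mem_filter.1 hg).1).1.1.ne_zero, (Finset.mem_filter.1 hg).2⟩
  calc _ ≤ ∑ g ∈ sfb X, ∑ r ∈ sfb X, (if N g ≤ H then (1 : ℝ) else 0) * (if N r ≤ H then (1 : ℝ) else 0) :=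
        Finset.sum_le_sum fun g hg => Finset.sum_le_sum fun r hr => by
          have a1 := one_le_N (mem_sfb.1 hg).1.1.ne_zero
          have a2 := one_le_N (mem_sfb.1 hr).1.1.ne_zero
          by_cases a3 : N (g * r) ≤ H
          · rw [if_pos a3, if_pos, if_pos, mul_one] <;> rw [N_mul] at a3 <;> nlinarith
          · rw [if_neg a3]
            positivity
    _ ≤ 18 * H * (18 * H) := by
        rw [← Finset.sum_mul_sum]
        exact mul_self_le_mul_self (Finset.sum_nonneg fun _ _ => by positivity) h1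
    _ = _ := by ring

theorem d2_numE {B D H κ δ' δ : ℝ} (hB : 1 ≤ B) (hH : 1 ≤ H) (hκ : 0 < κ) (k1 : κ ≤ δ') (k2 : 10 * δ' ≤ δ)
    (k3 : 10 * δ' ≤ 1) (h1 : B ^ (1 - κ / 100) ≤ D) (h2 : D ≤ B ^ (8 / 5 : ℝ)) :
    1 ≤ D ∧ B ^ 2 / D ≤ B ^ (1 + κ / 100) ∧ D ≤ (D * B) ^ (2 / 3 : ℝ) * B ^ (-(κ / 100)) ∧
    D * B ≤ B ^ 2 * ((D * B) ^ (2 / 3 : ℝ) * B ^ (-(κ / 100))) ∧
    D / B * (B ^ 2 / D) ^ (1 / 3 : ℝ) = (D * B) ^ (2 / 3 : ℝ) / B ∧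
    H ^ (5 / 3 : ℝ) * H ^ 2 ≤ H ^ 4 ∧ B ^ (2 * δ') * B ^ κ * (B ^ κ) ^ 2 ≤ B ^ δ ∧
    B ^ (δ / 2) * B ^ δ' * (B ^ κ) ^ 2 ≤ B ^ δ := by
  obtain ⟨d, rfl⟩ := d2_exp ((Real.rpow_pos_of_pos (zero_lt_one.trans_le hB) _).trans_le h1)
  obtain ⟨b, rfl⟩ := d2_exp (zero_lt_one.trans_le hB)
  obtain ⟨t, rfl⟩ := d2_exp (zero_lt_one.trans_le hH)
  rw [Real.one_le_exp_iff] at hB hH
  simp only [← Real.exp_mul, Real.exp_le_exp] at h1 h2
  have a1 : κ * b ≤ δ' * b := by nlinarith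
  have a2 : δ' * b ≤ b / 10 := by nlinarith
  have a3 : 10 * (δ' * b) ≤ δ * b := by nlinarith
  have a6 : 0 ≤ κ * b := by positivity
  simp only [← Real.exp_mul, ← Real.exp_add, ← Real.exp_sub, ← Real.exp_nat_mul, Real.exp_le_exp,
    Real.exp_eq_exp, Real.one_le_exp_iff]
  push_cast
  refine ⟨?_, ?_, ?_, ?_, ?_, ?_, ?_, ?_⟩ <;> linarith

theorem d2_lin {Φ1 Φ2 : ℝ → ℝ} (h1 : Integrable (fun τ => mT 1 τ * Φ1 τ))
    (h2 : Integrable (fun τ => mT 1 τ * Φ2 τ)) (a b c : ℝ) :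
    Integrable (fun τ => mT 1 τ * (a + b * Φ1 τ + c * Φ2 τ)) ∧
      ∫ τ, mT 1 τ * (a + b * Φ1 τ + c * Φ2 τ + 1 ^ 3 * (a + b * Φ1 τ + c * Φ2 τ)) =
        2 * (2 * a + b * (∫ τ, mT 1 τ * Φ1 τ) + c * ∫ τ, mT 1 τ * Φ2 τ) := by
  have e : ∀ τ, mT 1 τ * (a + b * Φ1 τ + c * Φ2 τ) =
      a * mT 1 τ + b * (mT 1 τ * Φ1 τ) + c * (mT 1 τ * Φ2 τ) := fun τ => by ring
  have i1 := (integrable_mT one_pos).const_mul a
  have i2 := h1.const_mul b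
  have i3 := h2.const_mul c
  have i4 : Integrable fun τ => a * mT 1 τ + b * (mT 1 τ * Φ1 τ) := i1.add i2
  constructor
  · simp only [e]
    exact i4.add i3
  · simp only [show ∀ τ x : ℝ, mT 1 τ * (x + 1 ^ 3 * x) = 2 * (mT 1 τ * x) from fun τ x => by ring, e]
    rw [integral_const_mul, integral_add i4 i3, integral_add i1 i2, integral_const_mul,
      integral_const_mul, integral_const_mul, integral_mT one_pos, mul_comm a]

theorem d2_finE {C1 Cp Ct D B H U k e1 e2 β b2 bκ bδ n t N1 N2 s : ℝ} (hC1 : 0 ≤ C1) (hCp : 0 ≤ Cp)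
    (hCt : 0 ≤ Ct) (hD : 1 ≤ D) (hB : 0 < B) (hU : 0 ≤ U) (he1 : 0 ≤ e1) (he2 : 0 ≤ e2) (hδ : 0 ≤ bδ)
    (n0 : 0 ≤ n) (n1 : n ≤ t) (hN1 : 0 ≤ N1) (hN2 : 0 ≤ N2) (h1 : D ≤ U * e2) (h2 : D / B * k = U / B)
    (h3 : β * H ^ 2 ≤ H ^ 4) (h4 : b2 * bκ * bκ ^ 2 ≤ bδ)
    (hs : s ≤ 2 * (Cp * k) * (2 * (B * (e1 + e2) * 16 ^ 4) * t + β * N1 * (324 * H ^ 2) +
      b2 * (81 * bκ) * N2 * (324 * bκ ^ 2))) :
    C1 * (D / 1 + √D) * n + C1 * (D / B) * s ≤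
      (Ct + 2 * C1 + 4 * 16 ^ 4 * (C1 * Cp)) * U * ((e1 + e2) * t + H ^ 4 * N1 / B + bδ * N2 / B) := by
  have t0 := n0.trans n1
  have a1 : √D ≤ D := Real.sqrt_le_iff.2 ⟨by linarith, by nlinarith⟩
  obtain ⟨x, hx⟩ : ∃ x, x = U * ((e1 + e2) * t) := ⟨_, rfl⟩
  obtain ⟨y, hy⟩ : ∃ y, y = U / B * (H ^ 4 * N1) := ⟨_, rfl⟩
  obtain ⟨z, hz⟩ : ∃ z, z = U / B * (bδ * N2) := ⟨_, rfl⟩
  have x0 : 0 ≤ x := by rw [hx]; positivity
  have y0 : 0 ≤ y := by rw [hy]; positivity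
  have z0 : 0 ≤ z := by rw [hz]; positivity
  have a2 : (D / 1 + √D) * n ≤ 2 * x :=
    calc _ ≤ (U * e2 + U * e2) * t := by rw [div_one]; gcongr; linarith
      _ ≤ _ := by rw [hx]; nlinarith [mul_nonneg hU (mul_nonneg he1 t0)]
  have a3 : D / B * s ≤ 2 * Cp * (2 * 16 ^ 4 * x + 324 * y + 81 * 324 * z) :=
    calc _ ≤ _ := mul_le_mul_of_nonneg_left hs (by positivity)
      _ = 2 * Cp * (D / B * k) * (2 * (B * (e1 + e2) * 16 ^ 4) * t + 324 * (β * H ^ 2 * N1) +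
          81 * 324 * (b2 * bκ * bκ ^ 2 * N2)) := by ring
      _ ≤ 2 * Cp * (U / B) * (2 * (B * (e1 + e2) * 16 ^ 4) * t + 324 * (H ^ 4 * N1) +
          81 * 324 * (bδ * N2)) := by rw [h2]; gcongr
      _ = _ := by rw [hx, hy, hz]; field_simp
  have a4 := mul_le_mul_of_nonneg_left a2 hC1
  have a5 := mul_le_mul_of_nonneg_left a3 hC1
  have a6 : 0 ≤ Ct * (x + y + z) := by positivity
  have a7 : 0 ≤ C1 * (y + z) := by positivity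
  have a8 : 0 ≤ C1 * Cp * y := by positivity
  have a9 : 0 ≤ C1 * Cp * z := by positivity
  rw [mul_assoc _ U, show U * ((e1 + e2) * t + H ^ 4 * N1 / B + bδ * N2 / B) = x + y + z by
    rw [hx, hy, hz]; ring]
  linarith

theorem d2_sig {σ : ℝ} (h : σ ∈ ({1 / 6, 1 / 2, 5 / 2} : Finset ℝ)) :
    σ - 1 / 2 ∈ Sg ∧ σ - 1 / 2 - 1 / 6 ∈ Sg ∧ σ - 1 / 2 ≤ 2 := by
  simp only [Finset.mem_insert, Finset.mem_singleton] at h
  rcases h with rfl | rfl | rfl <;> norm_num [Sg]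

/-- As `disp0` with `T = 1`.  `κ` from `minor (δ/10) (1/100)` with `Z = B`, `κ₀ = κ/100`.
`N h > B^κ` or `ρ > B^{κ/2}`: `cls_all`.  Otherwise: `Maj H` as in `disp0` (`maj_one` if `N h > H`),
`mid_bound` with `Q = B^{1/100}`, and `minor` with `F2_Sdiv_le`; `σ - 1/2 - 1/6 ∈ Sg`. -/
theorem disp1 (δ : ℝ) (hδ : 0 < δ) : ∃ κ0 C : ℝ, 0 < κ0 ∧ 0 ≤ C ∧
    ∀ (S : Finset O) (γ : O → ℂ) (B D H : ℝ), 1 ≤ B → In S B → B ^ (1 - κ0) ≤ D →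
    D ≤ B ^ (8 / 5 : ℝ) → 1 ≤ H → H ≤ B ^ κ0 →
    Disp S γ D 1 ≤ C * (D * B) ^ (2 / 3 : ℝ) * ((H ^ (-(1 / 3 : ℝ)) + B ^ (-κ0)) * nt S γ +
      H ^ 4 * N1 S γ B (9 * H ^ 3) 1 / B + B ^ δ * N2 S γ B (B ^ δ) / B) := by
  obtain ⟨δ', d0, d1, d2⟩ : ∃ δ' : ℝ, 0 < δ' ∧ 10 * δ' ≤ δ ∧ 10 * δ' ≤ 1 := by
    refine ⟨min δ 1 / 10, by positivity, ?_, ?_⟩ <;> rw [mul_div_cancel₀ _ (by norm_num)]
    exacts [min_le_left _ _, min_le_right _ _]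
  obtain ⟨κ, Cp, hκ, hκδ, hCp, hp⟩ := d2_point δ' d0 (by linarith)
  obtain ⟨C0, -, hV⟩ := pw_Vw
  obtain ⟨C1, hC1, hP⟩ := pstep3 C0
  obtain ⟨Ct, hCt, ht⟩ := disp_triv
  refine ⟨κ / 100, Ct * ((81 : ℝ) ^ (δ / 2)⁻¹) ^ 2 + 2 * C1 + 4 * 16 ^ 4 * (C1 * Cp), by positivity,
    by positivity, fun S γ B D H hB hS hD1 hD2 hH _ => ?_⟩
  have hB0 : 0 < B := by linarith
  have hH0 : 0 < H := by linarith
  obtain ⟨hD, n1, n2', n3, n4, n5, n6, n7⟩ := d2_numE hB hH hκ hκδ d1 d2 hD1 hD2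
  have hD0 : 0 < D := by linarith
  have hU : 0 ≤ (D * B) ^ (2 / 3 : ℝ) := by positivity
  have hK : 0 < B ^ 2 / D := by positivity
  have hW : 0 ≤ Cp * (B ^ 2 / D) ^ (1 / 3 : ℝ) := by positivity
  have hCt' : 0 ≤ Ct * ((81 : ℝ) ^ (δ / 2)⁻¹) ^ 2 := by positivity
  have hC' : 0 ≤ 2 * C1 + 4 * 16 ^ 4 * (C1 * Cp) := by positivity
  have eB := fun a => (Real.rpow_pos_of_pos hB0 a).le
  have eH := fun a => (Real.rpow_pos_of_pos hH0 a).le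
  have hα : 0 ≤ B * (H ^ (-(1 / 3 : ℝ)) + B ^ (-(κ / 100))) * 16 ^ 4 := by positivity
  have hθ : 0 ≤ B ^ (2 * δ') * (81 * B ^ κ) := by positivity
  have hS0 : ∀ b ∈ S, b ≠ 0 := fun b hb => (hS b hb).1.1.ne_zero
  have hnt := n2_le_nt hS0 γ
  have hn := cl_n2 S γ
  obtain ⟨Φ1, f0, f1, f2, f3⟩ := d2_int3 (sfb (9 * H ^ 3)) (fun _ => ball (9 * H ^ 3)) (fam1 S γ B)
    fun a b σ => d2_int hB0 (fun b hb => hS0 b (Finset.mem_filter.1 hb).1) _ σ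
  obtain ⟨Φ2, j0, j1, j2, j3⟩ := d2_int3 (ball (B ^ δ)) res (fam2 S γ B)
    fun a b σ => d2_int hB0 (fun b hb => hS0 b (Finset.mem_filter.1 hb).1) _ σ
  replace f2 : ∫ τ, mT 1 τ * Φ1 τ = N1 S γ B (9 * H ^ 3) 1 := f2
  replace j2 : ∫ τ, mT 1 τ * Φ2 τ = N2 S γ B (B ^ δ) := j2
  have hN1 : 0 ≤ N1 S γ B (9 * H ^ 3) 1 :=
    f2 ▸ integral_nonneg fun τ => mul_nonneg (ps_mT_nonneg one_pos τ) (f0 τ)
  have hN2 : 0 ≤ N2 S γ B (B ^ δ) :=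
    j2 ▸ integral_nonneg fun τ => mul_nonneg (ps_mT_nonneg one_pos τ) (j0 τ)
  rcases le_total (B ^ (δ / 2)) 81 with h81 | h81
  · have a1 := pow_le_pow_left₀ hB0.le (d2_bdd hB0.le (half_pos hδ) h81) 2
    have a2 := mul_nonneg (eH (-(1 / 3))) (hn.trans hnt)
    have a3 := div_nonneg (mul_nonneg (pow_nonneg hH0.le 4) hN1) hB0.le
    have a4 := div_nonneg (mul_nonneg (eB δ) hN2) hB0.le
    have a5 := mul_nonneg (eB (-(κ / 100))) (hn.trans hnt)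
    calc _ ≤ Ct * (D * B * n2 S γ) := (ht S γ B D 1 hB hS le_rfl hD0).trans_eq (by ring)
      _ ≤ Ct * (((81 : ℝ) ^ (δ / 2)⁻¹) ^ 2 * ((D * B) ^ (2 / 3 : ℝ) * B ^ (-(κ / 100))) * nt S γ) :=
          mul_le_mul_of_nonneg_left (mul_le_mul (n3.trans (mul_le_mul_of_nonneg_right a1
            (mul_nonneg hU (eB _)))) hnt hn (mul_nonneg (sq_nonneg _) (mul_nonneg hU (eB _)))) hCt
      _ = Ct * ((81 : ℝ) ^ (δ / 2)⁻¹) ^ 2 * (D * B) ^ (2 / 3 : ℝ) * (B ^ (-(κ / 100)) * nt S γ) := by ring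
      _ ≤ _ := mul_le_mul (mul_le_mul_of_nonneg_right (by linarith) hU) (by linarith) a5
          (mul_nonneg (by linarith) hU)
  obtain ⟨A, hA⟩ : ∃ A : O → ℝ, ∀ h, A h = ∑ b ∈ S.filter (fun b => h ∣ b), ‖γ b‖ ^ 2 * dv b :=
    ⟨_, fun _ => rfl⟩
  have hA0 : ∀ h, 0 ≤ A h := fun h =>
    hA h ▸ Finset.sum_nonneg fun b _ => mul_nonneg (sq_nonneg _) (bb_dv_nonneg b)
  have hI : ∀ p : Prop, (0 : ℝ) ≤ if p then 1 else 0 := fun p => by split_ifs <;> norm_num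
  obtain ⟨W, eW⟩ : ∃ W, W = Cp * (B ^ 2 / D) ^ (1 / 3 : ℝ) := ⟨_, rfl⟩
  obtain ⟨α, eα⟩ : ∃ α, α = B * (H ^ (-(1 / 3 : ℝ)) + B ^ (-(κ / 100))) * 16 ^ 4 := ⟨_, rfl⟩
  obtain ⟨θ, eθ⟩ : ∃ θ, θ = B ^ (2 * δ') * (81 * B ^ κ) := ⟨_, rfl⟩
  rw [← eW] at hW
  rw [← eα] at hα
  rw [← eθ] at hθ
  obtain ⟨E, hE⟩ : ∃ E : O → O → ℝ → ℝ, E = fun g r τ => W / N g * (α * A (g * r)) +
    W / N g * (H ^ (5 / 3 : ℝ) * if N (g * r) ≤ H then 1 else 0) * Φ1 τ +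
    W / N g * (θ * if N (g * r) ≤ B ^ κ then 1 else 0) * Φ2 τ := ⟨_, rfl⟩
  have hE0 : ∀ g r τ, 0 ≤ E g r τ := fun g r τ => by
    have a1 := div_nonneg hW (N_nonneg g)
    rw [hE]
    exact add_nonneg (add_nonneg (mul_nonneg a1 (mul_nonneg hα (hA0 _))) (mul_nonneg (mul_nonneg a1
      (mul_nonneg (eH _) (hI _))) (f0 τ))) (mul_nonneg (mul_nonneg a1 (mul_nonneg hθ (hI _))) (j0 τ))
  have hEi : ∀ g r, Integrable fun τ => mT 1 τ * E g r τ := fun g r => hE ▸ (d2_lin f1 j1 _ _ _).1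
  have h3 := hP (Vw D 1) D 1 B (hV D 1 hD le_rfl) le_rfl (by rwa [one_pow]) hB0 S
    (fun b => conj (γ b * GG b)) hS E E (fun g r τ => ⟨hE0 g r τ, hE0 g r τ⟩) (fun g r => ⟨hEi g r, hEi g r⟩)
    fun g hg r hr σ hσ τ Y hY => by
      have g1 := (mem_sfb.1 hg).1
      have r1 := (mem_sfb.1 hr).1
      have g2 := one_le_N g1.1.ne_zero
      have g3 := N_pos g1.1.ne_zero
      have hh := g1.1.mul r1.1
      have hρ : 0 < Y / (B ^ 2 / (D * N g ^ 2)) := div_pos hY (div_pos (pow_pos hB0 2)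
        (mul_pos hD0 (pow_pos g3 2)))
      have eY : Y = Y / (B ^ 2 / (D * N g ^ 2)) * (B ^ 2 / D / N g ^ 2) := by field_simp
      generalize Y / (B ^ 2 / (D * N g ^ 2)) = ρ at hρ eY ⊢
      rw [← mul_add]
      rcases (S.filter fun b => g * r ∣ b).eq_empty_or_nonempty with he | ⟨b, hb⟩
      · refine le_trans (le_of_eq (Finset.sum_eq_zero fun k _ => ?_)) (mul_nonneg (hE0 g r τ)
          (add_nonneg (Real.rpow_nonneg hρ.le _) (sq_nonneg _)))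
        rw [Xs, he, Finset.sum_empty, norm_zero, zero_pow two_ne_zero]
      obtain ⟨b1, b2⟩ := Finset.mem_filter.1 hb
      have h1 := (hS b b1).1.of_dvd hh b2
      have h2 := (N_le_of_dvd (hS0 b b1) b2).trans (hS b b1).2.2
      have h4 := N_le_of_dvd hh.ne_zero (dvd_mul_right g r)
      obtain ⟨s1, s2, s3⟩ := d2_sig hσ
      have es : conj ((σ : ℂ) - 1 / 2 + τ * Complex.I) = (σ - 1 / 2 : ℝ) + (-τ : ℝ) * Complex.I := by
        simp only [map_add, map_sub, map_mul, Complex.conj_ofReal, Complex.conj_I, map_div₀, map_one,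
          map_ofNat]
        push_cast
        ring
      have c1 := hp (Sdiv S (g * r)) (fun n => γ (g * r * n) * pw B (g * r * n)
          ((σ - 1 / 2 : ℝ) + (-τ : ℝ) * Complex.I) * cub n (g ^ 2 * lam ^ 2)) B _ H (N g) (N (g * r)) ρ _
        ((if N (g * r) ≤ H then 1 else 0) * Φ1 τ)
        ((if N (g * r) ≤ B ^ κ then 1 else 0) * (81 * B ^ κ * Φ2 τ)) hB hK n1 hH g2 h4 h2 (in_Sdiv hS h1) hρ
        (d2_n2y hB0 hS γ hh _ (by simpa using s3)) (mul_nonneg (hI _) (f0 τ))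
        (mul_nonneg (hI _) (mul_nonneg (mul_nonneg (by norm_num) (eB _)) (j0 τ)))
        (fun a => by
          rw [if_pos a, one_mul]
          refine (d2_maj (fun b hb => (hS b hb).1) γ B hH hh (mul_ne_zero (pow_ne_zero _ g1.1.ne_zero)
            (pow_ne_zero _ prime_lam.ne_zero)) a ?_ _).trans (f3 _ s1 τ)
          rw [N_mul, N_pow, N_pow, d2_Nlam]
          linarith [pow_le_pow_left₀ g3.le (h4.trans a) 2])
        (fun a => by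
          rw [if_pos a, one_mul]
          refine (F2_Sdiv_le hB0 hS γ g1 r1 _ _).trans (mul_le_mul (by linarith) (le_trans
            (Finset.sum_le_sum_of_subset_of_nonneg (ball_mono (le_trans ?_ n7))
              fun _ _ _ => Finset.sum_nonneg fun _ _ => sq_nonneg _) (le_trans (le_of_eq ?_) (j3 _ s2 τ)))
            (Finset.sum_nonneg fun _ _ => Finset.sum_nonneg fun _ _ => sq_nonneg _)
            (mul_nonneg (by norm_num) (eB _)))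
          · exact mul_le_mul (mul_le_mul_of_nonneg_right h81 (eB _)) (pow_le_pow_left₀ (N_nonneg _) a 2)
              (sq_nonneg _) (mul_nonneg (eB _) (eB _))
          · congr! 5
            push_cast
            ring)
      rw [← eY, ← hA] at c1
      refine le_of_mul_le_mul_left (le_trans (mul_le_mul_of_nonneg_left (Finset.sum_le_sum fun k _ => ?_)
        g3.le) (c1.trans_eq ?_)) g3
      · rw [← fam1_eq_cs hh.ne_zero, ← es]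
        exact pow_le_pow_left₀ (norm_nonneg _) (norm_Xs_le hS γ g1 r1 k _) 2
      · rw [hE, eW, eα, eθ]
        field_simp
  have h4 : Disp S γ D 1 = ∑' d : O, Vw D 1 d * ‖∑ n ∈ S, conj (γ n * GG n) * cub n d‖ ^ 2 :=
    tsum_congr fun d => by
      rw [← Complex.norm_conj, map_sum]
      simp only [map_mul, Complex.conj_conj]
  have h5 : n2 S (fun b => conj (γ b * GG b)) = n2 S γ := Finset.sum_congr rfl fun b hb => by
    rw [Complex.norm_conj, norm_mul, norm_GG (hS b hb).1, mul_one]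
  rw [← h4, h5] at h3
  refine h3.trans (d2_finE hC1 hCp hCt' hD hB0 hU (eH _) (eB _) (eB _) hn hnt hN1 hN2 n2' n4 n5 n6 ?_)
  rw [← eW, ← eα, ← eθ]
  calc _ = 2 * W * (2 * α * ∑ g ∈ sfb (16 * B), ∑ r ∈ sfb (16 * B), A (g * r) +
        H ^ (5 / 3 : ℝ) * N1 S γ B (9 * H ^ 3) 1 * ∑ g ∈ sfb (16 * B), ∑ r ∈ sfb (16 * B),
          (if N (g * r) ≤ H then (1 : ℝ) else 0) +
        θ * N2 S γ B (B ^ δ) * ∑ g ∈ sfb (16 * B), ∑ r ∈ sfb (16 * B),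
          (if N (g * r) ≤ B ^ κ then (1 : ℝ) else 0)) := by
        simp only [Finset.mul_sum, ← Finset.sum_add_distrib]
        refine Finset.sum_congr rfl fun g hg => Finset.sum_congr rfl fun r _ => ?_
        have := N_pos (mem_sfb.1 hg).1.1.ne_zero
        rw [hE, (d2_lin f1 j1 _ _ _).2, f2, j2]
        field_simp
    _ ≤ _ := by
        refine mul_le_mul_of_nonneg_left (add_le_add_three (mul_le_mul_of_nonneg_left ?_ (by linarith))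
          (mul_le_mul_of_nonneg_left (d2_count _ hH0.le) (mul_nonneg (eH _) hN1))
          (mul_le_mul_of_nonneg_left (d2_count _ (eB _)) (mul_nonneg hθ hN2))) (by linarith)
        simp only [hA]
        exact sum_pairs_le (fun b hb => (hS b hb).1) γ _

end Crest.Agent.R12
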