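import Crest.Agent.R12.Props

/-!
# R12 / Final : the main theorem over `O`
-/

set_option autoImplicit false

noncomputable section

open scoped Classical ComplexConjugate Topology
open MeasureTheory Filter

namespace Crest.Agent.R12

open Crest.Agent.R17

theorem fin_ev (k : ℕ) (c : ℝ) {ε : ℝ} (hε : 0 < ε) :
    ∀ᶠ y : ℝ in atTop, c * y ^ k ≤ Real.exp (ε * y) := by
  have h := (isLittleO_pow_exp_pos_mul_atTop k hε).bound (c := (|c| + 1)⁻¹) (by positivity)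
  filter_upwards [h, eventually_ge_atTop 0] with y hy hy0
  rw [Real.norm_of_nonneg (by positivity), Real.norm_of_nonneg (Real.exp_pos _).le,
    inv_mul_eq_div, le_div_iff₀ (by positivity)] at hy
  have h1 : c ≤ |c| + 1 := by linarith [le_abs_self c]
  calc c * y ^ k ≤ (|c| + 1) * y ^ k := by gcongr
    _ ≤ _ := by linarith

theorem fin_tele (f : ℕ → ℂ) (I : ℕ) {B : ℝ} (h : ∀ i < I, ‖f (i + 1) - f i‖ ≤ B) :
    ‖f I - f 0‖ ≤ I * B := by
  rw [← Finset.sum_range_sub f I]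
  refine (norm_sum_le _ _).trans ?_
  calc _ ≤ ∑ _i ∈ Finset.range I, B := Finset.sum_le_sum fun i hi => h i (Finset.mem_range.1 hi)
    _ = _ := by rw [Finset.sum_const, Finset.card_range, nsmul_eq_mul]

/-- `S = y^{A₁+1}`, `T* = 2^I S ∈ [e^{y/6} y², 2 e^{y/6} y²]`, `I ≤ y`; `sharp_sub_plS`, `plS_step` with
`propB`, `propA`;  `fP` vanishes off the primes -/
theorem block (ℓ : ℤ) : ∃ C y0 : ℝ, ∀ y : ℝ, y0 ≤ y →
    ‖∑ n ∈ (ball (Real.exp y)).filter (fun n => Real.exp (y - 1) < N n), fP ℓ n‖ ≤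
      C * Real.exp (5 / 6 * y) / y ^ (5 / 4 : ℝ) := by
  obtain ⟨A1, yB, hA1, hB⟩ := propB ℓ
  obtain ⟨CA, yA, hA⟩ := propA ℓ (A1 := A1 + 1) (by omega)
  obtain ⟨C1, hC1, h1⟩ := sharp_sub_plS
  obtain ⟨C2, hC2, h2⟩ := plS_step
  obtain ⟨M, hMdef⟩ : ∃ M : ℝ, M = 1 + cP := ⟨_, rfl⟩
  have hM : ∀ n, ‖fP ℓ n‖ ≤ M := fun n => hMdef ▸ norm_fP_le ℓ n
  have hM0 : 0 ≤ M := (norm_nonneg _).trans (hM 0)
  have hev : ∀ᶠ y : ℝ in atTop, (yB + 2 ≤ y ∧ yA ≤ y ∧ 4 ≤ y ∧ 2 ^ A1 ≤ y) ∧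
      4 * Real.exp 1 * y ^ 2 ≤ Real.exp (1 / 1000 * y) ∧ 1 * y ^ 2 ≤ Real.exp (1 / 3 * y) ∧
      1 * y ^ 3 ≤ Real.exp (5 / 6 * y) :=
    ((eventually_ge_atTop _).and ((eventually_ge_atTop _).and ((eventually_ge_atTop _).and
      (eventually_ge_atTop _)))).and ((fin_ev 2 _ (by norm_num)).and
      ((fin_ev 2 _ (by norm_num)).and (fin_ev 3 _ (by norm_num))))
  obtain ⟨y0, hy0⟩ := eventually_atTop.1 hev
  refine ⟨2 * C1 * M + C2 * (8 * Real.exp 1) + C2 * M + CA, y0, fun y hy => ?_⟩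
  obtain ⟨⟨hyB, hyA, hy4, hy2⟩, e1, e2, e3⟩ := hy0 y hy
  rw [one_mul] at e2 e3
  have hy1 : 1 ≤ y := by linarith
  have hyp : 0 < y := by linarith
  obtain ⟨E, hE⟩ : ∃ E : ℝ, E = Real.exp (5 / 6 * y) := ⟨_, rfl⟩
  have hE0 : 0 < E := hE ▸ Real.exp_pos _
  obtain ⟨S, hS⟩ : ∃ S : ℝ, S = y ^ (A1 + 1) := ⟨_, rfl⟩
  have hS2 : y ^ 2 ≤ S := hS ▸ pow_le_pow_right₀ hy1 (by omega)
  have hyy : y ≤ y ^ 2 := by nlinarith
  have hS0 : 0 < S := by nlinarith
  have hex : ∃ I : ℕ, Real.exp (1 / 6 * y) * y ^ 2 ≤ 2 ^ I * S := by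
    obtain ⟨I, hI⟩ := pow_unbounded_of_one_lt (Real.exp (1 / 6 * y) * y ^ 2 / S) (one_lt_two (α := ℝ))
    exact ⟨I, ((div_lt_iff₀ hS0).1 hI).le⟩
  obtain ⟨I, hI, hmin⟩ : ∃ I : ℕ, Real.exp (1 / 6 * y) * y ^ 2 ≤ 2 ^ I * S ∧
      ∀ i < I, 2 ^ i * S < Real.exp (1 / 6 * y) * y ^ 2 :=
    ⟨Nat.find hex, Nat.find_spec hex, fun i hi => not_le.1 (Nat.find_min hex hi)⟩
  have hge : ∀ i : ℕ, S ≤ 2 ^ i * S := fun i => le_mul_of_one_le_left hS0.le (one_le_pow₀ one_le_two)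
  have hIy : (I : ℝ) ≤ y := by
    rcases I with _ | i
    · simpa using hyp.le
    · have a1 := hmin i (Nat.lt_succ_self i)
      have a2 : (2 : ℝ) ^ i * y ^ 2 < Real.exp (1 / 6 * y) * y ^ 2 :=
        lt_of_le_of_lt (by gcongr) a1
      have a3 : (2 : ℝ) ^ i < Real.exp (1 / 6 * y) := lt_of_mul_lt_mul_right a2 (by positivity)
      rw [← Real.exp_log two_pos, ← Real.exp_nat_mul, Real.exp_lt_exp] at a3
      have a4 := Real.log_two_gt_d9
      have a5 : (0 : ℝ) ≤ i := Nat.cast_nonneg i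
      push_cast
      nlinarith
  have hW : ∀ i < I, ∀ v, y - 1 - 1 ≤ v → v ≤ y + 1 →
      ‖win (fP ℓ) v (4 * (2 ^ i * S))‖ ≤ 8 * Real.exp 1 * E / y ^ 3 := by
    intro i hi v hv1 hv2
    have hv0 : 0 < v := by linarith
    refine (hB v _ (by linarith) ?_ ?_).trans ?_
    · calc v ^ A1 ≤ (2 * y) ^ A1 := pow_le_pow_left₀ hv0.le (by linarith) _
        _ = 2 ^ A1 * y ^ A1 := mul_pow _ _ _
        _ ≤ y * y ^ A1 := by gcongr
        _ = S := by rw [hS, pow_succ']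
        _ ≤ _ := by linarith [hge i]
    · have a1 := hmin i hi
      have a2 : Real.exp (1 / 6 * y) * Real.exp (1 / 1000 * y) ≤
          Real.exp ((1 / 6 + 1 / 1000) * v) * Real.exp 1 := by
        rw [← Real.exp_add, ← Real.exp_add, Real.exp_le_exp]
        linarith
      have a3 : Real.exp (1 / 6 * y) * (4 * Real.exp 1 * y ^ 2) ≤
          Real.exp (1 / 6 * y) * Real.exp (1 / 1000 * y) := by gcongr
      have a4 : 4 * (Real.exp (1 / 6 * y) * y ^ 2) * Real.exp 1 ≤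
          Real.exp ((1 / 6 + 1 / 1000) * v) * Real.exp 1 := by linarith
      have a5 := le_of_mul_le_mul_right a4 (Real.exp_pos 1)
      linarith
    · have a1 : Real.exp (5 / 6 * v) ≤ Real.exp 1 * E := by
        rw [hE, ← Real.exp_add, Real.exp_le_exp]
        linarith
      have a2 : (y / 2) ^ 3 ≤ v ^ 3 := pow_le_pow_left₀ (by positivity) (by linarith) _
      calc Real.exp (5 / 6 * v) / v ^ 3 ≤ Real.exp 1 * E / (y / 2) ^ 3 := by gcongr
        _ = _ := by field_simp; ring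
  have hstep : ∀ i < I, ‖plS (fP ℓ) (2 ^ (i + 1) * S) (y - 1) y - plS (fP ℓ) (2 ^ i * S) (y - 1) y‖ ≤
      C2 * (8 * Real.exp 1 * E / y ^ 3) + C2 * M := by
    intro i hi
    have a1 := h2 (fP ℓ) M (2 ^ i * S) (y - 1) y (8 * Real.exp 1 * E / y ^ 3) hM
      (by linarith [hge i]) (by linarith) (by positivity) (hW i hi)
    rw [show (2 : ℝ) ^ (i + 1) * S = 2 * (2 ^ i * S) by ring]
    refine a1.trans (add_le_add le_rfl (mul_le_of_le_one_right (by positivity) ?_))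
    rw [Real.exp_le_one_iff]
    have a2 : y ^ 2 ≤ (2 ^ i * S) ^ 2 := pow_le_pow_left₀ hyp.le (by linarith [hge i]) _
    nlinarith
  have t1 := fin_tele (fun i => plS (fP ℓ) (2 ^ i * S) (y - 1) y) I hstep
  simp only [pow_zero, one_mul] at t1
  have t2 := h1 (fP ℓ) M (2 ^ I * S) (y - 1) y hM (by linarith [hge I]) (by linarith)
  have t3 := hA y hyA
  rw [← hS, ← hE] at t3
  rw [← hE]
  have hp : 0 < y ^ (5 / 4 : ℝ) := Real.rpow_pos_of_pos hyp _
  have hq : E / y ^ 2 ≤ E / y ^ (5 / 4 : ℝ) := by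
    refine div_le_div_of_nonneg_left hE0.le hp ?_
    rw [← Real.rpow_natCast]
    exact Real.rpow_le_rpow_of_exponent_le hy1 (by norm_num)
  have u1 : Real.exp y / (2 ^ I * S) ≤ E / y ^ 2 := by
    calc Real.exp y / (2 ^ I * S) ≤ Real.exp y / (Real.exp (1 / 6 * y) * y ^ 2) := by gcongr
      _ = _ := by
        rw [← div_div, ← Real.exp_sub, hE]
        congr 2
        ring
  have u2 : Real.exp (y / 2) ≤ E / y ^ 2 := by
    rw [le_div_iff₀ (by positivity)]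
    calc Real.exp (y / 2) * y ^ 2 ≤ Real.exp (y / 2) * Real.exp (1 / 3 * y) := by gcongr
      _ = _ := by
        rw [← Real.exp_add, hE]
        congr 1
        ring
  have u3 : y ≤ E / y ^ 2 := by
    rw [le_div_iff₀ (by positivity), hE]
    linarith [pow_succ' y 2]
  have u4 : (I : ℝ) * (C2 * (8 * Real.exp 1 * E / y ^ 3) + C2 * M) ≤
      (C2 * (8 * Real.exp 1) + C2 * M) * (E / y ^ (5 / 4 : ℝ)) := by
    calc (I : ℝ) * (C2 * (8 * Real.exp 1 * E / y ^ 3) + C2 * M)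
        ≤ y * (C2 * (8 * Real.exp 1 * E / y ^ 3) + C2 * M) := by gcongr
      _ = C2 * (8 * Real.exp 1) * (E / y ^ 2) + C2 * M * y := by field_simp
      _ ≤ C2 * (8 * Real.exp 1) * (E / y ^ (5 / 4 : ℝ)) + C2 * M * (E / y ^ (5 / 4 : ℝ)) := by
        gcongr
        exact u3.trans hq
      _ = _ := by ring
  have u5 : C1 * M * (Real.exp y / (2 ^ I * S) + Real.exp (y / 2)) ≤
      2 * C1 * M * (E / y ^ (5 / 4 : ℝ)) := by
    calc _ ≤ C1 * M * (E / y ^ (5 / 4 : ℝ) + E / y ^ (5 / 4 : ℝ)) :=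
          mul_le_mul_of_nonneg_left (add_le_add (u1.trans hq) (u2.trans hq)) (by positivity)
      _ = _ := by ring
  have t4 := norm_add₃_le (a := ∑ n ∈ (ball (Real.exp y)).filter (fun n => Real.exp (y - 1) < N n),
    fP ℓ n - plS (fP ℓ) (2 ^ I * S) (y - 1) y)
    (b := plS (fP ℓ) (2 ^ I * S) (y - 1) y - plS (fP ℓ) S (y - 1) y) (c := plS (fP ℓ) S (y - 1) y)
  rw [sub_add_sub_cancel, sub_add_cancel] at t4
  rw [mul_div_assoc] at t3 ⊢
  linarith

theorem fin_split (f : O → ℂ) (y : ℝ) :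
    ∑ n ∈ ball (Real.exp y), f n - ∑ n ∈ ball (Real.exp (y - 1)), f n =
      ∑ n ∈ (ball (Real.exp y)).filter (fun n => Real.exp (y - 1) < N n), f n := by
  rw [← Finset.sum_filter_add_sum_filter_not (ball (Real.exp y)) (fun n => Real.exp (y - 1) < N n) f]
  have h : (ball (Real.exp y)).filter (fun n => ¬ Real.exp (y - 1) < N n) = ball (Real.exp (y - 1)) := by
    ext n
    rw [Finset.mem_filter, mem_ball, mem_ball, not_lt]
    have : Real.exp (y - 1) ≤ Real.exp y := Real.exp_le_exp.2 (by linarith)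
    exact ⟨fun h => ⟨h.1.1, h.2⟩, fun h => ⟨⟨h.1, h.2.trans this⟩, h.2⟩⟩
  rw [h, add_sub_cancel_right]

theorem fin_geo (F : ℝ → ℂ) {K z : ℝ} (hK : 0 ≤ K)
    (h : ∀ y, z ≤ y → ‖F y - F (y - 1)‖ ≤ K * Real.exp (5 / 6 * y)) (y : ℝ) (J : ℕ) (hJ : z ≤ y - J) :
    ‖F y - F (y - J)‖ ≤ 2 * K * (Real.exp (5 / 6 * y) - Real.exp (5 / 6 * (y - J))) := by
  induction J with
  | zero => simp
  | succ J ih =>
    push_cast at hJ ⊢
    have a1 := ih (by linarith)
    have a2 := h (y - J) (by linarith)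
    have a3 : 2 * Real.exp (5 / 6 * (y - (J + 1))) ≤ Real.exp (5 / 6 * (y - J)) := by
      rw [← Real.exp_log two_pos, ← Real.exp_add, Real.exp_le_exp]
      linarith [Real.log_two_lt_d9]
    have a4 := norm_add_le (F y - F (y - J)) (F (y - J) - F (y - J - 1))
    rw [sub_add_sub_cancel, sub_sub] at a4
    rw [sub_sub] at a2
    nlinarith [mul_le_mul_of_nonneg_left a3 hK]

/-- `y_j = log X - j` for `j ≤ (log X)/2` (`block`, geometric series) and the trivial bound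
`≤ C √X` below (`norm_fP_le`, `card_ball_le`) -/
theorem main_O (ℓ : ℤ) : Tendsto (fun X : ℝ => (∑ p ∈ ball X, fP ℓ p) /
    ((X ^ ((5 : ℝ) / 6) / Real.log X : ℝ) : ℂ)) atTop (𝓝 0) := by
  obtain ⟨C, y0, hb⟩ := block ℓ
  obtain ⟨M, hMdef⟩ : ∃ M : ℝ, M = 1 + cP := ⟨_, rfl⟩
  have hM : ∀ n, ‖fP ℓ n‖ ≤ M := fun n => hMdef ▸ norm_fP_le ℓ n
  have hM0 : 0 ≤ M := (norm_nonneg _).trans (hM 0)
  have key : ∀ᶠ L : ℝ in atTop, ‖∑ p ∈ ball (Real.exp L), fP ℓ p‖ / (Real.exp (5 / 6 * L) / L) ≤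
      (4 * |C|) * (L / 2) ^ (-(1 / 4 : ℝ)) + 18 * M * Real.exp 1 * L⁻¹ := by
    filter_upwards [eventually_ge_atTop (2 * y0), eventually_ge_atTop 2,
      fin_ev 2 1 (ε := 1 / 3) (by norm_num)] with L hL1 hL2 hL3
    have hL0 : 0 < L / 2 := by linarith
    have hLp : 0 < L := by linarith
    have hp : 0 < (L / 2) ^ (5 / 4 : ℝ) := Real.rpow_pos_of_pos hL0 _
    have hJ1 : ((⌊L / 2⌋₊ : ℕ) : ℝ) ≤ L / 2 := Nat.floor_le hL0.le
    have hJ2 : L / 2 < ((⌊L / 2⌋₊ : ℕ) : ℝ) + 1 := Nat.lt_floor_add_one _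
    generalize ⌊L / 2⌋₊ = J at hJ1 hJ2
    have g1 := fin_geo (fun y => ∑ p ∈ ball (Real.exp y), fP ℓ p) (K := |C| / (L / 2) ^ (5 / 4 : ℝ))
      (z := L / 2) (by positivity) (fun y hy => by
        rw [fin_split]
        refine (hb y (by linarith)).trans ?_
        have b1 : (L / 2) ^ (5 / 4 : ℝ) ≤ y ^ (5 / 4 : ℝ) := Real.rpow_le_rpow hL0.le hy (by norm_num)
        rw [div_mul_eq_mul_div |C|]
        exact div_le_div₀ (by positivity)
          (mul_le_mul_of_nonneg_right (le_abs_self C) (Real.exp_pos _).le) hp b1) L J (by linarith)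
    have g2 : ‖∑ p ∈ ball (Real.exp (L - J)), fP ℓ p‖ ≤ 18 * M * Real.exp 1 * Real.exp (L / 2) := by
      refine (norm_sum_le _ _).trans ?_
      calc _ ≤ ∑ _p ∈ ball (Real.exp (L - J)), M := Finset.sum_le_sum fun p _ => hM p
        _ = ((ball (Real.exp (L - J))).card : ℝ) * M := by rw [Finset.sum_const, nsmul_eq_mul]
        _ ≤ 18 * Real.exp (L - J) * M := by
          gcongr
          exact card_ball_le (Real.exp_pos _).le
        _ ≤ 18 * (Real.exp 1 * Real.exp (L / 2)) * M := by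
          gcongr
          rw [← Real.exp_add, Real.exp_le_exp]
          linarith
        _ = _ := by ring
    have g3 := norm_add_le (∑ p ∈ ball (Real.exp L), fP ℓ p - ∑ p ∈ ball (Real.exp (L - J)), fP ℓ p)
      (∑ p ∈ ball (Real.exp (L - J)), fP ℓ p)
    rw [sub_add_cancel] at g3
    have hE := Real.exp_pos (5 / 6 * L)
    have g4 : 2 * (|C| / (L / 2) ^ (5 / 4 : ℝ)) * (Real.exp (5 / 6 * L) - Real.exp (5 / 6 * (L - J))) ≤
        (4 * |C|) * (L / 2) ^ (-(1 / 4 : ℝ)) * (Real.exp (5 / 6 * L) / L) := by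
      have b1 : (L / 2) ^ (-(1 / 4 : ℝ)) = (L / 2) / (L / 2) ^ (5 / 4 : ℝ) := by
        rw [eq_div_iff hp.ne', ← Real.rpow_add hL0]
        norm_num
      calc _ ≤ 2 * (|C| / (L / 2) ^ (5 / 4 : ℝ)) * Real.exp (5 / 6 * L) := by
            gcongr
            linarith [Real.exp_pos (5 / 6 * (L - J))]
        _ = _ := by
          rw [b1]
          field_simp
          ring
    have g5 : 18 * M * Real.exp 1 * Real.exp (L / 2) ≤
        18 * M * Real.exp 1 * L⁻¹ * (Real.exp (5 / 6 * L) / L) := by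
      rw [mul_assoc (18 * M * Real.exp 1)]
      gcongr
      rw [inv_mul_eq_div, div_div, le_div_iff₀ (by positivity)]
      calc Real.exp (L / 2) * (L * L) ≤ Real.exp (L / 2) * Real.exp (1 / 3 * L) := by
            gcongr
            linarith [sq L]
        _ = _ := by
          rw [← Real.exp_add]
          congr 1
          ring
    rw [div_le_iff₀ (by positivity), add_mul]
    linarith
  have lim : Tendsto (fun L : ℝ => (4 * |C|) * (L / 2) ^ (-(1 / 4 : ℝ)) + 18 * M * Real.exp 1 * L⁻¹)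
      atTop (𝓝 0) := by
    have a1 := ((tendsto_rpow_neg_atTop (y := 1 / 4) (by norm_num)).comp
      (tendsto_id.atTop_div_const (r := (2 : ℝ)) two_pos)).const_mul (4 * |C|)
    have a2 := (tendsto_inv_atTop_zero (𝕜 := ℝ)).const_mul (18 * M * Real.exp 1)
    simpa using a1.add a2
  rw [tendsto_zero_iff_norm_tendsto_zero]
  refine squeeze_zero' (Eventually.of_forall fun _ => norm_nonneg _) ?_
    (lim.comp Real.tendsto_log_atTop)
  filter_upwards [Real.tendsto_log_atTop.eventually key, eventually_gt_atTop 1] with X hX hX1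
  have hX0 : 0 < X := by linarith
  have hl := Real.log_pos hX1
  rw [Real.exp_log hX0, mul_comm (5 / 6 : ℝ), ← Real.rpow_def_of_pos hX0] at hX
  rw [norm_div, Complex.norm_real, Real.norm_of_nonneg (by positivity)]
  exact hX

end Crest.Agent.R12
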