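import Crest.Agent.R12.TI1
import Crest.Agent.R12.CLS
import Crest.Agent.R12.SM
import Crest.Agent.R17.Local_Conv

/-!
# R12 / H2a : power saving in `∑ GG(p)` over primes in residue classes (Heath-Brown–Patterson)
-/

set_option autoImplicit false

noncomputable section

open scoped Classical ComplexConjugate Topology
open MeasureTheory Filter

namespace Crest.Agent.R12

open Crest.Agent.R17

theorem h2_tsum {f : O → ℂ} {g : O → ℝ} {c : ℝ} (h0 : f 0 = 0) (hf : ∀ n, n ≠ 0 → ‖f n‖ ≤ g n)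
    (h : ∀ S : Finset O, (∀ n ∈ S, n ≠ 0) → ∑ n ∈ S, g n ≤ c) : ‖∑' n, f n‖ ≤ c := by
  refine (ti1_tsum fun S => ?_).2
  rw [← Finset.sum_erase S (a := 0) (f := fun n => ‖f n‖) (by simp [h0])]
  exact (Finset.sum_le_sum fun n hn => hf n (Finset.ne_of_mem_erase hn)).trans
    (h _ fun n hn => Finset.ne_of_mem_erase hn)

theorem h2_pw {B : ℝ} (hB : 0 < B) {n : O} (hn : n ≠ 0) (s : ℂ) :
    pw B n s = Complex.exp (-(Real.log B * s)) * (N n : ℂ) ^ (-(-s)) := by
  rw [pw, neg_neg, ti1_cpow (div_pos (N_pos hn) hB), ti1_cpow (N_pos hn), ← Complex.exp_add,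
    Real.log_div (N_pos hn).ne' hB.ne']
  congr 1; push_cast; ring

theorem h2_norm_pw {B : ℝ} (hB : 0 < B) {n : O} (hn : n ≠ 0) (s : ℂ) :
    ‖pw B n s‖ = Real.exp (-(s.re * Real.log B)) * N n ^ s.re := by
  rw [pw, ti1_norm_cpow (div_pos (N_pos hn) hB), ti1_rpow hn, ← Real.exp_add,
    Real.log_div (N_pos hn).ne' hB.ne', lg]
  congr 1; ring

theorem h2_N_rpow_le {n : O} (hn : n ≠ 0) {σ : ℝ} (hσ : σ ≤ 4) : N n ^ σ ≤ N n ^ 4 := by
  rw [← Real.rpow_natCast]
  exact Real.rpow_le_rpow_of_exponent_le (one_le_N hn) (by exact_mod_cast hσ)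

/-- `Pl_sub_le`, `an_pow`; `∑ a(n) N n^s Pl(lg n) = (T/√π) ∫ winS a v T (-s) dv` -/
theorem sharp_pw : ∃ C : ℝ, 0 ≤ C ∧ ∀ (a : O → ℂ) (M W B x1 x2 T : ℝ) (s : ℂ), (∀ n, ‖a n‖ ≤ M) →
    0 ≤ W → 0 < B → B ≤ x1 → x1 ≤ x2 → x2 ≤ 2 * B → 1 ≤ T → |s.re| ≤ 4 →
    (∀ v, Real.log x1 ≤ v → v ≤ Real.log x2 → ‖winS a v T (-s)‖ ≤ W * Real.exp (s.re * v)) →
    ‖∑ n ∈ (ball x2).filter (fun n => x1 < N n), a n * pw B n s‖ ≤
      C * (T * W + M * (B / T + Real.sqrt B)) := by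
  obtain ⟨C, hC, han⟩ := an_pow
  refine ⟨Real.exp 4 * (1 + 4 * C), by positivity,
    fun a M W B x1 x2 T s ha hW hB h1 h12 h2 hT hs hw => ?_⟩
  have hM : 0 ≤ M := (norm_nonneg _).trans (ha 0)
  have hT0 : 0 < T := by linarith
  have hx1 : 0 < x1 := by linarith
  have hx2 : 0 < x2 := by linarith
  set y1 := Real.log x1 with hy1
  set y2 := Real.log x2 with hy2
  have h12' : y1 ≤ y2 := Real.log_le_log hx1 h12
  have hb1 : Real.log B ≤ y1 := Real.log_le_log hB h1
  have hb2 : y2 ≤ Real.log B + 1 := by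
    have h3 : y2 ≤ Real.log (2 * B) := Real.log_le_log hx2 h2
    rw [Real.log_mul two_ne_zero hB.ne'] at h3
    have := Real.log_two_lt_d9
    linarith
  have hex : ∀ v, y1 ≤ v → v ≤ y2 →
      Real.exp (-(s.re * Real.log B)) * Real.exp (s.re * v) ≤ Real.exp 4 := fun v hv1 hv2 => by
    rw [← Real.exp_add]
    refine Real.exp_le_exp.2 ?_
    have h3 : s.re * (v - Real.log B) ≤ 4 * 1 :=
      (le_abs_self _).trans (by
        rw [abs_mul]
        exact mul_le_mul hs (abs_le.2 ⟨by linarith, by linarith⟩) (abs_nonneg _) (by norm_num))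
    linarith
  set b : O → ℂ := fun n => a n * pw B n s with hb
  have hbn : ∀ n, n ≠ 0 → ‖b n‖ ≤ M * Real.exp (-(s.re * Real.log B)) * N n ^ s.re := fun n hn => by
    rw [hb]
    dsimp only
    rw [norm_mul, h2_norm_pw hB hn, mul_assoc]
    exact mul_le_mul_of_nonneg_right (ha n)
      (mul_nonneg (Real.exp_pos _).le (Real.rpow_nonneg (N_nonneg n) _))
  have hP : PolyBd b := ⟨M * Real.exp (-(s.re * Real.log B)), 4, fun n hn => (hbn n hn).trans
    (mul_le_mul_of_nonneg_left (h2_N_rpow_le hn (le_of_abs_le hs)) (by positivity))⟩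
  have hwin : ∀ v, win b v T = Complex.exp (-(Real.log B * s)) * winS a v T (-s) := fun v => by
    rw [win, winS, ← tsum_mul_left]
    refine tsum_congr fun n => ?_
    split_ifs with hn
    · rw [mul_zero]
    · rw [hb]
      dsimp only
      rw [h2_pw hB hn]
      ring
  have hpl : ‖plS b T y1 y2‖ ≤ T * (y2 - y1) * (Real.exp 4 * W) := by
    refine norm_plS_le hP hT h12' fun v hv1 hv2 => ?_
    rw [hwin, norm_mul, Complex.norm_exp]
    have e : (-((Real.log B : ℂ) * s)).re = -(s.re * Real.log B) := by simp [mul_comm]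
    rw [e]
    calc _ ≤ Real.exp (-(s.re * Real.log B)) * (W * Real.exp (s.re * v)) :=
          mul_le_mul_of_nonneg_left (hw v hv1 hv2) (Real.exp_pos _).le
      _ = Real.exp (-(s.re * Real.log B)) * Real.exp (s.re * v) * W := by ring
      _ ≤ _ := mul_le_mul_of_nonneg_right (hex v hv1 hv2) hW
  have hmem : ∀ n : O, n ∈ (ball x2).filter (fun n => x1 < N n) ↔
      n ≠ 0 ∧ y1 < lg n ∧ lg n ≤ y2 := by
    intro n
    rw [Finset.mem_filter, mem_ball, and_assoc]
    refine and_congr_right fun hn => ?_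
    rw [lg, hy1, hy2, Real.log_lt_log_iff hx1 (N_pos hn), Real.log_le_log_iff (N_pos hn) hx2, and_comm]
  have g1 : HasSum (fun n : O => if n = 0 then 0 else
      b n * ((if y1 < lg n ∧ lg n ≤ y2 then 1 else 0 : ℝ) : ℂ))
      (∑ n ∈ (ball x2).filter (fun n => x1 < N n), b n) := by
    have e : ∑ n ∈ (ball x2).filter (fun n => x1 < N n), b n =
        ∑ n ∈ (ball x2).filter (fun n => x1 < N n),
          if n = 0 then 0 else b n * ((if y1 < lg n ∧ lg n ≤ y2 then 1 else 0 : ℝ) : ℂ) := by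
      refine Finset.sum_congr rfl fun n hn => ?_
      rw [if_neg ((hmem n).1 hn).1, if_pos ((hmem n).1 hn).2, Complex.ofReal_one, mul_one]
    rw [e]
    refine hasSum_sum_of_ne_finset_zero fun n hn => ?_
    split_ifs with h0 h3
    · rfl
    · exact absurd ((hmem n).2 ⟨h0, h3⟩) hn
    · rw [Complex.ofReal_zero, mul_zero]
  have g2 := (sm_hasSum_plS hP hT y1 y2).summable.hasSum
  have hy : ∀ y, y1 ≤ y → y ≤ y2 → ∀ S : Finset O, (∀ n ∈ S, n ≠ 0) →
      ∑ n ∈ S, M * Real.exp (-(s.re * Real.log B)) * (N n ^ s.re * gw (T * (lg n - y))) ≤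
        Real.exp 4 * (2 * C) * (M * (B / T + Real.sqrt B)) := fun y k1 k2 S hS => by
    rw [← Finset.mul_sum]
    have e1 : Real.exp y ≤ 2 * B := by
      refine (Real.exp_le_exp.2 k2).trans ?_
      rw [hy2, Real.exp_log hx2]
      exact h2
    have e2 : Real.exp (y / 2) ≤ 2 * Real.sqrt B := by
      refine (Real.le_sqrt' (Real.exp_pos _)).2 (show Real.exp (y / 2) ^ 2 ≤ 4 * B from ?_) |>.trans ?_
      · rw [sq, ← Real.exp_add, add_halves]
        linarith
      · rw [Real.sqrt_mul (by norm_num), show (4 : ℝ) = 2 ^ 2 by norm_num, Real.sqrt_sq (by norm_num)]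
    calc _ ≤ M * Real.exp (-(s.re * Real.log B)) *
          (C * Real.exp (s.re * y) * (Real.exp y / T + Real.exp (y / 2))) :=
          mul_le_mul_of_nonneg_left (han s.re y T (hs.trans (by norm_num)) hT S hS).1 (by positivity)
      _ = Real.exp (-(s.re * Real.log B)) * Real.exp (s.re * y) *
          (M * C * (Real.exp y / T + Real.exp (y / 2))) := by ring
      _ ≤ Real.exp 4 * (M * C * (2 * B / T + 2 * Real.sqrt B)) := by
          refine mul_le_mul (hex y k1 k2) ?_ (by positivity) (Real.exp_pos _).le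
          gcongr
      _ = _ := by ring
  have hd : ‖∑ n ∈ (ball x2).filter (fun n => x1 < N n), b n - plS b T y1 y2‖ ≤
      Real.exp 4 * (2 * C) * (M * (B / T + Real.sqrt B)) +
        Real.exp 4 * (2 * C) * (M * (B / T + Real.sqrt B)) := by
    rw [plS, ← (g1.sub g2).tsum_eq]
    refine h2_tsum (g := fun n =>
      M * Real.exp (-(s.re * Real.log B)) * (N n ^ s.re * gw (T * (lg n - y1))) +
        M * Real.exp (-(s.re * Real.log B)) * (N n ^ s.re * gw (T * (lg n - y2)))) (by simp)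
      (fun n hn => ?_) fun S hS => ?_
    · simp only [if_neg hn]
      rw [← mul_sub, ← Complex.ofReal_sub, norm_mul, Complex.norm_real, Real.norm_eq_abs]
      refine (mul_le_mul (hbn n hn) (Pl_sub_le hT0 h12' _) (abs_nonneg _)
        (mul_nonneg (by positivity) (Real.rpow_nonneg (N_nonneg n) _))).trans (le_of_eq ?_)
      ring
    · rw [Finset.sum_add_distrib]
      exact add_le_add (hy y1 le_rfl h12' S hS) (hy y2 h12' le_rfl S hS)
  have h3 : T * (y2 - y1) * (Real.exp 4 * W) ≤ T * 1 * (Real.exp 4 * W) := by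
    gcongr
    linarith
  have h4 := norm_add_le (∑ n ∈ (ball x2).filter (fun n => x1 < N n), b n - plS b T y1 y2) (plS b T y1 y2)
  rw [sub_add_cancel] at h4
  have h5 : 0 ≤ Real.exp 4 * (4 * C) * (T * W) := by positivity
  have h6 : 0 ≤ Real.exp 4 * (M * (B / T + Real.sqrt B)) := by positivity
  refine h4.trans ?_
  nlinarith

/-- `gw_fourier` and `bil` -/
theorem bg_cls (ε : ℝ) (hε : 0 < ε) : ∃ C : ℝ, 0 ≤ C ∧ ∀ (A B v T : ℝ) (SA SB : Finset O)
    (α β : O → ℂ), 1 ≤ A → 1 ≤ B → 0 < T → SA ⊆ sfb A → SB ⊆ sfb B →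
    ‖BG SA SB α β v T‖ ^ 2 ≤
      C * (A * B) ^ ε * (A + B + (A * B) ^ (2 / 3 : ℝ)) * n2 SA α * n2 SB β := by
  obtain ⟨C, hC, h⟩ := bil ε hε
  refine ⟨C, hC, fun A B v T SA SB α β hA hB hT h1 h2 => ?_⟩
  set Λ := C * (A * B) ^ ε * (A + B + (A * B) ^ (2 / 3 : ℝ)) * n2 SA α * n2 SB β with hΛ
  have hΛ0 : 0 ≤ Λ := by
    have := cl_n2 SA α
    have := cl_n2 SB β
    positivity
  have he : ∀ t x : ℝ, ‖Complex.exp (t * x * Complex.I)‖ = 1 := fun t x => by
    rw [← Complex.ofReal_mul, Complex.norm_exp_ofReal_mul_I]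
  have hi : ∀ x : ℝ, Integrable fun t : ℝ => (gh T t : ℂ) * Complex.exp (t * x * Complex.I) := fun x =>
    (integrable_gh hT).ofReal.mul_bdd (c := 1) (by fun_prop) (ae_of_all _ fun t => (he t x).le)
  have e : BG SA SB α β v T = ∫ t : ℝ, ∑ a ∈ SA, ∑ b ∈ SB, α a * β b * GG (a * b) *
      ((gh T t : ℂ) * Complex.exp (t * (lg (a * b) - v : ℝ) * Complex.I)) := by
    rw [BG, integral_finsetSum _ fun a _ => integrable_finsetSum _ fun b _ => (hi _).const_mul _]
    refine Finset.sum_congr rfl fun a _ => ?_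
    rw [integral_finsetSum _ fun b _ => (hi _).const_mul _]
    refine Finset.sum_congr rfl fun b _ => ?_
    rw [integral_const_mul, gw_fourier hT]
  have hn : ∀ (S : Finset O) (x : O → ℂ) (t : ℝ),
      n2 S (fun a => x a * Complex.exp (t * (lg a : ℝ) * Complex.I)) = n2 S x := fun S x t => by
    refine Finset.sum_congr rfl fun a _ => ?_
    rw [norm_mul, he, mul_one]
  have hle : ‖BG SA SB α β v T‖ ≤ ∫ t : ℝ, gh T t * Real.sqrt Λ := by
    rw [e]
    refine norm_integral_le_of_norm_le ((integrable_gh hT).mul_const _) (ae_of_all _ fun t => ?_)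
    have e2 : ∑ a ∈ SA, ∑ b ∈ SB, α a * β b * GG (a * b) *
        ((gh T t : ℂ) * Complex.exp (t * (lg (a * b) - v : ℝ) * Complex.I)) =
        (gh T t : ℂ) * Complex.exp (t * (-v : ℝ) * Complex.I) * ∑ a ∈ SA, ∑ b ∈ SB,
          (α a * Complex.exp (t * (lg a : ℝ) * Complex.I)) *
            (β b * Complex.exp (t * (lg b : ℝ) * Complex.I)) * GG (a * b) := by
      rw [Finset.mul_sum]
      refine Finset.sum_congr rfl fun a ha => ?_
      rw [Finset.mul_sum]
      refine Finset.sum_congr rfl fun b hb => ?_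
      have ha0 := N_pos (mem_sfb.1 (h1 ha)).1.1.ne_zero
      have hb0 := N_pos (mem_sfb.1 (h2 hb)).1.1.ne_zero
      have e3 : Complex.exp (t * (lg (a * b) - v : ℝ) * Complex.I) =
          Complex.exp (t * (-v : ℝ) * Complex.I) * Complex.exp (t * (lg a : ℝ) * Complex.I) *
            Complex.exp (t * (lg b : ℝ) * Complex.I) := by
        rw [← Complex.exp_add, ← Complex.exp_add, lg, lg, lg, N_mul, Real.log_mul ha0.ne' hb0.ne']
        congr 1
        push_cast
        ring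
      rw [e3]
      ring
    rw [e2, norm_mul, norm_mul, he, mul_one, Complex.norm_real, Real.norm_of_nonneg (gh_nonneg T t hT)]
    refine mul_le_mul_of_nonneg_left (Real.le_sqrt_of_sq_le ?_) (gh_nonneg T t hT)
    have := h A B SA SB (fun a => α a * Complex.exp (t * (lg a : ℝ) * Complex.I))
      (fun b => β b * Complex.exp (t * (lg b : ℝ) * Complex.I)) hA hB h1 h2
    rwa [hn, hn] at this
  rw [integral_mul_const, integral_gh hT, one_mul] at hle
  exact (pow_le_pow_left₀ (norm_nonneg _) hle 2).trans_eq (Real.sq_sqrt hΛ0)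

theorem h2_mem {n d k : O} (hn : n ≠ 0) :
    d ∈ pdiv n ∧ k ∈ pdiv (n / d) ↔ Prim d ∧ Prim k ∧ d * k ∣ n := by
  constructor
  · rintro ⟨hd, hk⟩
    rw [mem_pdiv hn] at hd
    obtain ⟨e, -, h0⟩ := bb_mul_div hn hd.2
    rw [mem_pdiv h0] at hk
    exact ⟨hd.1, hk.1, (mul_dvd_mul_left d hk.2).trans (e ▸ dvd_rfl)⟩
  · rintro ⟨hd, hk, h⟩
    have h1 : d ∣ n := (dvd_mul_right d k).trans h
    obtain ⟨e, hd0, h0⟩ := bb_mul_div hn h1
    rw [mem_pdiv hn, mem_pdiv h0]
    exact ⟨⟨hd, h1⟩, hk, (mul_dvd_mul_iff_left hd0).1 (e ▸ h)⟩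

theorem h2_swap {M : Type*} [AddCommMonoid M] {n : O} (hn : n ≠ 0) (f : O → O → M) :
    ∑ d ∈ pdiv n, ∑ k ∈ pdiv (n / d), f d k = ∑ k ∈ pdiv n, ∑ d ∈ pdiv (n / k), f d k := by
  refine Finset.sum_comm' fun d k => ?_
  rw [h2_mem hn, and_comm (a := d ∈ pdiv (n / k)), h2_mem hn, mul_comm k d]
  tauto

theorem h2_reidx {M : Type*} [AddCommMonoid M] {n : O} (hn : n ≠ 0) (f : O → O → M) :
    ∑ r ∈ pdiv n, ∑ d ∈ pdiv r, f d (r / d) = ∑ d ∈ pdiv n, ∑ k ∈ pdiv (n / d), f d k := by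
  rw [Finset.sum_comm' (t' := pdiv n) (s' := fun d => (pdiv n).filter fun r => d ∣ r)]
  · refine Finset.sum_congr rfl fun d hd => ?_
    have hd' := ((mem_pdiv hn).1 hd).1
    refine Finset.sum_nbij' (fun r => r / d) (fun k => d * k) (fun r hr => ?_) (fun k hk => ?_)
      (fun r hr => ?_) (fun k _ => ?_) fun _ _ => rfl
    · rw [Finset.mem_filter, mem_pdiv hn] at hr
      obtain ⟨e, -, -⟩ := bb_mul_div hr.1.1.ne_zero hr.2
      exact ((h2_mem hn).2 ⟨hd', hr.1.1.div hd' hr.2, e ▸ hr.1.2⟩).2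
    · obtain ⟨-, h1, h2⟩ := (h2_mem hn).1 ⟨hd, hk⟩
      rw [Finset.mem_filter, mem_pdiv hn]
      exact ⟨⟨hd'.mul h1, h2⟩, dvd_mul_right _ _⟩
    · rw [Finset.mem_filter, mem_pdiv hn] at hr
      exact (bb_mul_div hr.1.1.ne_zero hr.2).1.symm
    · exact mul_div_cancel_left₀ k hd'.ne_zero
  · intro r d
    rw [Finset.mem_filter, mem_pdiv hn, mem_pdiv hn]
    constructor
    · rintro ⟨h1, h2⟩
      rw [mem_pdiv h1.1.ne_zero] at h2
      exact ⟨⟨h1, h2.2⟩, h2.1, h2.2.trans h1.2⟩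
    · rintro ⟨⟨h1, h2⟩, h3, -⟩
      rw [mem_pdiv h1.1.ne_zero]
      exact ⟨h1, h3, h2⟩

/-- Vaughan's identity on primary elements (`sum_vm`, `∑_{d ∣ n} μ(d) = [n = 1]`) -/
theorem vaughan (U : ℝ) {n : O} (hn : Prim n) (hU : U < N n) :
    (vm n : ℂ) = ∑ r ∈ (pdiv n).filter (fun r => N r ≤ U), mu r * (lg (n / r) : ℂ) -
      ∑ r ∈ pdiv n, (∑ d ∈ (pdiv r).filter (fun d => N d ≤ U ∧ N (r / d) ≤ U),
        mu d * (vm (r / d) : ℂ)) +
      ∑ d ∈ (pdiv n).filter (fun d => U < N d), mu d *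
        ∑ k ∈ (pdiv (n / d)).filter (fun k => U < N k), (vm k : ℂ) := by
  have h0 := hn.ne_zero
  have e1 : ∑ r ∈ (pdiv n).filter (fun r => N r ≤ U), mu r * (lg (n / r) : ℂ) =
      ∑ d ∈ pdiv n, ∑ k ∈ pdiv (n / d), if N d ≤ U then mu d * (vm k : ℂ) else 0 := by
    rw [Finset.sum_filter]
    refine Finset.sum_congr rfl fun d hd => ?_
    rw [mem_pdiv h0] at hd
    split_ifs
    · rw [lg, ← sum_vm (hn.div hd.1 hd.2), Complex.ofReal_sum, Finset.mul_sum]
    · rw [Finset.sum_const_zero]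
  have e2 : ∑ r ∈ pdiv n, (∑ d ∈ (pdiv r).filter (fun d => N d ≤ U ∧ N (r / d) ≤ U),
        mu d * (vm (r / d) : ℂ)) =
      ∑ d ∈ pdiv n, ∑ k ∈ pdiv (n / d), if N d ≤ U ∧ N k ≤ U then mu d * (vm k : ℂ) else 0 := by
    rw [← h2_reidx h0]
    exact Finset.sum_congr rfl fun r _ => Finset.sum_filter _ _
  have e3 : ∑ d ∈ (pdiv n).filter (fun d => U < N d), mu d *
        ∑ k ∈ (pdiv (n / d)).filter (fun k => U < N k), (vm k : ℂ) =
      ∑ d ∈ pdiv n, ∑ k ∈ pdiv (n / d), if U < N d ∧ U < N k then mu d * (vm k : ℂ) else 0 := by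
    rw [Finset.sum_filter]
    refine Finset.sum_congr rfl fun d _ => ?_
    by_cases hd : U < N d
    · rw [if_pos hd, Finset.mul_sum, Finset.sum_filter]
      simp only [hd, true_and]
    · simp only [hd, false_and, if_false, Finset.sum_const_zero]
  have e4 : (vm n : ℂ) = ∑ d ∈ pdiv n, ∑ k ∈ pdiv (n / d), if U < N k then mu d * (vm k : ℂ) else 0 := by
    rw [h2_swap h0, Finset.sum_eq_single n]
    · simp only [if_pos hU]
      rw [← Finset.sum_mul, EuclideanDomain.div_self h0, sum_mu_pdiv Prim.one, if_pos rfl, one_mul]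
    · intro k hk hkn
      rw [mem_pdiv h0] at hk
      split_ifs
      · rw [← Finset.sum_mul, sum_mu_pdiv (hn.div hk.1 hk.2), if_neg, zero_mul]
        intro h1
        have := (bb_mul_div h0 hk.2).1
        rw [h1, mul_one] at this
        exact hkn this.symm
      · exact Finset.sum_const_zero
    · intro h
      exact absurd ((mem_pdiv h0).2 ⟨hn, dvd_rfl⟩) h
  rw [e1, e2, e3, e4, ← Finset.sum_sub_distrib, ← Finset.sum_add_distrib]
  refine Finset.sum_congr rfl fun d _ => ?_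
  rw [← Finset.sum_sub_distrib, ← Finset.sum_add_distrib]
  refine Finset.sum_congr rfl fun k _ => ?_
  simp only [← not_lt (a := U)]
  by_cases hd : U < N d <;> by_cases hk : U < N k <;> simp [hd, hk]

/-- type I coefficients -/
def h2c (U v : ℝ) (r : O) : ℂ := (if N r ≤ U then mu r * ((v - lg r : ℝ) : ℂ) else 0) -
  ∑ d ∈ (pdiv r).filter (fun d => N d ≤ U ∧ N (r / d) ≤ U), mu d * (vm (r / d) : ℂ)
/-- type II coefficients -/
def h2b (U : ℝ) (e : O) : ℂ := ∑ k ∈ (pdiv e).filter (fun k => U < N k), (vm k : ℂ)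
/-- type II pairs -/
def h2P (U Y : ℝ) : Finset (O × O) := (sfI U Y ×ˢ sfI U Y).filter fun p => N p.2 ≤ Y / 2 ^ box p.1
/-- the remainder -/
def h2r (U R Y v : ℝ) (n : O) : ℂ := (if Prime n then (v : ℂ) else 0) -
  ∑ r ∈ sfb R, (if r ∣ n then h2c U v r else 0) -
  ∑ p ∈ h2P U Y, if n = p.1 * p.2 then mu p.1 * h2b U p.2 else 0

theorem h2_box {d : O} (hd : d ≠ 0) : (2 : ℝ) ^ box d ≤ N d ∧ N d ≤ 2 ^ (box d + 1) := by
  have h1 := Nat.pow_log_le_self 2 (nm_pos hd).ne'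
  have h2 := (Nat.lt_pow_succ_log_self (by norm_num : 1 < 2) (nm d)).le
  unfold N box
  exact ⟨by exact_mod_cast h1, by exact_mod_cast h2⟩

theorem h2_lg_le {n : O} (hn : n ≠ 0) {y : ℝ} (h : N n ≤ Real.exp y) : lg n ≤ y :=
  (Real.log_le_iff_le_exp (N_pos hn)).2 h

theorem h2_lg_mul {a b : O} (ha : a ≠ 0) (hb : b ≠ 0) : lg (a * b) = lg a + lg b := by
  rw [lg, lg, lg, N_mul, Real.log_mul (N_pos ha).ne' (N_pos hb).ne']

theorem h2b_le (U : ℝ) {e : O} (he : Prim e) : ‖h2b U e‖ ≤ lg e := by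
  rw [lg, ← sum_vm he]
  refine (norm_sum_le _ _).trans ((Finset.sum_le_sum fun k _ => ?_).trans
    (Finset.sum_le_sum_of_subset_of_nonneg (Finset.filter_subset _ _) fun k _ _ => vm_nonneg k))
  rw [Complex.norm_real, Real.norm_of_nonneg (vm_nonneg k)]

theorem h2b_zero {U : ℝ} {e : O} (he : e ≠ 0) (h : N e ≤ U) : h2b U e = 0 := by
  refine Finset.sum_eq_zero fun k hk => ?_
  rw [Finset.mem_filter, mem_pdiv he] at hk
  exact absurd ((N_le_of_dvd he hk.1.2).trans h) hk.2.not_ge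

theorem h2_inv {M : Type*} [AddCommMonoid M] {r : O} (hr : Prim r) (f : O → M) :
    ∑ d ∈ pdiv r, f (r / d) = ∑ d ∈ pdiv r, f d := by
  have h0 := hr.ne_zero
  have h1 : ∀ d ∈ pdiv r, r / d ∈ pdiv r ∧ r / (r / d) = d := fun d hd => by
    rw [mem_pdiv h0] at hd ⊢
    obtain ⟨e, -, h2⟩ := bb_mul_div h0 hd.2
    refine ⟨⟨hr.div hd.1 hd.2, Dvd.intro_left d e.symm⟩, ?_⟩
    generalize r / d = m at e h2
    rw [e, mul_div_cancel_right₀ d h2]
  exact Finset.sum_nbij' (fun d => r / d) (fun d => r / d) (fun d hd => (h1 d hd).1)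
    (fun d hd => (h1 d hd).1) (fun d hd => (h1 d hd).2) (fun d hd => (h1 d hd).2) fun _ _ => rfl

theorem h2c_le (U : ℝ) {v : ℝ} {r : O} (hr : Prim r) (h : lg r ≤ v) : ‖h2c U v r‖ ≤ 2 * v := by
  have h0 : 0 ≤ lg r := loc_log_N_nonneg r
  have h1 : ‖if N r ≤ U then mu r * ((v - lg r : ℝ) : ℂ) else 0‖ ≤ v := by
    split_ifs
    · rw [norm_mul, Complex.norm_real, Real.norm_of_nonneg (by linarith)]
      exact (mul_le_of_le_one_left (by linarith) (norm_mu_le r)).trans (by linarith)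
    · rw [norm_zero]; linarith
  have h2 : ‖∑ d ∈ (pdiv r).filter (fun d => N d ≤ U ∧ N (r / d) ≤ U), mu d * (vm (r / d) : ℂ)‖ ≤ lg r := by
    rw [lg, ← sum_vm hr, ← h2_inv hr]
    refine (norm_sum_le _ _).trans ((Finset.sum_le_sum fun k _ => ?_).trans
      (Finset.sum_le_sum_of_subset_of_nonneg (Finset.filter_subset _ _) fun k _ _ => vm_nonneg _))
    rw [norm_mul, Complex.norm_real, Real.norm_of_nonneg (vm_nonneg _)]
    exact mul_le_of_le_one_left (vm_nonneg _) (norm_mu_le k)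
  exact (norm_sub_le _ _).trans (by linarith)

theorem h2c_zero {U : ℝ} (hU : 1 ≤ U) (v : ℝ) {r : O} (hr : r ≠ 0) (h : U * U < N r) : h2c U v r = 0 := by
  rw [h2c, if_neg (by nlinarith), Finset.sum_eq_zero, sub_zero]
  intro d hd
  rw [Finset.mem_filter, mem_pdiv hr] at hd
  have e := congrArg N (bb_mul_div hr hd.1.2).1
  rw [N_mul] at e
  exact absurd (e.trans_le (mul_le_mul hd.2.1 hd.2.2 (N_nonneg _) (by linarith))) h.not_ge

theorem h2_vm {n : O} (hn : SF n) : (vm n : ℂ) = if Prime n then (lg n : ℂ) else 0 := by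
  split_ifs with h
  · rw [vm_prime h hn.1, lg]
  · rw [Complex.ofReal_eq_zero]
    by_contra h0
    obtain ⟨p, j, hp, -, rfl⟩ := vm_ne_zero h0
    rcases hn.2.eq_zero_or_one_of_pow_of_not_isUnit hp.not_isUnit with h1 | h1
    · exact absurd h1 (Nat.succ_ne_zero j)
    · rw [h1, pow_one] at h
      exact h hp

theorem h2_II_eq (U : ℝ) {Y : ℝ} {n : O} (hn : SF n) (hY : N n ≤ Y) :
    ∑ p ∈ h2P U Y, (if n = p.1 * p.2 then mu p.1 * h2b U p.2 else 0) =
      ∑ d ∈ (pdiv n).filter (fun d => U < N d), mu d * h2b U (n / d) := by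
  have h0 := hn.1.ne_zero
  rw [← Finset.sum_filter, ← Finset.sum_filter_of_ne (p := fun d => U < N (n / d))
    (s := (pdiv n).filter (fun d => U < N d))]
  · refine Finset.sum_nbij' (fun p => p.1) (fun d => (d, n / d)) (fun p hp => ?_) (fun d hd => ?_)
      (fun p hp => ?_) (fun _ _ => rfl) fun p hp => ?_
    · simp only [h2P, Finset.mem_filter, Finset.mem_product, mem_sfI] at hp
      obtain ⟨⟨⟨h1, h2⟩, -⟩, rfl⟩ := hp
      rw [Finset.mem_filter, Finset.mem_filter, mem_pdiv h0, mul_div_cancel_left₀ _ h1.1.1.ne_zero]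
      exact ⟨⟨⟨h1.1.1, dvd_mul_right _ _⟩, h1.2.1⟩, h2.2.1⟩
    · rw [Finset.mem_filter, Finset.mem_filter, mem_pdiv h0] at hd
      obtain ⟨⟨⟨h1, h2⟩, h3⟩, h4⟩ := hd
      obtain ⟨e, k1, k2⟩ := bb_mul_div h0 h2
      simp only [h2P, Finset.mem_filter, Finset.mem_product, mem_sfI]
      refine ⟨⟨⟨⟨hn.of_dvd h1 h2, h3, (N_le_of_dvd h0 h2).trans hY⟩, (hn.div h1 h2).1, h4,
        (N_le_of_dvd h0 (Dvd.intro_left d e.symm)).trans hY⟩, ?_⟩, e⟩
      rw [le_div_iff₀ (by positivity), mul_comm]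
      refine (mul_le_mul_of_nonneg_right (h2_box k1).1 (N_nonneg _)).trans ?_
      rw [← N_mul, ← e]
      exact hY
    · simp only [h2P, Finset.mem_filter, Finset.mem_product, mem_sfI] at hp
      obtain ⟨⟨⟨h1, h2⟩, -⟩, rfl⟩ := hp
      rw [mul_div_cancel_left₀ _ h1.1.1.ne_zero]
    · simp only [h2P, Finset.mem_filter, Finset.mem_product, mem_sfI] at hp
      obtain ⟨⟨⟨h1, h2⟩, -⟩, rfl⟩ := hp
      rw [mul_div_cancel_left₀ _ h1.1.1.ne_zero]
  · intro d hd hne
    rw [Finset.mem_filter, mem_pdiv h0] at hd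
    by_contra hc
    exact hne (by rw [h2b_zero (bb_mul_div h0 hd.1.2).2.2 (not_lt.1 hc), mul_zero])

theorem h2r_in {U R Y v : ℝ} (hU : 1 ≤ U) (hR : U * U ≤ R) {n : O} (hn : SF n) (h1 : U < N n)
    (hY : N n ≤ Y) : ‖h2r U R Y v n‖ ≤ 2 * ∑ r ∈ ball U, if r ∣ n then |lg n - v| else 0 := by
  have h0 := hn.1.ne_zero
  have e1 : ∑ r ∈ sfb R, (if r ∣ n then h2c U v r else 0) = ∑ r ∈ pdiv n, h2c U v r := by
    rw [← Finset.sum_filter]
    refine Finset.sum_subset (fun r hr => ?_) fun r hr hr' => ?_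
    · rw [Finset.mem_filter, mem_sfb] at hr
      exact (mem_pdiv h0).2 ⟨hr.1.1.1, hr.2⟩
    · rw [mem_pdiv h0] at hr
      refine h2c_zero hU v hr.1.ne_zero (hR.trans_lt (not_le.1 fun h => hr' ?_))
      rw [Finset.mem_filter, mem_sfb]
      exact ⟨⟨hn.of_dvd hr.1 hr.2, h⟩, hr.2⟩
  have e2 : ∑ r ∈ (pdiv n).filter (fun r => N r ≤ U), mu r * (lg (n / r) : ℂ) =
      ∑ r ∈ pdiv n, (if N r ≤ U then mu r * ((v - lg r : ℝ) : ℂ) else 0) +
        ((lg n - v : ℝ) : ℂ) * ∑ r ∈ (pdiv n).filter (fun r => N r ≤ U), mu r := by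
    rw [← Finset.sum_filter, Finset.mul_sum, ← Finset.sum_add_distrib]
    refine Finset.sum_congr rfl fun r hr => ?_
    rw [Finset.mem_filter, mem_pdiv h0] at hr
    obtain ⟨e, k1, k2⟩ := bb_mul_div h0 hr.1.2
    have := h2_lg_mul k1 k2
    rw [← e] at this
    rw [this]
    push_cast
    ring
  have e3 : h2r U R Y v n = ((lg n - v : ℝ) : ℂ) *
      (∑ r ∈ (pdiv n).filter (fun r => N r ≤ U), mu r - if Prime n then 1 else 0) := by
    have hv := vaughan U hn.1 h1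
    rw [e2, h2_vm hn] at hv
    rw [h2r, e1, h2_II_eq U hn hY]
    simp only [h2c, h2b, Finset.sum_sub_distrib]
    push_cast at hv ⊢
    split_ifs at hv ⊢ <;> linear_combination hv
  have h2 : ‖∑ r ∈ (pdiv n).filter (fun r => N r ≤ U), mu r‖ ≤ ∑ r ∈ ball U, if r ∣ n then (1 : ℝ) else 0 := by
    rw [← Finset.sum_filter]
    refine (norm_sum_le _ _).trans ((Finset.sum_le_sum fun r _ => norm_mu_le r).trans
      (Finset.sum_le_sum_of_subset_of_nonneg (fun r hr => ?_) fun _ _ _ => zero_le_one))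
    rw [Finset.mem_filter, mem_pdiv h0] at hr
    exact Finset.mem_filter.2 ⟨mem_ball.2 ⟨hr.1.1.ne_zero, hr.2⟩, hr.1.2⟩
  have h3 : ‖if Prime n then (1 : ℂ) else 0‖ ≤ ∑ r ∈ ball U, if r ∣ n then (1 : ℝ) else 0 := by
    refine le_trans (b := 1) (by split_ifs <;> simp) ?_
    have h4 : (1 : O) ∈ ball U := mem_ball.2 ⟨one_ne_zero, by
      rw [N, isUnit_iff_nm.1 isUnit_one, Nat.cast_one]; exact hU⟩
    refine le_trans (by rw [if_pos (one_dvd n)]) (Finset.single_le_sum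
      (f := fun r => if r ∣ n then (1 : ℝ) else 0) (fun r _ => by split_ifs <;> norm_num) h4)
  have e4 : ∑ r ∈ ball U, (if r ∣ n then |lg n - v| else 0) =
      |lg n - v| * ∑ r ∈ ball U, if r ∣ n then (1 : ℝ) else 0 := by
    rw [Finset.mul_sum]
    exact Finset.sum_congr rfl fun r _ => by split_ifs <;> simp
  rw [e3, e4, norm_mul, Complex.norm_real, Real.norm_eq_abs, mul_left_comm]
  exact mul_le_mul_of_nonneg_left ((norm_sub_le _ _).trans (by linarith)) (abs_nonneg _)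

theorem h2_card_sfI {U Y : ℝ} (hY : 0 ≤ Y) : ((sfI U Y).card : ℝ) ≤ 18 * Y :=
  (Nat.cast_le.2 (Finset.card_filter_le _ _)).trans (card_ball_le hY)

theorem h2r_le (U : ℝ) {v : ℝ} (hv : 0 ≤ v) (n : O) :
    ‖h2r U (Real.exp (v / 4)) (Real.exp (v + 1)) v n‖ ≤ (37 + 324 * Real.exp 2) * Real.exp (3 * v) := by
  have a1 : v + 1 ≤ Real.exp v := Real.add_one_le_exp v
  have a2 : Real.exp v ≤ Real.exp (3 * v) := Real.exp_le_exp.2 (by linarith)
  have a3 : Real.exp (v / 4) * Real.exp v ≤ Real.exp (3 * v) := by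
    rw [← Real.exp_add]; exact Real.exp_le_exp.2 (by linarith)
  have a4 : Real.exp (v + 1) * Real.exp (v + 1) * Real.exp v = Real.exp 2 * Real.exp (3 * v) := by
    rw [← Real.exp_add, ← Real.exp_add, ← Real.exp_add]; congr 1; ring
  have h1 : ‖if Prime n then (v : ℂ) else 0‖ ≤ Real.exp (3 * v) := by
    split_ifs
    · rw [Complex.norm_real, Real.norm_of_nonneg hv]; linarith
    · rw [norm_zero]; positivity
  have h2 : ‖∑ r ∈ sfb (Real.exp (v / 4)), (if r ∣ n then h2c U v r else 0)‖ ≤ 36 * Real.exp (3 * v) := by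
    refine (norm_sum_le _ _).trans ((Finset.sum_le_card_nsmul _ _ (2 * v) fun r hr => ?_).trans ?_)
    · rw [mem_sfb] at hr
      split_ifs
      · exact h2c_le U hr.1.1 ((h2_lg_le hr.1.1.ne_zero hr.2).trans (by linarith))
      · rw [norm_zero]; positivity
    · rw [nsmul_eq_mul]
      calc _ ≤ 18 * Real.exp (v / 4) * (2 * Real.exp v) :=
            mul_le_mul ((Nat.cast_le.2 (Finset.card_filter_le _ _)).trans (card_ball_le (by positivity)))
              (by linarith) (by positivity) (by positivity)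
        _ ≤ _ := by linarith
  have h3 : ‖∑ p ∈ h2P U (Real.exp (v + 1)), if n = p.1 * p.2 then mu p.1 * h2b U p.2 else 0‖ ≤
      324 * Real.exp 2 * Real.exp (3 * v) := by
    refine (norm_sum_le _ _).trans ((Finset.sum_le_card_nsmul _ _ (v + 1) fun p hp => ?_).trans ?_)
    · simp only [h2P, Finset.mem_filter, Finset.mem_product, mem_sfI] at hp
      split_ifs
      · rw [norm_mul]
        exact (mul_le_of_le_one_left (norm_nonneg _) (norm_mu_le _)).trans
          ((h2b_le U hp.1.2.1.1).trans (h2_lg_le hp.1.2.1.1.ne_zero hp.1.2.2.2))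
      · rw [norm_zero]; positivity
    · rw [nsmul_eq_mul]
      have b1 : ((h2P U (Real.exp (v + 1))).card : ℝ) ≤ 18 * Real.exp (v + 1) * (18 * Real.exp (v + 1)) := by
        refine (Nat.cast_le.2 (Finset.card_filter_le _ _)).trans ?_
        rw [Finset.card_product, Nat.cast_mul]
        exact mul_le_mul (h2_card_sfI (by positivity)) (h2_card_sfI (by positivity)) (by positivity)
          (by positivity)
      calc _ ≤ 18 * Real.exp (v + 1) * (18 * Real.exp (v + 1)) * Real.exp v :=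
            mul_le_mul b1 a1 (by positivity) (by positivity)
        _ = _ := by linear_combination 324 * a4
  exact (norm_sub_le _ _).trans ((add_le_add (norm_sub_le _ _) h3).trans (by linarith))

theorem h2_abs_gw {T : ℝ} (hT : 0 < T) (x : ℝ) : |x| * gw (T * x) ≤ T⁻¹ * gw (T / 2 * x) := by
  have h1 : |T * x| ≤ Real.exp (3 / 4 * (T * x) ^ 2) := by
    refine le_trans ?_ (Real.add_one_le_exp _)
    rw [← sq_abs]
    nlinarith [sq_nonneg (|T * x| - 2 / 3)]
  rw [abs_mul, abs_of_pos hT] at h1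
  rw [le_inv_mul_iff₀ hT, ← mul_assoc, gw, gw]
  refine (mul_le_mul_of_nonneg_right h1 (Real.exp_pos _).le).trans (le_of_eq ?_)
  rw [← Real.exp_add]
  congr 1
  ring

theorem h2_row : ∃ C : ℝ, 0 ≤ C ∧ ∀ (σ v T : ℝ) (r : O) (S : Finset O), |σ| ≤ 4 → 2 ≤ T → r ≠ 0 →
    (∀ n ∈ S, n ≠ 0) →
    ∑ n ∈ S, (if r ∣ n then |lg n - v| else 0) * (N n ^ (-σ) * gw (T * (lg n - v))) ≤
      C * Real.exp (-(σ * v)) * (Real.exp v / T ^ 2 * (N r)⁻¹ + Real.exp (v / 2)) := by
  obtain ⟨C, hC, han⟩ := an_pow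
  refine ⟨2 * C, by positivity, fun σ v T r S hσ hT hr hS => ?_⟩
  have hT0 : 0 < T := by linarith
  have hr0 := N_pos hr
  set S' := S.filter fun n => r ∣ n with hS'
  have hm : ∀ n ∈ S', n = r * (n / r) ∧ n / r ≠ 0 := fun n hn => by
    rw [hS', Finset.mem_filter] at hn
    exact ⟨(bb_mul_div (hS n hn.1) hn.2).1, (bb_mul_div (hS n hn.1) hn.2).2.2⟩
  have h1 : ∑ n ∈ S, (if r ∣ n then |lg n - v| else 0) * (N n ^ (-σ) * gw (T * (lg n - v))) ≤
      T⁻¹ * N r ^ (-σ) * ∑ m ∈ S'.image (· / r), N m ^ (-σ) * gw (T / 2 * (lg m - (v - lg r))) := by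
    rw [Finset.sum_image fun a ha b hb hab => by rw [(hm a ha).1, (hm b hb).1]; exact congrArg _ hab,
      Finset.mul_sum]
    simp only [ite_mul, zero_mul]
    rw [← Finset.sum_filter]
    refine Finset.sum_le_sum fun n hn => ?_
    obtain ⟨e, h0⟩ := hm n hn
    generalize n / r = m at e h0
    rw [e, h2_lg_mul hr h0, N_mul, Real.mul_rpow hr0.le (N_nonneg m),
      show lg m - (v - lg r) = lg r + lg m - v by ring]
    have := mul_le_mul_of_nonneg_left (h2_abs_gw hT0 (lg r + lg m - v))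
      (mul_nonneg (Real.rpow_nonneg hr0.le (-σ)) (Real.rpow_nonneg (N_nonneg m) (-σ)))
    linarith
  have h2 := (han (-σ) (v - lg r) (T / 2) (by rw [abs_neg]; linarith) (by linarith) (S'.image (· / r))
    fun m hm' => by
      obtain ⟨n, hn, rfl⟩ := Finset.mem_image.1 hm'
      exact (hm n hn).2).1
  have e1 : N r ^ (-σ) * Real.exp (-σ * (v - lg r)) = Real.exp (-(σ * v)) := by
    rw [ti1_rpow hr, ← Real.exp_add]; congr 1; ring
  have e2 : Real.exp (v - lg r) = Real.exp v * (N r)⁻¹ := by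
    rw [Real.exp_sub, ← ti1_N_exp hr, div_eq_mul_inv]
  have e3 : T⁻¹ * Real.exp ((v - lg r) / 2) ≤ 2 * Real.exp (v / 2) := by
    have : 0 ≤ lg r := loc_log_N_nonneg r
    exact mul_le_mul ((inv_le_one_of_one_le₀ (by linarith)).trans one_le_two)
      (Real.exp_le_exp.2 (by linarith)) (by positivity) zero_le_two
  refine h1.trans ((mul_le_mul_of_nonneg_left h2
    (mul_nonneg (by positivity) (Real.rpow_nonneg hr0.le _))).trans ?_)
  calc _ = C * (N r ^ (-σ) * Real.exp (-σ * (v - lg r))) *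
        (2 * (Real.exp (v - lg r) / T ^ 2) + T⁻¹ * Real.exp ((v - lg r) / 2)) := by
        field_simp
    _ ≤ C * Real.exp (-(σ * v)) * (2 * (Real.exp v * (N r)⁻¹ / T ^ 2) + 2 * Real.exp (v / 2)) := by
        rw [e1, e2]
        gcongr
    _ = _ := by ring

theorem h2_win_le {b : O → ℂ} {g : O → ℝ} {v T c : ℝ} {s : ℂ} (hb : ∀ n, n ≠ 0 → ‖b n‖ ≤ g n)
    (h : ∀ S : Finset O, (∀ n ∈ S, n ≠ 0) →
      ∑ n ∈ S, g n * (N n ^ (-s.re) * gw (T * (lg n - v))) ≤ c) : ‖winS b v T s‖ ≤ c := by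
  refine h2_tsum (if_pos rfl) (fun n hn => ?_) h
  have h0 : 0 ≤ gw (T * (lg n - v)) := (Real.exp_pos _).le
  rw [if_neg hn, mul_assoc, norm_mul, norm_mul, Complex.norm_cpow_eq_rpow_re_of_pos (N_pos hn),
    Complex.norm_real, Real.norm_of_nonneg h0, Complex.neg_re]
  exact mul_le_mul_of_nonneg_right (hb n hn) (mul_nonneg (Real.rpow_nonneg (N_nonneg n) _) h0)

theorem h2_delta {m : O} (hm : m ≠ 0) (c : ℂ) (v T : ℝ) (s : ℂ) :
    winS (fun n => if n = m then c else 0) v T s =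
      c * (N m : ℂ) ^ (-s) * (gw (T * (lg m - v)) : ℂ) := by
  rw [winS, tsum_eq_single m fun n hn => by simp [hn]]
  simp [hm]

theorem h2_norm_h3 (ℓ : ℤ) {φ : O → ℂ} (hφ : ∀ m, ‖φ m‖ ≤ 1) (n : O) : ‖h3 ℓ φ n‖ ≤ 1 := by
  rw [h3]
  split_ifs with hn
  · rw [norm_mul, norm_mul, Complex.norm_conj, lw_norm_ang1 ℓ hn.ne_zero, mul_one]
    exact mul_le_one₀ (norm_g3_le hn) (norm_nonneg _) (hφ n)
  · simp

theorem h2_h3_zero (ℓ : ℤ) (φ : O → ℂ) {n : O} (hn : ¬ SF n) : h3 ℓ φ n = 0 := by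
  rw [h3]
  split_ifs with h
  · rw [g3_eq_zero h fun h' => hn ⟨h, h'⟩]; simp
  · rfl

theorem h2_err : ∃ C : ℝ, 0 ≤ C ∧ ∀ (h : O → ℂ) (v T : ℝ) (s : ℂ), (∀ n, ‖h n‖ ≤ 1) →
    (∀ n, ¬ SF n → h n = 0) → 16 ≤ v → v + 2 ≤ T → |s.re| ≤ 4 →
    ‖winS (fun n => h2r (Real.exp (v / 8)) (Real.exp (v / 4)) (Real.exp (v + 1)) v n * h n) v T s‖ ≤
      C * (Real.exp (95 / 100 * v) + v * Real.exp v / T ^ 2) * Real.exp (-(s.re * v)) := by
  obtain ⟨C1, hC1, hrow⟩ := h2_row
  obtain ⟨C2, hC2, htail⟩ := an_tail 4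
  obtain ⟨C3, hinv⟩ := sum_ball_inv
  have hC3 : 0 ≤ C3 := by
    have := (Finset.sum_nonneg fun n _ => inv_nonneg.2 (N_nonneg n)).trans (hinv 1 le_rfl)
    simpa using this
  set K := 37 + 324 * Real.exp 2 with hK
  have hK0 : 0 ≤ K := by positivity
  refine ⟨2 * C1 * (C3 + 18) + K * C2, by positivity, fun h v T s h1 h0 hv hT hs => ?_⟩
  set U := Real.exp (v / 8) with hU
  have hU1 : 1 ≤ U := Real.one_le_exp (by linarith)
  refine h2_win_le (g := fun n => 2 * (∑ r ∈ ball U, if r ∣ n then |lg n - v| else 0) +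
    if 1 ≤ |lg n - v| then K * Real.exp (3 * v) else 0) (fun n hn => ?_) fun S hS => ?_
  · have a1 : 0 ≤ 2 * ∑ r ∈ ball U, if r ∣ n then |lg n - v| else 0 :=
      mul_nonneg zero_le_two (Finset.sum_nonneg fun r _ => by split_ifs <;> positivity)
    rw [norm_mul]
    refine le_trans (b := if SF n then ‖h2r U (Real.exp (v / 4)) (Real.exp (v + 1)) v n‖ else 0) ?_ ?_
    · split_ifs with hn'
      · exact mul_le_of_le_one_right (norm_nonneg _) (h1 n)
      · rw [h0 n hn', norm_zero, mul_zero]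
    split_ifs with hn' h2 h2
    · exact (h2r_le U (by linarith) n).trans (le_add_of_nonneg_left a1)
    · rw [add_zero]
      rw [not_le, abs_lt] at h2
      refine h2r_in hU1 (le_of_eq ?_) hn' ?_ ?_
      · rw [hU, ← Real.exp_add]; congr 1; ring
      · rw [ti1_N_exp hn]; exact Real.exp_lt_exp.2 (by linarith [h2.1])
      · rw [ti1_N_exp hn]; exact Real.exp_le_exp.2 (by linarith [h2.2])
    · positivity
    · linarith
  · have b1 : ∑ n ∈ S, (2 * ∑ r ∈ ball U, if r ∣ n then |lg n - v| else 0) *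
        (N n ^ (-s.re) * gw (T * (lg n - v))) ≤
        2 * C1 * (C3 + 18) * (Real.exp (95 / 100 * v) + v * Real.exp v / T ^ 2) *
          Real.exp (-(s.re * v)) := by
      simp only [mul_assoc (2 : ℝ), Finset.sum_mul]
      rw [← Finset.mul_sum, Finset.sum_comm]
      refine mul_le_mul_of_nonneg_left ((Finset.sum_le_sum fun r hr =>
        hrow s.re v T r S hs (by linarith) (mem_ball.1 hr).1 hS).trans ?_) zero_le_two
      rw [← Finset.mul_sum, Finset.sum_add_distrib, ← Finset.mul_sum, Finset.sum_const, nsmul_eq_mul]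
      have c1 : ∑ r ∈ ball U, (N r)⁻¹ ≤ C3 * v := by
        refine (hinv U hU1).trans (mul_le_mul_of_nonneg_left ?_ hC3)
        rw [hU, Real.log_exp]
        linarith
      have c2 : ((ball U).card : ℝ) * Real.exp (v / 2) ≤ 18 * Real.exp (95 / 100 * v) := by
        refine (mul_le_mul_of_nonneg_right (card_ball_le (by positivity)) (by positivity)).trans ?_
        rw [hU, mul_assoc, ← Real.exp_add]
        exact mul_le_mul_of_nonneg_left (Real.exp_le_exp.2 (by linarith)) (by norm_num)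
      have c3 : 0 ≤ v * Real.exp v / T ^ 2 := div_nonneg (mul_nonneg (by linarith) (by positivity)) (by positivity)
      calc _ ≤ C1 * Real.exp (-(s.re * v)) *
            (Real.exp v / T ^ 2 * (C3 * v) + 18 * Real.exp (95 / 100 * v)) := by gcongr
        _ = C1 * (C3 * (v * Real.exp v / T ^ 2) + 18 * Real.exp (95 / 100 * v)) *
            Real.exp (-(s.re * v)) := by ring
        _ ≤ C1 * ((C3 + 18) * (Real.exp (95 / 100 * v) + v * Real.exp v / T ^ 2)) *
            Real.exp (-(s.re * v)) := by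
            refine mul_le_mul_of_nonneg_right (mul_le_mul_of_nonneg_left ?_ hC1) (by positivity)
            nlinarith [mul_nonneg hC3 (Real.exp_pos (95 / 100 * v)).le]
        _ = _ := by ring
    have b2 : ∑ n ∈ S, (if 1 ≤ |lg n - v| then K * Real.exp (3 * v) else 0) *
        (N n ^ (-s.re) * gw (T * (lg n - v))) ≤
        K * C2 * (Real.exp (95 / 100 * v) + v * Real.exp v / T ^ 2) * Real.exp (-(s.re * v)) := by
      simp only [ite_mul, zero_mul]
      rw [← Finset.sum_filter, ← Finset.mul_sum]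
      have c1 := (Finset.sum_le_sum fun n hn => mul_le_mul_of_nonneg_right
        (h2_N_rpow_le (σ := -s.re) (hS n (Finset.mem_filter.1 hn).1) (neg_le_of_abs_le hs |> neg_le.1))
        (show 0 ≤ gw (T * (lg n - v)) from (Real.exp_pos _).le)).trans
        (htail v T (by linarith) (S.filter fun n => 1 ≤ |lg n - v|) fun n hn =>
          ⟨hS n (Finset.mem_filter.1 hn).1, (Finset.mem_filter.1 hn).2⟩)
      have c2 : Real.exp (3 * v) * Real.exp ((((4 : ℕ) : ℝ) + 1) * v - T ^ 2) ≤ Real.exp (-(s.re * v)) := by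
        rw [← Real.exp_add]
        refine Real.exp_le_exp.2 ?_
        have := mul_le_mul_of_nonneg_right (le_of_abs_le hs) (show 0 ≤ v by linarith)
        push_cast
        nlinarith
      have c3 : 1 ≤ Real.exp (95 / 100 * v) + v * Real.exp v / T ^ 2 :=
        le_add_of_le_of_nonneg (Real.one_le_exp (by linarith))
          (div_nonneg (mul_nonneg (by linarith) (by positivity)) (by positivity))
      calc _ ≤ K * Real.exp (3 * v) * (C2 * Real.exp ((((4 : ℕ) : ℝ) + 1) * v - T ^ 2)) :=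
            mul_le_mul_of_nonneg_left c1 (by positivity)
        _ = K * C2 * 1 * (Real.exp (3 * v) * Real.exp ((((4 : ℕ) : ℝ) + 1) * v - T ^ 2)) := by ring
        _ ≤ _ := by gcongr
    simp only [add_mul, Finset.sum_add_distrib] at b1 b2 ⊢
    linarith

theorem h2_wt {n : O} (hn : n ≠ 0) {T : ℝ} (hT : 0 < T) (v : ℝ) (s : ℂ) :
    conj ((N n : ℂ) ^ (-s) * (gw (T * (lg n - v)) : ℂ)) =
      (Real.exp (-(s.re * v) + s.re ^ 2 / (4 * T ^ 2)) : ℂ) * Complex.exp (s.im * lg n * Complex.I) *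
        (gw (T * (lg n - (v - s.re / (2 * T ^ 2)))) : ℂ) := by
  have e1 : conj ((N n : ℂ) ^ (-s)) =
      (Real.exp (-(s.re * lg n)) : ℂ) * Complex.exp (s.im * lg n * Complex.I) := by
    rw [ti1_cpow (N_pos hn), ← Complex.exp_conj, Complex.ofReal_exp, ← Complex.exp_add, lg]
    congr 1
    apply Complex.ext <;> simp [mul_comm]
  have e2 : Real.exp (-(s.re * lg n)) * gw (T * (lg n - v)) =
      Real.exp (-(s.re * v) + s.re ^ 2 / (4 * T ^ 2)) * gw (T * (lg n - (v - s.re / (2 * T ^ 2)))) := by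
    rw [gw, gw, ← Real.exp_add, ← Real.exp_add]
    congr 1
    field_simp
    ring
  rw [map_mul, e1, Complex.conj_ofReal, mul_right_comm, ← Complex.ofReal_mul, e2, Complex.ofReal_mul]
  ring

theorem h2_g3 {n : O} (hn : Prim n) : g3 n = GG n * cub n lam := by
  rw [GG, mul_assoc, Complex.conj_mul', (rcub_isChar hn).norm_eq_one hn.ne_zero hn.isCoprime_lam.symm]
  simp

theorem h2_n2 {S : Finset O} {X b : ℝ} (hX : 0 ≤ X) (hS : S ⊆ sfb X) {x : O → ℂ} (h : ∀ n ∈ S, ‖x n‖ ≤ b) :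
    n2 S x ≤ 18 * X * b ^ 2 := by
  refine (Finset.sum_le_card_nsmul _ _ (b ^ 2) fun n hn =>
    pow_le_pow_left₀ (norm_nonneg _) (h n hn) 2).trans ?_
  rw [nsmul_eq_mul]
  exact mul_le_mul_of_nonneg_right ((Nat.cast_le.2 (Finset.card_le_card (hS.trans (cl_sub X)))).trans
    (card_ball_le hX)) (sq_nonneg b)

theorem h2_blk : ∃ C : ℝ, 0 ≤ C ∧ ∀ (ℓ : ℤ) (Q0 x : O) (φ : O → ℂ) (A B b v T : ℝ) (s : ℂ)
    (SA SB : Finset O) (α β : O → ℂ), Per Q0 φ → (∀ m, ‖φ m‖ ≤ 1) → 1 ≤ A → 1 ≤ B → 0 ≤ b → 0 ≤ v →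
    1 ≤ T → |s.re| ≤ 4 → A ≤ Real.exp (7 / 8 * v + 2) → B ≤ Real.exp (7 / 8 * v + 2) →
    A * B ≤ Real.exp (v + 2) → SA ⊆ sfb A → SB ⊆ sfb B → (∀ d ∈ SA, Q0 ∣ d - x) →
    (∀ d ∈ SA, ‖α d‖ ≤ 1) → (∀ e ∈ SB, ‖β e‖ ≤ b) →
    ‖∑ d ∈ SA, ∑ e ∈ SB, α d * β e * h3 ℓ φ (d * e) * (N (d * e) : ℂ) ^ (-s) *
      (gw (T * (lg (d * e) - v)) : ℂ)‖ ≤ C * b * Real.exp (377 / 400 * v) * Real.exp (-(s.re * v)) := by
  obtain ⟨C, hC, hbg⟩ := bg_cls (1 / 100) (by norm_num)
  refine ⟨Real.exp 4 * (Real.sqrt (972 * C) * Real.exp 3), by positivity,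
    fun ℓ Q0 x φ A B b v T s SA SB α β hper hφ hA hB hb hv hT hs hA' hB' hAB h1 h2 hx hα hβ => ?_⟩
  have hT0 : 0 < T := by linarith
  set α' : O → ℂ := fun d => conj (α d) * cub d lam * conj (ang d ^ ℓ) *
    Complex.exp (s.im * lg d * Complex.I) with hα'
  set β' : O → ℂ := fun e => conj (β e) * cub e lam * conj (ang e ^ ℓ) *
    Complex.exp (s.im * lg e * Complex.I) * conj (φ (x * e)) with hβ'
  have he : ∀ t x : ℝ, ‖Complex.exp (t * x * Complex.I)‖ = 1 := fun t x => by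
    rw [← Complex.ofReal_mul, Complex.norm_exp_ofReal_mul_I]
  have hn : ∀ (z : ℂ) (d : O), Prim d → ‖conj z * cub d lam * conj (ang d ^ ℓ) *
      Complex.exp (s.im * lg d * Complex.I)‖ ≤ ‖z‖ := fun z d hd => by
    rw [norm_mul, norm_mul, norm_mul, he, Complex.norm_conj, Complex.norm_conj, lw_norm_ang1 ℓ hd.ne_zero,
      mul_one, mul_one]
    exact mul_le_of_le_one_right (norm_nonneg _) (ti1_norm_cub hd _)
  have e : conj (∑ d ∈ SA, ∑ e ∈ SB, α d * β e * h3 ℓ φ (d * e) * (N (d * e) : ℂ) ^ (-s) *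
      (gw (T * (lg (d * e) - v)) : ℂ)) = (Real.exp (-(s.re * v) + s.re ^ 2 / (4 * T ^ 2)) : ℂ) *
        BG SA SB α' β' (v - s.re / (2 * T ^ 2)) T := by
    rw [BG, map_sum, Finset.mul_sum]
    refine Finset.sum_congr rfl fun d hd => ?_
    rw [map_sum, Finset.mul_sum]
    refine Finset.sum_congr rfl fun e he => ?_
    have pd := (mem_sfb.1 (h1 hd)).1.1
    have pe := (mem_sfb.1 (h2 he)).1.1
    have pde := pd.mul pe
    have e1 : φ (d * e) = φ (x * e) := hper.congr (by rw [← sub_mul]; exact (hx d hd).mul_right e)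
    have e2 : Complex.exp (s.im * lg (d * e) * Complex.I) =
        Complex.exp (s.im * lg d * Complex.I) * Complex.exp (s.im * lg e * Complex.I) := by
      rw [← Complex.exp_add, h2_lg_mul pd.ne_zero pe.ne_zero]
      congr 1
      push_cast
      ring
    have e3 : cub (d * e) lam = cub d lam * cub e lam := sym_mul_left 3 pd.ne_zero pe.ne_zero lam
    rw [mul_assoc _ ((N (d * e) : ℂ) ^ (-s)), map_mul, h2_wt pde.ne_zero hT0, h3, if_pos pde, e1, e2,
      ang_mul, mul_zpow, hα', hβ']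
    simp only [map_mul, Complex.conj_conj]
    rw [h2_g3 pde, e3]
    ring
  have k1 : n2 SA α' ≤ 18 * A * 1 ^ 2 := h2_n2 (by linarith) h1 fun d hd =>
    (hn _ d (mem_sfb.1 (h1 hd)).1.1).trans (hα d hd)
  have k2 : n2 SB β' ≤ 18 * B * b ^ 2 := h2_n2 (by linarith) h2 fun d hd => by
    rw [hβ']
    dsimp only
    rw [norm_mul, Complex.norm_conj (φ _)]
    exact (mul_le_of_le_one_right (norm_nonneg _) (hφ _)).trans
      ((hn _ d (mem_sfb.1 (h2 hd)).1.1).trans (hβ d hd))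
  have k3 : (A * B) ^ (1 / 100 : ℝ) ≤ Real.exp ((v + 2) * (1 / 100)) := by
    rw [Real.exp_mul]
    exact Real.rpow_le_rpow (by positivity) hAB (by norm_num)
  have k4 : (A * B) ^ (2 / 3 : ℝ) ≤ Real.exp (7 / 8 * v + 2) := by
    refine (Real.rpow_le_rpow (by positivity) hAB (by norm_num)).trans ?_
    rw [← Real.exp_mul]
    exact Real.exp_le_exp.2 (by linarith)
  have k5 : ‖BG SA SB α' β' (v - s.re / (2 * T ^ 2)) T‖ ≤
      Real.sqrt (972 * C) * Real.exp 3 * b * Real.exp (377 / 400 * v) := by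
    refine le_of_pow_le_pow_left₀ two_ne_zero (by positivity) ?_
    have c0 := cl_n2 SB β'
    have c1 : Real.exp ((v + 2) * (1 / 100)) * Real.exp (7 / 8 * v + 2) * Real.exp (v + 2) ≤
        (Real.exp 3 * Real.exp (377 / 400 * v)) ^ 2 := by
      rw [← Real.exp_add, ← Real.exp_add, ← Real.exp_add, sq, ← Real.exp_add]
      exact Real.exp_le_exp.2 (by linarith)
    calc _ ≤ _ := hbg A B _ T SA SB α' β' hA hB hT0 h1 h2
      _ ≤ C * Real.exp ((v + 2) * (1 / 100)) * (Real.exp (7 / 8 * v + 2) + Real.exp (7 / 8 * v + 2) +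
          Real.exp (7 / 8 * v + 2)) * (18 * A * 1 ^ 2) * (18 * B * b ^ 2) := by
          gcongr
          exact cl_n2 SA α'
      _ = 972 * C * b ^ 2 * (Real.exp ((v + 2) * (1 / 100)) * Real.exp (7 / 8 * v + 2) * (A * B)) := by
          ring
      _ ≤ 972 * C * b ^ 2 * (Real.exp 3 * Real.exp (377 / 400 * v)) ^ 2 := by
          refine mul_le_mul_of_nonneg_left (le_trans ?_ c1) (by positivity)
          gcongr
      _ = _ := by
          rw [mul_pow, mul_pow, mul_pow, mul_pow, Real.sq_sqrt (by positivity)]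
          ring
  have k6 : Real.exp (-(s.re * v) + s.re ^ 2 / (4 * T ^ 2)) ≤ Real.exp 4 * Real.exp (-(s.re * v)) := by
    rw [← Real.exp_add]
    refine Real.exp_le_exp.2 ?_
    have : s.re ^ 2 / (4 * T ^ 2) ≤ 4 := by
      rw [div_le_iff₀ (by positivity), ← sq_abs]
      nlinarith [abs_nonneg s.re, one_le_pow₀ (n := 2) hT]
    linarith
  rw [← Complex.norm_conj, e, norm_mul, Complex.norm_real, Real.norm_of_nonneg (Real.exp_pos _).le]
  refine (mul_le_mul k6 k5 (norm_nonneg _) (by positivity)).trans (le_of_eq ?_)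
  ring

theorem h2_II : ∃ C : ℝ, 0 ≤ C ∧ ∀ (ℓ : ℤ) (Q0 : O) (φ : O → ℂ) (v T : ℝ) (s : ℂ), Q0 ≠ 0 →
    Per Q0 φ → (∀ m, ‖φ m‖ ≤ 1) → 0 ≤ v → 1 ≤ T → |s.re| ≤ 4 →
    ‖∑ p ∈ h2P (Real.exp (v / 8)) (Real.exp (v + 1)), mu p.1 * h2b (Real.exp (v / 8)) p.2 *
      h3 ℓ φ (p.1 * p.2) * (N (p.1 * p.2) : ℂ) ^ (-s) * (gw (T * (lg (p.1 * p.2) - v)) : ℂ)‖ ≤
      C * N Q0 * Real.exp (95 / 100 * v) * Real.exp (-(s.re * v)) := by
  obtain ⟨C, hC, hb⟩ := h2_blk
  obtain ⟨C2, hC2, hp⟩ := ti1_poly (κ := 3 / 400) (by norm_num) 2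
  refine ⟨3 * C * C2, by positivity, fun ℓ Q0 φ v T s hQ hper hφ hv hT hs => ?_⟩
  set U := Real.exp (v / 8) with hU
  set Y := Real.exp (v + 1) with hY
  have hU0 : 0 < U := Real.exp_pos _
  have h2Y : 2 * Y ≤ Real.exp (v + 2) := by
    rw [hY, show v + 2 = 1 + (v + 1) by ring, Real.exp_add 1]
    exact mul_le_mul_of_nonneg_right (by linarith [Real.add_one_le_exp 1]) (by positivity)
  have hUZ : U * Real.exp (7 / 8 * v + 2) = Real.exp (v + 2) := by
    rw [hU, ← Real.exp_add]; congr 1; ring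
  rw [← Finset.sum_fiberwise_of_maps_to (t := Finset.range (⌊2 * (v + 1)⌋₊ + 1) ×ˢ res Q0)
    (g := fun p : O × O => (box p.1, p.1 % Q0))]
  · refine (norm_sum_le _ _).trans ((Finset.sum_le_card_nsmul _ _
      (C * (v + 1) * Real.exp (377 / 400 * v) * Real.exp (-(s.re * v))) fun y _ => ?_).trans ?_)
    · obtain ⟨i, x⟩ := y
      have e : (h2P U Y).filter (fun p : O × O => (box p.1, p.1 % Q0) = (i, x)) =
          (sfI U Y).filter (fun d => box d = i ∧ d % Q0 = x) ×ˢ (sfI U Y).filter (fun e => N e ≤ Y / 2 ^ i) := by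
        ext p
        simp only [h2P, Finset.mem_filter, Finset.mem_product, Prod.mk.injEq]
        constructor
        · rintro ⟨⟨⟨h1, h2⟩, h3⟩, h4, h5⟩
          exact ⟨⟨h1, h4, h5⟩, h2, h4 ▸ h3⟩
        · rintro ⟨⟨h1, h4, h5⟩, h2, h3⟩
          exact ⟨⟨⟨h1, h2⟩, h4 ▸ h3⟩, h4, h5⟩
      rw [e, Finset.sum_product]
      rcases ((sfI U Y).filter (fun d => box d = i ∧ d % Q0 = x)).eq_empty_or_nonempty with h | ⟨d, hd⟩
      · rw [h, Finset.sum_empty, norm_zero]; positivity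
      rcases ((sfI U Y).filter (fun e => N e ≤ Y / 2 ^ i)).eq_empty_or_nonempty with h | ⟨e, he⟩
      · rw [h]; simp only [Finset.sum_empty, Finset.sum_const_zero, norm_zero]; positivity
      rw [Finset.mem_filter, mem_sfI] at hd he
      have hAB : (2 : ℝ) ^ (i + 1) * (Y / 2 ^ i) = 2 * Y := by field_simp; ring
      have hA : U ≤ 2 ^ (i + 1) := hd.1.2.1.le.trans (hd.2.1 ▸ (h2_box hd.1.1.1.ne_zero).2)
      have hB : U ≤ Y / 2 ^ i := he.1.2.1.le.trans he.2
      refine hb ℓ Q0 x φ (2 ^ (i + 1)) (Y / 2 ^ i) (v + 1) v T s _ _ mu (h2b U) hper hφ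
        (one_le_pow₀ one_le_two) ((one_le_N he.1.1.1.ne_zero).trans he.2) (by linarith) hv hT hs
        ?_ ?_ (hAB ▸ h2Y) (fun d hd => ?_) (fun e he => ?_) (fun d hd => ?_) (fun d _ => norm_mu_le d)
        fun e he => ?_
      · refine le_of_mul_le_mul_left ?_ hU0
        rw [hUZ, mul_comm]
        exact (mul_le_mul_of_nonneg_left hB (by positivity)).trans (hAB ▸ h2Y)
      · refine le_of_mul_le_mul_left ?_ hU0
        rw [hUZ]
        exact (mul_le_mul_of_nonneg_right hA (by positivity)).trans (hAB ▸ h2Y)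
      · rw [Finset.mem_filter, mem_sfI] at hd
        exact mem_sfb.2 ⟨hd.1.1, hd.2.1 ▸ (h2_box hd.1.1.1.ne_zero).2⟩
      · rw [Finset.mem_filter, mem_sfI] at he
        exact mem_sfb.2 ⟨he.1.1, he.2⟩
      · rw [Finset.mem_filter] at hd
        exact hd.2.2 ▸ b4_dvd_sub_mod Q0 d
      · rw [Finset.mem_filter, mem_sfI] at he
        exact (h2b_le U he.1.1.1).trans (h2_lg_le he.1.1.1.ne_zero he.1.2.2)
    · rw [nsmul_eq_mul, Finset.card_product, Finset.card_range, card_res hQ]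
      have c1 : ((⌊2 * (v + 1)⌋₊ + 1 : ℕ) : ℝ) ≤ 3 * (1 + v) := by
        have := Nat.floor_le (show 0 ≤ 2 * (v + 1) by positivity)
        push_cast
        linarith
      have c2 : Real.exp (3 / 400 * v) * Real.exp (377 / 400 * v) = Real.exp (95 / 100 * v) := by
        rw [← Real.exp_add]; congr 1; ring
      have c3 := N_nonneg Q0
      rw [Nat.cast_mul, ← c2]
      calc _ ≤ 3 * (1 + v) * N Q0 * (C * (v + 1) * Real.exp (377 / 400 * v) * Real.exp (-(s.re * v))) :=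
            mul_le_mul_of_nonneg_right (mul_le_mul_of_nonneg_right c1 c3) (by positivity)
        _ = 3 * C * (1 + v) ^ 2 * N Q0 * Real.exp (377 / 400 * v) * Real.exp (-(s.re * v)) := by ring
        _ ≤ 3 * C * (C2 * Real.exp (3 / 400 * v)) * N Q0 * Real.exp (377 / 400 * v) *
            Real.exp (-(s.re * v)) := by gcongr; exact hp v hv
        _ = _ := by ring
  · intro p hp
    simp only [h2P, Finset.mem_filter, Finset.mem_product, mem_sfI] at hp
    refine Finset.mem_product.2 ⟨Finset.mem_range.2 (Nat.lt_succ_of_le (Nat.le_floor ?_)),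
      b4_mod_mem_res hQ _⟩
    have h1 := Real.log_le_log (by positivity) ((h2_box hp.1.1.1.1.ne_zero).1.trans hp.1.1.2.2)
    rw [Real.log_pow, hY, Real.log_exp] at h1
    have h2 := Real.log_two_gt_d9
    have h3 : (0 : ℝ) ≤ box p.1 := Nat.cast_nonneg _
    nlinarith

/-- `U = e^{v/8}`; `h3` lives on squarefree `n`, where `vm n = [n prime] lg n`.  Replace `lg n` by `v`:
`|u| gw(Tu) ≤ gw(Tu/√2)/T`, `an_pow` (cost `v e^v/T²` after summing `1/N r`).  Terms with
`|lg n - v| ≥ 1`: `an_tail`/`an_pow`.  Type I: `HP1` (`N r ≤ U² = e^{v/4}`, coefficients `≤ v`).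
Type II: `N d ∈ (2^i, 2^{i+1}]`, `e = n/d` in the corresponding range, `N e > U`; classes of `d` and `e`
mod `9Q₀`; `conj (g3 n) = conj (GG n) conj (cub n λ)`, `bg_cls`. -/
theorem hp2w (ℓ : ℤ) : ∃ (C : ℝ) (B0 : ℕ), 0 ≤ C ∧ ∀ (Q0 : O), Q0 ≠ 0 → (3 : O) ∣ Q0 →
    ∀ φ : O → ℂ, Per Q0 φ → (∀ m, ‖φ m‖ ≤ 1) → ∀ (v T : ℝ) (s : ℂ), 1 ≤ v → v + 2 ≤ T → |s.re| ≤ 4 →
    ‖winS (fun m => if Prime m then h3 ℓ φ m else 0) v T s‖ ≤
      C * N Q0 ^ B0 * ((T + |s.im|) ^ 4 * Real.exp (95 / 100 * v) + v * Real.exp v / T ^ 2) *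
        Real.exp (-(s.re * v)) := by
  obtain ⟨C0, hC0, han⟩ := an_pow
  obtain ⟨C1, B0, hC1, hI⟩ := HP1 ℓ
  obtain ⟨C2, hC2, hII⟩ := h2_II
  obtain ⟨C3, hC3, hE⟩ := h2_err
  refine ⟨C0 * Real.exp 1 + (2 * C1 + C2 + C3), B0 + 1, by positivity,
    fun Q0 hQ h3Q φ hper hφ v T s hv hT hs => ?_⟩
  have hh := h2_norm_h3 ℓ hφ
  have hQ1 := one_le_N hQ
  have q1 : 1 ≤ N Q0 ^ (B0 + 1) := one_le_pow₀ hQ1
  have q2 : N Q0 ^ B0 ≤ N Q0 ^ (B0 + 1) := pow_le_pow_right₀ hQ1 (Nat.le_succ _)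
  have q3 : N Q0 ≤ N Q0 ^ (B0 + 1) := le_self_pow₀ hQ1 (Nat.succ_ne_zero _)
  have t1 : 1 ≤ (T + |s.im|) ^ 4 := one_le_pow₀ (by linarith [abs_nonneg s.im])
  have t2 : 0 ≤ v * Real.exp v / T ^ 2 := by positivity
  set Q := N Q0 ^ (B0 + 1) with hQdef
  set X := (T + |s.im|) ^ 4 * Real.exp (95 / 100 * v) + v * Real.exp v / T ^ 2 with hX
  have x1 : (T + |s.im|) ^ 4 * Real.exp (95 / 100 * v) ≤ X := le_add_of_nonneg_right t2
  have x2 : Real.exp (95 / 100 * v) + v * Real.exp v / T ^ 2 ≤ X :=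
    add_le_add (le_mul_of_one_le_left (by positivity) t1) le_rfl
  have x3 : Real.exp (95 / 100 * v) ≤ X := (le_add_of_nonneg_right t2).trans x2
  have x0 : 0 ≤ X := (Real.exp_pos _).le.trans x3
  have hE0 : 0 < Real.exp (-(s.re * v)) := Real.exp_pos _
  have hQX : 0 ≤ Q * X * Real.exp (-(s.re * v)) := by positivity
  have ha : ∀ m, ‖if Prime m then h3 ℓ φ m else 0‖ ≤ 1 := fun m => by
    split_ifs
    · exact hh m
    · simp
  rcases le_total v 16 with hv' | hv'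
  · have h1 : ‖winS (fun m => if Prime m then h3 ℓ φ m else 0) v T s‖ ≤
        C0 * Real.exp (-s.re * v) * Real.exp v := h2_win_le (g := fun _ => 1) (fun n _ => ha n)
      fun S hS => by
        simp only [one_mul]
        exact (han (-s.re) v T (by rw [abs_neg]; linarith) (by linarith) S hS).2
    have h2 : Real.exp v ≤ Real.exp 1 * (Q * X) := by
      refine le_trans ?_ (mul_le_mul_of_nonneg_left (x3.trans (le_mul_of_one_le_left x0 q1)) (by positivity))
      rw [← Real.exp_add]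
      exact Real.exp_le_exp.2 (by linarith)
    rw [neg_mul] at h1
    calc _ ≤ C0 * Real.exp (-(s.re * v)) * (Real.exp 1 * (Q * X)) :=
          h1.trans (mul_le_mul_of_nonneg_left h2 (by positivity))
      _ = C0 * Real.exp 1 * (Q * X * Real.exp (-(s.re * v))) := by ring
      _ ≤ (C0 * Real.exp 1 + (2 * C1 + C2 + C3)) * (Q * X * Real.exp (-(s.re * v))) :=
          mul_le_mul_of_nonneg_right (le_add_of_nonneg_right (by positivity)) hQX
      _ = _ := by ring
  set U := Real.exp (v / 8) with hU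
  set R := Real.exp (v / 4) with hR
  set Y := Real.exp (v + 1) with hY
  have hT1 : 1 ≤ T := by linarith
  have p1 : ∀ r, PolyBd fun n => h2c U v r * dvR r (h3 ℓ φ) n := fun r =>
    polyBd_of_le (M := ‖h2c U v r‖) fun n => by
      rw [norm_mul]
      refine mul_le_of_le_one_right (norm_nonneg _) ?_
      rw [dvR]
      split_ifs
      · exact hh n
      · simp
  have p2 : ∀ p : O × O, PolyBd fun n =>
      if n = p.1 * p.2 then mu p.1 * h2b U p.2 * h3 ℓ φ (p.1 * p.2) else 0 := fun p =>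
    polyBd_of_le (M := ‖mu p.1 * h2b U p.2 * h3 ℓ φ (p.1 * p.2)‖) fun n => by
      split_ifs
      · exact le_rfl
      · rw [norm_zero]; exact norm_nonneg _
  have p3 : PolyBd fun n => h2r U R Y v n * h3 ℓ φ n :=
    polyBd_of_le fun n => by
      rw [norm_mul]
      exact (mul_le_of_le_one_right (norm_nonneg _) (hh n)).trans (h2r_le U (by linarith) n)
  have e : (v : ℂ) * winS (fun m => if Prime m then h3 ℓ φ m else 0) v T s =
      ∑ r ∈ sfb R, h2c U v r * winS (dvR r (h3 ℓ φ)) v T s +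
      ∑ p ∈ h2P U Y, mu p.1 * h2b U p.2 * h3 ℓ φ (p.1 * p.2) * (N (p.1 * p.2) : ℂ) ^ (-s) *
        (gw (T * (lg (p.1 * p.2) - v)) : ℂ) +
      winS (fun n => h2r U R Y v n * h3 ℓ φ n) v T s := by
    have e1 : ∑ r ∈ sfb R, h2c U v r * winS (dvR r (h3 ℓ φ)) v T s =
        ∑ r ∈ sfb R, winS (fun n => h2c U v r * dvR r (h3 ℓ φ) n) v T s :=
      Finset.sum_congr rfl fun r _ => (winS_smul _ _ _ _ _).symm
    have e2 : ∑ p ∈ h2P U Y, mu p.1 * h2b U p.2 * h3 ℓ φ (p.1 * p.2) * (N (p.1 * p.2) : ℂ) ^ (-s) *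
        (gw (T * (lg (p.1 * p.2) - v)) : ℂ) = ∑ p ∈ h2P U Y, winS (fun n =>
          if n = p.1 * p.2 then mu p.1 * h2b U p.2 * h3 ℓ φ (p.1 * p.2) else 0) v T s := by
      refine Finset.sum_congr rfl fun p hp => (h2_delta ?_ _ _ _ _).symm
      simp only [h2P, Finset.mem_filter, Finset.mem_product, mem_sfI] at hp
      exact (hp.1.1.1.1.mul hp.1.2.1.1).ne_zero
    have s1 := summable_sum (s := sfb R) fun r _ => (summable_winS (p1 r) v hT1 s).of_norm
    have s2 := summable_sum (s := h2P U Y) fun p _ => (summable_winS (p2 p) v hT1 s).of_norm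
    have s3 := (summable_winS p3 v hT1 s).of_norm
    rw [e1, e2, ← winS_smul]
    simp only [winS]
    rw [← Summable.tsum_finsetSum fun r _ => (summable_winS (p1 r) v hT1 s).of_norm,
      ← Summable.tsum_finsetSum fun p _ => (summable_winS (p2 p) v hT1 s).of_norm,
      ← s1.tsum_add s2, ← (s1.add s2).tsum_add s3]
    refine tsum_congr fun n => ?_
    by_cases hn : n = 0
    · simp [hn]
    simp only [if_neg hn]
    rw [← Finset.sum_mul, ← Finset.sum_mul, ← Finset.sum_mul, ← Finset.sum_mul, ← add_mul, ← add_mul,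
      ← add_mul, ← add_mul]
    congr 2
    have f1 : ∑ r ∈ sfb R, h2c U v r * dvR r (h3 ℓ φ) n =
        (∑ r ∈ sfb R, if r ∣ n then h2c U v r else 0) * h3 ℓ φ n := by
      rw [Finset.sum_mul]
      refine Finset.sum_congr rfl fun r _ => ?_
      rw [dvR]
      split_ifs <;> simp
    have f2 : ∑ p ∈ h2P U Y, (if n = p.1 * p.2 then mu p.1 * h2b U p.2 * h3 ℓ φ (p.1 * p.2) else 0) =
        (∑ p ∈ h2P U Y, if n = p.1 * p.2 then mu p.1 * h2b U p.2 else 0) * h3 ℓ φ n := by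
      rw [Finset.sum_mul]
      refine Finset.sum_congr rfl fun p _ => ?_
      split_ifs with h
      · rw [h]
      · rw [zero_mul]
    rw [f1, f2, h2r]
    split_ifs <;> ring
  have b1 : ‖∑ r ∈ sfb R, h2c U v r * winS (dvR r (h3 ℓ φ)) v T s‖ ≤
      v * (2 * C1 * (Q * X * Real.exp (-(s.re * v)))) := by
    refine (norm_sum_le _ _).trans ((Finset.sum_le_sum
      (g := fun r => 2 * v * ‖winS (dvR r (h3 ℓ φ)) v T s‖) fun r hr => ?_).trans ?_)
    · rw [mem_sfb] at hr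
      rw [norm_mul]
      exact mul_le_mul_of_nonneg_right
        (h2c_le U hr.1.1 ((h2_lg_le hr.1.1.ne_zero hr.2).trans (by linarith))) (norm_nonneg _)
    · rw [← Finset.mul_sum]
      have c1 : Real.exp ((9 / 10 - s.re) * v) ≤ Real.exp (95 / 100 * v) * Real.exp (-(s.re * v)) := by
        rw [← Real.exp_add]
        exact Real.exp_le_exp.2 (by linarith)
      calc _ ≤ 2 * v * (C1 * N Q0 ^ B0 * (T + |s.im|) ^ 4 * Real.exp ((9 / 10 - s.re) * v)) :=
            mul_le_mul_of_nonneg_left (hI Q0 hQ h3Q φ hper hφ v T s (by linarith) hT1 hs) (by positivity)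
        _ ≤ 2 * v * (C1 * Q * (T + |s.im|) ^ 4 * (Real.exp (95 / 100 * v) * Real.exp (-(s.re * v)))) := by
            gcongr
        _ = v * (2 * C1 * (Q * ((T + |s.im|) ^ 4 * Real.exp (95 / 100 * v)) * Real.exp (-(s.re * v)))) := by
            ring
        _ ≤ _ := by gcongr
  have b2 := (hII ℓ Q0 φ v T s hQ hper hφ (by linarith) hT1 hs).trans
    (show C2 * N Q0 * Real.exp (95 / 100 * v) * Real.exp (-(s.re * v)) ≤
      C2 * Q * X * Real.exp (-(s.re * v)) by gcongr)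
  have b3 := (hE (h3 ℓ φ) v T s hh (fun n => h2_h3_zero ℓ φ) hv' hT hs).trans
    (show C3 * (Real.exp (95 / 100 * v) + v * Real.exp v / T ^ 2) * Real.exp (-(s.re * v)) ≤
      C3 * (Q * X) * Real.exp (-(s.re * v)) by
      gcongr
      exact x2.trans (le_mul_of_one_le_left x0 q1))
  have b4 := (norm_add_le _ _).trans (add_le_add ((norm_add_le _ _).trans (add_le_add b1 b2)) b3)
  rw [← e, norm_mul, Complex.norm_real, Real.norm_of_nonneg (by linarith)] at b4
  refine le_of_mul_le_mul_left (b4.trans ?_) (show 0 < v by linarith)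
  have c1 := mul_le_mul_of_nonneg_right hv (mul_nonneg (add_nonneg hC2 hC3) hQX)
  have c2 : 0 ≤ v * (C0 * Real.exp 1 * (Q * X * Real.exp (-(s.re * v)))) := by positivity
  linarith

end Crest.Agent.R12
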