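import Crest.Agent.R12.H2a

/-!
# R12 / H2b : power saving in `∑ β(b) GG(b)` for very rough coefficients
-/

set_option autoImplicit false

noncomputable section

open scoped Classical ComplexConjugate Topology
open MeasureTheory Filter

namespace Crest.Agent.R12

open Crest.Agent.R17

theorem h2b_pw {x : ℝ} (hx : 0 < x) {n : O} (h1 : x / 2 ≤ N n) (h2 : N n ≤ 2 * x) {s : ℂ} (hs : |s.re| ≤ 4) :
    ‖pw x n s‖ ≤ 16 := by
  have hn : 0 < N n / x := div_pos (by linarith) hx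
  unfold pw
  rw [Complex.norm_cpow_eq_rpow_re_of_pos hn]
  have a1 : N n / x ≤ 2 := by rw [div_le_iff₀ hx]; exact h2
  have a2 : 1 / 2 ≤ N n / x := by rw [le_div_iff₀ hx]; linarith
  rw [abs_le] at hs
  have e16 : (2 : ℝ) ^ (4 : ℝ) = 16 := by
    rw [show (4 : ℝ) = (4 : ℕ) by norm_num, Real.rpow_natCast]; norm_num
  rcases le_total 0 s.re with h | h
  · calc (N n / x) ^ s.re ≤ 2 ^ s.re := Real.rpow_le_rpow hn.le a1 h
      _ ≤ 2 ^ (4 : ℝ) := Real.rpow_le_rpow_of_exponent_le (by norm_num) hs.2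
      _ = 16 := e16
  · calc (N n / x) ^ s.re ≤ (1 / 2) ^ s.re := Real.rpow_le_rpow_of_nonpos (by norm_num) a2 h
      _ = 2 ^ (-s.re) := by rw [one_div, Real.inv_rpow (by norm_num), Real.rpow_neg (by norm_num)]
      _ ≤ 2 ^ (4 : ℝ) := Real.rpow_le_rpow_of_exponent_le (by norm_num) (by linarith)
      _ = 16 := e16

theorem h2b_box {p : O} (hp : p ≠ 0) : (2 : ℝ) ^ box p ≤ N p ∧ N p < 2 ^ (box p + 1) := by
  have h := nm_pos hp
  unfold box N
  constructor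
  · exact_mod_cast Nat.pow_log_le_self 2 h.ne'
  · exact_mod_cast Nat.lt_pow_succ_log_self (by norm_num) _

theorem h2b_box_iff {p : O} (hp : p ≠ 0) (i : ℕ) :
    box p = i ↔ (2 : ℝ) ^ i - 1 < N p ∧ N p ≤ 2 ^ (i + 1) - 1 := by
  have h := nm_pos hp
  unfold box N
  rw [Nat.log_eq_iff (Or.inr ⟨by norm_num, h.ne'⟩)]
  have e1 : (2 : ℝ) ^ i - 1 < nm p ↔ 2 ^ i ≤ nm p := by
    rw [sub_lt_iff_lt_add]
    exact_mod_cast Nat.lt_succ_iff
  have e2 : (nm p : ℝ) ≤ 2 ^ (i + 1) - 1 ↔ nm p < 2 ^ (i + 1) := by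
    rw [le_sub_iff_add_le]
    exact_mod_cast Nat.succ_le_iff
  rw [e1, e2]

theorem h2b_box_lt {B x : ℝ} (hB : 1 ≤ B) (hx : 2 * Real.log (2 * B) + 2 ≤ x) :
    ∃ K : ℕ, (K : ℝ) ≤ x ∧ ∀ p : O, p ≠ 0 → N p ≤ 2 * B → box p < K := by
  have hl : 0 ≤ Real.log (2 * B) := Real.log_nonneg (by linarith)
  refine ⟨⌊2 * Real.log (2 * B)⌋₊ + 1, ?_, fun p hp h => ?_⟩
  · push_cast
    linarith [Nat.floor_le (show 0 ≤ 2 * Real.log (2 * B) by positivity)]
  · rw [Nat.lt_succ_iff]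
    apply Nat.le_floor
    have h1 := Real.log_le_log (by positivity) ((h2b_box hp).1.trans h)
    rw [Real.log_pow] at h1
    have h2 := Real.log_two_gt_d9
    have h3 : (0 : ℝ) ≤ box p := Nat.cast_nonneg _
    nlinarith

/-- the coefficients of the sum -/
def h2b_c (ℓ : ℤ) (w : ℝ) (F : Multiset ℕ → ℂ) (q a b : O) : ℂ :=
  if SF b ∧ q ∣ b - a then bet w F b * ang b ^ ℓ * GG b else 0

theorem h2b_bet {w : ℝ} {F : Multiset ℕ → ℂ} (hF : ∀ M, ‖F M‖ ≤ 1) (b : O) : ‖bet w F b‖ ≤ 1 := by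
  unfold bet
  split_ifs
  · exact hF _
  · simp

theorem h2b_c_le (ℓ : ℤ) (w : ℝ) {F : Multiset ℕ → ℂ} (hF : ∀ M, ‖F M‖ ≤ 1) (q a b : O) :
    ‖h2b_c ℓ w F q a b‖ ≤ 1 := by
  unfold h2b_c
  split_ifs with h
  · rw [norm_mul, norm_mul, lw_norm_ang1 ℓ h.1.1.ne_zero, norm_GG h.1, mul_one, mul_one]
    exact h2b_bet hF b
  · simp

theorem h2b_fam (ℓ : ℤ) (B w : ℝ) (F : Multiset ℕ → ℂ) (q a : O) (s : ℂ) :
    fam2 (sfI B (2 * B)) (fun b => bet w F b * ang b ^ ℓ) B q a s =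
      ∑ n ∈ (ball (2 * B)).filter (fun n => B < N n), h2b_c ℓ w F q a n * pw B n s := by
  unfold fam2 sfI h2b_c
  rw [Finset.filter_filter, Finset.sum_filter, Finset.sum_filter]
  refine Finset.sum_congr rfl fun n _ => ?_
  by_cases h1 : SF n <;> by_cases h2 : B < N n <;> by_cases h3 : q ∣ n - a <;> simp [h1, h2, h3]

/-! ### primes -/

theorem h2b_sub {C M W B T : ℝ} {a : O → ℂ} {s : ℂ} (hb : 0 ≤ C * (T * W + M * (B / T + Real.sqrt B)))
    (h : ∀ x1 x2, B ≤ x1 → x1 ≤ x2 → x2 ≤ 2 * B →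
      ‖∑ n ∈ (ball x2).filter (fun n => x1 < N n), a n * pw B n s‖ ≤ C * (T * W + M * (B / T + Real.sqrt B)))
    (y1 y2 : ℝ) : ‖∑ n ∈ (ball (2 * B)).filter (fun n => B < N n),
      (if y1 < N n ∧ N n ≤ y2 then a n * pw B n s else 0)‖ ≤ C * (T * W + M * (B / T + Real.sqrt B)) := by
  rw [← Finset.sum_filter, Finset.filter_filter]
  by_cases hy : max B y1 ≤ min (2 * B) y2
  · have := h _ _ (le_max_left _ _) hy (min_le_left _ _)
    convert this using 3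
    ext n
    simp only [Finset.mem_filter, mem_ball, max_lt_iff, le_min_iff]
    tauto
  · rw [Finset.filter_eq_empty_iff.2, Finset.sum_empty, norm_zero]
    · exact hb
    · intro n hn h'
      rw [mem_ball] at hn
      exact hy (le_trans (max_lt h'.1 h'.2.1).le (le_min hn.2 h'.2.2))

theorem h2b_prime (ℓ : ℤ) : ∃ (C : ℝ) (B0 : ℕ), 0 ≤ C ∧ ∀ (B w x : ℝ) (F : Multiset ℕ → ℂ) (q a : O)
    (s : ℂ), 3 ≤ B → 1 ≤ x → B = x ^ 2000 → 2 * Real.log (2 * B) + 2 ≤ x → (∀ M, ‖F M‖ ≤ 1) → q ≠ 0 →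
    N q ^ B0 ≤ x → |s.re| ≤ 4 → |s.im| ≤ x →
    ‖∑ n ∈ (ball (2 * B)).filter (fun n => B < N n),
      (if Prime n then h2b_c ℓ w F q a n else 0) * pw B n s‖ ≤ C * x ^ 1999 := by
  obtain ⟨C1, hC1, hs⟩ := sharp_pw
  obtain ⟨C2, B0, hC2, hp⟩ := hp2w (-ℓ)
  refine ⟨C1 * (C2 * 81 ^ B0 * 34 + 2), B0, by positivity, ?_⟩
  intro B w x F q a s hB hx hBx hlog hF hq hqx hre him
  obtain ⟨K, hK, hbox⟩ := h2b_box_lt (by linarith) hlog
  set φ : O → ℂ := fun n => phr lam n * (if q ∣ n - a then 1 else 0) with hφ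
  have hper : Per (9 * q) φ := by
    refine (phr_lam_per.of_dvd (dvd_mul_right _ _)).mul (fun y t => ?_)
    have : q ∣ y + 9 * q * t - a ↔ q ∣ y - a := by
      rw [show y + 9 * q * t - a = y - a + q * (9 * t) by ring]
      exact (dvd_add_left (dvd_mul_right _ _))
    simp only [this]
  have hφ1 : ∀ m, ‖φ m‖ ≤ 1 := fun m => by
    simp only [hφ]
    split_ifs
    · rw [mul_one]; exact norm_phr_le _ _
    · simp
  set g : O → ℂ := fun m => if Prime m then h3 (-ℓ) φ m else 0 with hg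
  have hg1 : ∀ m, ‖conj (g m)‖ ≤ 1 := fun m => by
    rw [Complex.norm_conj]
    simp only [hg, h3]
    split_ifs with h1 h2
    · rw [norm_mul, norm_mul, Complex.norm_conj, lw_norm_ang1 _ h2.ne_zero, mul_one]
      exact mul_le_one₀ (norm_g3_le h2) (norm_nonneg _) (hφ1 m)
    · simp
    · simp
  set T := x ^ 4 with hT
  have hxT : x ≤ T := le_self_pow₀ hx (by norm_num)
  have hT1 : 1 ≤ T := hx.trans hxT
  set W := C2 * 81 ^ B0 * 34 * x ^ 1994 with hW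
  have hl0 : 0 ≤ Real.log (2 * B) := Real.log_nonneg (by linarith)
  have hwin : ∀ v, Real.log B ≤ v → v ≤ Real.log (2 * B) →
      ‖winS (fun n => conj (g n)) v T (-s)‖ ≤ W * Real.exp (s.re * v) := by
    intro v hv1 hv2
    have h1v : 1 ≤ v := by
      refine le_trans ?_ hv1
      rw [Real.le_log_iff_exp_le (by linarith)]
      linarith [Real.exp_one_lt_three]
    have e := conj_winS g v T (conj (-s))
    rw [Complex.conj_conj] at e
    rw [← e, Complex.norm_conj]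
    have h9 : (9 * q : O) ≠ 0 := mul_ne_zero (by decide) hq
    have := hp (9 * q) h9 (Dvd.dvd.mul_right ⟨3, by norm_num⟩ q) φ hper hφ1 v T (conj (-s)) h1v
      (by linarith) (by simpa using hre)
    refine this.trans ?_
    have e1 : (conj (-s)).im = s.im := by simp
    have e2 : -((conj (-s)).re * v) = s.re * v := by simp
    rw [e1, e2]
    refine mul_le_mul_of_nonneg_right ?_ (Real.exp_pos _).le
    have n9 : N (9 * q) ^ B0 ≤ 81 ^ B0 * x := by
      have : N (9 : O) = 81 := by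
        unfold N
        rw [show nm (9 : O) = 81 by decide]; norm_num
      rw [N_mul, this, mul_pow]
      gcongr
    have ev : Real.exp v ≤ 2 * x ^ 2000 := by
      rw [← hBx]
      exact (Real.le_log_iff_exp_le (by linarith)).1 hv2
    have ev2 : Real.exp (95 / 100 * v) ≤ 2 * x ^ 1900 := by
      have u1 : Real.exp (95 / 100 * v) ^ 20 = Real.exp v ^ 19 := by
        rw [← Real.exp_nat_mul, ← Real.exp_nat_mul]; congr 1; push_cast; ring
      refine le_of_pow_le_pow_left₀ (n := 20) (by norm_num) (by positivity) ?_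
      rw [u1]
      calc Real.exp v ^ 19 ≤ (2 * x ^ 2000) ^ 19 := by gcongr
        _ = 2 ^ 19 * (x ^ 1900) ^ 20 := by rw [mul_pow, ← pow_mul, ← pow_mul]
        _ ≤ (2 * x ^ 1900) ^ 20 := by
          rw [mul_pow]
          exact mul_le_mul_of_nonneg_right (by norm_num) (by positivity)
    have t1 : (T + |s.im|) ^ 4 * Real.exp (95 / 100 * v) ≤ 32 * x ^ 1993 := by
      calc (T + |s.im|) ^ 4 * Real.exp (95 / 100 * v) ≤ (2 * T) ^ 4 * (2 * x ^ 1900) := by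
            gcongr; linarith
        _ = 32 * x ^ 1916 := by rw [hT]; ring
        _ ≤ 32 * x ^ 1993 := by gcongr; norm_num
    have t2 : v * Real.exp v / T ^ 2 ≤ 2 * x ^ 1993 := by
      rw [div_le_iff₀ (by positivity)]
      calc v * Real.exp v ≤ x * (2 * x ^ 2000) := by gcongr; linarith
        _ = 2 * x ^ 1993 * T ^ 2 := by rw [hT]; ring
    calc C2 * N (9 * q) ^ B0 * ((T + |s.im|) ^ 4 * Real.exp (95 / 100 * v) + v * Real.exp v / T ^ 2)
        ≤ C2 * (81 ^ B0 * x) * (32 * x ^ 1993 + 2 * x ^ 1993) := by gcongr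
      _ = W := by rw [hW]; ring
  have hsq : Real.sqrt B = x ^ 1000 := by
    rw [hBx, show x ^ 2000 = (x ^ 1000) ^ 2 by ring, Real.sqrt_sq (by positivity)]
  have hbd : C1 * (T * W + 1 * (B / T + Real.sqrt B)) ≤ C1 * (C2 * 81 ^ B0 * 34 + 2) * x ^ 1998 := by
    rw [mul_assoc]
    refine mul_le_mul_of_nonneg_left ?_ hC1
    have e1 : B / T = x ^ 1996 := by
      rw [hBx, hT, div_eq_iff (by positivity)]; ring
    have e2 : x ^ 1996 ≤ x ^ 1998 := pow_le_pow_right₀ hx (by norm_num)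
    have e3 : x ^ 1000 ≤ x ^ 1998 := pow_le_pow_right₀ hx (by norm_num)
    have e4 : T * W = C2 * 81 ^ B0 * 34 * x ^ 1998 := by rw [hT, hW]; ring
    rw [e1, hsq, e4]
    linarith
  have hsub := h2b_sub (C := C1) (M := 1) (W := W) (B := B) (T := T) (a := fun n => conj (g n)) (s := s)
    (by positivity) (fun x1 x2 h1 h2 h3 => hs _ 1 W B x1 x2 T s hg1 (by positivity) (by linarith) h1 h2 h3 hT1 hre
      (fun v hv1 hv2 => hwin v ((Real.log_le_log (by linarith) h1).trans hv1)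
        (hv2.trans (Real.log_le_log (by linarith) h3))))
  have hsum : ∑ n ∈ (ball (2 * B)).filter (fun n => B < N n),
      (if Prime n then h2b_c ℓ w F q a n else 0) * pw B n s =
      ∑ i ∈ Finset.range K, F {i} * ∑ n ∈ (ball (2 * B)).filter (fun n => B < N n),
        (if max w (2 ^ i - 1) < N n ∧ N n ≤ 2 ^ (i + 1) - 1 then conj (g n) * pw B n s else 0) := by
    simp_rw [Finset.mul_sum]
    rw [Finset.sum_comm]
    refine Finset.sum_congr rfl fun n hn => ?_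
    rw [Finset.mem_filter, mem_ball] at hn
    have hn0 := hn.1.1
    rw [Finset.sum_eq_single (box n)]
    · have hb := (h2b_box_iff hn0 (box n)).1 rfl
      simp only [max_lt_iff, hb, and_true, hg, h3, h2b_c, hφ, phr]
      by_cases h1 : Prime n
      · by_cases h2 : Prim n
        · have hsf : SF n := ⟨h2, h1.squarefree⟩
          have hpf : pf n = {n} := by
            have := b1_pf_prime_mul h1 h2 (one_ne_zero (α := O))
            rw [mul_one, b1_pf_one] at this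
            simpa using this
          have hR : Rough w n ↔ w < N n := by simp [Rough, hpf]
          by_cases h3 : q ∣ n - a <;> by_cases h4 : w < N n <;>
            simp [h1, h2, h3, h4, hsf, bet, hR, bx_prime h1 h2, GG, conj_ang hn0]
          ring
        · have hsf : ¬ SF n := fun h => h2 h.1
          simp [h1, h2, hsf]
      · simp [h1]
    · intro i _ hi
      rw [if_neg, mul_zero]
      intro h
      exact hi ((h2b_box_iff hn0 i).2 ⟨(max_lt_iff.1 h.1).2, h.2⟩).symm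
    · intro h
      exact absurd (Finset.mem_range.2 (hbox n hn0 hn.1.2)) h
  rw [hsum]
  refine (norm_sum_le _ _).trans ?_
  refine (Finset.sum_le_card_nsmul _ _ (C1 * (C2 * 81 ^ B0 * 34 + 2) * x ^ 1998) fun i _ => ?_).trans ?_
  · rw [norm_mul]
    exact (mul_le_of_le_one_left (norm_nonneg _) (hF _)).trans ((hsub _ _).trans hbd)
  · rw [Finset.card_range, nsmul_eq_mul]
    calc (K : ℝ) * (C1 * (C2 * 81 ^ B0 * 34 + 2) * x ^ 1998) ≤ x * (C1 * (C2 * 81 ^ B0 * 34 + 2) * x ^ 1998) := by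
          gcongr
      _ = _ := by ring

/-! ### composite numbers -/

def h2b_PA (B : ℝ) : Finset O := (ball (2 * B)).filter (fun p => Prime p ∧ Prim p)
def h2b_SB (B : ℝ) (i : ℕ) : Finset O := (sfI (B / 2 ^ i / 2) (2 * (B / 2 ^ i))).filter (fun m => m ≠ 1)
def h2b_al (ℓ : ℤ) (w : ℝ) (p : O) : ℂ := if w < N p then ang p ^ ℓ else 0
def h2b_be (ℓ : ℤ) (w : ℝ) (F : Multiset ℕ → ℂ) (q a : O) (i : ℕ) (r m : O) : ℂ :=
  if q ∣ r * m - a ∧ Rough w m then F ({i} + bx m) * ang m ^ ℓ / ((pf m).card + 1) else 0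
def h2b_t (ℓ : ℤ) (w : ℝ) (F : Multiset ℕ → ℂ) (q a p m : O) : ℂ :=
  h2b_al ℓ w p * h2b_be ℓ w F q a (box p) p m * GG (p * m)
def h2b_a (ℓ : ℤ) (B w : ℝ) (F : Multiset ℕ → ℂ) (q a n : O) : ℂ :=
  ∑ p ∈ h2b_PA B, ∑ m ∈ h2b_SB B (box p), if n = p * m then h2b_t ℓ w F q a p m else 0

theorem h2b_mem_PA {B : ℝ} {p : O} : p ∈ h2b_PA B ↔ Prime p ∧ Prim p ∧ N p ≤ 2 * B := by
  rw [h2b_PA, Finset.mem_filter, mem_ball]
  exact ⟨fun h => ⟨h.2.1, h.2.2, h.1.2⟩, fun h => ⟨⟨h.1.ne_zero, h.2.2⟩, h.1, h.2.1⟩⟩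

theorem h2b_mem_SB {B : ℝ} {i : ℕ} {m : O} :
    m ∈ h2b_SB B i ↔ (SF m ∧ B / 2 ^ i / 2 < N m ∧ N m ≤ 2 * (B / 2 ^ i)) ∧ m ≠ 1 := by
  rw [h2b_SB, Finset.mem_filter, mem_sfI]

theorem h2b_a_eq (ℓ : ℤ) (B w : ℝ) (F : Multiset ℕ → ℂ) (q a n : O) : h2b_a ℓ B w F q a n =
    ∑ p ∈ (h2b_PA B).filter (fun p => p ∣ n ∧ n / p ∈ h2b_SB B (box p)), h2b_t ℓ w F q a p (n / p) := by
  rw [h2b_a, Finset.sum_filter]
  refine Finset.sum_congr rfl fun p hp => ?_
  have hp0 := (h2b_mem_PA.1 hp).1.ne_zero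
  split_ifs with h
  · rw [Finset.sum_eq_single (n / p)]
    · rw [if_pos (EuclideanDomain.mul_div_cancel' hp0 h.1).symm]
    · intro m _ hm
      rw [if_neg]
      rintro rfl
      exact hm (mul_div_cancel_left₀ _ hp0).symm
    · exact fun h' => absurd h.2 h'
  · refine Finset.sum_eq_zero fun m hm => ?_
    rw [if_neg]
    rintro rfl
    exact h ⟨dvd_mul_right _ _, by rwa [mul_div_cancel_left₀ _ hp0]⟩

theorem h2b_al_le (ℓ : ℤ) (w : ℝ) {p : O} (hp : p ≠ 0) : ‖h2b_al ℓ w p‖ ≤ 1 := by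
  unfold h2b_al
  split_ifs
  · exact (lw_norm_ang1 ℓ hp).le
  · simp

theorem h2b_be_le (ℓ : ℤ) (w : ℝ) {F : Multiset ℕ → ℂ} (hF : ∀ M, ‖F M‖ ≤ 1) (q a : O) (i : ℕ) (r : O) {m : O}
    (hm : m ≠ 0) : ‖h2b_be ℓ w F q a i r m‖ ≤ 1 / ((pf m).card + 1) := by
  unfold h2b_be
  split_ifs
  · rw [norm_div, norm_mul, lw_norm_ang1 ℓ hm, mul_one]
    have : ‖(((pf m).card : ℂ) + 1)‖ = (pf m).card + 1 := by
      rw [show (((pf m).card : ℂ) + 1) = (((pf m).card + 1 : ℕ) : ℂ) by push_cast; ring, Complex.norm_natCast]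
      push_cast; ring
    rw [this]
    gcongr
    exact hF _
  · rw [norm_zero]; positivity

theorem h2b_card {n p : O} (hn : SF n) (hp : Prime p) (hp' : Prim p) (h : p ∣ n) :
    (pf (n / p)).card + 1 = (pf n).card := by
  obtain ⟨h1, h2⟩ := hn.div hp' h
  have e : p * (n / p) = n := EuclideanDomain.mul_div_cancel' hp.ne_zero h
  have := b1_pf_prime_mul hp hp' h1.1.ne_zero
  rw [e] at this
  rw [this, Finset.card_insert_of_notMem]
  intro hm
  exact hp.not_isUnit (h2.isUnit_of_dvd' dvd_rfl ((mem_pf h1.1.ne_zero).1 hm).2.2)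

theorem h2b_a_nsf (ℓ : ℤ) (B w : ℝ) (F : Multiset ℕ → ℂ) (q a : O) {n : O} (hn : ¬ SF n) :
    h2b_a ℓ B w F q a n = 0 := by
  rw [h2b_a_eq]
  refine Finset.sum_eq_zero fun p hp => ?_
  rw [Finset.mem_filter, h2b_mem_PA, h2b_mem_SB] at hp
  obtain ⟨⟨h1, h2, -⟩, h3, ⟨h4, -⟩, -⟩ := hp
  have e : p * (n / p) = n := EuclideanDomain.mul_div_cancel' h1.ne_zero h3
  have hn' : Prim n := e ▸ h2.mul h4.1
  rw [h2b_t, e, GG, g3_eq_zero hn' (fun h => hn ⟨hn', h⟩), zero_mul, mul_zero]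

theorem h2b_a_le (ℓ : ℤ) (B w : ℝ) {F : Multiset ℕ → ℂ} (hF : ∀ M, ‖F M‖ ≤ 1) (q a n : O) :
    ‖h2b_a ℓ B w F q a n‖ ≤ 1 := by
  by_cases hn : SF n
  swap
  · rw [h2b_a_nsf ℓ B w F q a hn]; simp
  rw [h2b_a_eq]
  refine (norm_sum_le _ _).trans ?_
  refine (Finset.sum_le_card_nsmul _ _ (1 / ((pf n).card : ℝ)) fun p hp => ?_).trans ?_
  · rw [Finset.mem_filter, h2b_mem_PA, h2b_mem_SB] at hp
    obtain ⟨⟨h1, h2, -⟩, h3, ⟨h4, -⟩, -⟩ := hp
    have e : p * (n / p) = n := EuclideanDomain.mul_div_cancel' h1.ne_zero h3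
    rw [h2b_t, e, norm_mul, norm_mul, norm_GG hn, mul_one, ← h2b_card hn h1 h2 h3]
    push_cast
    exact (mul_le_of_le_one_left (norm_nonneg _) (h2b_al_le ℓ w h1.ne_zero)).trans
      (h2b_be_le ℓ w hF q a _ _ h4.1.ne_zero)
  · rw [nsmul_eq_mul, mul_one_div]
    refine div_le_one_of_le₀ ?_ (Nat.cast_nonneg _)
    refine Nat.cast_le.2 (Finset.card_le_card fun p hp => ?_)
    rw [Finset.mem_filter, h2b_mem_PA] at hp
    exact (mem_pf hn.1.ne_zero).2 ⟨hp.1.1, hp.1.2.1, hp.2.1⟩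

theorem h2b_a_val (ℓ : ℤ) {B : ℝ} (hB : 1 ≤ B) (w : ℝ) (F : Multiset ℕ → ℂ) (q a : O) {n : O} (h1 : B < N n)
    (h2 : N n ≤ 2 * B) : h2b_a ℓ B w F q a n = if Prime n then 0 else h2b_c ℓ w F q a n := by
  by_cases hn : SF n
  swap
  · rw [h2b_a_nsf ℓ B w F q a hn, h2b_c]; simp [hn]
  have hn0 := hn.1.ne_zero
  rw [h2b_a_eq]
  split_ifs with hp
  · refine Finset.sum_eq_zero fun p hp' => ?_
    rw [Finset.mem_filter, h2b_mem_PA, h2b_mem_SB] at hp'
    obtain ⟨⟨u1, u2, -⟩, u3, -, u4⟩ := hp'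
    have := u2.eq_of_associated hn.1 (u1.associated_of_dvd hp u3)
    subst this
    exact absurd (EuclideanDomain.div_self hn0) u4
  have hset : (h2b_PA B).filter (fun p => p ∣ n ∧ n / p ∈ h2b_SB B (box p)) = pf n := by
    ext p
    rw [Finset.mem_filter, h2b_mem_PA, h2b_mem_SB, mem_pf hn0]
    refine ⟨fun h => ⟨h.1.1, h.1.2.1, h.2.1⟩, fun ⟨u1, u2, u3⟩ => ?_⟩
    have e : p * (n / p) = n := EuclideanDomain.mul_div_cancel' u1.ne_zero u3
    have eN : N p * N (n / p) = N n := by rw [← N_mul, e]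
    obtain ⟨b1, b2⟩ := h2b_box u1.ne_zero
    have b0 : (0 : ℝ) < 2 ^ box p := by positivity
    have m0 := N_nonneg (n / p)
    refine ⟨⟨u1, u2, (N_le_of_dvd hn0 u3).trans h2⟩, u3, ⟨(hn.div u2 u3).1, ?_, ?_⟩, fun h => ?_⟩
    · rw [div_div, div_lt_iff₀ (by positivity)]
      rw [pow_succ] at b2
      nlinarith
    · rw [← mul_div_assoc, le_div_iff₀ b0]
      nlinarith
    · rw [h, mul_one] at e
      exact hp (e ▸ u1)
  have hn1 : n ≠ 1 := by
    rintro rfl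
    rw [N_one] at h1
    linarith
  have hc : (pf n).card ≠ 0 := by
    obtain ⟨p, u1, u2, u3⟩ := hn.1.exists_prime_dvd hn1
    exact Finset.card_ne_zero.2 ⟨p, (mem_pf hn0).2 ⟨u1, u2, u3⟩⟩
  rw [hset, Finset.sum_congr rfl (g := fun _ => h2b_c ℓ w F q a n / (pf n).card), Finset.sum_const, nsmul_eq_mul,
    mul_div_cancel₀ _ (Nat.cast_ne_zero.2 hc)]
  intro p hp'
  obtain ⟨u1, u2, u3⟩ := (mem_pf hn0).1 hp'
  have e : p * (n / p) = n := EuclideanDomain.mul_div_cancel' u1.ne_zero u3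
  obtain ⟨v1, v2⟩ := hn.div u2 u3
  have hR : Rough w n ↔ w < N p ∧ Rough w (n / p) := by
    have := b1_pf_prime_mul u1 u2 v1.1.ne_zero
    rw [e] at this
    unfold Rough
    rw [this]
    simp
  have hbx : bx n = {box p} + bx (n / p) := by
    rw [← bx_prime u1 u2, ← bx_mul u1.ne_zero v1.1.ne_zero v2, e]
  have hang : ang n ^ ℓ = ang p ^ ℓ * ang (n / p) ^ ℓ := by rw [← mul_zpow, ← ang_mul, e]
  have hcard : ((pf n).card : ℂ) = (pf (n / p)).card + 1 := by rw [← h2b_card hn u1 u2 u3]; push_cast; ring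
  unfold h2b_t h2b_al h2b_be h2b_c bet
  rw [e, hR, hbx, hang, hcard]
  by_cases c1 : q ∣ n - a <;> by_cases c2 : w < N p <;> by_cases c3 : Rough w (n / p) <;> simp [c1, c2, c3, hn]
  ring

theorem h2b_single {x : O} (hx : x ≠ 0) (c : ℂ) (v T : ℝ) (s : ℂ) :
    winS (fun n => if n = x then c else 0) v T s = c * (N x : ℂ) ^ (-s) * (gw (T * (lg x - v)) : ℂ) := by
  unfold winS
  rw [tsum_eq_single x]
  · simp [hx]
  · intro n hn
    simp [hn]

theorem h2b_cpow {B : ℝ} (hB : 0 < B) (i : ℕ) {p m : O} (hp : p ≠ 0) (hm : m ≠ 0) (s : ℂ) :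
    (N (p * m) : ℂ) ^ s = (B : ℂ) ^ s * (pw (2 ^ i) p s * pw (B / 2 ^ i) m s) := by
  unfold pw
  have h1 := N_pos hp
  have h2 := N_pos hm
  rw [← Complex.mul_cpow_ofReal_nonneg (by positivity) (by positivity), ← Complex.ofReal_mul,
    ← Complex.mul_cpow_ofReal_nonneg hB.le (by positivity), ← Complex.ofReal_mul, N_mul]
  congr 2
  field_simp

theorem h2b_win (ℓ : ℤ) {B : ℝ} (hB : 0 < B) (w : ℝ) (F : Multiset ℕ → ℂ) {q : O} (hq : q ≠ 0) (a : O) {K : ℕ}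
    (hK : ∀ p : O, p ≠ 0 → N p ≤ 2 * B → box p < K) (v : ℝ) {T : ℝ} (hT : 1 ≤ T) (s : ℂ) :
    winS (h2b_a ℓ B w F q a) v T (-s) = (B : ℂ) ^ s * ∑ y ∈ Finset.range K ×ˢ res q,
      BG ((h2b_PA B).filter fun p => (box p, p % q) = y) (h2b_SB B y.1)
        (fun p => h2b_al ℓ w p * pw (2 ^ y.1) p s)
        (fun m => h2b_be ℓ w F q a y.1 y.2 m * pw (B / 2 ^ y.1) m s) v T := by
  have pb : ∀ (x : O) (c : ℂ), PolyBd fun n => if n = x then c else 0 := fun x c =>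
    polyBd_of_le (M := ‖c‖) fun n => by split_ifs <;> simp
  have e1 : winS (h2b_a ℓ B w F q a) v T (-s) = ∑ p ∈ h2b_PA B, ∑ m ∈ h2b_SB B (box p),
      h2b_t ℓ w F q a p m * (N (p * m) : ℂ) ^ s * (gw (T * (lg (p * m) - v)) : ℂ) := by
    unfold h2b_a
    rw [winS_sum _ (fun p _ => ?_) v hT]
    · refine Finset.sum_congr rfl fun p hp => ?_
      rw [winS_sum _ (fun m _ => pb _ _) v hT]
      refine Finset.sum_congr rfl fun m hm => ?_
      rw [h2b_single (mul_ne_zero (h2b_mem_PA.1 hp).1.ne_zero (h2b_mem_SB.1 hm).1.1.1.ne_zero), neg_neg]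
    · refine polyBd_of_le (M := ∑ m ∈ h2b_SB B (box p), ‖h2b_t ℓ w F q a p m‖) fun n => ?_
      refine (norm_sum_le _ _).trans (Finset.sum_le_sum fun m _ => ?_)
      split_ifs <;> simp
  rw [e1, ← Finset.sum_fiberwise_of_maps_to (t := Finset.range K ×ˢ res q) (g := fun p => (box p, p % q)),
    Finset.mul_sum]
  · refine Finset.sum_congr rfl fun y _ => ?_
    unfold BG
    rw [Finset.mul_sum]
    refine Finset.sum_congr rfl fun p hp => ?_
    rw [Finset.mem_filter] at hp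
    obtain ⟨hp, rfl⟩ := hp
    rw [Finset.mul_sum]
    refine Finset.sum_congr rfl fun m hm => ?_
    have hbe : h2b_be ℓ w F q a (box p) p m = h2b_be ℓ w F q a (box p) (p % q) m := by
      have : q ∣ p * m - a ↔ q ∣ p % q * m - a := by
        rw [show p * m - a = p % q * m - a + q * (p / q * m) by
          linear_combination -(EuclideanDomain.div_add_mod p q) * m]
        exact dvd_add_left (dvd_mul_right _ _)
      unfold h2b_be
      simp only [this]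
    rw [h2b_cpow hB (box p) (h2b_mem_PA.1 hp).1.ne_zero (h2b_mem_SB.1 hm).1.1.1.ne_zero, h2b_t, hbe]
    ring
  · intro p hp
    rw [h2b_mem_PA] at hp
    exact Finset.mem_product.2 ⟨Finset.mem_range.2 (hK p hp.1.ne_zero hp.2.2), b4_mod_mem_res hq p⟩

theorem h2b_n2 {S : Finset O} {M : ℝ} (hM : 0 ≤ M) (hS : S ⊆ sfb M) {f : O → ℂ} (hf : ∀ n ∈ S, ‖f n‖ ≤ 16) :
    n2 S f ≤ 4608 * M := by
  have h1 : n2 S f ≤ S.card • (16 ^ 2 : ℝ) :=
    Finset.sum_le_card_nsmul _ _ _ fun n hn => pow_le_pow_left₀ (norm_nonneg _) (hf n hn) 2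
  rw [nsmul_eq_mul] at h1
  linarith [ls0_card_sfb hM hS]

theorem h2b_bg (ℓ : ℤ) : ∃ C : ℝ, 0 ≤ C ∧ ∀ (B w x : ℝ) (j : ℕ) (F : Multiset ℕ → ℂ) (q a : O) (s : ℂ) (v T : ℝ)
    (y : ℕ × O), 1 ≤ x → B = x ^ 2000 → (∀ M, ‖F M‖ ≤ 1) → ZR j F → x ^ 33 ≤ 2 ^ j → |s.re| ≤ 4 → 0 < T →
    ‖BG ((h2b_PA B).filter fun p => (box p, p % q) = y) (h2b_SB B y.1)
        (fun p => h2b_al ℓ w p * pw (2 ^ y.1) p s)
        (fun m => h2b_be ℓ w F q a y.1 y.2 m * pw (B / 2 ^ y.1) m s) v T‖ ≤ C * x ^ 1984 := by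
  obtain ⟨C, hC, h⟩ := bg_cls (1 / 2000) (by norm_num)
  refine ⟨Real.sqrt (C * 160 * 4608 ^ 2), Real.sqrt_nonneg _, ?_⟩
  rintro B w x j F q a s v T ⟨i, r⟩ hx hBx hF hZ hj hre hT
  have hB : 1 ≤ B := hBx ▸ one_le_pow₀ hx
  have h2i : (0 : ℝ) < 2 ^ i := by positivity
  by_cases hz : ∀ m ∈ h2b_SB B i, h2b_be ℓ w F q a i r m = 0
  · rw [BG, Finset.sum_eq_zero, norm_zero]
    · positivity
    · intro p _
      exact Finset.sum_eq_zero fun m hm => by simp [hz m hm]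
  push Not at hz
  obtain ⟨m, hm, hm0⟩ := hz
  rw [h2b_mem_SB] at hm
  have hF0 : F ({i} + bx m) ≠ 0 := by
    intro h0
    apply hm0
    unfold h2b_be
    rw [h0]; simp
  have hji : j ≤ i := hZ _ hF0 i (by simp)
  have hjm : (2 : ℝ) ^ j ≤ N m := by
    obtain ⟨p, u1, u2, u3⟩ := hm.1.1.1.exists_prime_dvd hm.2
    have : j ≤ box p := hZ _ hF0 (box p) (Multiset.mem_add.2 (Or.inr (Multiset.mem_map.2
      ⟨p, (mem_pf hm.1.1.1.ne_zero).2 ⟨u1, u2, u3⟩, rfl⟩)))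
    exact (pow_le_pow_right₀ (by norm_num) this).trans
      ((h2b_box u1.ne_zero).1.trans (N_le_of_dvd hm.1.1.1.ne_zero u3))
  have hx33 : 0 < x ^ 33 := by positivity
  have hBB : B = x ^ 1967 * x ^ 33 := by rw [hBx]; ring
  have hA : (2 : ℝ) * 2 ^ i ≤ 4 * x ^ 1967 := by
    have u := (hj.trans hjm).trans hm.1.2.2
    rw [← mul_div_assoc, le_div_iff₀ h2i, hBB] at u
    nlinarith
  have hB' : 2 * (B / 2 ^ i) ≤ 2 * x ^ 1967 := by
    have u : x ^ 33 ≤ 2 ^ i := hj.trans (pow_le_pow_right₀ (by norm_num) hji)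
    refine mul_le_mul_of_nonneg_left ?_ (by norm_num)
    rw [div_le_iff₀ h2i, hBB]
    gcongr
  have hB1 : 1 ≤ 2 * (B / 2 ^ i) := (one_le_N hm.1.1.1.ne_zero).trans hm.1.2.2
  have hA1 : (1 : ℝ) ≤ 2 * 2 ^ i := by linarith [one_le_pow₀ (show (1 : ℝ) ≤ 2 by norm_num) (n := i)]
  have sA : ((h2b_PA B).filter fun p => (box p, p % q) = (i, r)) ⊆ sfb (2 * 2 ^ i) := by
    intro p hp
    rw [Finset.mem_filter, h2b_mem_PA, Prod.mk.injEq] at hp
    have := (h2b_box hp.1.1.ne_zero).2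
    rw [hp.2.1, pow_succ] at this
    exact mem_sfb.2 ⟨⟨hp.1.2.1, hp.1.1.squarefree⟩, by linarith⟩
  have sB : h2b_SB B i ⊆ sfb (2 * (B / 2 ^ i)) := fun m hm =>
    mem_sfb.2 ⟨(h2b_mem_SB.1 hm).1.1, (h2b_mem_SB.1 hm).1.2.2⟩
  have key := h _ _ v T _ _ (fun p => h2b_al ℓ w p * pw (2 ^ i) p s)
    (fun m => h2b_be ℓ w F q a i r m * pw (B / 2 ^ i) m s) hA1 hB1 hT sA sB
  have nA := h2b_n2 (by positivity) sA (f := fun p => h2b_al ℓ w p * pw (2 ^ i) p s) (fun p hp => by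
    have hp' := mem_sfb.1 (sA hp)
    rw [Finset.mem_filter, h2b_mem_PA, Prod.mk.injEq] at hp
    have := (h2b_box hp.1.1.ne_zero).1
    rw [hp.2.1] at this
    rw [norm_mul]
    exact (mul_le_of_le_one_left (norm_nonneg _) (h2b_al_le ℓ w hp.1.1.ne_zero)).trans
      (h2b_pw h2i (by linarith) hp'.2 hre))
  have nB := h2b_n2 (by positivity) sB (f := fun m => h2b_be ℓ w F q a i r m * pw (B / 2 ^ i) m s) (fun m hm => by
    rw [h2b_mem_SB] at hm
    rw [norm_mul]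
    refine (mul_le_of_le_one_left (norm_nonneg _) ((h2b_be_le ℓ w hF q a i r hm.1.1.1.ne_zero).trans ?_)).trans
      (h2b_pw (by positivity) hm.1.2.1.le hm.1.2.2 hre)
    exact div_le_one_of_le₀ (by linarith [Nat.cast_nonneg (α := ℝ) (pf m).card]) (by positivity))
  have eAB : 2 * 2 ^ i * (2 * (B / 2 ^ i)) = 4 * B := by field_simp; norm_num
  rw [eAB] at key
  have r1 : (4 * B) ^ (1 / 2000 : ℝ) ≤ 4 * x := by
    rw [Real.mul_rpow (by norm_num) (by linarith), hBx, ← Real.rpow_natCast, ← Real.rpow_mul (by linarith)]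
    norm_num
    refine mul_le_mul_of_nonneg_right ?_ (by linarith)
    calc (4 : ℝ) ^ (1 / 2000 : ℝ) ≤ 4 ^ (1 : ℝ) := Real.rpow_le_rpow_of_exponent_le (by norm_num) (by norm_num)
      _ = 4 := Real.rpow_one _
  have r2 : (4 * B) ^ (2 / 3 : ℝ) ≤ 4 * x ^ 1967 := by
    rw [Real.mul_rpow (by norm_num) (by linarith), hBx, ← Real.rpow_natCast, ← Real.rpow_mul (by linarith),
      ← Real.rpow_natCast x 1967]
    refine mul_le_mul ?_ (Real.rpow_le_rpow_of_exponent_le hx (by norm_num)) (by positivity) (by norm_num)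
    calc (4 : ℝ) ^ (2 / 3 : ℝ) ≤ 4 ^ (1 : ℝ) := Real.rpow_le_rpow_of_exponent_le (by norm_num) (by norm_num)
      _ = 4 := Real.rpow_one _
  refine le_of_sq_le_sq ?_ (by positivity)
  refine key.trans ?_
  have n0 := cl_n2 (h2b_SB B i) (fun m => h2b_be ℓ w F q a i r m * pw (B / 2 ^ i) m s)
  have n1 := cl_n2 ((h2b_PA B).filter fun p => (box p, p % q) = (i, r)) (fun p => h2b_al ℓ w p * pw (2 ^ i) p s)
  calc _ ≤ C * (4 * x) * (4 * x ^ 1967 + 2 * x ^ 1967 + 4 * x ^ 1967) * (4608 * (2 * 2 ^ i)) *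
        (4608 * (2 * (B / 2 ^ i))) := by gcongr
    _ = C * 40 * 4608 ^ 2 * x ^ 1968 * (2 * 2 ^ i * (2 * (B / 2 ^ i))) := by ring
    _ = _ := by
      rw [eAB, mul_pow, Real.sq_sqrt (by positivity), hBx]
      ring

theorem h2b_comp (ℓ : ℤ) : ∃ C : ℝ, 0 ≤ C ∧ ∀ (B w x : ℝ) (j : ℕ) (F : Multiset ℕ → ℂ) (q a : O)
    (s : ℂ), 1 ≤ x → B = x ^ 2000 → 2 * Real.log (2 * B) + 2 ≤ x → (∀ M, ‖F M‖ ≤ 1) → ZR j F →
    x ^ 33 ≤ 2 ^ j → q ≠ 0 → N q ≤ x → |s.re| ≤ 4 →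
    ‖∑ n ∈ (ball (2 * B)).filter (fun n => B < N n),
      (if Prime n then 0 else h2b_c ℓ w F q a n) * pw B n s‖ ≤ C * x ^ 1999 := by
  obtain ⟨C1, hC1, hs⟩ := sharp_pw
  obtain ⟨C2, hC2, hb⟩ := h2b_bg ℓ
  refine ⟨C1 * (16 * C2 + 2), by positivity, ?_⟩
  intro B w x j F q a s hx hBx hlog hF hZ hj hq hqx hre
  have hB : 1 ≤ B := hBx ▸ one_le_pow₀ hx
  obtain ⟨K, hK, hbox⟩ := h2b_box_lt hB hlog
  have hT1 : 1 ≤ x ^ 4 := one_le_pow₀ hx
  have key := hs (h2b_a ℓ B w F q a) 1 (16 * C2 * x ^ 1986) B B (2 * B) (x ^ 4) s (h2b_a_le ℓ B w hF q a)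
    (by positivity) (by linarith) le_rfl (by linarith) le_rfl hT1 hre (fun v hv1 hv2 => by
      rw [h2b_win ℓ (by linarith) w F hq a hbox v hT1, norm_mul,
        Complex.norm_cpow_eq_rpow_re_of_pos (by linarith)]
      have e1 : B ^ s.re ≤ 16 * Real.exp (s.re * v) := by
        rw [Real.rpow_def_of_pos (by linarith)]
        rw [Real.log_mul (by norm_num) (by linarith)] at hv2
        have : Real.log B * s.re ≤ 4 * Real.log 2 + s.re * v := by
          have l2 : 0 < Real.log 2 := Real.log_pos (by norm_num)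
          rw [abs_le] at hre
          nlinarith
        refine (Real.exp_le_exp.2 this).trans ?_
        rw [Real.exp_add, show (4 : ℝ) * Real.log 2 = (4 : ℕ) * Real.log 2 by norm_num, Real.exp_nat_mul,
          Real.exp_log (by norm_num)]
        norm_num
      have e2 := (norm_sum_le _ _).trans (Finset.sum_le_card_nsmul (Finset.range K ×ˢ res q) _ (C2 * x ^ 1984)
        fun y _ => hb B w x j F q a s v (x ^ 4) y hx hBx hF hZ hj hre (by positivity))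
      rw [Finset.card_product, Finset.card_range, card_res hq, nsmul_eq_mul] at e2
      have e3 : ((K * nm q : ℕ) : ℝ) ≤ x * x := by
        push_cast
        exact mul_le_mul hK hqx (Nat.cast_nonneg _) (by linarith)
      calc _ ≤ 16 * Real.exp (s.re * v) * (x * x * (C2 * x ^ 1984)) := by
            refine mul_le_mul e1 (e2.trans ?_) (norm_nonneg _) (by positivity)
            gcongr
        _ = _ := by ring)
  rw [Finset.sum_congr rfl (g := fun n => h2b_a ℓ B w F q a n * pw B n s)]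
  · refine key.trans ?_
    rw [mul_assoc C1]
    refine mul_le_mul_of_nonneg_left ?_ hC1
    have hsq : Real.sqrt B = x ^ 1000 := by
      rw [hBx, show x ^ 2000 = (x ^ 1000) ^ 2 by ring, Real.sqrt_sq (by positivity)]
    have e1 : B / x ^ 4 = x ^ 1996 := by
      rw [hBx, div_eq_iff (by positivity)]; ring
    have e2 : x ^ 1996 ≤ x ^ 1999 := pow_le_pow_right₀ hx (by norm_num)
    have e3 : x ^ 1000 ≤ x ^ 1999 := pow_le_pow_right₀ hx (by norm_num)
    have e4 : x ^ 4 * (16 * C2 * x ^ 1986) ≤ 16 * C2 * x ^ 1999 := by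
      rw [show x ^ 4 * (16 * C2 * x ^ 1986) = 16 * C2 * x ^ 1990 by ring]
      gcongr
      norm_num
    rw [e1, hsq]
    linarith
  · intro n hn
    rw [Finset.mem_filter, mem_ball] at hn
    rw [h2b_a_val ℓ hB w F q a hn.2 hn.1.2]

theorem h2b_log : ∃ B1 : ℝ, 3 ≤ B1 ∧ ∀ B : ℝ, B1 ≤ B → 2 * Real.log (2 * B) + 2 ≤ B ^ (1 / 2000 : ℝ) := by
  have h := (isLittleO_log_rpow_atTop (show (0 : ℝ) < 1 / 2000 by norm_num)).bound (show (0 : ℝ) < 1 / 6 by norm_num)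
  obtain ⟨B1, hB1⟩ := Filter.eventually_atTop.1 h
  refine ⟨max 3 B1, le_max_left _ _, fun B hB => ?_⟩
  have h3 : 3 ≤ B := (le_max_left _ _).trans hB
  have := hB1 B ((le_max_right _ _).trans hB)
  have l1 : 1 ≤ Real.log B := by
    rw [Real.le_log_iff_exp_le (by linarith)]
    linarith [Real.exp_one_lt_three]
  rw [Real.norm_of_nonneg (by linarith), Real.norm_of_nonneg (by positivity)] at this
  rw [Real.log_mul (by norm_num) (by linarith)]
  linarith [Real.log_two_lt_d9]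

/-- `T = B^{1/500}`, `κ` small.  **Prime `b`**: at most two boxes; `Rough w p ↔ w < N p`; so `b` runs over
intervals `(x₁, x₂]`; conjugate, `φ = phr λ · 1_{≡ a (q)}`, `Q₀ = 9q`, `hp2w (-ℓ)`, `sharp_pw`.
**Composite `b`** (`b ≠ 1`): `1 = ∑_{p ∣ b} 1/ω(b)`, `b = p m`, `ω(b) = ω(m) + 1`,
`bx b = {box p} + bx m`; `GG (p m) = 0` if `p ∣ m`; fix the box `i ≥ j` of `p` and the class of `p` mod
`q`; all primes have norm `≥ 2^j ≥ B^{1/60}` (`ZR`), so `N p, N m ≤ C B^{59/60}`; in the window at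
`v` let `m` run over `e^{v-1}/2^{i+1} < N m ≤ e^{v+1}/2^i` (the rest is a tail, `an_tail`), `bg_cls`;
`sharp_pw`. -/
theorem h2 (ℓ : ℤ) : ∃ κ C : ℝ, 0 < κ ∧ 0 ≤ C ∧ ∀ (B w : ℝ) (j : ℕ) (F : Multiset ℕ → ℂ) (q a : O)
    (s : ℂ), 1 ≤ B → (∀ M, ‖F M‖ ≤ 1) → ZR j F → B ^ (1 / 60 : ℝ) ≤ 2 ^ j → q ≠ 0 → N q ≤ B ^ κ →
    |s.re| ≤ 4 → |s.im| ≤ B ^ κ →
    ‖fam2 (sfI B (2 * B)) (fun b => bet w F b * ang b ^ ℓ) B q a s‖ ≤ C * B ^ (1 - κ) := by
  obtain ⟨C1, B0, hC1, hp⟩ := h2b_prime ℓ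
  obtain ⟨C2, hC2, hc⟩ := h2b_comp ℓ
  obtain ⟨B1, hB1, hlog⟩ := h2b_log
  have hκ : (0 : ℝ) < 1 / (2000 * (B0 + 1)) := by positivity
  have hκ' : (1 : ℝ) / (2000 * (B0 + 1)) ≤ 1 / 2000 :=
    one_div_le_one_div_of_le (by norm_num) (by linarith [Nat.cast_nonneg (α := ℝ) B0])
  refine ⟨1 / (2000 * (B0 + 1)), C1 + C2 + 576 * B1, hκ, by positivity, ?_⟩
  intro B w j F q a s hB hF hZ hj hq hqB hre him
  set κ : ℝ := 1 / (2000 * (B0 + 1)) with hκd
  have hpos : 1 ≤ B ^ (1 - κ) := Real.one_le_rpow hB (by linarith)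
  rw [h2b_fam]
  rcases le_total B B1 with hs | hl
  · refine (norm_sum_le _ _).trans ((Finset.sum_le_card_nsmul _ _ 16 fun n hn => ?_).trans ?_)
    · rw [Finset.mem_filter, mem_ball] at hn
      rw [norm_mul]
      exact (mul_le_of_le_one_left (norm_nonneg _) (h2b_c_le ℓ w hF q a n)).trans
        (h2b_pw (by linarith) (by linarith [hn.2]) hn.1.2 hre)
    · have c1 : (((ball (2 * B)).filter fun n => B < N n).card : ℝ) ≤ 18 * (2 * B) :=
        (Nat.cast_le.2 (Finset.card_filter_le _ _)).trans (card_ball_le (by linarith))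
      rw [nsmul_eq_mul]
      nlinarith
  · set x := B ^ (1 / 2000 : ℝ) with hx
    have hx1 : 1 ≤ x := Real.one_le_rpow hB (by norm_num)
    have hpow : ∀ n : ℕ, x ^ n = B ^ (n / 2000 : ℝ) := fun n => by
      rw [hx, ← Real.rpow_natCast, ← Real.rpow_mul (by linarith)]
      congr 1; ring
    have hBx : B = x ^ 2000 := by rw [hpow]; norm_num
    have hκx : B ^ κ ≤ x := Real.rpow_le_rpow_of_exponent_le hB hκ'
    have hq0 : N q ^ B0 ≤ x := by
      refine (pow_le_pow_left₀ (N_nonneg q) hqB B0).trans ?_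
      rw [← Real.rpow_natCast, ← Real.rpow_mul (by linarith)]
      refine Real.rpow_le_rpow_of_exponent_le hB ?_
      rw [hκd, div_mul_eq_mul_div, one_mul, div_le_div_iff₀ (by positivity) (by norm_num)]
      linarith
    have h33 : x ^ 33 ≤ 2 ^ j := by
      rw [hpow]
      exact (Real.rpow_le_rpow_of_exponent_le hB (by norm_num)).trans hj
    have h1 := hp B w x F q a s (hB1.trans hl) hx1 hBx (hlog B hl) hF hq hq0 hre (him.trans hκx)
    have h2 := hc B w x j F q a s hx1 hBx (hlog B hl) hF hZ h33 hq (hqB.trans hκx) hre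
    have h3 : x ^ 1999 ≤ B ^ (1 - κ) := by
      rw [hpow]
      refine Real.rpow_le_rpow_of_exponent_le hB ?_
      norm_num at hκ' ⊢
      linarith
    rw [Finset.sum_congr rfl (g := fun n => (if Prime n then h2b_c ℓ w F q a n else 0) * pw B n s +
      (if Prime n then 0 else h2b_c ℓ w F q a n) * pw B n s) (fun n _ => by split_ifs <;> simp),
      Finset.sum_add_distrib]
    refine (norm_add_le _ _).trans ((add_le_add h1 h2).trans ?_)
    have h4 : 0 ≤ 576 * B1 * B ^ (1 - κ) := by positivity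
    nlinarith

end Crest.Agent.R12
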