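import Crest.Agent.R12.Disp2

/-!
# R12 / IIgen : type II sums for small `T`, from size and equidistribution of the coefficients
-/

set_option autoImplicit false

noncomputable section

open scoped Classical ComplexConjugate Topology
open MeasureTheory Filter

namespace Crest.Agent.R12

open Crest.Agent.R17

theorem SA_half (y B : ℝ) : SA (y - Real.log 2) (B / 2) = SA y B := by
  have h : ∀ x : ℝ, Real.exp (x - Real.log 2) / (B / 2) = Real.exp x / B := fun x => by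
    rw [Real.exp_sub, Real.exp_log two_pos, div_div_div_cancel_right₀ two_ne_zero]
  rw [SA, SA, sub_right_comm, sub_add_eq_add_sub, h, h]

theorem ig_ev1 {ε : ℝ} (hε : 0 < ε) (m : ℕ) : ∀ᶠ y : ℝ in atTop, y ^ m ≤ Real.exp (ε * y) := by
  filter_upwards [(tendsto_id.const_mul_atTop hε).eventually
    ((Real.tendsto_exp_div_pow_atTop m).eventually_ge_atTop (ε ^ m)⁻¹), eventually_gt_atTop 0] with y h h0
  rw [id, le_div_iff₀ (by positivity), mul_pow, inv_mul_cancel_left₀ (by positivity)] at h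
  exact h

theorem ig_ev2 (c a : ℝ) (m : ℕ) :
    ∀ᶠ y : ℝ in atTop, c * y ^ m * Real.exp (a * y) * Real.exp (-(y ^ 2 / 8)) ≤ 1 := by
  filter_upwards [ig_ev1 one_pos m, eventually_ge_atTop c, eventually_ge_atTop (8 * (a + 2)),
    eventually_ge_atTop 0] with y h1 h2 h3 h0
  calc _ ≤ Real.exp y * Real.exp (1 * y) * Real.exp (a * y) * Real.exp (-(y ^ 2 / 8)) := by
        gcongr
        linarith [Real.add_one_le_exp y]
    _ ≤ _ := by
        rw [← Real.exp_add, ← Real.exp_add, ← Real.exp_add, Real.exp_le_one_iff]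
        nlinarith

theorem ig_l1 {B Y : ℝ} (hB : 0 ≤ B) (hY : 1 ≤ Y) {γ : O → ℂ} (h : nt (sfI (B / 2) (4 * B)) γ ≤ B * Y) :
    ∑ b ∈ sfI (B / 2) (4 * B), ‖γ b‖ * dv b ≤ 9 * B * Y := by
  have h1 : ((sfI (B / 2) (4 * B)).card : ℝ) ≤ 18 * (4 * B) :=
    (Nat.cast_le.2 (Finset.card_filter_le _ _)).trans (card_ball_le (by positivity))
  have h2 : ∑ b ∈ sfI (B / 2) (4 * B), (‖γ b‖ * dv b) ^ 2 ≤ B * Y := by
    refine le_trans (Finset.sum_le_sum fun b hb => ?_) h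
    rw [mul_pow]
    exact mul_le_mul_of_nonneg_left (pow_le_pow_right₀ (one_le_dv (mem_sfI.1 hb).1.1.ne_zero) (by norm_num))
      (sq_nonneg _)
  refine abs_le_of_sq_le_sq' (sq_sum_le_card_mul_sum_sq.trans ((mul_le_mul h1 h2
    (Finset.sum_nonneg fun _ _ => sq_nonneg _) (by positivity)).trans ?_)) (by positivity) |>.2
  nlinarith [mul_nonneg (sq_nonneg B) (mul_nonneg (sub_nonneg.2 hY) (zero_le_one.trans hY)),
    mul_nonneg (sq_nonneg B) (sq_nonneg Y)]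

theorem ig_triv {S : Finset O} {B : ℝ} (hS : In S B) (γ c : O → ℂ) (p : O → Prop) [DecidablePred p]
    (hc : ∀ b ∈ S, p b → ‖c b‖ ≤ 1) {s : ℂ} (hs : s.re ≤ 2) :
    ‖∑ b ∈ S.filter p, γ b * c b * pw B b s‖ ≤ 256 * ∑ b ∈ S, ‖γ b‖ * dv b := by
  rw [Finset.mul_sum]
  refine (norm_sum_le _ _).trans ((Finset.sum_le_sum fun b hb => ?_).trans
    (Finset.sum_le_sum_of_subset_of_nonneg (Finset.filter_subset p S) fun b _ _ =>
      mul_nonneg (by norm_num) (mul_nonneg (norm_nonneg _) (bb_dv_nonneg b))))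
  obtain ⟨h1, h2⟩ := Finset.mem_filter.1 hb
  have h3 := one_le_dv (hS b h1).1.1.ne_zero
  rw [norm_mul, norm_mul, mul_comm 256]
  exact mul_le_mul (mul_le_mul_of_nonneg_left ((hc b h1 h2).trans h3) (norm_nonneg _)) (d1_norm_pw hS h1 hs)
    (norm_nonneg _) (by positivity)

theorem ig_triv1 {S : Finset O} {B : ℝ} (hS : In S B) (γ : O → ℂ) {h : O} (hh : Prim h) (k : O) {s : ℂ}
    (hs : s.re ≤ 2) : ‖fam1 S γ B h k s‖ ≤ 256 * ∑ b ∈ S, ‖γ b‖ * dv b :=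
  ig_triv hS γ _ _ (fun b hb h1 => ps_cub_le ((hS b hb).1.1.div hh h1) k) hs

theorem ig_triv2 {S : Finset O} {B : ℝ} (hS : In S B) (γ : O → ℂ) (q a : O) {s : ℂ}
    (hs : s.re ≤ 2) : ‖fam2 S γ B q a s‖ ≤ 256 * ∑ b ∈ S, ‖γ b‖ * dv b :=
  ig_triv hS γ _ _ (fun b hb _ => norm_GG_le (hS b hb).1.1) hs

/-- the inner sum of `BM` -/
def igR (S : Finset O) (γ : O → ℂ) (v T : ℝ) (a e : O) : ℂ :=
  ∑ b ∈ S.filter (fun b => e ∣ b), γ b * ((N (a * b) ^ (-(1 / 6 : ℝ)) : ℝ) : ℂ) * (gw (T * (lg (a * b) - v)) : ℂ)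

theorem ig_BM {SA S : Finset O} {X : ℝ} (hA : ∀ a ∈ SA, SF a) (hS : ∀ b ∈ S, SF b ∧ N b ≤ X) (α γ : O → ℂ)
    (v T : ℝ) : BM SA S α γ v T =
      ∑ e ∈ sfb X, ∑ a ∈ SA.filter (fun a => e ∣ a), mu e * α a * igR S γ v T a e := by
  simp only [igR, Finset.sum_filter, Finset.mul_sum]
  rw [Finset.sum_comm]
  refine Finset.sum_congr rfl fun a ha => ?_
  have e1 : ∀ e : O, (if e ∣ a then ∑ b ∈ S, mu e * α a * (if e ∣ b then γ b *
      ((N (a * b) ^ (-(1 / 6 : ℝ)) : ℝ) : ℂ) * (gw (T * (lg (a * b) - v)) : ℂ) else 0) else 0) =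
      ∑ b ∈ S, (if e ∣ a ∧ e ∣ b then mu e else 0) * (α a * γ b *
        ((N (a * b) ^ (-(1 / 6 : ℝ)) : ℝ) : ℂ) * (gw (T * (lg (a * b) - v)) : ℂ)) := fun e => by
    split_ifs with h1
    · refine Finset.sum_congr rfl fun b _ => ?_
      by_cases h2 : e ∣ b
      · rw [if_pos h2, if_pos ⟨h1, h2⟩]; ring
      · rw [if_neg h2, if_neg fun h => h2 h.2]; ring
    · exact (Finset.sum_eq_zero fun b _ => by rw [if_neg fun h => h1 h.1, zero_mul]).symm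
  simp only [e1]
  rw [Finset.sum_comm]
  refine Finset.sum_congr rfl fun b hb => ?_
  obtain ⟨hb1, hb2⟩ := hS b hb
  have e2 : ∑ e ∈ sfb X, (if e ∣ a ∧ e ∣ b then mu e else 0) = if Squarefree (a * b) then 1 else 0 := by
    have e3 : Squarefree (a * b) ↔ IsCoprime a b := by
      rw [squarefree_mul_iff, isRelPrime_iff_isCoprime]
      exact ⟨fun h => h.1, fun h => ⟨h, (hA a ha).2, hb1.2⟩⟩
    simp only [e3]
    rw [← sum_mu_coprime hb1.1 a, ← Finset.sum_filter]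
    refine Finset.sum_congr ?_ fun _ _ => rfl
    ext e
    rw [Finset.mem_filter, Finset.mem_filter, mem_sfb, mem_pdiv hb1.1.ne_zero]
    exact ⟨fun h => ⟨⟨h.1.1.1, h.2.2⟩, h.2.1⟩, fun h => ⟨⟨hb1.of_dvd h.1.1 h.1.2,
      (N_le_of_dvd hb1.1.ne_zero h.1.2).trans hb2⟩, h.2, h.1.2⟩⟩
  rw [← Finset.sum_mul, e2]
  split_ifs <;> simp

theorem ig_R1 {S : Finset O} {B κ : ℝ} (hS : In S B) (hB : 0 < B) (γ : O → ℂ) (v T : ℝ) {a : O} (ha : a ≠ 0)
    (hκ : (N a * B) ^ (-(1 / 6 : ℝ)) ≤ κ) (e : O) :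
    ‖igR S γ v T a e‖ ≤ κ * ∑ b ∈ S.filter (fun b => e ∣ b), ‖γ b‖ := by
  rw [Finset.mul_sum]
  refine (norm_sum_le _ _).trans (Finset.sum_le_sum fun b hb => ?_)
  have h1 := (hS b (Finset.mem_filter.1 hb).1).2.1
  have h2 := N_pos ha
  rw [norm_mul, norm_mul, Complex.norm_real, Complex.norm_real, Real.norm_of_nonneg (gw_pos _).le,
    Real.norm_of_nonneg (Real.rpow_nonneg (N_nonneg _) _), mul_comm κ]
  refine (mul_le_of_le_one_right (mul_nonneg (norm_nonneg _) (Real.rpow_nonneg (N_nonneg _) _))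
    (Real.exp_le_one_iff.2 (neg_nonpos.2 (sq_nonneg _)))).trans
    (mul_le_mul_of_nonneg_left (le_trans ?_ hκ) (norm_nonneg _))
  rw [N_mul]
  exact Real.rpow_le_rpow_of_nonpos (by positivity) (by gcongr) (by norm_num)

theorem ig_R2 {S : Finset O} {B κ T R w w' : ℝ} (hS : In S B) (hB : 0 < B) (γ : O → ℂ) (v : ℝ) (hT : 0 < T)
    {a : O} (ha : a ≠ 0) (hκ : (N a * B) ^ (-(1 / 6 : ℝ)) ≤ κ) {e : O} (he : Prim e) (hR : 0 ≤ R) (hw : 0 ≤ w)
    (h1 : ∀ t : ℝ, |t| ≤ R → ‖fam1 S γ B e 1 ((-(1 / 6) : ℝ) + t * Complex.I)‖ ≤ w)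
    (h2 : ∀ t : ℝ, ‖fam1 S γ B e 1 ((-(1 / 6) : ℝ) + t * Complex.I)‖ ≤ w') :
    ‖igR S γ v T a e‖ ≤ κ * (w + 2 * w' * Real.exp (-(R ^ 2 / (8 * T ^ 2)))) := by
  have ha0 := N_pos ha
  have h0 : 0 ≤ (N a * B) ^ (-(1 / 6 : ℝ)) := by positivity
  have e1 : igR S γ v T a e = ∫ t : ℝ, ∑ b ∈ S.filter (fun b => e ∣ b),
      γ b * ((N (a * b) ^ (-(1 / 6 : ℝ)) : ℝ) : ℂ) *
        ((gh T t : ℂ) * Complex.exp (t * (lg (a * b) - v : ℝ) * Complex.I)) := by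
    rw [integral_finsetSum]
    · simp only [igR, integral_const_mul, gw_fourier hT]
    · exact fun b _ => ((integrable_gh hT).ofReal.mul_bdd (c := 1) (by fun_prop)
        (Eventually.of_forall fun t => (bf_norm_exp _ _).le)).const_mul _
  have e2 : ∀ t : ℝ, ‖∑ b ∈ S.filter (fun b => e ∣ b), γ b * ((N (a * b) ^ (-(1 / 6 : ℝ)) : ℝ) : ℂ) *
      ((gh T t : ℂ) * Complex.exp (t * (lg (a * b) - v : ℝ) * Complex.I))‖ =
      (N a * B) ^ (-(1 / 6 : ℝ)) * (gh T t * ‖fam1 S γ B e 1 ((-(1 / 6) : ℝ) + t * Complex.I)‖) := fun t => by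
    have e3 : ∑ b ∈ S.filter (fun b => e ∣ b), γ b * ((N (a * b) ^ (-(1 / 6 : ℝ)) : ℝ) : ℂ) *
        ((gh T t : ℂ) * Complex.exp (t * (lg (a * b) - v : ℝ) * Complex.I)) =
        Complex.exp (t * (lg a - v + Real.log B : ℝ) * Complex.I) * ((((N a * B) ^ (-(1 / 6 : ℝ)) : ℝ) : ℂ) *
          ((gh T t : ℂ) * fam1 S γ B e 1 ((-(1 / 6) : ℝ) + t * Complex.I))) := by
      simp only [fam1, Finset.mul_sum]
      refine Finset.sum_congr rfl fun b hb => ?_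
      obtain ⟨hb1, hb2⟩ := Finset.mem_filter.1 hb
      have hb0 := (hS b hb1).1.1.ne_zero
      have hb3 := N_pos hb0
      have e4 : Complex.exp (t * (lg (a * b) - v : ℝ) * Complex.I) =
          Complex.exp (t * (lg a - v + Real.log B : ℝ) * Complex.I) *
            Complex.exp (t * (lg b - Real.log B : ℝ) * Complex.I) := by
        rw [← Complex.exp_add, bf_lg_mul ha hb0]
        congr 1
        push_cast
        ring
      have e5 : N (a * b) ^ (-(1 / 6 : ℝ)) = (N a * B) ^ (-(1 / 6 : ℝ)) * (N b / B) ^ (-(1 / 6 : ℝ)) := by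
        rw [← Real.mul_rpow (by positivity) (by positivity), N_mul]
        congr 1
        field_simp
      rw [e4, e5, d2_pw_add hB hb0, bf_pw hB hb0, (rcub_isChar ((hS b hb1).1.1.div he hb2)).one, pw,
        ← Complex.ofReal_cpow (by positivity), Complex.ofReal_mul]
      ring
    rw [e3, norm_mul, bf_norm_exp, one_mul, norm_mul, norm_mul, Complex.norm_real, Complex.norm_real,
      Real.norm_of_nonneg h0, Real.norm_of_nonneg (gh_nonneg T t hT)]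
  rw [e1]
  refine (norm_integral_le_integral_norm _).trans ?_
  simp only [e2]
  rw [integral_const_mul]
  exact mul_le_mul hκ (integral_gh_le hT hR hw (fun _ => norm_nonneg _) h1 h2)
    (integral_nonneg fun t => mul_nonneg (gh_nonneg T t hT) (norm_nonneg _)) (h0.trans hκ)

theorem ig_BM_le {SA S : Finset O} {X Z H κ W : ℝ} (hA : ∀ a ∈ SA, SF a ∧ N a ≤ Z)
    (hS : ∀ b ∈ S, SF b ∧ N b ≤ X) {α γ : O → ℂ} (hα : ∀ a, ‖α a‖ ≤ 1) (v T : ℝ) (hZ : 0 ≤ Z) (hH : 0 < H)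
    (hκ : 0 ≤ κ) (hW : 0 ≤ W) (h1 : ∀ a ∈ SA, ∀ e, SF e → N e ≤ H → ‖igR S γ v T a e‖ ≤ W)
    (h2 : ∀ a ∈ SA, ∀ e, ‖igR S γ v T a e‖ ≤ κ * ∑ b ∈ S.filter (fun b => e ∣ b), ‖γ b‖) :
    ‖BM SA S α γ v T‖ ≤ 18 * Z * W * (18 * H) + 18 * Z / H * κ * ∑ b ∈ S, ‖γ b‖ * dv b := by
  rw [ig_BM (fun a ha => (hA a ha).1) hS]
  have key : ∀ e ∈ sfb X, ‖∑ a ∈ SA.filter (fun a => e ∣ a), mu e * α a * igR S γ v T a e‖ ≤
      18 * Z * W * (if N e ≤ H then 1 else 0) + 18 * Z / H * κ * ∑ b ∈ S.filter (fun b => e ∣ b), ‖γ b‖ := by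
    intro e he
    have he1 := (mem_sfb.1 he).1
    have he2 := one_le_N he1.1.ne_zero
    have hc : ((SA.filter fun a => e ∣ a).card : ℝ) ≤ 18 * (Z / N e) :=
      le_trans (Nat.cast_le.2 (Finset.card_le_card (Finset.filter_subset_filter _ fun a ha =>
        mem_ball.2 ⟨(hA a ha).1.1.ne_zero, (hA a ha).2⟩))) (ls0_card_dvd hZ he1.1.ne_zero)
    have hG : 0 ≤ ∑ b ∈ S.filter (fun b => e ∣ b), ‖γ b‖ := Finset.sum_nonneg fun _ _ => norm_nonneg _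
    have h3 : ∀ w : ℝ, 0 ≤ w → (∀ a ∈ SA, ‖igR S γ v T a e‖ ≤ w) →
        ‖∑ a ∈ SA.filter (fun a => e ∣ a), mu e * α a * igR S γ v T a e‖ ≤ 18 * (Z / N e) * w := by
      intro w hw h
      refine (norm_sum_le _ _).trans ((Finset.sum_le_card_nsmul _ _ w fun a ha => ?_).trans ?_)
      · rw [norm_mul, norm_mul]
        exact (mul_le_of_le_one_left (norm_nonneg _) (mul_le_one₀ (norm_mu_le e) (norm_nonneg _) (hα a))).trans
          (h a (Finset.mem_filter.1 ha).1)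
      · rw [nsmul_eq_mul]
        exact mul_le_mul_of_nonneg_right hc hw
    split_ifs with h4
    · refine (h3 W hW fun a ha => h1 a ha e he1 h4).trans (le_add_of_le_of_nonneg ?_ (by positivity))
      rw [mul_one]
      exact mul_le_mul_of_nonneg_right (mul_le_mul_of_nonneg_left (div_le_self hZ he2) (by norm_num)) hW
    · refine (h3 _ (by positivity) fun a ha => h2 a ha e).trans ?_
      rw [mul_zero, zero_add, mul_assoc (18 * Z / H), mul_div_assoc]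
      have := (not_le.1 h4).le
      gcongr
  refine (norm_sum_le _ _).trans ((Finset.sum_le_sum key).trans ?_)
  rw [Finset.sum_add_distrib, ← Finset.mul_sum, ← Finset.mul_sum]
  refine add_le_add (mul_le_mul_of_nonneg_left (d1_card_le hH.le X) (by positivity))
    (mul_le_mul_of_nonneg_left ?_ (by positivity))
  simp only [Finset.sum_filter]
  rw [Finset.sum_comm]
  refine Finset.sum_le_sum fun b hb => ?_
  rw [← Finset.sum_filter, Finset.sum_const, nsmul_eq_mul, mul_comm]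
  refine mul_le_mul_of_nonneg_left (Nat.cast_le.2 (Finset.card_le_card fun e he => ?_)) (norm_nonneg _)
  obtain ⟨h3, h4⟩ := Finset.mem_filter.1 he
  exact (mem_pdiv (hS b hb).1.1.ne_zero).2 ⟨(mem_sfb.1 h3).1.1, h4⟩

/-- `[a, b coprime] = ∑_{d ∣ a, d ∣ b} μ(d)`.  `N d ≤ H = y^{C₁}`: `gw_fourier`, the inner sum is
`(B/2)^{-1/6+it} fam1 S γ (B/2) d 1 (-1/6 + it)` (`cub n 1 = 1`), `|t| ≤ T y ≤ y^{C₁}`, else trivial
(`integral_gh_le`).  `N d > H`: `#{a ∈ SA, d ∣ a} ≤ 18 e^{y+1}/(B N d)`,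
`∑_b |γ b| dv b ≤ √(72 B · nt)`. -/
theorem BM_gen (A A1 C0 : ℕ) : ∃ (C1 A' : ℕ) (y0 : ℝ), ∀ y : ℝ, y0 ≤ y → ∀ (B v T : ℝ) (α γ : O → ℂ),
    Real.exp (y / 4) ≤ B → B ≤ Real.exp (y / 2 + 80) → 1 ≤ T → T ≤ y ^ A1 → (∀ a, ‖α a‖ ≤ 1) →
    nt (sfI (B / 2) (4 * B)) γ ≤ B * y ^ C0 →
    (∀ (h k : O) (s : ℂ), SF h → N h ≤ y ^ C1 → k ≠ 0 → N k ≤ y ^ C1 → |s.re| ≤ 3 →
      |s.im| ≤ y ^ C1 → ‖fam1 (sfI (B / 2) (4 * B)) γ (B / 2) h k s‖ ≤ B / y ^ A') →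
    ‖BM (SA y B) (sfI (B / 2) (4 * B)) α γ v T‖ ≤ Real.exp (5 / 6 * y) / y ^ A := by
  obtain ⟨y0, h0⟩ := eventually_atTop.1 ((ig_ev2 4608 0 (C0 + (A + (A + A1 + C0 + 1) + 1))).and
    (eventually_ge_atTop (810 * Real.exp 2)))
  refine ⟨A + A1 + C0 + 1, A + (A + A1 + C0 + 1) + 1, y0, fun y hy B v T α γ hB1 hB2 hT hT2 hα hγ hf => ?_⟩
  obtain ⟨h1, h2⟩ := h0 y hy
  have he2 : 1 ≤ Real.exp 2 := Real.one_le_exp (by norm_num)
  have hy1 : 1 ≤ y := by linarith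
  have hy0 : 0 < y := by linarith
  have hB : 0 < B := (Real.exp_pos _).trans_le hB1
  have hT0 : 0 < T := by linarith
  have hS : In (sfI (B / 2) (4 * B)) (B / 2) := in_sfI (by linarith)
  have hl := ig_l1 hB.le (one_le_pow₀ hy1) hγ
  have hκ : ∀ a ∈ SA y B, (N a * (B / 2)) ^ (-(1 / 6 : ℝ)) ≤ Real.exp (-(y / 6) + 1) := fun a ha => by
    have a1 := (div_lt_iff₀ hB).1 (mem_sfI.1 ha).2.1
    have a2 : Real.exp (y - 6) ≤ N a * (B / 2) := by
      rw [show y - 3 = y - 6 + 3 by ring, Real.exp_add] at a1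
      nlinarith [Real.add_one_le_exp (3 : ℝ), Real.exp_pos (y - 6)]
    refine (Real.rpow_le_rpow_of_nonpos (Real.exp_pos _) a2 (by norm_num)).trans (le_of_eq ?_)
    rw [← Real.exp_mul]
    congr 1
    ring
  have hC1 : ∀ m, m ≤ A + A1 + C0 + 1 → y ^ m ≤ y ^ (A + A1 + C0 + 1) := fun m hm => pow_le_pow_right₀ hy1 hm
  refine (ig_BM_le (X := 4 * B) (Z := Real.exp (y + 1) / B) (H := y ^ (A + A1 + C0 + 1))
    (κ := Real.exp (-(y / 6) + 1)) (W := Real.exp (-(y / 6) + 1) * (2 * (B / y ^ (A + (A + A1 + C0 + 1) + 1))))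
    (fun a ha => ⟨(mem_sfI.1 ha).1, (mem_sfI.1 ha).2.2⟩) (fun b hb => ⟨(mem_sfI.1 hb).1, (mem_sfI.1 hb).2.2⟩)
    hα v T (by positivity) (by positivity) (by positivity) (by positivity) (fun a ha e he hN => ?_)
    fun a ha e => ig_R1 hS (by positivity) γ v T (mem_sfI.1 ha).1.1.ne_zero (hκ a ha) e).trans ?_
  · refine (ig_R2 (R := T * y) hS (by positivity) γ v hT0 (mem_sfI.1 ha).1.1.ne_zero (hκ a ha) he.1
      (by positivity) (by positivity) (fun t ht => hf e 1 _ he hN one_ne_zero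
        (by rw [N_one]; exact one_le_pow₀ hy1) (by simp; norm_num) ?_)
      fun t => (ig_triv1 hS γ he.1 1 (by simp; norm_num)).trans
        (mul_le_mul_of_nonneg_left hl (by norm_num))).trans (mul_le_mul_of_nonneg_left ?_ (by positivity))
    · have : T * y ≤ y ^ (A1 + 1) := by rw [pow_succ]; gcongr
      simpa using ht.trans (this.trans (hC1 _ (by omega)))
    · rw [show (T * y) ^ 2 / (8 * T ^ 2) = y ^ 2 / 8 by field_simp, two_mul (B / _)]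
      refine add_le_add le_rfl ((le_div_iff₀ (by positivity)).2 ?_)
      rw [zero_mul, Real.exp_zero, mul_one] at h1
      calc _ = 4608 * y ^ (C0 + (A + (A + A1 + C0 + 1) + 1)) * Real.exp (-(y ^ 2 / 8)) * B := by ring
        _ ≤ 1 * B := by gcongr
        _ = B := one_mul _
  · have e : Real.exp (y + 1) * Real.exp (-(y / 6) + 1) = Real.exp 2 * Real.exp (5 / 6 * y) := by
      rw [← Real.exp_add, ← Real.exp_add]
      congr 1
      ring
    calc _ ≤ 18 * (Real.exp (y + 1) / B) * (Real.exp (-(y / 6) + 1) * (2 * (B / y ^ (A + (A + A1 + C0 + 1) + 1)))) *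
          (18 * y ^ (A + A1 + C0 + 1)) + 18 * (Real.exp (y + 1) / B) / y ^ (A + C0 + 1) *
            Real.exp (-(y / 6) + 1) * (9 * B * y ^ C0) := by
          have := hC1 (A + C0 + 1) (by omega)
          have := Finset.sum_nonneg (s := sfI (B / 2) (4 * B)) fun b _ =>
            mul_nonneg (norm_nonneg (γ b)) (bb_dv_nonneg b)
          gcongr
      _ = 810 / y * (Real.exp (y + 1) * Real.exp (-(y / 6) + 1) / y ^ A) := by
          field_simp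
          ring
      _ = 810 * Real.exp 2 / y * (Real.exp (5 / 6 * y) / y ^ A) := by
          rw [e]
          ring
      _ ≤ 1 * (Real.exp (5 / 6 * y) / y ^ A) := by
          gcongr
          exact (div_le_one hy0).2 h2
      _ = _ := one_mul _

theorem ig_shift1 {S : Finset O} {B : ℝ} (hS : In S B) (hB : 0 < B) (γ : O → ℂ) (h k : O) (s z : ℂ) :
    fam1 S (fun b => γ b * pw B b z) B h k s = fam1 S γ B h k (s + z) :=
  Finset.sum_congr rfl fun b hb => by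
    rw [d2_pw_add hB (hS b (Finset.mem_filter.1 hb).1).1.1.ne_zero]
    ring

theorem ig_shift2 {S : Finset O} {B : ℝ} (hS : In S B) (hB : 0 < B) (γ : O → ℂ) (q a : O) (s z : ℂ) :
    fam2 S (fun b => γ b * pw B b z) B q a s = fam2 S γ B q a (s + z) :=
  Finset.sum_congr rfl fun b hb => by
    rw [d2_pw_add hB (hS b (Finset.mem_filter.1 hb).1).1.1.ne_zero]
    ring

theorem ig_nt {S : Finset O} {B : ℝ} (hS : In S B) (hB : 0 < B) (γ : O → ℂ) (t : ℝ) :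
    nt S (fun b => γ b * pw B b (t * Complex.I)) = nt S γ :=
  Finset.sum_congr rfl fun b hb => by
    beta_reduce
    rw [bf_pw hB (hS b hb).1.1.ne_zero, norm_mul, bf_norm_exp, mul_one]

theorem ig_avg {f : ℂ → ℂ} {σ t y R a b : ℝ} (hσ : σ ∈ Sg) (ht : y ^ 2 + |t| ≤ R)
    (h1 : ∀ s : ℂ, |s.re| ≤ 3 → |s.im| ≤ R → ‖f s‖ ≤ a) (h2 : ∀ s : ℂ, s.re ≤ 2 → ‖f s‖ ≤ b)
    (h3 : 4 * b ^ 2 * Real.exp (-(y ^ 2 / 8)) ≤ a ^ 2) :
    ∫ τ : ℝ, mT 1 τ * ‖f (σ + τ * Complex.I + t * Complex.I)‖ ^ 2 ≤ 3 * a ^ 2 := by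
  have h4 : |σ| ≤ 3 := by
    simp only [Sg, Finset.mem_insert, Finset.mem_singleton] at hσ
    rcases hσ with h | h | h | h | h | h <;> rw [h, abs_le] <;> norm_num
  refine (integral_mT_le (a := a ^ 2) (b := b ^ 2) one_pos (sq_nonneg y) (sq_nonneg a) (fun _ => sq_nonneg _)
    (fun τ hτ => pow_le_pow_left₀ (norm_nonneg _) (h1 _ (by simpa using h4) ?_) 2)
    fun τ => pow_le_pow_left₀ (norm_nonneg _) (h2 _ (by simpa using d1_Sg_le hσ)) 2).trans ?_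
  · simpa using (abs_add_le τ t).trans ((add_le_add hτ le_rfl).trans ht)
  · have : Real.exp (-(y ^ 2 / (2 * 1))) ≤ Real.exp (-(y ^ 2 / 8)) :=
      Real.exp_le_exp.2 (by nlinarith [sq_nonneg y])
    nlinarith [sq_nonneg b]

theorem ig_N1 {S : Finset O} {γ : O → ℂ} {B H w : ℝ} (hH : 0 ≤ H) (hw : 0 ≤ w)
    (h : ∀ g ∈ sfb H, ∀ k ∈ ball H, ∀ σ ∈ Sg,
      ∫ τ : ℝ, mT 1 τ * ‖fam1 S γ B g k (σ + τ * Complex.I)‖ ^ 2 ≤ w) :
    N1 S γ B H 1 ≤ 18 * H * (18 * H * (6 * w)) := by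
  have c1 : ((ball H).card : ℝ) ≤ 18 * H := card_ball_le hH
  have c2 : ((sfb H).card : ℝ) ≤ 18 * H := (Nat.cast_le.2 (Finset.card_filter_le _ _)).trans c1
  have c3 : (Sg.card : ℝ) ≤ 6 := by exact_mod_cast Finset.card_le_six
  calc _ ≤ ∑ g ∈ sfb H, ∑ k ∈ ball H, ∑ σ ∈ Sg, w :=
        Finset.sum_le_sum fun g hg => Finset.sum_le_sum fun k hk => Finset.sum_le_sum fun σ hσ => h g hg k hk σ hσ
    _ = (sfb H).card * ((ball H).card * (Sg.card * w)) := by simp only [Finset.sum_const, nsmul_eq_mul]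
    _ ≤ _ := by gcongr

theorem ig_N2 {S : Finset O} {γ : O → ℂ} {B Q w : ℝ} (hQ : 0 ≤ Q) (hw : 0 ≤ w)
    (h : ∀ q ∈ ball Q, ∀ a, ∀ σ ∈ Sg, ∫ τ : ℝ, mT 1 τ * ‖fam2 S γ B q a (σ + τ * Complex.I)‖ ^ 2 ≤ w) :
    N2 S γ B Q ≤ 18 * Q * (Q * (6 * w)) := by
  have c1 : ((ball Q).card : ℝ) ≤ 18 * Q := card_ball_le hQ
  have c3 : (Sg.card : ℝ) ≤ 6 := by exact_mod_cast Finset.card_le_six
  refine (Finset.sum_le_card_nsmul _ _ (Q * (6 * w)) fun q hq => ?_).trans (by rw [nsmul_eq_mul]; gcongr)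
  obtain ⟨h1, h2⟩ := mem_ball.1 hq
  calc _ ≤ ∑ a ∈ res q, ∑ σ ∈ Sg, w :=
        Finset.sum_le_sum fun a _ => Finset.sum_le_sum fun σ hσ => h q hq a σ hσ
    _ = N q * (Sg.card * w) := by simp only [Finset.sum_const, nsmul_eq_mul, card_res h1, N]
    _ ≤ _ := by gcongr

theorem ig_numA {y B : ℝ} {m : ℕ} (hy : 200 ≤ y) (h1 : Real.exp (y / 3) * y ^ m ≤ B)
    (h2 : B ≤ Real.exp (y / 2 + 80)) : 2 ≤ B ∧ 1 ≤ Real.exp (y - 1) / B ∧
    Real.exp (y - 1) / B ≤ Real.exp (2 / 3 * y) / y ^ m ∧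
    (Real.exp (y - 1) / B * (B / 2)) ^ (2 / 3 : ℝ) ≤ Real.exp (2 / 3 * y) := by
  have hm : 1 ≤ y ^ m := one_le_pow₀ (by linarith)
  have h3 : 2 ≤ B := by nlinarith [Real.add_one_le_exp (y / 3)]
  have hB : 0 < B := by linarith
  refine ⟨h3, (one_le_div hB).2 (h2.trans (Real.exp_le_exp.2 (by linarith))), ?_, ?_⟩
  · rw [div_le_div_iff₀ hB (by positivity)]
    calc _ ≤ Real.exp (2 / 3 * y + y / 3) * y ^ m := by gcongr; linarith
      _ = Real.exp (2 / 3 * y) * (Real.exp (y / 3) * y ^ m) := by rw [Real.exp_add]; ring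
      _ ≤ _ := by gcongr
  · rw [mul_comm (2 / 3), Real.exp_mul]
    refine Real.rpow_le_rpow (by positivity) ?_ (by norm_num)
    rw [show Real.exp (y - 1) / B * (B / 2) = Real.exp (y - 1) / 2 by field_simp]
    linarith [Real.exp_le_exp.2 (show y - 1 ≤ y by linarith), Real.exp_pos (y - 1)]

theorem ig_numB {y B : ℝ} {m : ℕ} (hy : 200 ≤ y) (hB : 0 < B) (h1 : B ≤ Real.exp (2 / 5 * y))
    (h2 : y ^ m ≤ Real.exp (1 / 30 * y)) :
    (B / 2) ^ 3 / (Real.exp (y - 1) / B) ≤ Real.exp (2 / 3 * y) / y ^ m := by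
  have hy0 : 0 < y := by linarith
  rw [div_div_eq_mul_div, div_le_div_iff₀ (by positivity) (by positivity), ← Real.exp_add]
  calc _ ≤ Real.exp (2 / 5 * y) ^ 3 * Real.exp (2 / 5 * y) * Real.exp (1 / 30 * y) := by gcongr; linarith
    _ ≤ _ := by
      rw [← Real.exp_nat_mul, ← Real.exp_add, ← Real.exp_add, Real.exp_le_exp]
      push_cast
      linarith

theorem ig_numC {y B κ : ℝ} (hy : 200 ≤ y) (hκ : 0 < κ) (hy2 : 644 / κ ≤ y) (h1 : Real.exp (2 / 5 * y) < B)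
    (h2 : B ≤ Real.exp (y / 2 + 80)) : Real.exp (κ / 4 * y) ≤ (B / 2) ^ κ ∧
    (B / 2) ^ (1 - κ) ≤ Real.exp (y - 1) / B ∧ Real.exp (y - 1) / B ≤ (B / 2) ^ (8 / 5 : ℝ) := by
  have hB : 0 < B := (Real.exp_pos _).trans h1
  have h3 : Real.exp (2 / 5 * y - 1) ≤ B / 2 := by
    rw [Real.exp_sub]
    gcongr
    linarith [Real.add_one_le_exp (1 : ℝ)]
  have h4 : Real.exp (κ / 4 * y) ≤ (B / 2) ^ κ := by
    refine le_trans ?_ (Real.rpow_le_rpow (Real.exp_pos _).le h3 hκ.le)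
    rw [← Real.exp_mul, Real.exp_le_exp]
    nlinarith
  refine ⟨h4, ?_, ?_⟩
  · rw [div_le_iff₀ hκ] at hy2
    rw [Real.rpow_sub (by positivity), Real.rpow_one, div_le_div_iff₀ (by positivity) hB]
    calc _ ≤ Real.exp (y / 2 + 80) * Real.exp (y / 2 + 80) := by gcongr; linarith
      _ ≤ Real.exp (y - 1) * Real.exp (κ / 4 * y) := by
        rw [← Real.exp_add, ← Real.exp_add, Real.exp_le_exp]
        linarith
      _ ≤ _ := by gcongr
  · calc _ ≤ Real.exp (y - 1) / Real.exp (2 / 5 * y) := by gcongr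
      _ ≤ Real.exp (2 / 5 * y - 1) ^ (8 / 5 : ℝ) := by
        rw [← Real.exp_sub, ← Real.exp_mul, Real.exp_le_exp]
        linarith
      _ ≤ _ := by gcongr

theorem ig_numD {y B κ : ℝ} (hy : 200 ≤ y) (hκ : 0 < κ) (h1 : Real.exp (2 / 5 * y) < B)
    (h2 : B ≤ Real.exp (y / 2 + 80)) : ∃ β : ℝ, Real.exp (κ / 5 * y) ≤ β ∧ β ^ 4 ≤ Real.exp (2 * κ * y) ∧
    (B / 2) ^ (κ / 2) ≤ β ∧ B ^ κ = β ^ 2 ∧ B ^ (1 - κ) = B / β ^ 2 := by
  have hB : 0 < B := (Real.exp_pos _).trans h1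
  have e : B ^ κ = (B ^ (κ / 2)) ^ 2 := by
    rw [← Real.rpow_natCast, ← Real.rpow_mul hB.le]
    norm_num
  refine ⟨B ^ (κ / 2), ?_, ?_, by gcongr; linarith, e, by rw [Real.rpow_sub hB, Real.rpow_one, e]⟩
  · refine le_trans (le_of_eq ?_) (Real.rpow_le_rpow (Real.exp_pos _).le h1.le (by positivity))
    rw [← Real.exp_mul]
    congr 1
    ring
  · calc _ ≤ (Real.exp y ^ (κ / 2)) ^ 4 := by
          gcongr
          exact h2.trans (Real.exp_le_exp.2 (by linarith))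
      _ = _ := by
          rw [← Real.exp_mul, ← Real.exp_nat_mul]
          congr 1
          push_cast
          ring

theorem ig_fin {C U E a a' n n' p p' q q' B : ℝ} (hC : 0 ≤ C) (hU : 0 ≤ U) (hB : 0 < B) (ha : 0 ≤ a) (hn : 0 ≤ n)
    (hp : 0 ≤ p) (hq : 0 ≤ q) (h1 : U ≤ E) (h2 : a ≤ a') (h3 : n ≤ n') (h4 : p ≤ p') (h5 : q ≤ q') :
    C * U * (a * n + p / B + q / B) ≤ C * E * (a' * n' + p' / B + q' / B) := by
  have := hU.trans h1
  have := ha.trans h2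
  gcongr

set_option maxHeartbeats 400000 in
theorem ig_disp (M A1 C0 : ℕ) {κ : ℝ} (hκ : 0 < κ) : ∃ (C1 A' A2 : ℕ) (C : ℝ), 0 ≤ C ∧ ∀ᶠ y : ℝ in atTop,
    ∀ (B t : ℝ) (γ : O → ℂ), Real.exp (y / 3) * y ^ A2 ≤ B → B ≤ Real.exp (y / 2 + 80) →
    nt (sfI (B / 2) (4 * B)) γ ≤ B * y ^ C0 →
    (∀ (h k : O) (s : ℂ), SF h → N h ≤ y ^ C1 → k ≠ 0 → N k ≤ y ^ C1 → |s.re| ≤ 3 →
      |s.im| ≤ y ^ C1 → ‖fam1 (sfI (B / 2) (4 * B)) γ (B / 2) h k s‖ ≤ B / y ^ A') →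
    (Real.exp (2 / 5 * y) < B → ∀ (q a : O) (s : ℂ), q ≠ 0 → N q ≤ B ^ κ → |s.re| ≤ 3 →
      |s.im| ≤ B ^ κ → ‖fam2 (sfI (B / 2) (4 * B)) γ (B / 2) q a s‖ ≤ B ^ (1 - κ)) → |t| ≤ y ^ (A1 + 1) →
    Disp (sfI (B / 2) (4 * B)) (fun b => γ b * pw (B / 2) b (t * Complex.I)) (Real.exp (y - 1) / B) 1 ≤
      C * (Real.exp (2 / 3 * y) * B / y ^ M) := by
  obtain ⟨Cd, hCd, hd⟩ := disp0
  obtain ⟨κ0, Ce, hκ0, hCe, he⟩ := disp1 (κ / 2) (by positivity)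
  refine ⟨9 * (M + C0) + A1 + 3, 15 * (M + C0) + M, M + C0, (Cd + Ce) * 10 ^ 6, by positivity, ?_⟩
  filter_upwards [eventually_ge_atTop 200, eventually_ge_atTop (644 / κ0),
    ig_ev1 (ε := 1 / 30) (by norm_num) (M + C0), ig_ev1 (ε := κ0 / 4) (by positivity) ((M + C0) * 3),
    ig_ev1 (ε := κ / 5) (by positivity) (9 * (M + C0) + A1 + 3),
    ig_ev2 (4 * 2304 ^ 2) (2 * κ) (2 * (C0 + (15 * (M + C0) + M)))] with y hy hy2 v1 v2 v3 v4
  intro B t γ hB1 hB2 hγ hf1 hf2 ht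
  obtain ⟨n1, n2, n3, n4⟩ := ig_numA hy hB1 hB2
  have hy1 : 1 ≤ y := by linarith
  have hy0 : 0 < y := by linarith
  have hB : 0 < B := by linarith
  have hB' : 0 < B / 2 := by linarith
  have hS : In (sfI (B / 2) (4 * B)) (B / 2) := in_sfI (by linarith)
  have hl := mul_le_mul_of_nonneg_left (ig_l1 hB.le (one_le_pow₀ hy1) hγ) (show (0 : ℝ) ≤ 256 by norm_num)
  have hp : ∀ i j : ℕ, i ≤ j → y ^ i ≤ y ^ j := fun i j h => pow_le_pow_right₀ hy1 h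
  have hR : y ^ 2 + |t| ≤ y ^ (9 * (M + C0) + A1 + 3) := by
    calc _ ≤ 2 * y ^ (A1 + 2) := by linarith [hp 2 (A1 + 2) (by omega), hp (A1 + 1) (A1 + 2) (by omega)]
      _ ≤ y * y ^ (A1 + 2) := by gcongr; linarith
      _ ≤ _ := by rw [← pow_succ']; exact hp _ _ (by omega)
  have hH : 1 ≤ (y ^ (M + C0)) ^ 3 := one_le_pow₀ (one_le_pow₀ hy1)
  have hH2 : ((y ^ (M + C0)) ^ 3) ^ (-(1 / 3 : ℝ)) = (y ^ (M + C0))⁻¹ := by
    rw [Real.rpow_neg (by positivity), d1_cube (by positivity)]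
  have hH3 : 9 * ((y ^ (M + C0)) ^ 3) ^ 3 ≤ y ^ (9 * (M + C0) + A1 + 3) := by
    calc _ ≤ y * ((y ^ (M + C0)) ^ 3) ^ 3 := by gcongr; linarith
      _ ≤ _ := by rw [← pow_mul, ← pow_mul, ← pow_succ']; exact hp _ _ (by omega)
  have hE1 : 1 ≤ Real.exp (2 * κ * y) := Real.one_le_exp (by positivity)
  have hz : ∀ x : ℝ, 0 < x → x ^ 2 ≤ (y ^ (15 * (M + C0) + M)) ^ 2 * Real.exp (2 * κ * y) →
      4 * (256 * (9 * B * y ^ C0)) ^ 2 * Real.exp (-(y ^ 2 / 8)) ≤ (B / x) ^ 2 := fun x h0 hx => by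
    rw [div_pow, le_div_iff₀ (by positivity)]
    calc _ ≤ 4 * (256 * (9 * B * y ^ C0)) ^ 2 * Real.exp (-(y ^ 2 / 8)) *
          ((y ^ (15 * (M + C0) + M)) ^ 2 * Real.exp (2 * κ * y)) := by gcongr
      _ = 4 * 2304 ^ 2 * y ^ (2 * (C0 + (15 * (M + C0) + M))) * Real.exp (2 * κ * y) *
          Real.exp (-(y ^ 2 / 8)) * B ^ 2 := by ring
      _ ≤ 1 * B ^ 2 := by gcongr
      _ = _ := one_mul _
  have hN1 : ((y ^ (M + C0)) ^ 3) ^ 4 * N1 (sfI (B / 2) (4 * B)) (fun b => γ b * pw (B / 2) b (t * Complex.I))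
      (B / 2) (9 * ((y ^ (M + C0)) ^ 3) ^ 3) 1 ≤ 472392 * (B ^ 2 / y ^ M) := by
    refine (mul_le_mul_of_nonneg_left (ig_N1 (w := 3 * (B / y ^ (15 * (M + C0) + M)) ^ 2) (by positivity)
      (by positivity) fun g hg k hk σ hσ => ?_) (by positivity)).trans ?_
    · simp only [ig_shift1 hS hB']
      exact ig_avg hσ hR (hf1 g k · (mem_sfb.1 hg).1 ((mem_sfb.1 hg).2.trans hH3) (mem_ball.1 hk).1
        ((mem_ball.1 hk).2.trans hH3)) (fun s hs => (ig_triv1 hS γ (mem_sfb.1 hg).1.1 k hs).trans hl)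
        (hz _ (by positivity) (le_mul_of_one_le_right (by positivity) hE1))
    · calc _ = 472392 * (B ^ 2 / y ^ (M + M)) := by field_simp; ring
        _ ≤ _ := by gcongr; omega
  have hnt := (ig_nt hS hB' γ t).trans_le hγ
  have hnt0 := bf_nt_nonneg (sfI (B / 2) (4 * B)) fun b => γ b * pw (B / 2) b (t * Complex.I)
  have hN0 := d1_N1_nonneg (sfI (B / 2) (4 * B)) (fun b => γ b * pw (B / 2) b (t * Complex.I))
      (B / 2) (9 * ((y ^ (M + C0)) ^ 3) ^ 3) one_pos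
  rcases le_or_gt B (Real.exp (2 / 5 * y)) with hc | hc
  · refine (hd _ _ _ _ 1 _ (by linarith) hS le_rfl (by rwa [one_pow]) hH).trans ?_
    have a1 := ig_numB hy hB hc v1
    have a2 : Real.sqrt (Real.exp (y - 1) / B) ≤ Real.exp (y - 1) / B :=
      Real.sqrt_le_iff.2 ⟨by positivity, le_self_pow₀ n2 two_ne_zero⟩
    have a3 : (Real.exp (y - 1) / B) ^ (2 / 3 : ℝ) * (B / 2) ^ (-(1 / 3 : ℝ)) ≤ Real.exp (2 / 3 * y) / (B / 2) := by
      rw [le_div_iff₀ hB', mul_assoc, ← Real.rpow_add_one hB'.ne', show -(1 / 3 : ℝ) + 1 = 2 / 3 by norm_num,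
        ← Real.mul_rpow (by positivity) hB'.le]
      exact n4
    rw [hH2, div_one, one_pow, one_mul, mul_assoc _ (_ ^ 4)]
    calc _ ≤ Cd * ((Real.exp (2 / 3 * y) / y ^ (M + C0) + Real.exp (2 / 3 * y) / y ^ (M + C0) +
          Real.exp (2 / 3 * y) / y ^ (M + C0) + Real.exp (2 / 3 * y) * (y ^ (M + C0))⁻¹) * (B * y ^ C0) +
          Real.exp (2 / 3 * y) / (B / 2) * (472392 * (B ^ 2 / y ^ M))) := by
          gcongr
          exact a2.trans n3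
      _ = Cd * 944788 * (Real.exp (2 / 3 * y) * B / y ^ M) := by field_simp; ring
      _ ≤ _ := mul_le_mul_of_nonneg_right (by linarith) (by positivity)
  · obtain ⟨a1, a2, a3⟩ := ig_numC hy hκ0 hy2 hc hB2
    obtain ⟨β, b1, b2, b3, b4, b5⟩ := ig_numD hy hκ hc hB2
    have a4 : (y ^ (M + C0)) ^ 3 ≤ (B / 2) ^ κ0 := by rw [← pow_mul]; exact v2.trans a1
    refine (he _ _ _ _ _ (by linarith) hS a2 a3 hH a4).trans ?_
    have b6 := v3.trans b1
    have b7 : 1 ≤ β := (one_le_pow₀ hy1).trans b6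
    have b8 : β ≤ β ^ 2 := le_self_pow₀ b7 two_ne_zero
    have b9 : y ^ M ≤ β := (hp _ _ (by omega)).trans b6
    have hQ : 0 ≤ (B / 2) ^ (κ / 2) := by positivity
    have hN2 := ig_N2 (S := sfI (B / 2) (4 * B)) (γ := fun b => γ b * pw (B / 2) b (t * Complex.I)) (B := B / 2)
      (w := 3 * (B / β ^ 2) ^ 2) hQ (by positivity) fun q hq a σ hσ => by
        simp only [ig_shift2 hS hB']
        rw [b4, b5] at hf2
        exact ig_avg hσ (hR.trans (b6.trans b8))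
          (hf2 hc q a · (mem_ball.1 hq).1 ((mem_ball.1 hq).2.trans (b3.trans b8)))
          (fun s hs => (ig_triv2 hS γ q a hs).trans hl) (hz _ (by positivity) (by
            rw [← pow_mul]
            exact b2.trans (le_mul_of_one_le_left (by positivity) (one_le_pow₀ (one_le_pow₀ hy1)))))
    have a5 : (B / 2) ^ (-κ0) ≤ (y ^ (M + C0))⁻¹ := by
      rw [Real.rpow_neg hB'.le]
      exact inv_anti₀ (by positivity) ((le_self_pow₀ (one_le_pow₀ hy1) three_ne_zero).trans a4)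
    have a6 : (B / 2) ^ (κ / 2) * N2 (sfI (B / 2) (4 * B)) (fun b => γ b * pw (B / 2) b (t * Complex.I))
        (B / 2) ((B / 2) ^ (κ / 2)) ≤ 324 * (B ^ 2 / y ^ M) := by
      calc _ ≤ β * (18 * β * (β * (6 * (3 * (B / β ^ 2) ^ 2)))) :=
            (mul_le_mul_of_nonneg_left hN2 hQ).trans (by gcongr)
        _ = 324 * (B ^ 2 / β) := by field_simp; ring
        _ ≤ _ := by gcongr
    have hN20 : 0 ≤ N2 (sfI (B / 2) (4 * B)) (fun b => γ b * pw (B / 2) b (t * Complex.I))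
        (B / 2) ((B / 2) ^ (κ / 2)) :=
      Finset.sum_nonneg fun _ _ => Finset.sum_nonneg fun _ _ => Finset.sum_nonneg fun _ _ =>
        integral_nonneg fun τ => mul_nonneg (by unfold mT; positivity) (sq_nonneg _)
    rw [hH2]
    calc _ ≤ Ce * Real.exp (2 / 3 * y) * (((y ^ (M + C0))⁻¹ + (y ^ (M + C0))⁻¹) * (B * y ^ C0) +
          472392 * (B ^ 2 / y ^ M) / (B / 2) + 324 * (B ^ 2 / y ^ M) / (B / 2)) :=
          ig_fin hCe (by positivity) hB' (by positivity) hnt0 (mul_nonneg (by positivity) hN0)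
            (mul_nonneg hQ hN20) n4 (add_le_add le_rfl a5) hnt hN1 a6
      _ = Ce * 945434 * (Real.exp (2 / 3 * y) * B / y ^ M) := by field_simp; ring
      _ ≤ _ := mul_le_mul_of_nonneg_right (by linarith) (by positivity)

/-- `SA_half`, `bg_fourier` (`D = e^{y-1}/B`), `integral_gh_le` with `R = T y` and `disp_triv`.
For `|t| ≤ T y`: `fam1 S (γ pw(it)) .. s = fam1 S γ .. (s + it)`, same for `fam2`; `integral_mT_le` with
`R = y²`; `H = y^c`.  `B ≤ e^{2y/5}`: `disp0` with `T = 1` (`D ≤ (DB)^{2/3} y^{-c}` because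
`B ≥ e^{y/3} y^{A₂}`, `B³/D ≤ e^{3y/5+1}`).  `B > e^{2y/5}`: `disp1 (κ/2)`. -/
theorem BG_gen (A A1 C0 : ℕ) {κ : ℝ} (hκ : 0 < κ) : ∃ (C1 A' A2 : ℕ) (y0 : ℝ), ∀ y : ℝ, y0 ≤ y →
    ∀ (B v T : ℝ) (α γ : O → ℂ), Real.exp (y / 3) * y ^ A2 ≤ B → B ≤ Real.exp (y / 2 + 80) → 1 ≤ T →
    T ≤ y ^ A1 → (∀ a, ‖α a‖ ≤ 1) → nt (sfI (B / 2) (4 * B)) γ ≤ B * y ^ C0 →
    (∀ (h k : O) (s : ℂ), SF h → N h ≤ y ^ C1 → k ≠ 0 → N k ≤ y ^ C1 → |s.re| ≤ 3 →
      |s.im| ≤ y ^ C1 → ‖fam1 (sfI (B / 2) (4 * B)) γ (B / 2) h k s‖ ≤ B / y ^ A') →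
    (Real.exp (2 / 5 * y) < B → ∀ (q a : O) (s : ℂ), q ≠ 0 → N q ≤ B ^ κ → |s.re| ≤ 3 →
      |s.im| ≤ B ^ κ → ‖fam2 (sfI (B / 2) (4 * B)) γ (B / 2) q a s‖ ≤ B ^ (1 - κ)) →
    ‖BG (SA y B) (sfI (B / 2) (4 * B)) α γ v T‖ ≤ Real.exp (5 / 6 * y) / y ^ A := by
  obtain ⟨C1, A', A2, C, hC, h⟩ := ig_disp (2 * A + 1) A1 C0 hκ
  obtain ⟨Cf, hCf, hf⟩ := bg_fourier
  obtain ⟨Ct, hCt, ht⟩ := disp_triv
  obtain ⟨y0, h0⟩ := eventually_atTop.1 (h.and ((ig_ev2 (2 * Ct) 1 (C0 + (2 * A + 1))).and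
    ((eventually_ge_atTop 200).and (eventually_ge_atTop (Cf * 18 * Real.exp 1 * (C + 1))))))
  refine ⟨C1, A', A2, y0, fun y hy B v T α γ hB1 hB2 hT hT2 hα hγ hf1 hf2 => ?_⟩
  obtain ⟨h1, h2, h3, h4⟩ := h0 y hy
  obtain ⟨n1, n2', -, -⟩ := ig_numA h3 hB1 hB2
  have hy0 : 0 < y := by linarith
  have hB : 0 < B := by linarith
  have hB' : 0 < B / 2 := by linarith
  have hT0 : 0 < T := by linarith
  have hS : In (sfI (B / 2) (4 * B)) (B / 2) := in_sfI (by linarith)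
  have h5 := hf _ α γ (y - Real.log 2) (B / 2) v T (by linarith) hS hT
  rw [SA_half, sub_right_comm, Real.exp_sub (y - 1), Real.exp_log two_pos,
    div_div_div_cancel_right₀ two_ne_zero] at h5
  have h6 : n2 (SA y B) α ≤ 18 * (Real.exp (y + 1) / B) := by
    refine (Finset.sum_le_card_nsmul _ _ 1 fun a _ => pow_le_one₀ (norm_nonneg _) (hα a)).trans ?_
    rw [nsmul_eq_mul, mul_one]
    exact (Nat.cast_le.2 (Finset.card_filter_le _ _)).trans (card_ball_le (by positivity))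
  have h7 := integral_gh_le (R := T * y) (b := Ct * Real.exp y * (B * y ^ C0)) hT0 (by positivity) (by positivity)
    (fun t => disp_nonneg _ _ _ _) (fun t ht => h1 B t γ hB1 hB2 hγ hf1 hf2
      (ht.trans (by rw [pow_succ]; gcongr))) fun t => by
      refine (ht _ _ _ _ 1 (by linarith) hS le_rfl (by positivity)).trans ?_
      rw [mul_assoc Ct, show Real.exp (y - 1) / B * (B / 2) = Real.exp (y - 1) / 2 by field_simp]
      refine mul_le_mul (mul_le_mul_of_nonneg_left ?_ hCt) ((n2_le_nt (fun b hb => (hS b hb).1.1.ne_zero) _).trans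
        ((ig_nt hS hB' γ t).trans_le hγ)) (bf_n2_nonneg _ _) (by positivity)
      linarith [Real.exp_le_exp.2 (show y - 1 ≤ y by linarith), Real.exp_pos (y - 1)]
  have h8 : 2 * (Ct * Real.exp y * (B * y ^ C0)) * Real.exp (-((T * y) ^ 2 / (8 * T ^ 2))) ≤
      Real.exp (2 / 3 * y) * B / y ^ (2 * A + 1) := by
    rw [show (T * y) ^ 2 / (8 * T ^ 2) = y ^ 2 / 8 by field_simp, le_div_iff₀ (by positivity)]
    rw [one_mul] at h2
    calc _ = 2 * Ct * y ^ (C0 + (2 * A + 1)) * Real.exp y * Real.exp (-(y ^ 2 / 8)) * B := by ring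
      _ ≤ _ := mul_le_mul_of_nonneg_right (h2.trans (Real.one_le_exp (by positivity))) hB.le
  refine le_of_sq_le_sq (h5.trans ?_) (by positivity)
  have e : Real.exp (y + 1) * Real.exp (2 / 3 * y) = Real.exp 1 * Real.exp (5 / 6 * y) ^ 2 := by
    rw [sq, ← Real.exp_add, ← Real.exp_add, ← Real.exp_add]
    congr 1
    ring
  calc _ ≤ Cf * (18 * (Real.exp (y + 1) / B)) * (C * (Real.exp (2 / 3 * y) * B / y ^ (2 * A + 1)) +
        Real.exp (2 / 3 * y) * B / y ^ (2 * A + 1)) :=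
        mul_le_mul (mul_le_mul_of_nonneg_left h6 hCf) (h7.trans (add_le_add le_rfl h8))
          (integral_nonneg fun t => mul_nonneg (gh_nonneg T t hT0) (disp_nonneg _ _ _ _)) (by positivity)
    _ = Cf * 18 * (C + 1) / y * (Real.exp (y + 1) * Real.exp (2 / 3 * y) / (y ^ A) ^ 2) := by
        field_simp
        ring
    _ = Cf * 18 * Real.exp 1 * (C + 1) / y * (Real.exp (5 / 6 * y) / y ^ A) ^ 2 := by
        rw [e]
        ring
    _ ≤ 1 * (Real.exp (5 / 6 * y) / y ^ A) ^ 2 := by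
        gcongr
        exact (div_le_one hy0).2 h4
    _ = _ := one_mul _

end Crest.Agent.R12
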