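import Crest.Agent.R12.Basic2
import Crest.Agent.R17.TLS
import Crest.Agent.R17.QLS_Defs

/-!
# R12 / LS0A : the kernel bound for `ls0_dual` and covering lemmas (helper file of `LS0`)
-/

set_option autoImplicit false

noncomputable section

open scoped Classical ComplexConjugate Topology
open MeasureTheory Filter

namespace Crest.Agent.R12

open Crest.Agent.R17

theorem ls0_prod_char (P : Finset O) (hP : ∀ p ∈ P, Prime p ∧ Prim p) (ψ : O → O → ℂ)
    (hψ : ∀ p ∈ P, IsChar p (ψ p)) :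
    IsChar (∏ p ∈ P, p) (fun d => ∏ p ∈ P, ψ p d) ∧
      ∀ k, ‖gs (∏ p ∈ P, p) (fun d => ∏ p ∈ P, ψ p d) k‖ ≤ ∏ p ∈ P, ‖gs p (ψ p) k‖ := by
  induction P using Finset.induction_on with
  | empty =>
    have h : IsChar 1 (fun _ => (1 : ℂ)) :=
      ⟨rfl, fun _ _ => (mul_one _).symm, fun _ _ => rfl, fun n => by simp [isCoprime_one_right]⟩
    simp only [Finset.prod_empty]
    exact ⟨h, fun k => by rw [(s3_unit isUnit_one h k).2, norm_one]⟩
  | insert p P hp ih =>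
    obtain ⟨h1, h2⟩ := ih (fun q hq => hP q (Finset.mem_insert_of_mem hq))
      (fun q hq => hψ q (Finset.mem_insert_of_mem hq))
    have hp' := hP p (Finset.mem_insert_self _ _)
    have hc := hψ p (Finset.mem_insert_self _ _)
    have h0 : ∏ q ∈ P, q ≠ 0 :=
      Finset.prod_ne_zero_iff.2 fun q hq => (hP q (Finset.mem_insert_of_mem hq)).1.ne_zero
    have hcop : IsCoprime p (∏ q ∈ P, q) := IsCoprime.prod_right fun q hq =>
      Prim.b3_isCoprime_of_ne hp'.1 hp'.2 (hP q (Finset.mem_insert_of_mem hq)).1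
        (hP q (Finset.mem_insert_of_mem hq)).2 (fun h => hp (h ▸ hq))
    simp only [Finset.prod_insert hp]
    refine ⟨hc.mul_moduli h1, fun k => ?_⟩
    rw [gs_mul hp'.1.ne_zero h0 hcop hc h1, norm_mul, norm_mul, norm_mul]
    have e1 := hc.norm_le hp'.1.ne_zero (∏ q ∈ P, q)
    have e2 := h1.norm_le h0 p
    have e3 := h2 k
    calc _ ≤ 1 * 1 * ‖gs p (ψ p) k‖ * ∏ q ∈ P, ‖gs q (ψ q) k‖ := by gcongr
      _ = _ := by ring

theorem ls0_prod_ite {M : Type*} [CommMonoid M] {n : O} (hn : n ≠ 0) {P : Finset O}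
    (hP : ∀ p ∈ P, Prime p ∧ Prim p) (h : pf n ⊆ P) (f : O → M) :
    ∏ p ∈ P, (if p ∣ n then f p else 1) = ∏ p ∈ pf n, f p := by
  rw [← Finset.prod_filter]
  congr 1
  ext p
  rw [Finset.mem_filter, mem_pf hn]
  exact ⟨fun h1 => ⟨(hP p h1.1).1, (hP p h1.1).2, h1.2⟩,
    fun h1 => ⟨h ((mem_pf hn).2 h1), h1.2.2⟩⟩

theorem ls0_cub_prod {n : O} (hn : SF n) {P : Finset O}
    (hP : ∀ p ∈ P, Prime p ∧ Prim p) (h : pf n ⊆ P) (d : O) :
    cub n d = ∏ p ∈ P, cub p d ^ (if p ∣ n then 1 else 0) := by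
  have e : ∀ p ∈ P, cub p d ^ (if p ∣ n then 1 else 0) = if p ∣ n then cub p d else 1 := by
    intro p _
    split_ifs <;> simp
  rw [Finset.prod_congr rfl e, ls0_prod_ite hn.1.ne_zero hP h]
  conv_lhs => rw [← hn.prod_pf]
  exact sym_prod_left 3 (fun p hp => ((mem_pf hn.1.ne_zero).1 hp).1.ne_zero) d

theorem ls0_sqrt_prod {n : O} (hn : SF n) {P : Finset O}
    (hP : ∀ p ∈ P, Prime p ∧ Prim p) (h : pf n ⊆ P) :
    ∏ p ∈ P, (if p ∣ n then Real.sqrt (N p) else 1) = Real.sqrt (N n) := by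
  rw [ls0_prod_ite hn.1.ne_zero hP h]
  conv_rhs => rw [← hn.prod_pf, N_prod]
  rw [Real.sqrt_prod _ fun p _ => N_nonneg p]

theorem ls0_om_pow {j : ℕ} (hj : ¬ 3 ∣ j) : om ^ j ≠ 1 := by
  have h : om ^ j = om ^ (j % 3) := by
    conv_lhs => rw [← Nat.div_add_mod j 3, pow_add, pow_mul, om_cube, one_pow, one_mul]
  rw [h]
  have h1 : j % 3 = 1 ∨ j % 3 = 2 := by omega
  rcases h1 with h1 | h1 <;> rw [h1] <;> decide

theorem ls0_gs_cub_pow {p : O} (hp : Prime p) (hp' : Prim p) {j : ℕ} (hj : ¬ 3 ∣ j) :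
    gs p (fun x => cub p x ^ j) 0 = 0 ∧ ∀ k, ‖gs p (fun x => cub p x ^ j) k‖ ≤ Real.sqrt (N p) := by
  have hj0 : j ≠ 0 := by
    rintro rfl
    exact hj (dvd_zero _)
  have hc := (rcub_isChar hp').pow_char hj0
  have h3 : IsCoprime p ((3 : ℕ) : O) := by exact_mod_cast hp'.isCoprime_three
  have h := s3_sym (k := 3) (j := j) (Or.inr (Or.inl rfl)) om_cube (ls0_om_pow hj) h3 hp.squarefree
  have h' : ∀ k, gs p (fun x => cub p x ^ j) k =
      conj (cub p k ^ j) * gs p (fun x => cub p x ^ j) 1 := h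
  constructor
  · have h0 : cub p 0 ^ j = 0 := (hc.zero_iff 0).2 fun h => hp.not_isUnit (isCoprime_zero_left.1 h)
    rw [h', h0, map_zero, zero_mul]
  · intro k
    rw [h', norm_mul, s3_norm hp.ne_zero hc h', Complex.norm_conj]
    exact mul_le_of_le_one_left (Real.sqrt_nonneg _) (hc.norm_le hp.ne_zero k)

theorem ls0_eq_of_pf {a b : O} (ha : SF a) (hb : SF b)
    (h : ∀ p, Prime p → Prim p → (p ∣ a ↔ p ∣ b)) : a = b := by
  rw [← ha.prod_pf, ← hb.prod_pf]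
  congr 1
  ext p
  rw [mem_pf ha.1.ne_zero, mem_pf hb.1.ne_zero]
  exact ⟨fun h1 => ⟨h1.1, h1.2.1, (h p h1.1 h1.2.1).1 h1.2.2⟩,
    fun h1 => ⟨h1.1, h1.2.1, (h p h1.1 h1.2.1).2 h1.2.2⟩⟩

theorem ls0_e1 {A B A' B' : Prop} (h : (A ∨ B) ∨ (A' ∨ B')) :
    (if A then 1 else 0) + (if B then 1 else 0) * 2 + (if A' then 1 else 0) * 2 +
      (if B' then 1 else 0) ≠ 0 := by
  split_ifs <;> simp_all

theorem ls0_e2 {A B A' B' : Prop} (h : ¬ (A ∧ B)) (h' : ¬ (A' ∧ B'))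
    (h3 : 3 ∣ (if A then 1 else 0) + (if B then 1 else 0) * 2 + (if A' then 1 else 0) * 2 +
      (if B' then 1 else 0)) : (A ↔ A') ∧ (B ↔ B') := by
  split_ifs at h3 <;> simp_all

theorem ls0_kernel : ∃ C : ℝ, 0 ≤ C ∧ ∀ a b a' b' : O, SF a → SF b → IsCoprime a b → SF a' → SF b' →
    IsCoprime a' b' → (a, b) ≠ (a', b') → ∀ D : ℝ, 0 < D →
    ‖∑' d : O, (Om (N d / D) : ℂ) *
      (cub a d * conj (cub b d) * conj (cub a' d * conj (cub b' d)))‖ ≤
      C * (Real.sqrt (N a * N b) * Real.sqrt (N a' * N b')) := by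
  obtain ⟨C, hC0, hC⟩ := TL.poisson_bound
  refine ⟨C, hC0, fun a b a' b' ha hb hab ha' hb' hab' hne D hD => ?_⟩
  have hs := b1_sf_mul ha hb hab
  have hs' := b1_sf_mul ha' hb' hab'
  have h0 : a * b * (a' * b') ≠ 0 := mul_ne_zero hs.1.ne_zero hs'.1.ne_zero
  set P := pf (a * b * (a' * b')) with hPdef
  have hP : ∀ p ∈ P, Prime p ∧ Prim p := fun p hp =>
    ⟨((mem_pf h0).1 hp).1, ((mem_pf h0).1 hp).2.1⟩
  have hsub : ∀ n : O, n ∣ a * b * (a' * b') → pf n ⊆ P := fun n hn p hp => by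
    have h1 := (mem_pf (ne_zero_of_dvd_ne_zero h0 hn)).1 hp
    exact (mem_pf h0).2 ⟨h1.1, h1.2.1, h1.2.2.trans hn⟩
  set e : O → ℕ := fun p => (if p ∣ a then 1 else 0) + (if p ∣ b then 1 else 0) * 2 +
    (if p ∣ a' then 1 else 0) * 2 + (if p ∣ b' then 1 else 0) with he
  have hnb : ∀ p, Prime p → ¬ (p ∣ a ∧ p ∣ b) := fun p hp h =>
    hp.not_isUnit (hab.isUnit_of_dvd' h.1 h.2)
  have hnb' : ∀ p, Prime p → ¬ (p ∣ a' ∧ p ∣ b') := fun p hp h =>
    hp.not_isUnit (hab'.isUnit_of_dvd' h.1 h.2)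
  have hor : ∀ p ∈ P, (p ∣ a ∨ p ∣ b) ∨ (p ∣ a' ∨ p ∣ b') := fun p hp => by
    have h1 := (mem_pf h0).1 hp
    exact (h1.1.dvd_or_dvd h1.2.2).imp h1.1.dvd_or_dvd h1.1.dvd_or_dvd
  have he0 : ∀ p ∈ P, e p ≠ 0 := fun p hp => ls0_e1 (hor p hp)
  have hchar : ∀ p ∈ P, IsChar p (fun d => cub p d ^ e p) := fun p hp =>
    (rcub_isChar (hP p hp).2).pow_char (he0 p hp)
  obtain ⟨hψ, hgs⟩ := ls0_prod_char P hP (fun p d => cub p d ^ e p) hchar
  have hq : ∏ p ∈ P, p ≠ 0 := Finset.prod_ne_zero_iff.2 fun p hp => (hP p hp).1.ne_zero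
  have hker : ∀ d, (Om (N d / D) : ℂ) *
      (cub a d * conj (cub b d) * conj (cub a' d * conj (cub b' d))) =
      (∏ p ∈ P, cub p d ^ e p) * (Om (N d / D) : ℂ) := by
    intro d
    rw [map_mul, Complex.conj_conj, conj_cub hb.1.isCoprime_three, conj_cub ha'.1.isCoprime_three,
      ls0_cub_prod ha hP (hsub a ⟨b * (a' * b'), by ring⟩),
      ls0_cub_prod hb hP (hsub b ⟨a * (a' * b'), by ring⟩),
      ls0_cub_prod ha' hP (hsub a' ⟨a * b * b', by ring⟩),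
      ls0_cub_prod hb' hP (hsub b' ⟨a * b * a', by ring⟩), ← Finset.prod_pow, ← Finset.prod_pow,
      ← Finset.prod_mul_distrib, ← Finset.prod_mul_distrib, ← Finset.prod_mul_distrib, mul_comm]
    congr 1
    refine Finset.prod_congr rfl fun p _ => ?_
    simp only [he, pow_add, pow_mul]
    ring
  simp_rw [hker]
  refine hC _ _ _ D hq hψ.per ?_ (fun k => (hgs k).trans ?_) hD
  · have hex : ∃ p ∈ P, ¬ 3 ∣ e p := by
      by_contra hcon
      push Not at hcon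
      have key : ∀ p, Prime p → Prim p → (p ∣ a ↔ p ∣ a') ∧ (p ∣ b ↔ p ∣ b') := by
        intro p hp hp'
        by_cases hpP : p ∈ P
        · exact ls0_e2 (hnb p hp) (hnb' p hp) (hcon p hpP)
        · have h1 : ∀ n : O, n ∣ a * b * (a' * b') → ¬ p ∣ n := fun n hn h =>
            hpP ((mem_pf h0).2 ⟨hp, hp', h.trans hn⟩)
          have h2 := h1 a ⟨b * (a' * b'), by ring⟩
          have h3 := h1 b ⟨a * (a' * b'), by ring⟩
          have h4 := h1 a' ⟨a * b * b', by ring⟩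
          have h5 := h1 b' ⟨a * b * a', by ring⟩
          exact ⟨iff_of_false h2 h4, iff_of_false h3 h5⟩
      exact hne (Prod.ext (ls0_eq_of_pf ha ha' fun p hp hp' => (key p hp hp').1)
        (ls0_eq_of_pf hb hb' fun p hp hp' => (key p hp hp').2))
    obtain ⟨p, hp, hpe⟩ := hex
    have h1 := hgs 0
    have h2 : ∏ p ∈ P, ‖gs p (fun d => cub p d ^ e p) 0‖ = 0 := Finset.prod_eq_zero hp (by
      rw [(ls0_gs_cub_pow (hP p hp).1 (hP p hp).2 hpe).1, norm_zero])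
    exact norm_le_zero_iff.1 (h1.trans h2.le)
  · rw [← N_mul, ← N_mul, ← ls0_sqrt_prod hs hP (hsub _ (dvd_mul_right _ _)),
      ← ls0_sqrt_prod hs' hP (hsub _ (dvd_mul_left _ _)), ← Finset.prod_mul_distrib]
    refine Finset.prod_le_prod (fun _ _ => norm_nonneg _) fun p hp => ?_
    have hp1 := (hP p hp).1
    have hN : 1 ≤ Real.sqrt (N p) := Real.one_le_sqrt.2 (one_le_N hp1.ne_zero)
    by_cases h3 : 3 ∣ e p
    · have h4 : p ∣ a * b ∧ p ∣ a' * b' := by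
        have h1 := hor p hp
        have h2 := ls0_e2 (hnb p hp1) (hnb' p hp1) h3
        rw [hp1.dvd_mul, hp1.dvd_mul, ← h2.1, ← h2.2, and_self]
        rwa [← h2.1, ← h2.2, or_self] at h1
      rw [if_pos h4.1, if_pos h4.2, Real.mul_self_sqrt (N_nonneg p)]
      exact norm_gs_le hp1.ne_zero ((hchar p hp).norm_le hp1.ne_zero) k
    · refine ((ls0_gs_cub_pow hp1 (hP p hp).2 h3).2 k).trans ?_
      have h1 := hor p hp
      rw [← hp1.dvd_mul, ← hp1.dvd_mul] at h1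
      split_ifs with h4 h5 h5
      · exact le_mul_of_one_le_right (Real.sqrt_nonneg _) hN
      · rw [mul_one]
      · rw [one_mul]
      · exact absurd h1 (not_or.2 ⟨h4, h5⟩)

/-- from a kernel bound to the dual large sieve inequality -/
theorem ls0_abs {κ : Type*} (K : Finset κ) (w : O → ℝ) (hw0 : ∀ d, 0 ≤ w d) (hw : Summable w)
    (χ : κ → O → ℂ) (hχ : ∀ k ∈ K, ∀ d, ‖χ k d‖ ≤ 1) {A B : ℝ} (hA : ∑' d, w d ≤ A) (hB : 0 ≤ B)
    (hker : ∀ k ∈ K, ∀ k' ∈ K, k ≠ k' → ‖∑' d, (w d : ℂ) * (χ k d * conj (χ k' d))‖ ≤ B)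
    (u : κ → ℂ) :
    Summable (fun d => w d * ‖∑ k ∈ K, u k * χ k d‖ ^ 2) ∧
    ∑' d, w d * ‖∑ k ∈ K, u k * χ k d‖ ^ 2 ≤ (A + B * K.card) * ∑ k ∈ K, ‖u k‖ ^ 2 := by
  have hnw : ∀ d, ‖(w d : ℂ)‖ = w d := fun d => by
    rw [Complex.norm_real, Real.norm_of_nonneg (hw0 d)]
  have hb : ∀ k ∈ K, ∀ k' ∈ K, ∀ d, ‖(w d : ℂ) * (χ k d * conj (χ k' d))‖ ≤ w d := by
    intro k hk k' hk' d
    rw [norm_mul, norm_mul, hnw, Complex.norm_conj]
    exact mul_le_of_le_one_right (hw0 d) (mul_le_one₀ (hχ k hk d) (norm_nonneg _) (hχ k' hk' d))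
  have hs : ∀ k ∈ K, ∀ k' ∈ K, Summable (fun d => (w d : ℂ) * (χ k d * conj (χ k' d))) :=
    fun k hk k' hk' => Summable.of_norm_bounded hw (hb k hk k' hk')
  constructor
  · refine Summable.of_nonneg_of_le (fun d => mul_nonneg (hw0 d) (by positivity)) (fun d => ?_)
      (hw.mul_right ((∑ k ∈ K, ‖u k‖) ^ 2))
    refine mul_le_mul_of_nonneg_left (pow_le_pow_left₀ (norm_nonneg _) ?_ 2) (hw0 d)
    refine (norm_sum_le _ _).trans (Finset.sum_le_sum fun k hk => ?_)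
    rw [norm_mul]
    exact mul_le_of_le_one_right (norm_nonneg _) (hχ k hk d)
  set X := ∑' d, w d * ‖∑ k ∈ K, u k * χ k d‖ ^ 2 with hX
  have e1 : (X : ℂ) = ∑ k ∈ K, ∑ k' ∈ K, (u k * conj (u k')) *
      ∑' d, (w d : ℂ) * (χ k d * conj (χ k' d)) := by
    have e2 : ∀ d, ((w d * ‖∑ k ∈ K, u k * χ k d‖ ^ 2 : ℝ) : ℂ) =
        ∑ k ∈ K, ∑ k' ∈ K, (u k * conj (u k')) * ((w d : ℂ) * (χ k d * conj (χ k' d))) := by
      intro d
      push_cast
      rw [← Complex.mul_conj', map_sum, Finset.sum_mul_sum, Finset.mul_sum]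
      refine Finset.sum_congr rfl fun k _ => ?_
      rw [Finset.mul_sum]
      refine Finset.sum_congr rfl fun k' _ => ?_
      rw [map_mul]
      ring
    rw [hX, Complex.ofReal_tsum]
    simp_rw [e2]
    rw [Summable.tsum_finsetSum fun k hk => summable_sum fun k' hk' => (hs k hk k' hk').mul_left _]
    refine Finset.sum_congr rfl fun k hk => ?_
    rw [Summable.tsum_finsetSum fun k' hk' => (hs k hk k' hk').mul_left _]
    exact Finset.sum_congr rfl fun k' _ => tsum_mul_left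
  have hA0 : 0 ≤ A := le_trans (tsum_nonneg hw0) hA
  have e3 : ‖(X : ℂ)‖ ≤ ∑ k ∈ K, ∑ k' ∈ K,
      ((if k = k' then A * ‖u k‖ ^ 2 else 0) + B * (‖u k‖ * ‖u k'‖)) := by
    rw [e1]
    refine (norm_sum_le _ _).trans (Finset.sum_le_sum fun k hk => ?_)
    refine (norm_sum_le _ _).trans (Finset.sum_le_sum fun k' hk' => ?_)
    rw [norm_mul, norm_mul, Complex.norm_conj]
    by_cases h : k = k'
    · subst h
      rw [if_pos rfl]
      have h1 : ‖∑' d, (w d : ℂ) * (χ k d * conj (χ k d))‖ ≤ A :=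
        (tsum_of_norm_bounded hw.hasSum (hb k hk k hk)).trans hA
      have h2 : 0 ≤ B * (‖u k‖ * ‖u k‖) := by positivity
      have h3 := mul_le_mul_of_nonneg_left h1 (show 0 ≤ ‖u k‖ * ‖u k‖ by positivity)
      nlinarith
    · rw [if_neg h, zero_add, mul_comm]
      exact mul_le_mul_of_nonneg_right (hker k hk k' hk' h) (by positivity)
  simp only [Finset.sum_add_distrib, ← Finset.mul_sum, ← Finset.sum_mul] at e3
  rw [Complex.norm_real, Real.norm_eq_abs] at e3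
  have e4 : ∑ k ∈ K, ∑ k' ∈ K, (if k = k' then A * ‖u k‖ ^ 2 else 0) = A * ∑ k ∈ K, ‖u k‖ ^ 2 := by
    rw [Finset.mul_sum]
    refine Finset.sum_congr rfl fun k hk => ?_
    rw [Finset.sum_ite_eq, if_pos hk]
  have e5 := sq_sum_le_card_mul_sum_sq (s := K) (f := fun k => ‖u k‖)
  have e6 := mul_le_mul_of_nonneg_left e5 hB
  rw [e4] at e3
  have := le_abs_self X
  nlinarith

/-- covering -/
theorem ls0_cover {ι : Type*} (A : Finset O) (T : Finset ι) (g : ι → O) (F : O → ℝ)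
    (hF : ∀ k, 0 ≤ F k) (h : ∀ k ∈ A, ∃ t ∈ T, g t = k) : ∑ k ∈ A, F k ≤ ∑ t ∈ T, F (g t) :=
  le_trans (Finset.sum_le_sum_of_subset_of_nonneg (fun k hk => Finset.mem_image.2 (h k hk))
    fun k _ _ => hF k) (Finset.sum_image_le_of_nonneg fun k _ => hF k)

theorem ls0_card_dvd {Z : ℝ} (hZ : 0 ≤ Z) {d : O} (hd : d ≠ 0) :
    (((ball Z).filter fun m => d ∣ m).card : ℝ) ≤ 18 * (Z / N d) := by
  have hN := N_pos hd
  refine le_trans ?_ (card_ball_le (div_nonneg hZ hN.le))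
  have h := ls0_cover ((ball Z).filter fun m => d ∣ m) (ball (Z / N d)) (fun t => d * t)
    (fun _ => 1) (fun _ => zero_le_one) (by
      intro k hk
      obtain ⟨hk1, t, rfl⟩ := Finset.mem_filter.1 hk
      rw [mem_ball] at hk1
      refine ⟨t, mem_ball.2 ⟨right_ne_zero_of_mul hk1.1, ?_⟩, rfl⟩
      rw [le_div_iff₀ hN, mul_comm, ← N_mul]
      exact hk1.2)
  simpa using h

theorem ls0_cube_mem {Y : ℝ} {k0 m : O} (h : k0 * m ^ 3 ∈ ball Y) {J : ℝ} (hJ : 0 < J)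
    (hk : J ≤ N k0) : m ∈ ball ((Y / J) ^ (1 / 3 : ℝ)) := by
  rw [mem_ball] at h ⊢
  have hm : m ≠ 0 := fun hm => h.1 (by simp [hm])
  refine ⟨hm, ?_⟩
  have h1 : N m ^ 3 ≤ Y / J := by
    rw [le_div_iff₀ hJ]
    have h2 := h.2
    rw [N_mul, N_pow] at h2
    have h3 := pow_nonneg (N_nonneg m) 3
    nlinarith
  have h2 := Real.rpow_le_rpow (pow_nonneg (N_nonneg m) 3) h1 (show (0 : ℝ) ≤ 1 / 3 by norm_num)
  rwa [← Real.rpow_natCast, ← Real.rpow_mul (N_nonneg m), show ((3 : ℕ) : ℝ) * (1 / 3) = 1 by norm_num,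
    Real.rpow_one] at h2

theorem ls0_norm_cub {n : O} (hn : Prim n) (d : O) : ‖cub n d‖ ≤ 1 :=
  (rcub_isChar hn).norm_le hn.ne_zero d

theorem ls0_cs (S : Finset O) (z : O → ℂ) : ‖∑ n ∈ S, z n‖ ^ 2 ≤ S.card * ∑ n ∈ S, ‖z n‖ ^ 2 :=
  le_trans (pow_le_pow_left₀ (norm_nonneg _) (norm_sum_le _ _) 2) sq_sum_le_card_mul_sum_sq

theorem ls0_n2_nonneg (S : Finset O) (x : O → ℂ) : 0 ≤ n2 S x :=
  Finset.sum_nonneg fun _ _ => by positivity

theorem ls0_card_sfb {M : ℝ} (hM : 0 ≤ M) {S : Finset O} (hS : S ⊆ sfb M) : (S.card : ℝ) ≤ 18 * M :=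
  le_trans (by exact_mod_cast Finset.card_le_card (hS.trans (Finset.filter_subset _ _)))
    (card_ball_le hM)

end Crest.Agent.R12
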