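import Crest.Agent.R12.TI1
import Crest.Agent.R12.SM
import Crest.Agent.R17.LocalSup
import Crest.Agent.R17.Local_Rect

/-!
# R12 / SW1 : Hecke `L`-functions of cubic × angular characters near `Re s = 1`
-/

set_option autoImplicit false

noncomputable section

open scoped Classical ComplexConjugate Topology
open MeasureTheory Filter

namespace Crest.Agent.R12

open Crest.Agent.R17

/-- the character `n ↦ (k/n)₃ (n/|n|)^ℓ` on primary `n` -/
def xk (ℓ : ℤ) (k : O) (n : O) : ℂ := if Prim n then cub n k * ang n ^ ℓ else 0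
/-- non-principal -/
def NPl (ℓ : ℤ) (k : O) : Prop := ℓ ≠ 0 ∨ NP k
/-- the logarithm of the analytic conductor -/
def LL (k : O) (t : ℝ) : ℝ := Real.log (N k * (|t| + 3))

/-- `cub n (k²) = conj (cub n k)` -/
theorem NPl.sq {ℓ : ℤ} {k : O} (h : NPl ℓ k) : NPl (2 * ℓ) (k ^ 2) := by
  rcases h with h | ⟨n, h1, h2, h3⟩
  · exact Or.inl (mul_ne_zero two_ne_zero h)
  · refine Or.inr ⟨n, h1, h2.pow_right, fun h => h3 ?_⟩
    rw [cub_sq h1] at h
    simpa using congrArg conj h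
theorem xk_sq (ℓ : ℤ) (k n : O) : xk ℓ k n ^ 2 = xk (2 * ℓ) (k ^ 2) n := by
  unfold xk
  split_ifs with h
  · rw [pow_two k, (rcub_isChar h).mul, mul_comm 2 ℓ, zpow_mul, zpow_ofNat]
    ring
  · simp
theorem sw1_xk (ℓ : ℤ) (k : O) : xk ℓ k = fun n => phr k n * ang n ^ ℓ := by
  funext n
  unfold xk phr
  split_ifs <;> simp
theorem norm_xk_le (ℓ : ℤ) (k n : O) : ‖xk ℓ k n‖ ≤ 1 := by
  by_cases h : Prim n
  · rw [sw1_xk, norm_mul, lw_norm_ang1 ℓ h.ne_zero, mul_one]
    exact norm_phr_le k n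
  · simp [xk, h]
/-- orthogonality: multiplication by a primary `n₀` coprime to `k` permutes the primary classes
mod `9k` coprime to `k` -/
theorem gs_phr_zero {k : O} (hk : k ≠ 0) (h : NP k) : gs (9 * k) (phr k) 0 = 0 := by
  obtain ⟨n, h1, h2, h3⟩ := h
  have h9 : (9 : O) ≠ 0 := by decide
  have hc : IsCoprime n (9 * k) := by
    rw [show (9 : O) = 3 * 3 by norm_num]
    exact (h1.isCoprime_three.mul_right h1.isCoprime_three).mul_right h2
  have e := sum_res_affine (mul_ne_zero h9 hk) (phr_per hk) hc 0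
  have e2 : ∀ x, phr k (n * x + 0) = cub n k * phr k x := fun x => by
    rw [add_zero]
    unfold phr
    by_cases hx : Prim x
    · rw [if_pos (h1.mul hx), if_pos hx]
      exact sym_mul_left 3 h1.ne_zero hx.ne_zero k
    · rw [if_neg fun h => hx (h.of_mul_left h1), if_neg hx, mul_zero]
  simp only [e2, ← Finset.mul_sum] at e
  have e3 : (cub n k - 1) * ∑ x ∈ res (9 * k), phr k x = 0 := by linear_combination e
  simp only [gs, zero_mul, ad_zero, mul_one]
  exact (mul_eq_zero.1 e3).resolve_left (sub_ne_zero.2 h3)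

theorem sw1_blks (a : O → ℂ) (v : ℝ) (s : ℂ) : winS a v 1 s = blks a v s := by
  simp only [winS, blks, one_mul, lg]

theorem sw1_cont {a : O → ℂ} (ha : PolyBd a) :
    Continuous (fun p : ℝ × ℂ => blks a p.1 p.2) := by
  have e : (fun p : ℝ × ℂ => blks a p.1 p.2) = fun p : ℝ × ℂ =>
      (Real.exp ((1 / 2 - p.2.re) * p.1 + (1 / 2 - p.2.re) ^ 2 / 4) : ℂ) *
        (fun q : ℝ × ℝ => blk a q.1 q.2) (p.1 + (1 / 2 - p.2.re) / 2, p.2.im) := by
    funext p
    simp only [blk]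
    rw [← blks_shift]
    congr 1
    apply Complex.ext <;> simp
  rw [e]
  exact (by fun_prop : Continuous fun p : ℝ × ℂ =>
    (Real.exp ((1 / 2 - p.2.re) * p.1 + (1 / 2 - p.2.re) ^ 2 / 4) : ℂ)).mul
    ((continuous_blk ha).comp (by fun_prop))

/-- holomorphy of parametric integrals -/
theorem sw1_diff {F : ℝ → ℂ → ℂ} (hc : Continuous F.uncurry) (hd : ∀ v, Differentiable ℂ (F v))
    {s : ℂ} {r : ℝ} (hr : 0 < r) {b : ℝ → ℝ} (hb : Integrable b)
    (h : ∀ v w, ‖w - s‖ ≤ 2 * r → ‖F v w‖ ≤ b v) :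
    DifferentiableAt ℂ (fun w => ∫ v, F v w) s := by
  have hm : ∀ w, AEStronglyMeasurable (fun v => F v w) volume := fun w =>
    (hc.comp (by fun_prop : Continuous fun v : ℝ => (v, w))).aestronglyMeasurable
  refine (hasDerivAt_integral_of_dominated_loc_of_deriv_le (F := fun w v => F v w)
    (F' := fun w v => deriv (F v) w) (bound := fun v => b v / r) (Metric.ball_mem_nhds s hr)
    (Eventually.of_forall hm) (hb.mono' (hm s) (Eventually.of_forall fun v => h v s ?_)) ?_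
    (Eventually.of_forall fun v w hw => ?_) (hb.div_const r)
    (Eventually.of_forall fun v w _ => (hd v w).hasDerivAt)).2.differentiableAt
  · rw [sub_self, norm_zero]; positivity
  · exact ((measurable_deriv_with_param hc).comp
      (by fun_prop : Measurable fun v : ℝ => (v, s))).aestronglyMeasurable
  · refine Complex.norm_deriv_le_of_forall_mem_sphere_norm_le hr (hd v).diffContOnCl
      fun z hz => h v z ?_
    rw [mem_sphere_iff_norm] at hz
    rw [mem_ball_iff_norm] at hw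
    have := norm_add_le (z - w) (w - s)
    rw [sub_add_sub_cancel] at this
    linarith

/-- the trivial bounds -/
theorem sw1_triv : ∃ K : ℝ, 0 ≤ K ∧ ∀ (a : O → ℂ), (∀ n, ‖a n‖ ≤ 1) → ∀ (v : ℝ) (s : ℂ),
    0 ≤ s.re → s.re ≤ 4 →
    ‖blks a v s‖ ≤ K * Real.exp v ∧ ‖blks a v s‖ ≤ K * Real.exp ((1 - s.re) * v) := by
  obtain ⟨C, hC⟩ := tsum_gw_rpow 0
  have h0 : ∀ (a : O → ℂ), (∀ n, ‖a n‖ ≤ 1) → ∀ (v : ℝ) (s : ℂ), 0 ≤ s.re →
      ‖blks a v s‖ ≤ |C| * Real.exp v := fun a ha v s hs => by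
    have h1 := hC v
    rw [zero_add, one_mul] at h1
    refine le_trans ?_ (h1.trans (mul_le_mul_of_nonneg_right (le_abs_self C) (Real.exp_pos _).le))
    refine tsum_of_norm_bounded (summable_gw_rpow 0 v).hasSum fun n => ?_
    split_ifs with hn
    · simp
    · rw [norm_mul, norm_mul, loc_norm_cpow hn, Complex.norm_real,
        Real.norm_of_nonneg (gw_pos _).le]
      refine mul_le_mul_of_nonneg_right ?_ (gw_pos _).le
      have h2 : N n ^ (-s).re ≤ N n ^ (0 : ℝ) :=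
        Real.rpow_le_rpow_of_exponent_le (one_le_N hn) (by simpa using hs)
      calc _ ≤ 1 * N n ^ (0 : ℝ) :=
            mul_le_mul (ha n) h2 (Real.rpow_nonneg (N_nonneg _) _) zero_le_one
        _ = _ := one_mul _
  have he : 1 ≤ Real.exp 4 := Real.one_le_exp (by norm_num)
  refine ⟨|C| * Real.exp 4, by positivity, fun a ha v s h1 h2 => ⟨?_, ?_⟩⟩
  · refine (h0 a ha v s h1).trans (mul_le_mul_of_nonneg_right ?_ (Real.exp_pos _).le)
    exact le_mul_of_one_le_right (abs_nonneg C) he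
  · have e := blks_shift a v (-s.re) (s.im * Complex.I)
    have e1 : (s.im * Complex.I - (-s.re : ℝ) : ℂ) = s := by
      apply Complex.ext <;> simp
    rw [e1] at e
    rw [e, norm_mul, Complex.norm_real, Real.norm_of_nonneg (Real.exp_pos _).le]
    refine (mul_le_mul_of_nonneg_left (h0 a ha _ _ (by simp)) (Real.exp_pos _).le).trans ?_
    rw [mul_left_comm, mul_assoc, ← Real.exp_add, ← Real.exp_add]
    refine mul_le_mul_of_nonneg_left (Real.exp_le_exp.2 ?_) (abs_nonneg C)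
    nlinarith

/-- the integral representation of the Dirichlet series -/
theorem sw1_rep {a : O → ℂ} (ha : ∀ n, ‖a n‖ ≤ 1) {s : ℂ} (hs : 1 < s.re) :
    ∫ v, blks a v s = (Real.sqrt Real.pi : ℂ) * dser a s := by
  have hg : ∀ x : ℝ, ∫ v : ℝ, gw (x - v) = Real.sqrt Real.pi := fun x => by
    simpa using integral_gw one_pos x
  have hi : ∀ x : ℝ, Integrable fun v : ℝ => gw (x - v) := fun x => by
    simpa using sm_integrable_gw one_pos x
  unfold blks dser
  rw [← integral_tsum_of_summable_integral_norm, ← tsum_mul_left]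
  · refine tsum_congr fun n => ?_
    split_ifs with hn
    · simp
    · rw [integral_const_mul, integral_complex_ofReal, hg, mul_comm]
  · intro n
    split_ifs with hn
    · exact integrable_zero _ _ _
    · exact (hi _).ofReal.const_mul _
  · refine Summable.of_nonneg_of_le (fun n => integral_nonneg fun v => norm_nonneg _) (fun n => ?_)
      ((summable_N_rpow hs).mul_right (Real.sqrt Real.pi))
    split_ifs with hn
    · simp only [norm_zero, integral_zero]
      exact mul_nonneg (Real.rpow_nonneg (N_nonneg _) _) (Real.sqrt_nonneg _)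
    · simp only [norm_mul, loc_norm_cpow hn, Complex.norm_real,
        Real.norm_of_nonneg (gw_pos _).le]
      rw [integral_const_mul, hg, Complex.neg_re]
      refine mul_le_mul_of_nonneg_right ?_ (Real.sqrt_nonneg _)
      exact mul_le_of_le_one_left (Real.rpow_nonneg (N_nonneg _) _) (ha n)

theorem sw1_mT {M : ℝ} (hM : 0 < M) (v : ℝ) : Real.exp (-(|v| / M)) = M * mT M v := by
  rw [mT, ← mul_assoc, mul_inv_cancel₀ hM.ne', one_mul]

theorem sw1_int {f : ℝ → ℂ} {K M : ℝ} (hM : 0 < M)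
    (h : ∀ v, ‖f v‖ ≤ K * Real.exp (-(|v| / M))) : ‖∫ v, f v‖ ≤ 2 * K * M := by
  refine (norm_integral_le_of_norm_le ((integrable_mT hM).const_mul (K * M))
    (Eventually.of_forall fun v => ?_)).trans_eq ?_
  · rw [mul_assoc, ← sw1_mT hM]; exact h v
  · rw [integral_const_mul, integral_mT hM]; ring

theorem sw1_sqrt : ‖((Real.sqrt Real.pi : ℂ))⁻¹‖ ≤ 1 := by
  rw [norm_inv, Complex.norm_real, Real.norm_of_nonneg (Real.sqrt_nonneg _)]
  exact inv_le_one_of_one_le₀ (by linarith [sm_sqrt_pi_ge])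

/-- the three pointwise bounds -/
theorem sw1_pt (ℓ : ℤ) : ∃ K : ℝ, 0 ≤ K ∧ ∀ k : O, k ≠ 0 → NPl ℓ k → ∀ (v : ℝ) (s : ℂ),
    0 ≤ s.re → s.re ≤ 4 →
    ‖blks (xk ℓ k) v s‖ ≤ K * Real.exp v ∧
    ‖blks (xk ℓ k) v s‖ ≤ K * Real.exp ((1 - s.re) * v) ∧
    ‖blks (xk ℓ k) v s‖ ≤ K * (N k * (1 + |s.im|)) * Real.exp (-(s.re * v)) := by
  obtain ⟨K, hK, h1⟩ := sw1_triv
  obtain ⟨C, hC, h2⟩ := lw ℓ
  have hN9 := N_nonneg (9 : O)
  refine ⟨K + C * N (9 : O), by positivity, fun k hk hP v s hs1 hs2 => ?_⟩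
  obtain ⟨h3, h4⟩ := h1 _ (norm_xk_le ℓ k) v s hs1 hs2
  have hK' : K ≤ K + C * N (9 : O) := le_add_of_nonneg_right (by positivity)
  refine ⟨h3.trans (by gcongr), h4.trans (by gcongr), ?_⟩
  have h9 : (9 : O) ≠ 0 := by decide
  have hq := mul_ne_zero h9 hk
  have h5 := h2 (9 * k) (phr k) (N (9 * k)) hq (phr_per hk)
    (fun j _ => norm_gs_le hq (norm_phr_le k) j) v 1 s le_rfl (abs_le.2 ⟨by linarith, hs2⟩)
  have e : (if ℓ = 0 then (c0 : ℂ) * gs (9 * k) (phr k) 0 / (N (9 * k) : ℂ) else 0) = 0 := by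
    split_ifs with h
    · rw [gs_phr_zero hk (hP.resolve_left (not_not.2 h)), mul_zero, zero_div]
    · rfl
  rw [e, zero_mul, sub_zero, ← sw1_xk, sw1_blks, N_mul] at h5
  refine h5.trans (mul_le_mul_of_nonneg_right ?_ (Real.exp_pos _).le)
  have := N_nonneg k
  have h6 : 0 ≤ K * (N k * (1 + |s.im|)) := by positivity
  nlinarith

theorem sw1_LL {k : O} (hk : k ≠ 0) (t : ℝ) : 1 < LL k t := by
  have h1 := one_le_N hk
  have h2 := abs_nonneg t
  unfold LL
  rw [Real.lt_log_iff_exp_lt (by positivity)]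
  have := Real.exp_one_lt_d9
  nlinarith

/-- `L s := π^{-1/2} ∫ winS (xk ℓ k) v 1 s dv` (`integral_gw`).  By `lw` (`q = 9k`, `G = N(9k)`, no main
term) the integrand is `≤ C N k (1+|t|) e^{-v Re s}`; by `an_pow` it is `≤ C e^{(1-Re s) v}` for
`v ≥ 0` and `≤ C e^{v}` for `v ≤ 0` (`Re s ≥ 0`).  Cut at `V₀ = 4 LL`.  Holomorphy:
`ls_diff`/differentiation under the integral (or locally uniform limits).  The derivative: Cauchy's
estimate on a circle of radius `1/(4 LL)`. -/
theorem L_cont (ℓ : ℤ) : ∃ C : ℝ, 0 ≤ C ∧ ∀ k : O, k ≠ 0 → NPl ℓ k → ∃ L : ℂ → ℂ,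
    DifferentiableOn ℂ L {s | 1 / 4 < s.re ∧ s.re < 4} ∧
    (∀ s : ℂ, 1 < s.re → s.re < 4 → L s = dser (xk ℓ k) s) ∧
    ∀ s : ℂ, 1 - 1 / (2 * LL k s.im) ≤ s.re → s.re ≤ 3 →
      ‖L s‖ ≤ C * LL k s.im ∧ ‖deriv L s‖ ≤ C * LL k s.im ^ 2 := by
  obtain ⟨K, hK, hpt⟩ := sw1_pt ℓ
  have he3 : 1 ≤ Real.exp 3 := Real.one_le_exp (by norm_num)
  refine ⟨32 * (K * Real.exp 4), by positivity, fun k hk hP => ?_⟩
  have hpoly : PolyBd (xk ℓ k) := polyBd_of_le (norm_xk_le ℓ k)
  have hN := one_le_N hk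
  have hU : IsOpen {s : ℂ | 1 / 4 < s.re ∧ s.re < 4} :=
    (isOpen_lt continuous_const Complex.continuous_re).inter
      (isOpen_lt Complex.continuous_re continuous_const)
  have hdiff : DifferentiableOn ℂ
      (fun s => ((Real.sqrt Real.pi : ℂ))⁻¹ * ∫ v, blks (xk ℓ k) v s)
      {s | 1 / 4 < s.re ∧ s.re < 4} := fun s hs => by
    obtain ⟨hs1, hs2⟩ := hs
    refine (DifferentiableAt.const_mul ?_ _).differentiableWithinAt
    set r := min (s.re - 1 / 4) (4 - s.re) / 2 with hr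
    have hr1 : 2 * r ≤ s.re - 1 / 4 := by rw [hr]; linarith [min_le_left (s.re - 1 / 4) (4 - s.re)]
    have hr2 : 2 * r ≤ 4 - s.re := by rw [hr]; linarith [min_le_right (s.re - 1 / 4) (4 - s.re)]
    have hr0 : 0 < r := half_pos (lt_min (by linarith) (by linarith))
    refine sw1_diff (F := fun v s => blks (xk ℓ k) v s) (sw1_cont hpoly) (ls_diff hpoly) hr0
      ((integrable_mT (T := 4) (by norm_num)).const_mul (K * (N k * (5 + |s.im|)) * 4))
      fun v w hw => ?_
    have hre := (Complex.abs_re_le_norm (w - s)).trans hw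
    have him := (Complex.abs_im_le_norm (w - s)).trans hw
    rw [Complex.sub_re, abs_le] at hre
    rw [Complex.sub_im] at him
    have him2 : |w.im| ≤ 4 + |s.im| := by
      have := abs_add_le (w.im - s.im) s.im
      rw [sub_add_cancel] at this
      linarith
    obtain ⟨b1, -, b3⟩ := hpt k hk hP v w (by linarith) (by linarith)
    rw [mul_assoc _ 4, ← sw1_mT (by norm_num)]
    have h1 : 1 ≤ N k * (5 + |s.im|) := by nlinarith [abs_nonneg s.im]
    rcases le_total v 0 with hv | hv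
    · refine b1.trans (mul_le_mul (le_mul_of_one_le_right hK h1) (Real.exp_le_exp.2 ?_)
        (Real.exp_pos _).le (by positivity))
      rw [abs_of_nonpos hv]; linarith
    · refine b3.trans (mul_le_mul (mul_le_mul_of_nonneg_left
        (mul_le_mul_of_nonneg_left (by linarith) (by linarith)) hK) (Real.exp_le_exp.2 ?_)
        (Real.exp_pos _).le (by positivity))
      rw [abs_of_nonneg hv]; nlinarith
  refine ⟨_, hdiff, fun s h1 _ => ?_, fun s h1 h2 => ?_⟩
  · rw [sw1_rep (norm_xk_le ℓ k) h1, ← mul_assoc,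
      inv_mul_cancel₀ (Complex.ofReal_ne_zero.2 sm_sqrt_pi_pos.ne'), one_mul]
  have hL := sw1_LL hk s.im
  set Λ := LL k s.im with hΛ
  have hexp : Real.exp Λ = N k * (|s.im| + 3) := Real.exp_log (by positivity)
  have hρ : 0 < 1 / (4 * Λ) := by positivity
  have hρ2 : 1 / (2 * Λ) = 2 * (1 / (4 * Λ)) := by field_simp; norm_num
  have hρ3 : 1 / (4 * Λ) < 1 / 4 := one_div_lt_one_div_of_lt (by norm_num) (by linarith)
  have hρ4 : 1 / (4 * Λ) * (4 * Λ) = 1 := by field_simp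
  set ρ := 1 / (4 * Λ) with hρd
  have hin : ∀ w : ℂ, ‖w - s‖ ≤ ρ → 1 - 3 * ρ ≤ w.re ∧ w.re < 4 ∧ |w.im| ≤ |s.im| + 2 :=
    fun w hw => by
    have hre := (Complex.abs_re_le_norm (w - s)).trans hw
    have him := (Complex.abs_im_le_norm (w - s)).trans hw
    rw [Complex.sub_re, abs_le] at hre
    rw [Complex.sub_im] at him
    have := abs_add_le (w.im - s.im) s.im
    rw [sub_add_cancel] at this
    exact ⟨by linarith, by linarith, by linarith⟩
  have hbd : ∀ w : ℂ, ‖w - s‖ ≤ ρ →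
      ‖((Real.sqrt Real.pi : ℂ))⁻¹ * ∫ v, blks (xk ℓ k) v w‖ ≤ 8 * (K * Real.exp 4) * Λ :=
    fun w hw => by
    obtain ⟨w1, w2, w3⟩ := hin w hw
    rw [norm_mul]
    refine (mul_le_of_le_one_left (norm_nonneg _) sw1_sqrt).trans ?_
    refine (sw1_int (K := K * Real.exp 4) (M := 4 * Λ) (by positivity) fun v => ?_).trans_eq
      (by ring)
    obtain ⟨b1, b2, b3⟩ := hpt k hk hP v w (by linarith) (by linarith)
    have e : |v| / (4 * Λ) = ρ * |v| := by rw [hρd]; ring
    rw [e, mul_assoc, ← Real.exp_add]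
    rcases le_total v 0 with hv | hv
    · refine b1.trans (mul_le_mul_of_nonneg_left (Real.exp_le_exp.2 ?_) hK)
      rw [abs_of_nonpos hv]; nlinarith
    rw [abs_of_nonneg hv]
    rcases le_total v (4 * Λ) with hv2 | hv2
    · refine b2.trans (mul_le_mul_of_nonneg_left (Real.exp_le_exp.2 ?_) hK)
      have h3 : ρ * v ≤ 1 := by rw [← hρ4]; gcongr
      nlinarith
    · refine b3.trans ?_
      rw [mul_assoc]
      refine mul_le_mul_of_nonneg_left ?_ hK
      have h3 : N k * (1 + |w.im|) ≤ Real.exp Λ := by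
        rw [hexp]; exact mul_le_mul_of_nonneg_left (by linarith) (by linarith)
      refine (mul_le_mul_of_nonneg_right h3 (Real.exp_pos _).le).trans ?_
      rw [← Real.exp_add]
      refine Real.exp_le_exp.2 ?_
      have h4 : 1 / 4 * v ≤ w.re * v := by gcongr; linarith
      have h5 : ρ * (v - 4 * Λ) ≤ 1 / 4 * (v - 4 * Λ) := by gcongr
      nlinarith
  have hK4 : 0 ≤ K * Real.exp 4 * Λ := by positivity
  refine ⟨(hbd s (by rw [sub_self, norm_zero]; exact hρ.le)).trans (by nlinarith), ?_⟩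
  have hsub : Metric.closedBall s ρ ⊆ {s : ℂ | 1 / 4 < s.re ∧ s.re < 4} := fun w hw => by
    obtain ⟨w1, w2, -⟩ := hin w (mem_closedBall_iff_norm.1 hw)
    exact ⟨by linarith, w2⟩
  refine (Complex.norm_deriv_le_of_forall_mem_sphere_norm_le hρ
    (hdiff.diffContOnCl_ball hsub) fun z hz => hbd z (mem_sphere_iff_norm.1 hz).le).trans_eq ?_
  rw [hρd]
  field_simp
  ring

/-- `dser (prim 1) σ ≤ C/(σ - 1)` -/
theorem zeta_le : ∃ C : ℝ, 0 ≤ C ∧ ∀ σ : ℝ, 1 < σ → σ ≤ 2 →
    ‖dser (prim (fun _ => 1)) σ‖ ≤ C / (σ - 1) := by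
  obtain ⟨K, hK, h⟩ := sw1_triv
  refine ⟨2 * K, by positivity, fun σ h1 h2 => ?_⟩
  have ha : ∀ n, ‖prim (fun _ => (1 : ℂ)) n‖ ≤ 1 := fun n => by
    unfold prim; split_ifs <;> simp
  have e : dser (prim (fun _ => 1)) σ =
      ((Real.sqrt Real.pi : ℂ))⁻¹ * ∫ v, blks (prim (fun _ => 1)) v σ := by
    rw [sw1_rep ha (by simpa using h1), ← mul_assoc,
      inv_mul_cancel₀ (Complex.ofReal_ne_zero.2 sm_sqrt_pi_pos.ne'), one_mul]
  have h0 : 0 < σ - 1 := by linarith
  rw [e, norm_mul]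
  refine (mul_le_of_le_one_left (norm_nonneg _) sw1_sqrt).trans ?_
  refine (sw1_int (K := K) (M := 1 / (σ - 1)) (by positivity) fun v => ?_).trans_eq (by ring)
  obtain ⟨b1, b2⟩ := h _ ha v σ (by simp; linarith) (by simp; linarith)
  rw [div_div_eq_mul_div, div_one]
  rcases le_total v 0 with hv | hv
  · refine b1.trans (mul_le_mul_of_nonneg_left (Real.exp_le_exp.2 ?_) hK)
    rw [abs_of_nonpos hv]; nlinarith
  · refine b2.trans (mul_le_mul_of_nonneg_left (Real.exp_le_exp.2 ?_) hK)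
    rw [abs_of_nonneg hv, Complex.ofReal_re]; linarith

end Crest.Agent.R12
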