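import Crest.Agent.R12.TI2
import Crest.Agent.R12.SW1

/-!
# R12 / Mod1 : arithmetic of Heath-Brown's sieve weights
-/

set_option autoImplicit false

noncomputable section

open scoped Classical ComplexConjugate Topology
open MeasureTheory Filter

namespace Crest.Agent.R12

open Crest.Agent.R17

/-- the primary least common multiple of squarefree primary `h`, `d` -/
def lc (h d : O) : O := h * (d / gp d h)

theorem m1_eq {a b : O} (ha : SF a) (hb : SF b) (h : ∀ c, a ∣ c ↔ b ∣ c) : a = b :=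
  ha.1.eq_of_associated hb.1 (associated_of_dvd_dvd ((h b).2 dvd_rfl) ((h a).1 dvd_rfl))

theorem m1_card {M : ℝ} (hM : 0 ≤ M) : ((sfb M).card : ℝ) ≤ 18 * M :=
  le_trans (Nat.cast_le.2 (Finset.card_filter_le _ _)) (card_ball_le hM)

theorem lc_spec {h d : O} (hh : SF h) (hd : SF d) : SF (lc h d) ∧
    N (lc h d) * N (gp d h) = N h * N d ∧ ∀ b : O, lc h d ∣ b ↔ h ∣ b ∧ d ∣ b := by
  obtain ⟨h1, h2, h3, -, h5⟩ := gp_spec hd h
  have h6 := (hd.div h1.1 h2).1
  have e := EuclideanDomain.mul_div_cancel' h1.1.ne_zero h2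
  refine ⟨b1_sf_mul hh h6 h5.symm, ?_, fun b => ⟨fun hb => ⟨(dvd_mul_right _ _).trans hb, ?_⟩,
    fun hb => h5.symm.mul_dvd hb.1 ((EuclideanDomain.div_dvd_of_dvd h2).trans hb.2)⟩⟩
  · rw [lc, N_mul, mul_assoc, ← N_mul (d / gp d h), mul_comm (d / gp d h), e]
  · refine Dvd.dvd.trans ?_ hb
    conv_lhs => rw [← e]
    exact mul_dvd_mul_right h3 _

theorem m1_euler (f : O → ℂ) {q : O} (hq : SF q) :
    ∑ d ∈ pdiv q, mu d * ∏ p ∈ pf d, f p = ∏ p ∈ pf q, (1 - f p) := by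
  obtain ⟨h1, h2⟩ := hq
  revert h2
  refine Prim.induction (P := fun q => Squarefree q →
    ∑ d ∈ pdiv q, mu d * ∏ p ∈ pf d, f p = ∏ p ∈ pf q, (1 - f p)) (fun _ => ?_)
    (fun p a hp hp' ha ih hs => ?_) h1
  · rw [b3_pdiv_of_isUnit isUnit_one, Finset.sum_singleton, b1_pf_one, mu_one]
    simp
  · have hc := s3_sqfree hp hs
    have h4 : pdiv p = {1, p} := by
      have := pdiv_prime_pow hp hp' 1
      rw [pow_one] at this
      rw [this]
      ext x
      simp [Finset.range_add_one, eq_comm, or_comm]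
    have h5 : ∀ d, d ≠ 0 → IsCoprime p d → p ∉ pf d := fun d hd h hm =>
      hp.not_isUnit (h.isUnit_of_dvd ((mem_pf hd).1 hm).2.2)
    rw [sum_pdiv_mul hp.ne_zero ha.ne_zero hc, h4, Finset.sum_pair hp.ne_one.symm,
      b1_pf_prime_mul hp hp' ha.ne_zero, Finset.prod_insert (h5 a ha.ne_zero hc), ← ih hs.of_mul_right,
      Finset.mul_sum, ← Finset.sum_add_distrib]
    refine Finset.sum_congr rfl fun d hd => ?_
    obtain ⟨d1, d2⟩ := (mem_pdiv ha.ne_zero).1 hd
    have h6 := hc.of_isCoprime_of_dvd_right d2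
    rw [one_mul, mu_mul h6, mu_prime hp, b1_pf_prime_mul hp hp' d1.ne_zero,
      Finset.prod_insert (h5 d d1.ne_zero h6)]
    ring

theorem m1_ph_ge (q : O) : 1 ≤ ph q :=
  Finset.one_le_prod fun p hp => by linarith [Prime.two_le_N (Finset.mem_filter.1 hp).2]

theorem m1_mu_ph {q : O} (hq : SF q) : ∏ p ∈ pf q, (1 - (N p : ℂ)) = mu q * ph q := by
  have h := mu_prod_primes (I := pf q) fun p hp =>
    ⟨((mem_pf hq.1.ne_zero).1 hp).1, ((mem_pf hq.1.ne_zero).1 hp).2.1⟩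
  rw [hq.prod_pf] at h
  rw [h, ph, ← Finset.prod_const, Complex.ofReal_prod, ← Finset.prod_mul_distrib]
  refine Finset.prod_congr rfl fun p _ => ?_
  push_cast
  ring

theorem m1_N_prod {d : O} (hd : SF d) : ∏ p ∈ pf d, (N p : ℂ) = N d := by
  rw [← Complex.ofReal_prod, ← N_prod, hd.prod_pf]

theorem m1_swap (D1 : ℝ) (F : O → ℂ) : ∑ d ∈ sfb D1, lamD D1 d * F d =
    ∑ q ∈ sfb D1, ((ph q : ℂ))⁻¹ * ∑ d ∈ pdiv q, mu d * N d * F d := by
  simp only [lamD, Complex.ofReal_mul, Complex.ofReal_sum, Complex.ofReal_inv, Finset.mul_sum,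
    Finset.sum_mul]
  rw [Finset.sum_comm' (t' := sfb D1) (s' := fun q => pdiv q) fun d q => ?_]
  · exact Finset.sum_congr rfl fun q _ => Finset.sum_congr rfl fun d _ => by ring
  · simp only [Finset.mem_filter]
    constructor
    · rintro ⟨h1, h2, h3⟩
      exact ⟨(mem_pdiv (mem_sfb.1 h2).1.1.ne_zero).2 ⟨(mem_sfb.1 h1).1.1, h3⟩, h2⟩
    · rintro ⟨h1, h2⟩
      obtain ⟨a1, a2⟩ := mem_sfb.1 h2
      obtain ⟨a3, a4⟩ := (mem_pdiv a1.1.ne_zero).1 h1
      exact ⟨mem_sfb.2 ⟨a1.of_dvd a3 a4, (N_le_of_dvd a1.1.ne_zero a4).trans a2⟩, h2, a4⟩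

theorem m1_gp_sum {q : O} (hq : SF q) (h : O) :
    ∑ d ∈ pdiv q, mu d * N (gp d h) = if q ∣ h then mu q * ph q else 0 := by
  have e := m1_euler (fun p => if p ∣ h then (N p : ℂ) else 1) hq
  simp only [← Finset.prod_filter, ← Complex.ofReal_prod] at e
  simp only [gp, N_prod]
  refine e.trans ?_
  split_ifs with hc
  · rw [← m1_mu_ph hq]
    exact Finset.prod_congr rfl fun p hp => by
      rw [if_pos (((mem_pf hq.1.ne_zero).1 hp).2.2.trans hc)]
  · by_contra hn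
    refine hc ?_
    have : gp q h = q := by
      rw [gp, Finset.filter_true_of_mem fun p hp => ?_, hq.prod_pf]
      by_contra hp'
      exact hn (Finset.prod_eq_zero hp (by rw [if_neg hp', sub_self]))
    exact this ▸ (gp_spec hq h).2.2.1

/-- `∑_{d ∣ q} μ(d) N(d,h) = ∏_{p ∣ q} (1 - N(p,h))` is `μ(q) ph q` if `q ∣ h` and `0` otherwise -/
theorem O1 (D1 : ℝ) {h : O} (hh : SF h) :
    ∑ d ∈ sfb D1, lamD D1 d / (N (lc h d) : ℂ) =
      (N h : ℂ)⁻¹ * ∑ q ∈ (pdiv h).filter (fun q => N q ≤ D1), mu q := by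
  have hN : (N h : ℂ) ≠ 0 := Complex.ofReal_ne_zero.2 (N_pos hh.1.ne_zero).ne'
  simp only [div_eq_mul_inv]
  rw [m1_swap, show (pdiv h).filter (fun q => N q ≤ D1) = (sfb D1).filter (fun q => q ∣ h) from ?_,
    Finset.sum_filter, Finset.mul_sum]
  · refine Finset.sum_congr rfl fun q hq => ?_
    have hq' := (mem_sfb.1 hq).1
    have e : ∑ d ∈ pdiv q, mu d * N d * (N (lc h d) : ℂ)⁻¹ =
        (N h : ℂ)⁻¹ * ∑ d ∈ pdiv q, mu d * N (gp d h) := by
      rw [Finset.mul_sum]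
      refine Finset.sum_congr rfl fun d hd => ?_
      obtain ⟨d1, d2⟩ := (mem_pdiv hq'.1.ne_zero).1 hd
      obtain ⟨a1, a2, -⟩ := lc_spec hh (hq'.of_dvd d1 d2)
      have a3 : (N (lc h d) : ℂ) ≠ 0 := Complex.ofReal_ne_zero.2 (N_pos a1.1.ne_zero).ne'
      have a4 : (N (lc h d) : ℂ) * N (gp d h) = N h * N d := by exact_mod_cast a2
      field_simp
      linear_combination -mu d * a4
    have hp : (ph q : ℂ) ≠ 0 := Complex.ofReal_ne_zero.2 (by linarith [m1_ph_ge q])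
    rw [e, m1_gp_sum hq']
    split_ifs
    · field_simp
    · simp
  · ext q
    simp only [Finset.mem_filter, mem_pdiv hh.1.ne_zero, mem_sfb]
    exact ⟨fun a => ⟨⟨hh.of_dvd a.1.1 a.1.2, a.2⟩, a.1.2⟩, fun a => ⟨⟨a.1.1.1, a.2⟩, a.1.2⟩⟩

theorem m1_lc_comm {h d e : O} (hh : SF h) (hd : SF d) (he : SF e) : lc (lc h d) e = lc (lc h e) d := by
  obtain ⟨a1, -, a2⟩ := lc_spec hh hd
  obtain ⟨b1, -, b2⟩ := lc_spec hh he
  obtain ⟨c1, -, c2⟩ := lc_spec a1 he
  obtain ⟨d1, -, d2⟩ := lc_spec b1 hd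
  refine m1_eq c1 d1 fun b => ?_
  rw [c2, d2, a2, b2]
  tauto

theorem m1_N_gcd {r e : O} (hr : SF r) (he : SF e) :
    N (EuclideanDomain.gcd r e) / N e ^ 2 / N r = (N e)⁻¹ * (N (lc r e))⁻¹ := by
  obtain ⟨a1, a2, -⟩ := lc_spec hr he
  have a3 : N (gp e r) = N (EuclideanDomain.gcd r e) := by
    have h1 : EuclideanDomain.gcd r e ≠ 0 := fun h => hr.1.ne_zero (EuclideanDomain.gcd_eq_zero_iff.1 h).1
    have h2 : EuclideanDomain.gcd e r ≠ 0 := fun h => hr.1.ne_zero (EuclideanDomain.gcd_eq_zero_iff.1 h).2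
    rw [(gp_spec he r).2.2.2.1]
    exact le_antisymm (N_le_of_dvd h1 (EuclideanDomain.dvd_gcd (EuclideanDomain.gcd_dvd_right _ _)
      (EuclideanDomain.gcd_dvd_left _ _))) (N_le_of_dvd h2 (EuclideanDomain.dvd_gcd
      (EuclideanDomain.gcd_dvd_right _ _) (EuclideanDomain.gcd_dvd_left _ _)))
  have := N_pos hr.1.ne_zero
  have := N_pos he.1.ne_zero
  have := N_pos a1.1.ne_zero
  rw [← a3]
  field_simp
  linarith

/-- one term of the singular series -/
theorem m1_term {D1 : ℝ} {h e : O} (hh : SF h) (hD : N h ≤ D1) (he : Prim e) :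
    ‖∑ d ∈ sfb D1, lamD D1 d * (mu e * ((N (EuclideanDomain.gcd (lc h d) e) / N e ^ 2 : ℝ) : ℂ)) /
      (N (lc h d) : ℂ) - (if e = 1 then (if h = 1 then 1 else 0) else 0)‖ ≤
      if D1 / N h < N e then dv h * (dv e ^ 1 / N e ^ 2) else 0 := by
  have d0 := bb_dv_nonneg h
  have d1 := bb_dv_nonneg e
  have p0 := N_pos hh.1.ne_zero
  have p1 := N_pos he.ne_zero
  by_cases hs : Squarefree e
  swap
  · rw [if_neg (fun h1 : e = 1 => hs (h1 ▸ squarefree_one)), mu_eq_zero hs]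
    simp only [zero_mul, mul_zero, zero_div, Finset.sum_const_zero, sub_zero, norm_zero]
    positivity
  have he' : SF e := ⟨he, hs⟩
  obtain ⟨a1, a2, a3⟩ := lc_spec hh he'
  obtain ⟨a4, a5⟩ := (a3 _).1 dvd_rfl
  have e1 : ∑ d ∈ sfb D1, lamD D1 d * (mu e * ((N (EuclideanDomain.gcd (lc h d) e) / N e ^ 2 : ℝ) : ℂ)) /
      (N (lc h d) : ℂ) = mu e * (N e : ℂ)⁻¹ * ((N (lc h e) : ℂ)⁻¹ *
        ∑ q ∈ (pdiv (lc h e)).filter (fun q => N q ≤ D1), mu q) := by
    rw [← O1 D1 a1, Finset.mul_sum]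
    refine Finset.sum_congr rfl fun d hd => ?_
    have hd' := (mem_sfb.1 hd).1
    have := congrArg (fun x : ℝ => (x : ℂ)) (m1_N_gcd (lc_spec hh hd').1 he')
    rw [m1_lc_comm hh hd' he'] at this
    push_cast at this ⊢
    rw [mul_div_assoc, mul_div_assoc, this]
    ring
  rw [e1]
  by_cases hc : N (lc h e) ≤ D1
  · rw [Finset.filter_true_of_mem fun q hq => (N_le_of_dvd a1.1.ne_zero
      ((mem_pdiv a1.1.ne_zero).1 hq).2).trans hc, sum_mu_pdiv a1.1]
    refine le_trans (le_of_eq ?_) (show 0 ≤ _ by positivity)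
    by_cases h1 : lc h e = 1
    · rw [h1] at a4 a5 ⊢
      rw [hh.1.eq_of_associated Prim.one (associated_one_iff_isUnit.2 (isUnit_of_dvd_one a4)),
        he.eq_of_associated Prim.one (associated_one_iff_isUnit.2 (isUnit_of_dvd_one a5))]
      simp [mu_one]
    · rw [if_neg h1, mul_zero, mul_zero, zero_sub, norm_neg, norm_eq_zero]
      split_ifs with h2 h3
      · refine absurd (m1_eq a1 b1_sf_one fun b => ?_) h1
        rw [a3, h2, h3, and_self]
      · rfl
      · rfl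
  · have p2 := one_le_N (gp_spec he' h).1.1.ne_zero
    have p3 := N_pos a1.1.ne_zero
    have b1 : D1 / N h < N e := by
      rw [div_lt_iff₀ p0]
      nlinarith
    have b2 : e ≠ 1 := by
      rintro rfl
      rw [N_one, div_lt_one p0] at b1
      linarith
    have b3 : ‖∑ q ∈ (pdiv (lc h e)).filter (fun q => N q ≤ D1), mu q‖ ≤ dv h * dv e := by
      refine (norm_sum_le _ _).trans ((Finset.sum_le_card_nsmul _ _ 1 fun q _ => norm_mu_le q).trans ?_)
      rw [nsmul_eq_mul, mul_one]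
      refine le_trans (Nat.cast_le.2 (Finset.card_filter_le _ _)) (le_trans (dv_le_of_dvd
        (mul_ne_zero hh.1.ne_zero he.ne_zero) ((a3 _).2 ⟨dvd_mul_right _ _, dvd_mul_left _ _⟩))
        (dv_mul_le hh.1.ne_zero he.ne_zero))
    have b4 := N_le_of_dvd a1.1.ne_zero a5
    have b5 := norm_mu_le e
    rw [if_pos b1, if_neg b2, sub_zero, norm_mul, norm_mul, norm_mul, norm_inv, norm_inv,
      Complex.norm_real, Complex.norm_real, Real.norm_of_nonneg p1.le, Real.norm_of_nonneg p3.le]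
    calc _ ≤ 1 * (N e)⁻¹ * ((N e)⁻¹ * (dv h * dv e)) := by gcongr
      _ = _ := by field_simp

/-- `ser2 r / N r = ∑_e μ(e)/(N e · N [r, e])`, `[[h,d],e] = [[h,e],d]`, `O1` for `lc h e`: the inner sum is
`[h = e = 1]` if `N (lc h e) ≤ D₁`, and `≤ dv h dv e / N e` otherwise (then `N e > D₁/N h`):
`sum_dv_tail`. -/
theorem O2 : ∃ (C : ℝ) (B0 : ℕ), 0 ≤ C ∧ ∀ (D1 : ℝ) (h : O), SF h → N h ≤ D1 →
    ‖∑ d ∈ sfb D1, lamD D1 d * ser2 (lc h d) / (N (lc h d) : ℂ) - (if h = 1 then 1 else 0)‖ ≤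
      C * dv h * N h * (1 + Real.log D1) ^ B0 / D1 := by
  obtain ⟨C, B, hC, h1⟩ := sum_dv_tail 1
  obtain ⟨C2, hC2, h2⟩ := ti2_ser_tail
  refine ⟨C, B, hC, fun D1 h hh hD => le_of_forall_pos_le_add fun ε hε => ?_⟩
  have p0 := one_le_N hh.1.ne_zero
  have d0 := bb_dv_nonneg h
  obtain ⟨K, hK⟩ : ∃ K, K = ∑ d ∈ sfb D1, ‖lamD D1 d‖ * (C2 * dv (lc h d)) / ‖(N (lc h d) : ℂ)‖ :=
    ⟨_, rfl⟩
  have hK0 : 0 ≤ K := by
    rw [hK]
    exact Finset.sum_nonneg fun d _ => by have := bb_dv_nonneg (lc h d); positivity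
  obtain ⟨Δ, hΔ⟩ : ∃ Δ, Δ = 1 + K / ε := ⟨_, rfl⟩
  have hΔ1 : 1 ≤ Δ := by rw [hΔ]; exact le_add_of_nonneg_right (by positivity)
  have hΔ2 : K / Δ ≤ ε := by
    rw [div_le_iff₀ (by linarith), hΔ, mul_add, mul_div_cancel₀ _ hε.ne']
    linarith
  set I := (ball Δ).filter Prim with hI
  set g : O → O → ℂ := fun r e => mu e * ((N (EuclideanDomain.gcd r e) / N e ^ 2 : ℝ) : ℂ) with hg
  have e1 : ∑ d ∈ sfb D1, lamD D1 d * ser2 (lc h d) / (N (lc h d) : ℂ) - (if h = 1 then 1 else 0) =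
      ∑ e ∈ I, (∑ d ∈ sfb D1, lamD D1 d * g (lc h d) e / (N (lc h d) : ℂ) -
        (if e = 1 then (if h = 1 then 1 else 0) else 0)) +
      ∑ d ∈ sfb D1, lamD D1 d * (ser2 (lc h d) - ∑ e ∈ I, g (lc h d) e) / (N (lc h d) : ℂ) := by
    rw [Finset.sum_sub_distrib, Finset.sum_ite_eq', if_pos (Finset.mem_filter.2
      ⟨mem_ball.2 ⟨one_ne_zero, by rwa [N_one]⟩, Prim.one⟩), Finset.sum_comm]
    simp only [mul_sub, sub_div, Finset.sum_sub_distrib, Finset.mul_sum, Finset.sum_div]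
    ring
  have hY : 1 ≤ D1 / N h := (one_le_div (by linarith)).2 hD
  have hD0 : 0 < D1 := by linarith
  rw [e1]
  refine (norm_add_le _ _).trans (add_le_add ?_ (le_trans ?_ hΔ2))
  · refine (norm_sum_le _ _).trans ((Finset.sum_le_sum fun e he =>
      m1_term hh hD (Finset.mem_filter.1 he).2).trans ?_)
    rw [← Finset.sum_filter, ← Finset.mul_sum]
    have a1 := h1 _ hY (I.filter fun e => D1 / N h < N e) fun n hn => (Finset.mem_filter.1 hn).2
    have a2 : Real.log (D1 / N h) ≤ Real.log D1 :=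
      Real.log_le_log (by linarith) (div_le_self hD0.le p0)
    have a3 := Real.log_nonneg hY
    calc _ ≤ dv h * (C * (1 + Real.log D1) ^ B / (D1 / N h)) :=
          mul_le_mul_of_nonneg_left (a1.trans (by gcongr)) d0
      _ = _ := by field_simp
  · rw [hK, Finset.sum_div]
    refine (norm_sum_le _ _).trans (Finset.sum_le_sum fun d hd => ?_)
    have a1 := h2 _ (lc_spec hh (mem_sfb.1 hd).1).1.1 Δ hΔ1
    rw [norm_div, norm_mul]
    calc _ ≤ ‖lamD D1 d‖ * (C2 * dv (lc h d) / Δ) / ‖(N (lc h d) : ℂ)‖ := by gcongr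
      _ = _ := by ring

/-- `ph q ≥ 1` -/
theorem lam_sum {D1 : ℝ} (hD : 1 ≤ D1) : ∑ d ∈ sfb D1, ‖lamD D1 d‖ ≤ 324 * D1 ^ 3 := by
  have hc : ((sfb D1).card : ℝ) ≤ 18 * D1 := m1_card (by linarith)
  refine (Finset.sum_le_card_nsmul _ _ (D1 * (18 * D1)) fun d hd => ?_).trans ?_
  · have a1 : ∑ q ∈ (sfb D1).filter (fun q => d ∣ q), (ph q)⁻¹ ≤ 18 * D1 := by
      refine (Finset.sum_le_card_nsmul _ _ 1 fun q _ => inv_le_one_of_one_le₀ (m1_ph_ge q)).trans ?_
      rw [nsmul_eq_mul, mul_one]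
      exact le_trans (Nat.cast_le.2 (Finset.card_filter_le _ _)) hc
    have a2 : 0 ≤ ∑ q ∈ (sfb D1).filter (fun q => d ∣ q), (ph q)⁻¹ :=
      Finset.sum_nonneg fun q _ => inv_nonneg.2 (by linarith [m1_ph_ge q])
    have a3 := N_nonneg d
    have a4 := (mem_sfb.1 hd).2
    rw [lamD, norm_mul, Complex.norm_real, Real.norm_of_nonneg (mul_nonneg a3 a2)]
    exact (mul_le_of_le_one_left (mul_nonneg a3 a2) (norm_mu_le d)).trans
      (mul_le_mul a4 a1 a2 (by linarith))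
  · rw [nsmul_eq_mul]
    calc _ ≤ 18 * D1 * (D1 * (18 * D1)) := by gcongr
      _ = _ := by ring

theorem m1_conv {q : O} (hq : SF q) (b : O) :
    ‖((ph q : ℂ))⁻¹ * ∑ d ∈ pdiv q, mu d * N d * (if d ∣ b then 1 else 0)‖ ≤
      dv (q / gp q b) ^ 1 / N (q / gp q b) := by
  have hq0 := hq.1.ne_zero
  have e1 : ∑ d ∈ pdiv q, mu d * N d * (if d ∣ b then 1 else 0) =
      ∏ p ∈ pf q, (1 - if p ∣ b then (N p : ℂ) else 0) := by
    rw [← m1_euler _ hq]
    refine Finset.sum_congr rfl fun d hd => ?_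
    have hd' := hq.of_dvd ((mem_pdiv hq0).1 hd).1 ((mem_pdiv hq0).1 hd).2
    rw [mul_assoc]
    congr 1
    split_ifs with hc
    · rw [mul_one, ← m1_N_prod hd']
      exact Finset.prod_congr rfl fun p hp => by
        rw [if_pos (((mem_pf hd'.1.ne_zero).1 hp).2.2.trans hc)]
    · rw [mul_zero, eq_comm]
      by_contra hn
      refine hc ?_
      have : gp d b = d := by
        rw [gp, Finset.filter_true_of_mem fun p hp => ?_, hd'.prod_pf]
        by_contra hp'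
        exact hn (Finset.prod_eq_zero hp (if_neg hp'))
      exact this ▸ (gp_spec hd' b).2.2.1
  obtain ⟨h1, h2, h3, -, h5⟩ := gp_spec hq b
  have h6 := (hq.div h1.1 h2).1
  have e2 : pf (q / gp q b) = (pf q).filter fun p => ¬ p ∣ b := by
    ext p
    rw [Finset.mem_filter, mem_pf h6.1.ne_zero, mem_pf hq0]
    constructor
    · rintro ⟨a1, a2, a3⟩
      exact ⟨⟨a1, a2, a3.trans (EuclideanDomain.div_dvd_of_dvd h2)⟩, fun a4 =>
        a1.not_isUnit (h5.isUnit_of_dvd' a3 a4)⟩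
    · rintro ⟨⟨a1, a2, a3⟩, a4⟩
      rw [← EuclideanDomain.mul_div_cancel' h1.1.ne_zero h2] at a3
      exact ⟨a1, a2, (a1.dvd_or_dvd a3).resolve_left fun a5 => a4 (a5.trans h3)⟩
  have e3 : N (q / gp q b) = ∏ p ∈ pf (q / gp q b), N p := by rw [← N_prod, h6.prod_pf]
  rw [e1, h6.dv_eq, e3, e2, pow_one, ← Finset.prod_const, ← Finset.prod_div_distrib, Finset.prod_filter,
    ph, Complex.ofReal_prod, ← Finset.prod_inv_distrib, ← Finset.prod_mul_distrib, norm_prod]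
  refine Finset.prod_le_prod (fun _ _ => norm_nonneg _) fun p hp => ?_
  have hp2 := Prime.two_le_N ((mem_pf hq0).1 hp).1
  have e4 : ‖((N p - 1 : ℝ) : ℂ)‖ = N p - 1 := by
    rw [Complex.norm_real, Real.norm_of_nonneg (by linarith)]
  rw [norm_mul, norm_inv, e4]
  by_cases hc : p ∣ b
  · rw [if_pos hc, if_neg (not_not.2 hc), norm_sub_rev, show (N p : ℂ) - 1 = ((N p - 1 : ℝ) : ℂ) by simp,
      e4, inv_mul_cancel₀ (by linarith)]
  · rw [if_neg hc, if_pos hc, sub_zero, norm_one, mul_one, inv_eq_one_div,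
      div_le_div_iff₀ (by linarith) (by linarith)]
    linarith

/-- `∑_{d ∣ b} λ_d = ∑_q (ph q)⁻¹ ∑_{d ∣ (q,b)} μ(d) N d = ∑_q μ(q₁)/ph q₂`, `q₁ = gp q b`, `q = q₁q₂`;
`1/ph q₂ ≤ dv q₂/N q₂`, `sum_dv_inv` -/
theorem lam_conv : ∃ (C : ℝ) (B0 : ℕ), 0 ≤ C ∧ ∀ (D1 : ℝ) (b : O), 1 ≤ D1 → SF b →
    ‖∑ d ∈ (sfb D1).filter (fun d => d ∣ b), lamD D1 d‖ ≤ C * dv b * (1 + Real.log D1) ^ B0 := by
  obtain ⟨C, B, hC, h⟩ := sum_dv_inv 1
  refine ⟨C, B, hC, fun D1 b hD hb => ?_⟩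
  have e : ∑ d ∈ (sfb D1).filter (fun d => d ∣ b), lamD D1 d =
      ∑ d ∈ sfb D1, lamD D1 d * (if d ∣ b then 1 else 0) := by
    simp only [Finset.sum_filter, mul_ite, mul_one, mul_zero]
  rw [e, m1_swap]
  refine (norm_sum_le _ _).trans ((Finset.sum_le_sum fun q hq => m1_conv (mem_sfb.1 hq).1 b).trans ?_)
  have := bb_conv (sfb D1) (fun q hq => (mem_sfb.1 hq).1.1.ne_zero) (fun q => {gp q b})
    (fun q hq g hg => by
      rw [Finset.mem_singleton.1 hg]; exact (gp_spec (mem_sfb.1 hq).1 b).2.1) (pdiv b)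
    (fun _ => ball D1) (fun _ m => dv m ^ 1 / N m)
    (fun _ m => div_nonneg (pow_nonneg (bb_dv_nonneg m) 1) (N_nonneg m)) fun q hq g hg => by
      rw [Finset.mem_singleton.1 hg]
      obtain ⟨q1, q2⟩ := mem_sfb.1 hq
      obtain ⟨b1, b2, b3, -⟩ := gp_spec q1 b
      exact ⟨(mem_pdiv hb.1.ne_zero).2 ⟨b1.1, b3⟩, mem_ball.2 ⟨(q1.div b1.1 b2).1.1.ne_zero,
        (N_le_of_dvd q1.1.ne_zero (EuclideanDomain.div_dvd_of_dvd b2)).trans q2⟩⟩
  simp only [Finset.sum_singleton] at this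
  refine this.trans ?_
  rw [Finset.sum_const, nsmul_eq_mul, mul_comm C, mul_assoc]
  exact mul_le_mul_of_nonneg_left (h D1 hD) (bb_dv_nonneg b)

/-- `an` (project `u` to `[log B, log 2B]`) -/
theorem norm_Wb_le : ∃ C : ℝ, 0 ≤ C ∧ ∀ (B H u : ℝ) (β : O → ℂ), 1 ≤ H → H ^ 2 ≤ B →
    (∀ b, ‖β b‖ ≤ 1) → ‖Wb (sfI B (2 * B)) β H u‖ ≤ C := by
  obtain ⟨C, hC, h⟩ := an_pow
  have c0p : 0 < c0 := by unfold c0; positivity
  have hπ := sm_sqrt_pi_ge
  refine ⟨4 * C / (Real.sqrt Real.pi * (c0 / 9)), by positivity, fun B H u β hH hB hβ => ?_⟩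
  have hB1 : 1 ≤ B := (one_le_pow₀ hH).trans hB
  have hB0 : 0 < B := by linarith
  obtain ⟨u', hu'⟩ : ∃ u', u' = max (Real.log B) (min u (Real.log (2 * B))) := ⟨_, rfl⟩
  have hl : Real.log B ≤ Real.log (2 * B) := Real.log_le_log hB0 (by linarith)
  have a1 : Real.exp u' ≤ 2 * B := by
    rw [← Real.le_log_iff_exp_le (by positivity), hu']
    exact max_le hl (min_le_right _ _)
  have a2 := (h 0 u' H (by simp) hH (sfI B (2 * B)) fun n hn => (mem_sfI.1 hn).1.1.ne_zero).1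
  simp only [Real.rpow_zero, one_mul, zero_mul, Real.exp_zero, mul_one] at a2
  have a3 : H * Real.exp (u' / 2) ≤ 2 * B := by
    refine le_of_sq_le_sq ?_ (by positivity)
    rw [mul_pow, sq (Real.exp _), ← Real.exp_add, add_halves]
    nlinarith [Real.exp_pos u']
  calc _ ≤ ∑ b ∈ sfI B (2 * B), H / (Real.sqrt Real.pi * (c0 / 9) * B) * gw (H * (lg b - u')) := by
        refine (norm_sum_le _ _).trans (Finset.sum_le_sum fun b hb => ?_)
        obtain ⟨b1, b2, b3⟩ := mem_sfI.1 hb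
        have b4 := N_pos b1.1.ne_zero
        have b5 : Real.log B ≤ lg b := Real.log_le_log hB0 b2.le
        have b6 : lg b ≤ Real.log (2 * B) := Real.log_le_log b4 b3
        have b7 : gw (H * (u - lg b)) ≤ gw (H * (lg b - u')) := by
          refine Real.exp_le_exp.2 (neg_le_neg ?_)
          rw [mul_pow, mul_pow]
          refine mul_le_mul_of_nonneg_left ?_ (sq_nonneg H)
          rw [hu']
          rcases le_total u (Real.log (2 * B)) with c | c
          · rw [min_eq_left c]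
            rcases le_total (Real.log B) u with c' | c'
            · rw [max_eq_right c']; nlinarith
            · rw [max_eq_left c']; nlinarith
          · rw [min_eq_right c, max_eq_right hl]; nlinarith
        have b8 := gw_pos (H * (u - lg b))
        rw [norm_mul, Complex.norm_real, Real.norm_of_nonneg (by positivity)]
        refine (mul_le_of_le_one_left (by positivity) (hβ b)).trans ?_
        gcongr
    _ ≤ H / (Real.sqrt Real.pi * (c0 / 9) * B) * (C * (Real.exp u' / H + Real.exp (u' / 2))) := by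
        rw [← Finset.mul_sum]
        gcongr
    _ = C / (Real.sqrt Real.pi * (c0 / 9) * B) * (Real.exp u' + H * Real.exp (u' / 2)) := by
        field_simp
    _ ≤ C / (Real.sqrt Real.pi * (c0 / 9) * B) * (2 * B + 2 * B) := by gcongr
    _ = _ := by field_simp; ring

/-- `ti2tail_win` for any coefficients dominated by the number of large `d` -/
theorem m1_tail : ∃ C : ℝ, 0 ≤ C ∧ ∀ (a : O → ℂ) (r : O), SF r → ∀ (Δ v T : ℝ) (s : ℂ), 1 ≤ Δ → 0 ≤ v →
    1 ≤ T → |s.re| ≤ 4 → (∀ n, ‖a n‖ ≤ (ti2D r Δ n).card) → ‖winS a v T s‖ ≤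
      C * (dv r * Real.exp v / (T * Δ) + dv r * Real.exp (v / 2) * (1 + v)) * Real.exp (-(s.re * v)) := by
  obtain ⟨C1, p1, h1⟩ := ti2_mult
  obtain ⟨C2, p2, h2⟩ := sum_gcd_tail
  obtain ⟨C3, p3, h3⟩ := ti2psi_sum
  refine ⟨C1 * (C2 + C3), by positivity, fun a r hr Δ v T s hΔ hv hT hs ha => ti2_winS_le fun S hS => ?_⟩
  have hr0 := hr.1.ne_zero
  set w : O → ℝ := fun n => N n ^ (-s.re) * gw (T * (lg n - v)) with hw
  have w0 : ∀ n, 0 ≤ w n := fun n => mul_nonneg (Real.rpow_nonneg (N_nonneg n) _) (gw_pos _).le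
  set A := S.biUnion (ti2D r Δ) with hA
  have hD : ∀ k ∈ S, ∀ d ∈ ti2D r Δ k, Prim d ∧ d ^ 2 ∣ r * k ∧ Δ < N d := fun k hk d hd =>
    ⟨((mem_pdiv (mul_ne_zero hr0 (hS k hk))).1 (Finset.mem_filter.1 hd).1).1, (Finset.mem_filter.1 hd).2⟩
  have hA' : ∀ d ∈ A, Prim d ∧ Δ < N d := fun d hd => by
    obtain ⟨k, hk, h⟩ := Finset.mem_biUnion.1 hd
    exact ⟨(hD k hk d h).1, (hD k hk d h).2.2⟩
  have a1 : ∑ d ∈ A, ti2psi v (d / gp r d) ≤ dv r * (C3 * (Real.exp (v / 2) * (1 + v))) := by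
    have := bb_conv A (fun d hd => (hA' d hd).1.ne_zero) (fun d => {gp r d})
      (fun d _ g hg => by rw [Finset.mem_singleton.1 hg]; exact (gp_spec hr d).2.2.1) (pdiv r)
      (fun g => (A.filter (g ∣ ·)).image (· / g)) (fun _ m => ti2psi v m) (fun _ m => ti2psi_nonneg v m)
      fun d hd g hg => by
        rw [Finset.mem_singleton.1 hg]
        obtain ⟨b1, b2, b3, -⟩ := gp_spec hr d
        exact ⟨(mem_pdiv hr0).2 ⟨b1.1, b2⟩, Finset.mem_image_of_mem _ (Finset.mem_filter.2 ⟨hd, b3⟩)⟩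
    simp only [Finset.sum_singleton] at this
    refine this.trans ?_
    rw [dv, ← nsmul_eq_mul]
    refine Finset.sum_le_card_nsmul _ _ _ fun g _ => h3 v hv _ fun m hm => ?_
    obtain ⟨d, hd, rfl⟩ := Finset.mem_image.1 hm
    exact (bb_mul_div (hA' d (Finset.mem_filter.1 hd).1).1.ne_zero (Finset.mem_filter.1 hd).2).2.2
  have a2 := h2 r hr.1 Δ hΔ A hA'
  have d0 := bb_dv_nonneg r
  calc ∑ n ∈ S, ‖a n‖ * w n ≤ ∑ n ∈ S, ∑ _d ∈ ti2D r Δ n, w n := by
        refine Finset.sum_le_sum fun n _ => ?_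
        rw [Finset.sum_const, nsmul_eq_mul]
        exact mul_le_mul_of_nonneg_right (ha n) (w0 n)
    _ = ∑ d ∈ A, ∑ n ∈ S.filter (fun n => d ∈ ti2D r Δ n), w n :=
        Finset.sum_comm' fun n d => by
          simp only [hA, Finset.mem_filter, Finset.mem_biUnion]
          exact ⟨fun h => ⟨h, n, h⟩, fun h => h.1⟩
    _ ≤ ∑ d ∈ A, C1 * Real.exp (-s.re * v) * (Real.exp v / T * (N (EuclideanDomain.gcd r d) / N d ^ 2) +
          ti2psi v (d / gp r d)) := by
        refine Finset.sum_le_sum fun d hd => ?_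
        have hd' := (hA' d hd).1
        obtain ⟨b1, b2, b3, b4⟩ := ti2e_spec hr hd'
        rw [← b2]
        refine h1 (-s.re) v T (by rw [abs_neg]; linarith) hT _ _ b1.ne_zero
          (hd'.div (gp_spec hr d).1.1 (gp_spec hr d).2.2.1).ne_zero b3 _ fun n hn => ?_
        obtain ⟨c1, c2⟩ := Finset.mem_filter.1 hn
        exact ⟨hS n c1, (b4 n).1 (hD n c1 d c2).2.1⟩
    _ ≤ C1 * Real.exp (-s.re * v) * (Real.exp v / T * (C2 * dv r / Δ) +
          dv r * (C3 * (Real.exp (v / 2) * (1 + v)))) := by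
        rw [← Finset.mul_sum, Finset.sum_add_distrib, ← Finset.mul_sum]
        gcongr
    _ = C1 * (C2 * (dv r * Real.exp v / (T * Δ)) + C3 * (dv r * Real.exp (v / 2) * (1 + v))) *
          Real.exp (-(s.re * v)) := by
        rw [neg_mul]; field_simp
    _ ≤ _ := by
        have x0 : 0 ≤ dv r * Real.exp v / (T * Δ) := by positivity
        have y0 : 0 ≤ dv r * Real.exp (v / 2) * (1 + v) := by positivity
        rw [mul_assoc C1 (C2 + C3)]
        gcongr
        nlinarith [mul_nonneg p2 y0, mul_nonneg p3 x0]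

/-- the proof of `mu2_win` with `lw` for `phr k` (`gs_phr_zero`, trivial bound `G = N(9k)`) -/
theorem mu2_chi : ∃ C : ℝ, 0 ≤ C ∧ ∀ r k : O, SF r → k ≠ 0 → NP k → ∀ (Δ v T : ℝ) (s : ℂ), 1 ≤ Δ →
    0 ≤ v → 1 ≤ T → |s.re| ≤ 4 →
    ‖winS (fun m => if SF (r * m) then cub m k else 0) v T s‖ ≤
      C * (Δ * N k * (T + |s.im|) + dv r * Real.exp v / (T * Δ) +
        dv r * Real.exp (v / 2) * (1 + v)) * Real.exp (-(s.re * v)) := by
  obtain ⟨C1, p1, h1⟩ := lw 0
  obtain ⟨C3, p3, h3⟩ := m1_tail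
  refine ⟨18 * 81 * C1 + C3, by positivity, fun r k hr hk hP Δ v T s hΔ hv hT hs => ?_⟩
  have hr0 := hr.1.ne_zero
  have h9 : N 9 = 81 := by
    rw [N, show nm 9 = 81 by decide]
    norm_num
  have hq := mul_ne_zero (show (9 : O) ≠ 0 by decide) hk
  set I := (ball Δ).filter Prim with hI
  have pA : ∀ d, PolyBd fun m => mu d * dvR (ti2e r d) (phr k) m := fun d =>
    vd_poly_smul _ (polyBd_of_le (M := 1) fun m => by
      unfold dvR
      split_ifs
      exacts [norm_phr_le k m, by simp])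
  have hT' : ∀ n, ‖ti2tail 0 r Δ n * phr k n‖ ≤ (ti2D r Δ n).card := fun n => by
    rw [norm_mul]
    exact (mul_le_of_le_one_right (norm_nonneg _) (norm_phr_le k n)).trans (ti2tail_le 0 hr0 Δ n)
  have pT : PolyBd (fun n => ti2tail 0 r Δ n * phr k n) := ⟨N r, 1, fun m hm => by
    refine (hT' m).trans ?_
    rw [pow_one, ← N_mul]
    refine le_trans ?_ (card_pdiv_le_N (mul_ne_zero hr0 hm))
    exact_mod_cast Finset.card_filter_le _ _⟩
  have e1 : winS (fun m => if SF (r * m) then cub m k else 0) v T s =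
      winS (fun n => ti2tail 0 r Δ n * phr k n) v T s + ∑ d ∈ I,
        winS (fun m => mu d * dvR (ti2e r d) (phr k) m) v T s := by
    rw [← winS_sum I (fun d _ => pA d) v hT, ← winS_add pT (vd_poly_sum I fun d _ => pA d) v hT]
    congr 1
    funext m
    have := congrArg (· * phr k m) (ti2_split 0 hr Δ m)
    simp only [add_mul, Finset.sum_mul, zpow_zero] at this
    refine Eq.trans ?_ (this.trans ?_)
    · split_ifs with hc
      · rw [one_mul, phr, if_pos (hc.1.of_mul_left hr.1)]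
      · rw [zero_mul]
    · congr 1
      refine Finset.sum_congr rfl fun d _ => ?_
      unfold dvR prim phr
      split_ifs <;> simp
  have e2 : ∀ d ∈ I, ‖winS (fun m => mu d * dvR (ti2e r d) (phr k) m) v T s‖ ≤
      C1 * (81 * N k) * (T + |s.im|) * Real.exp (-(s.re * v)) := by
    intro d hd
    obtain ⟨b1, -⟩ := ti2e_spec hr (Finset.mem_filter.1 hd).2
    set e := ti2e r d
    have b3 : (fun m => phr k (e * m)) = fun m => cub e k * (phr k m * ang m ^ (0 : ℤ)) := by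
      funext m
      unfold phr
      by_cases hm : Prim m
      · rw [if_pos hm, if_pos (b1.mul hm), zpow_zero, mul_one]
        exact sym_mul_left 3 b1.ne_zero hm.ne_zero k
      · rw [if_neg hm, if_neg fun h => hm (h.of_mul_left b1), zero_mul, mul_zero]
    have b4 := h1 (9 * k) (phr k) (N (9 * k)) hq (phr_per hk)
      (fun j _ => norm_gs_le hq (norm_phr_le k) j) (v - lg e) T s hT hs
    rw [gs_phr_zero hk hP, mul_zero, zero_div, ite_self, zero_mul, sub_zero, N_mul, h9] at b4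
    rw [winS_smul, winS_dvR b1.ne_zero, b3, winS_smul, norm_mul, norm_mul, norm_mul,
      ← ti2_norm_cpow b1.ne_zero s v]
    refine (mul_le_of_le_one_left (by positivity) (norm_mu_le d)).trans ?_
    refine (mul_le_mul_of_nonneg_left ((mul_le_of_le_one_left (norm_nonneg _)
      ((rcub_isChar b1).norm_le b1.ne_zero k)).trans b4) (norm_nonneg _)).trans_eq ?_
    ring
  have cI : (I.card : ℝ) ≤ 18 * Δ :=
    le_trans (by exact_mod_cast Finset.card_filter_le _ _) (card_ball_le (by linarith))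
  have d0 := bb_dv_nonneg r
  have n0 := N_nonneg k
  have x0 : 0 ≤ Δ * N k * (T + |s.im|) := by positivity
  have y0 : 0 ≤ dv r * Real.exp v / (T * Δ) := by positivity
  have z0 : 0 ≤ dv r * Real.exp (v / 2) * (1 + v) := by positivity
  rw [e1]
  calc _ ≤ C3 * (dv r * Real.exp v / (T * Δ) + dv r * Real.exp (v / 2) * (1 + v)) * Real.exp (-(s.re * v)) +
          18 * Δ * (C1 * (81 * N k) * (T + |s.im|) * Real.exp (-(s.re * v))) := by
        refine (norm_add_le _ _).trans (add_le_add (h3 _ r hr Δ v T s hΔ hv hT hs hT') ?_)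
        refine (norm_sum_le _ _).trans ((Finset.sum_le_card_nsmul _ _ _ e2).trans ?_)
        rw [nsmul_eq_mul]
        gcongr
    _ = (18 * 81 * C1 * (Δ * N k * (T + |s.im|)) + C3 * (dv r * Real.exp v / (T * Δ) +
          dv r * Real.exp (v / 2) * (1 + v))) * Real.exp (-(s.re * v)) := by ring
    _ ≤ _ := by
        gcongr ?_ * _
        nlinarith [mul_nonneg p1 y0, mul_nonneg p1 z0, mul_nonneg p3 x0]

/-- for `b' ∈ (B, 2B]` the window at `lg b'` does not see the outside of `(B/2, 4B]`: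
`gw (H x) ≤ e^{-H²/5} gw x` for `|x| ≥ log 2`, `H ≥ 2`; `an_pow` -/
theorem win_cut : ∃ C : ℝ, 0 ≤ C ∧ ∀ (a : O → ℂ) (M B H u : ℝ) (s : ℂ), (∀ n, ‖a n‖ ≤ M) →
    (∀ n, a n ≠ 0 → SF n) → 1 ≤ B → 2 ≤ H → Real.log B ≤ u → u ≤ Real.log (2 * B) → |s.re| ≤ 4 →
    ‖∑ b ∈ sfI (B / 2) (4 * B), a b * pw (B / 2) b s * (gw (H * (lg b - u)) : ℂ) -
        ((B / 2 : ℝ) : ℂ) ^ (-s) * winS a u H (-s)‖ ≤ C * M * B * Real.exp (-(H ^ 2 / 5)) := by
  obtain ⟨C, hC, h⟩ := an_pow
  refine ⟨512 * C, by positivity, fun a M B H u s hM ha hB hH hu1 hu2 hs => ?_⟩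
  have hM0 : 0 ≤ M := (norm_nonneg _).trans (hM 0)
  have hB0 : 0 < B := by linarith
  have hB2 : 0 < B / 2 := by linarith
  set S := sfI (B / 2) (4 * B) with hS
  have e1 : winS a u H (-s) = winS (fun n => if n ∈ S then a n else 0) u H (-s) +
      winS (fun n => if n ∈ S then 0 else a n) u H (-s) := by
    rw [← winS_add (polyBd_of_le (M := M) fun n => by split_ifs; exacts [hM n, by simpa])
      (polyBd_of_le (M := M) fun n => by split_ifs; exacts [by simpa, hM n]) u (by linarith)]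
    congr 1
    funext n
    split_ifs <;> simp
  have e2 : ((B / 2 : ℝ) : ℂ) ^ (-s) * winS (fun n => if n ∈ S then a n else 0) u H (-s) =
      ∑ b ∈ S, a b * pw (B / 2) b s * (gw (H * (lg b - u)) : ℂ) := by
    rw [winS, tsum_eq_sum (s := S) fun n hn => by simp [hn], Finset.mul_sum]
    refine Finset.sum_congr rfl fun n hn => ?_
    have hn0 := (mem_sfI.1 hn).1.1.ne_zero
    have e3 : pw (B / 2) n s = (N n : ℂ) ^ s * ((B / 2 : ℝ) : ℂ) ^ (-s) := by
      rw [pw, div_eq_mul_inv (N n), Complex.ofReal_mul, Complex.mul_cpow_ofReal_nonneg (N_nonneg n)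
        (by positivity), Complex.ofReal_inv, Complex.inv_cpow _ _ (by
          rw [Complex.arg_ofReal_of_nonneg hB2.le]; exact Real.pi_pos.ne), Complex.cpow_neg]
    rw [if_neg hn0, if_pos hn, neg_neg, e3]
    ring
  have hl2 := Real.log_two_gt_d9
  have e3 : ‖winS (fun n => if n ∈ S then 0 else a n) u H (-s)‖ ≤
      M * Real.exp (-(H ^ 2 / 5)) * (C * Real.exp (s.re * u) * Real.exp u) := by
    refine ti2_winS_le fun R hR => ?_
    refine le_trans ?_ (mul_le_mul_of_nonneg_left (h s.re u 1 (by linarith) le_rfl R hR).2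
      (by positivity))
    rw [Finset.mul_sum]
    refine Finset.sum_le_sum fun n hn => ?_
    have n0 := N_pos (hR n hn)
    have g0 := gw_pos (1 * (lg n - u))
    by_cases hc : n ∈ S
    · rw [if_pos hc, norm_zero, zero_mul]; positivity
    by_cases ha0 : a n = 0
    · rw [if_neg hc, ha0, norm_zero, zero_mul]; positivity
    have b1 : (0.48 : ℝ) ≤ (lg n - u) ^ 2 := by
      rw [hS, mem_sfI, not_and, not_and_or, not_lt, not_le] at hc
      rcases hc (ha n ha0) with c | c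
      · have := Real.log_le_log n0 c
        rw [Real.log_div hB0.ne' two_ne_zero] at this
        unfold lg
        nlinarith
      · have := Real.log_le_log (by positivity) c.le
        rw [show 4 * B = 2 * (2 * B) by ring, Real.log_mul two_ne_zero (by positivity)] at this
        unfold lg
        nlinarith
    have b2 : gw (H * (lg n - u)) ≤ Real.exp (-(H ^ 2 / 5)) * gw (1 * (lg n - u)) := by
      rw [gw, gw, ← Real.exp_add, mul_pow, one_mul]
      refine Real.exp_le_exp.2 ?_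
      have : 4 ≤ H ^ 2 := by nlinarith
      nlinarith
    have := hM n
    have := gw_pos (H * (lg n - u))
    rw [if_neg hc, Complex.neg_re, neg_neg]
    calc _ ≤ M * (N n ^ s.re * (Real.exp (-(H ^ 2 / 5)) * gw (1 * (lg n - u)))) := by gcongr
      _ = _ := by ring
  have e4 : ‖((B / 2 : ℝ) : ℂ) ^ (-s)‖ * Real.exp (s.re * u) ≤ 256 := by
    rw [Complex.norm_cpow_eq_rpow_re_of_pos hB2, Real.rpow_def_of_pos hB2, ← Real.exp_add,
      Real.log_div hB0.ne' two_ne_zero, Complex.neg_re, ← Real.le_log_iff_exp_le (by norm_num),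
      show (256 : ℝ) = 2 ^ 8 by norm_num, Real.log_pow]
    rw [Real.log_mul two_ne_zero hB0.ne'] at hu2
    have := abs_le.1 hs
    push_cast
    nlinarith
  have e5 : Real.exp u ≤ 2 * B := (Real.le_log_iff_exp_le (by positivity)).1 hu2
  rw [e1, mul_add, e2, sub_add_cancel_left, norm_neg, norm_mul]
  calc _ ≤ _ := mul_le_mul_of_nonneg_left e3 (norm_nonneg _)
    _ = C * M * Real.exp (-(H ^ 2 / 5)) * (‖((B / 2 : ℝ) : ℂ) ^ (-s)‖ * Real.exp (s.re * u)) *
        Real.exp u := by ring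
    _ ≤ C * M * Real.exp (-(H ^ 2 / 5)) * 256 * (2 * B) := by gcongr
    _ = _ := by ring

end Crest.Agent.R12
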