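import Crest.Agent.R12.SW3

/-!
# R12 / SW4 : Siegel–Walfisz for the type II coefficients
-/

set_option autoImplicit false

noncomputable section

open scoped Classical ComplexConjugate Topology
open MeasureTheory Filter

namespace Crest.Agent.R12

open Crest.Agent.R17

/-- large prime factors -/
def s4L (z : ℝ) (b : O) : Finset O := (pf b).filter fun p => z < N p

/-- the primes that belong to `m` -/
def s4P (z B : ℝ) (m : O) : Finset O := (sfI (max (B / N m) z) (2 * (B / N m))).filter Prime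

theorem s4_mem {z B : ℝ} {m p : O} (hm : m ≠ 0) :
    p ∈ s4P z B m ↔ Prime p ∧ Prim p ∧ z < N p ∧ B < N (p * m) ∧ N (p * m) ≤ 2 * B := by
  rw [s4P, Finset.mem_filter, mem_sfI, max_lt_iff, div_lt_iff₀ (N_pos hm), ← mul_div_assoc,
    le_div_iff₀ (N_pos hm), N_mul]
  exact ⟨fun h => ⟨h.2, h.1.1.1, h.1.2.1.2, h.1.2.1.1, h.1.2.2⟩,
    fun h => ⟨⟨⟨h.2.1, h.1.squarefree⟩, ⟨h.2.2.2.1, h.2.2.1⟩, h.2.2.2.2⟩, h.1⟩⟩

/-- Ramaré's identity -/
theorem s4_ram {z B : ℝ} (hz : 0 < z) (f : O → ℂ) : ∑ b ∈ sfI B (2 * B), f b =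
    ∑ b ∈ (sfI B (2 * B)).filter (fun b => ∀ p ∈ pf b, N p ≤ z), f b +
      ∑ m ∈ sfb (2 * B / z), ∑ p ∈ (s4P z B m).filter (fun p => ¬ p ∣ m),
        f (p * m) / ((s4L z m).card + 1) := by
  have h1 : ∑ m ∈ sfb (2 * B / z), ∑ p ∈ (s4P z B m).filter (fun p => ¬ p ∣ m),
      f (p * m) / ((s4L z m).card + 1) = ∑ b ∈ sfI B (2 * B), ∑ p ∈ s4L z b, f b / (s4L z b).card := by
    rw [Finset.sum_sigma', Finset.sum_sigma']
    refine Finset.sum_nbij' (fun q => ⟨q.2 * q.1, q.2⟩) (fun q => ⟨q.1 / q.2, q.2⟩) ?_ ?_ ?_ ?_ ?_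
    · rintro ⟨m, p⟩ h
      simp only [Finset.mem_sigma, Finset.mem_filter, mem_sfb] at h
      obtain ⟨⟨a1, -⟩, a2, a3⟩ := h
      obtain ⟨b1, b2, b3, b4, b5⟩ := (s4_mem a1.1.ne_zero).1 a2
      simp only [Finset.mem_sigma, s4L, Finset.mem_filter, mem_sfI]
      exact ⟨⟨b1_sf_mul ⟨b2, b1.squarefree⟩ a1 (b1.coprime_iff_not_dvd.2 a3), b4, b5⟩,
        (mem_pf (mul_ne_zero b1.ne_zero a1.1.ne_zero)).2 ⟨b1, b2, dvd_mul_right _ _⟩, b3⟩
    · rintro ⟨b, p⟩ h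
      simp only [Finset.mem_sigma, s4L, Finset.mem_filter, mem_sfI] at h
      obtain ⟨⟨a1, a2, a3⟩, a4, a5⟩ := h
      obtain ⟨b1, b2, b3⟩ := (mem_pf a1.1.ne_zero).1 a4
      obtain ⟨c1, c2⟩ := a1.div b2 b3
      have e := EuclideanDomain.mul_div_cancel' b1.ne_zero b3
      simp only [Finset.mem_sigma, Finset.mem_filter, mem_sfb, s4_mem c1.1.ne_zero, e]
      refine ⟨⟨c1, (le_div_iff₀' hz).2 (le_trans ?_ a3)⟩, ⟨b1, b2, a5, a2, a3⟩, b1.coprime_iff_not_dvd.1 c2⟩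
      conv_rhs => rw [← e, N_mul]
      exact mul_le_mul_of_nonneg_right a5.le (N_nonneg _)
    · rintro ⟨m, p⟩ h
      simp only [Finset.mem_sigma, Finset.mem_filter, mem_sfb] at h
      simp only [mul_div_cancel_left₀ m ((s4_mem h.1.1.1.ne_zero).1 h.2.1).1.ne_zero]
    · rintro ⟨b, p⟩ h
      simp only [Finset.mem_sigma, s4L, Finset.mem_filter, mem_sfI] at h
      obtain ⟨b1, -, b3⟩ := (mem_pf h.1.1.1.ne_zero).1 h.2.1
      simp only [EuclideanDomain.mul_div_cancel' b1.ne_zero b3]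
    · rintro ⟨m, p⟩ h
      simp only [Finset.mem_sigma, Finset.mem_filter, mem_sfb] at h
      obtain ⟨⟨a1, -⟩, a2, a3⟩ := h
      obtain ⟨b1, b2, b3, -⟩ := (s4_mem a1.1.ne_zero).1 a2
      simp only [s4L]
      rw [b1_pf_prime_mul b1 b2 a1.1.ne_zero, Finset.filter_insert, if_pos b3, Finset.card_insert_of_notMem
        fun h => a3 ((mem_pf a1.1.ne_zero).1 (Finset.mem_filter.1 h).1).2.2, Nat.cast_succ]
  rw [h1, Finset.sum_filter, ← Finset.sum_add_distrib]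
  refine Finset.sum_congr rfl fun b _ => ?_
  rw [Finset.sum_const, nsmul_eq_mul]
  split_ifs with h
  · rw [s4L, Finset.filter_false_of_mem fun p hp => not_lt.2 (h p hp)]
    simp
  · push Not at h
    obtain ⟨p, hp, hp'⟩ := h
    rw [zero_add, mul_div_cancel₀ _ (Nat.cast_ne_zero.2
      (Finset.card_pos.2 ⟨p, Finset.mem_filter.2 ⟨hp, hp'⟩⟩).ne')]

theorem s4_pw {x : ℝ} (hx : 0 < x) {n : O} (h1 : x ≤ N n) (h2 : N n ≤ 2 * x) {s : ℂ} (hs : |s.re| ≤ 4) :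
    ‖pw x n s‖ ≤ 16 := by
  rw [pw, Complex.norm_cpow_eq_rpow_re_of_pos (div_pos (by linarith) hx)]
  refine (Real.rpow_le_rpow_of_exponent_le ((one_le_div hx).2 h1)
    ((le_abs_self _).trans (hs.trans_eq (Nat.cast_ofNat (n := 4)).symm))).trans ?_
  rw [Real.rpow_natCast]
  exact (pow_le_pow_left₀ (div_pos (by linarith) hx).le ((div_le_iff₀ hx).2 h2) 4).trans (by norm_num)

theorem s4_box (x1 x2 : ℝ) (j : ℕ) : ((sfI x1 x2).filter Prime).filter (fun p => box p = j) =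
    (sfI (max x1 (2 ^ j - 1)) (min x2 (2 ^ (j + 1) - 1))).filter Prime := by
  ext p
  simp only [Finset.mem_filter, mem_sfI, max_lt_iff, le_min_iff]
  have h : Prime p → (box p = j ↔ 2 ^ j - 1 < N p ∧ N p ≤ 2 ^ (j + 1) - 1) := fun hp => by
    rw [box, Nat.log_eq_iff (Or.inr ⟨one_lt_two, (nm_pos hp.ne_zero).ne'⟩), N, sub_lt_iff_lt_add,
      le_sub_iff_add_le]
    norm_cast
    rw [Nat.lt_succ_iff, Nat.succ_le_iff]
  tauto

theorem s4_sum {y x x1 x2 D : ℝ} (hy : 1 ≤ y) (h2 : x2 ≤ 2 * Real.exp y) {a : O → ℂ} {g : ℕ → ℂ}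
    (hg : ∀ j, ‖g j‖ ≤ 1) (h1 : x ≤ x1) (h : ∀ u v, x ≤ u → v ≤ x2 → ‖∑ p ∈ (sfI u v).filter Prime, a p‖ ≤ D) :
    ‖∑ p ∈ (sfI x1 x2).filter Prime, g (box p) * a p‖ ≤ 4 * y * D := by
  have h3 : ∀ p ∈ (sfI x1 x2).filter Prime, box p ∈ Finset.range (⌊3 * y⌋₊ + 1) := fun p hp => by
    obtain ⟨a1, -, a2⟩ := mem_sfI.1 (Finset.mem_filter.1 hp).1
    have a3 : (2 : ℝ) ^ box p ≤ N p := by
      unfold N
      exact_mod_cast Nat.pow_log_le_self 2 (nm_pos a1.1.ne_zero).ne'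
    have a4 := Real.log_le_log (by positivity) (a3.trans (a2.trans h2))
    rw [Real.log_pow, Real.log_mul two_ne_zero (Real.exp_ne_zero _), Real.log_exp] at a4
    refine Finset.mem_range.2 (Nat.lt_succ_of_le (Nat.le_floor ?_))
    nlinarith [Real.log_two_gt_d9, Real.log_two_lt_d9, Nat.cast_nonneg (α := ℝ) (box p)]
  have hD : 0 ≤ D := (norm_nonneg _).trans (h x x2 le_rfl le_rfl)
  rw [← Finset.sum_fiberwise_of_maps_to h3]
  refine (norm_sum_le_of_le _ (n := fun _ => D) fun j _ => ?_).trans ?_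
  · rw [Finset.sum_congr rfl fun p hp => by rw [(Finset.mem_filter.1 hp).2], ← Finset.mul_sum, norm_mul, s4_box]
    exact (mul_le_of_le_one_left (norm_nonneg _) (hg j)).trans
      (h _ _ (h1.trans (le_max_left _ _)) (min_le_left _ _))
  · rw [Finset.sum_const, Finset.card_range, nsmul_eq_mul, Nat.cast_succ]
    gcongr
    linarith [Nat.floor_le (show 0 ≤ 3 * y by linarith)]

theorem s4_pow (n : ℕ) {y : ℝ} (hy : (((2 * n + 1).factorial : ℕ) : ℝ) ^ 2 ≤ y) : y ^ n ≤ Real.exp √y := by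
  have h0 : (0 : ℝ) < ((2 * n + 1).factorial : ℕ) := by positivity
  have h1 := Real.le_sqrt_of_sq_le hy
  have h2 := Real.pow_div_factorial_le_exp √y (Real.sqrt_nonneg y) (2 * n + 1)
  refine le_trans ((le_div_iff₀ h0).2 ?_) h2
  rw [pow_succ, pow_mul, Real.sq_sqrt (le_trans (by positivity) hy)]
  exact mul_le_mul_of_nonneg_left h1 (pow_nonneg (le_trans (by positivity) hy) _)

/-- `z = e^{√y}`.  The `z`-smooth `b` are negligible (`smooth_small`).  For the others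
`1 = ∑_{p ∣ b, N p > z} 1/ω_z(b)`, `b = m p`, `ω_z(b) = ω_z(m) + 1`, `bx b = bx m + {box p}` (`bx_mul`),
`Rough w b ↔ Rough w m` (`w ≤ z`), `pw B (m p) s = pw (B/N m) p s`.  Drop the condition `p ∤ m`
(cost `≤ C ∑_{N p > z} B/N p² ≤ C B/z`).  For fixed `m` and fixed box `j` (at most two boxes meet
`(x, 2x]`, `x = B/N m ≥ z/2`) the primes run over an interval `(x₁, x₂]`: `sw_prime`; `∑ 1/N m ≤ C y`. -/
theorem swB (ℓ : ℤ) (A C0 : ℕ) : ∃ y0 : ℝ, ∀ y : ℝ, y0 ≤ y → ∀ (F : Multiset ℕ → ℂ) (w B : ℝ) (k : O)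
    (s : ℂ), (∀ M, ‖F M‖ ≤ 1) → w ≤ Real.exp (Real.sqrt y) → Real.exp (y / 4) ≤ B →
    B ≤ Real.exp y → k ≠ 0 → N k ≤ y ^ C0 → NPl ℓ k → |s.re| ≤ 4 → |s.im| ≤ y ^ C0 →
    ‖∑ b ∈ sfI B (2 * B), bet w F b * ang b ^ ℓ * cub b k * pw B b s‖ ≤ B / y ^ A := by
  obtain ⟨y1, h1⟩ := smooth_small (A + 1)
  obtain ⟨y2, h2⟩ := sw_prime ℓ (A + 3) C0
  obtain ⟨C, h3⟩ := sum_ball_inv
  refine ⟨max (max y1 y2) (max ((((2 * (A + 2) + 1).factorial : ℕ) : ℝ) ^ 2) (1168 + 8 * |C|)),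
    fun y hy F w B k s hF hw hB hB' hk hk' hN hs hs' => ?_⟩
  simp only [max_le_iff] at hy
  obtain ⟨⟨e1, e2⟩, e3, e4⟩ := hy
  have hC := abs_nonneg C
  have hy : 2 ≤ y := by linarith
  have hz := s4_pow _ e3
  obtain ⟨z, hz'⟩ : ∃ z, Real.exp √y = z := ⟨_, rfl⟩
  have h1 := h1 y e1 B hB
  have h2 := fun x u v => h2 y e2 k s x u v hk hk' hN hs hs'
  rw [hz'] at hz hw h1 h2
  have hz2 : 2 ≤ z := hy.trans ((le_self_pow₀ (by linarith) (by omega)).trans hz)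
  have hB1 : 1 ≤ B := (Real.one_le_exp (by linarith)).trans hB
  have hBz : 2 * B / z ≤ B := (div_le_iff₀ (by linarith)).2 (by nlinarith)
  have hlog : Real.log B ≤ y := (Real.log_le_iff_le_exp (by linarith)).2 hB'
  obtain ⟨G, hG⟩ : ∃ G : O → ℕ → ℂ, ∀ m j, G m j = (if Rough w m then F ({j} + bx m) else 0) * ang m ^ ℓ *
    cub m k / ((s4L z m).card + 1) := ⟨_, fun _ _ => rfl⟩
  have hχ : ∀ (c : ℂ) (m : O), Prim m → ‖c‖ ≤ 1 → ‖c * ang m ^ ℓ * cub m k‖ ≤ 1 := fun c m hm hc => by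
    rw [norm_mul, norm_mul, norm_zpow, norm_ang hm.ne_zero, one_zpow, mul_one]
    exact mul_le_one₀ hc (norm_nonneg _) ((rcub_isChar hm).norm_le hm.ne_zero k)
  have hG1 : ∀ m, Prim m → ∀ j, ‖G m j‖ ≤ 1 := fun m hm j => by
    rw [hG, norm_div, ← Nat.cast_succ, Complex.norm_natCast]
    refine div_le_one_of_le₀ ((hχ _ m hm ?_).trans (by simp)) (Nat.cast_nonneg _)
    split_ifs
    exacts [hF _, by simp]
  have k1 : ‖∑ b ∈ (sfI B (2 * B)).filter (fun b => ∀ p ∈ pf b, N p ≤ z),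
      bet w F b * ang b ^ ℓ * cub b k * pw B b s‖ ≤ 16 * (B / y ^ (A + 1)) := by
    refine (norm_sum_le_of_le _ (n := fun _ => 16) fun b hb => ?_).trans ?_
    · obtain ⟨a1, a2, a3⟩ := mem_sfI.1 (Finset.mem_filter.1 hb).1
      rw [norm_mul]
      refine (mul_le_of_le_one_left (norm_nonneg _) (hχ _ b a1.1 ?_)).trans (s4_pw (by linarith) a2.le a3 hs)
      unfold bet
      split_ifs
      exacts [hF _, by simp]
    · rw [Finset.sum_const, nsmul_eq_mul, mul_comm]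
      gcongr
  have k2 : ∀ m ∈ sfb (2 * B / z), ‖∑ p ∈ (s4P z B m).filter (fun p => ¬ p ∣ m),
      bet w F (p * m) * ang (p * m) ^ ℓ * cub (p * m) k * pw B (p * m) s / ((s4L z m).card + 1)‖ ≤
      4 * y * (B / y ^ (A + 3)) * (N m)⁻¹ + 32 * y := fun m hm => by
    obtain ⟨a1, a2⟩ := mem_sfb.1 hm
    have a3 := one_le_N a1.1.ne_zero
    have a4 : B / N m ≤ Real.exp y := (div_le_self (by linarith) a3).trans hB'
    have a5 : z / 2 ≤ B / N m := by
      rw [le_div_iff₀' (by linarith)] at a2 ⊢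
      linarith
    rw [Finset.sum_congr rfl (g := fun p => G m (box p) * (xk ℓ k p * pw (B / N m) p s)) fun p hp => ?_,
      eq_sub_of_add_eq' (Finset.sum_filter_add_sum_filter_not (s4P z B m) (fun p => p ∣ m)
        fun p => G m (box p) * (xk ℓ k p * pw (B / N m) p s))]
    · refine (norm_sub_le _ _).trans (add_le_add ((s4_sum (y := y) (by linarith) (by linarith) (hG1 m a1.1)
        (le_max_left _ _) fun u v hu hv => h2 _ u v a5 (a4.trans (Real.exp_le_exp.2 (by linarith))) hu hv).trans_eq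
        (by ring)) ((norm_sum_le_of_le _ (n := fun _ => 16) fun p hp => ?_).trans ?_))
      · obtain ⟨b1, b2, b3⟩ := mem_sfI.1 (Finset.mem_filter.1 (Finset.mem_filter.1 hp).1).1
        rw [norm_mul, norm_mul]
        exact (mul_le_of_le_one_left (by positivity) (hG1 m a1.1 _)).trans
          ((mul_le_of_le_one_left (norm_nonneg _) (norm_xk_le _ _ _)).trans
            (s4_pw (by linarith) ((le_max_left _ _).trans b2.le) b3 hs))
      · have b1 : (((s4P z B m).filter fun p => p ∣ m).card : ℝ) ≤ (pf m).card :=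
          Nat.cast_le.2 (Finset.card_le_card fun p hp => by
            obtain ⟨c1, c2, -⟩ := (s4_mem a1.1.ne_zero).1 (Finset.mem_filter.1 hp).1
            exact (mem_pf a1.1.ne_zero).2 ⟨c1, c2, (Finset.mem_filter.1 hp).2⟩)
        have b2 := (card_pf_le a1.1.ne_zero).trans
          ((Real.log_le_log (by linarith) (a2.trans hBz)).trans hlog)
        rw [Finset.sum_const, nsmul_eq_mul]
        nlinarith [Real.log_two_gt_d9, Nat.cast_nonneg (α := ℝ) (pf m).card]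
    · obtain ⟨b0, b4⟩ := Finset.mem_filter.1 hp
      obtain ⟨b1, b2, b3, -⟩ := (s4_mem a1.1.ne_zero).1 b0
      have b5 : Rough w (p * m) ↔ Rough w m := by
        simp only [Rough, b1_pf_prime_mul b1 b2 a1.1.ne_zero, Finset.forall_mem_insert, hw.trans_lt b3, true_and]
      rw [hG, bet, b5, bx_mul b1.ne_zero a1.1.ne_zero (b1.coprime_iff_not_dvd.2 b4), bx_prime b1 b2, ang_mul,
        mul_zpow, rkub_mul_left b2 a1.1, xk, if_pos b2, pw, pw, N_mul, div_div_eq_mul_div]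
      ring
  have k3 : ∑ m ∈ sfb (2 * B / z), (N m)⁻¹ ≤ |C| * (2 * y) :=
    (Finset.sum_le_sum_of_subset_of_nonneg ((Finset.filter_subset _ _).trans (ball_mono hBz))
      fun n _ _ => inv_nonneg.2 (N_nonneg n)).trans ((h3 B hB1).trans (mul_le_mul (le_abs_self C)
        (by linarith) (by linarith [Real.log_nonneg hB1]) hC))
  have k4 : ((sfb (2 * B / z)).card : ℝ) ≤ 18 * (2 * B / y ^ (A + 2)) :=
    (Nat.cast_le.2 (Finset.card_le_card (Finset.filter_subset _ _))).trans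
      ((card_ball_le (by positivity)).trans (by gcongr))
  have hy0 : 0 < y := by linarith
  rw [s4_ram (show 0 < z by linarith)]
  refine (norm_add_le_of_le k1 (norm_sum_le_of_le _ k2)).trans ?_
  rw [Finset.sum_add_distrib, ← Finset.mul_sum, Finset.sum_const, nsmul_eq_mul]
  calc _ ≤ 16 * (B / y ^ (A + 1)) + (4 * y * (B / y ^ (A + 3)) * (|C| * (2 * y)) +
        18 * (2 * B / y ^ (A + 2)) * (32 * y)) := by gcongr
    _ = (1168 + 8 * |C|) * (B / y ^ (A + 1)) := by field_simp; ring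
    _ ≤ y * (B / y ^ (A + 1)) := by gcongr
    _ = _ := by field_simp; ring

end Crest.Agent.R12
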