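import Crest.Agent.R12.Mod1
import Crest.Agent.R12.SW4

/-!
# R12 / Mod2 : the model `β♯`: size and equidistribution of `β - β♯`
-/

set_option autoImplicit false

noncomputable section

open scoped Classical ComplexConjugate Topology
open MeasureTheory Filter

namespace Crest.Agent.R12

open Crest.Agent.R17

/-- `β - β♯` -/
def gam0 (B : ℝ) (β : O → ℂ) (D1 : ℝ) (b : O) : ℂ :=
  (if b ∈ sfI B (2 * B) then β b else 0) - mdl (sfI B (2 * B)) β D1 D1 b

theorem m2_ev (K : ℝ) (n : ℕ) : ∃ y0 : ℝ, 4 ≤ y0 ∧ ∀ y, y0 ≤ y → K * y ^ n ≤ Real.exp (y / 8) := by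
  obtain ⟨y0, h4, h⟩ := bb_exp_sqrt (κ := 1 / 8) (by norm_num) K n
  refine ⟨y0, h4, fun y hy => ?_⟩
  have h1 := h y hy
  have h2 : Real.sqrt y ≤ y := by rw [Real.sqrt_le_left (by linarith)]; nlinarith
  rw [Real.exp_neg, ← div_eq_mul_inv, div_le_one (Real.exp_pos _)] at h1
  exact h1.trans (Real.exp_le_exp.2 (by linarith))

theorem m2_log {x y : ℝ} (hx : 0 < x) (hy : 4 ≤ y) (h : x ≤ 4 * Real.exp y) :
    1 + Real.log x ≤ 2 * y := by
  have h1 := Real.log_le_log hx h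
  rw [Real.log_mul (by norm_num) (Real.exp_pos _).ne', Real.log_exp] at h1
  have := Real.log_le_sub_one_of_pos (by norm_num : (0 : ℝ) < 4)
  linarith

theorem m2_card {B : ℝ} (hB : 0 ≤ B) : ((sfI B (2 * B)).card : ℝ) ≤ 36 * B := by
  have h1 := card_ball_le (X := 2 * B) (by linarith)
  have h2 : ((sfI B (2 * B)).card : ℝ) ≤ (ball (2 * B)).card := by
    exact_mod_cast Finset.card_filter_le _ _
  linarith

/-- `lam_conv`, `norm_Wb_le`, `sum_dv 5`; `log (y^{C₂}) ≤ y` -/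
theorem mdl_nt : ∃ C0 : ℕ, ∀ C2 : ℕ, ∃ y0 : ℝ, ∀ y : ℝ, y0 ≤ y → ∀ (B : ℝ) (β : O → ℂ),
    Real.exp (y / 4) ≤ B → B ≤ Real.exp y → (∀ b, ‖β b‖ ≤ 1) →
    nt (sfI (B / 2) (4 * B)) (mdl (sfI B (2 * B)) β (y ^ C2) (y ^ C2)) ≤ B * y ^ C0 ∧
    nt (sfI (B / 2) (4 * B)) (gam0 B β (y ^ C2)) ≤ B * y ^ C0 := by
  obtain ⟨C, B0, hC, h1⟩ := lam_conv
  obtain ⟨C', hC', h2⟩ := norm_Wb_le
  obtain ⟨C'', B1, hC'', h3⟩ := sum_dv 5
  refine ⟨2 * B0 + B1 + 1, fun C2 => ?_⟩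
  obtain ⟨y1, hy1, h4⟩ := m2_ev 1 C2
  refine ⟨max y1 ((1 + C * C') ^ 2 * 2 ^ (2 * B0) * (C'' * 4 * 2 ^ B1)),
    fun y hy B β hB1 hB2 hβ => ?_⟩
  have hy' := (le_max_left _ _).trans hy
  have hK := (le_max_right _ _).trans hy
  have hy4 : 4 ≤ y := hy1.trans hy'
  have h5 := h4 y hy'
  rw [one_mul] at h5
  have hD : 1 ≤ y ^ C2 := one_le_pow₀ (by linarith)
  have hB : 1 ≤ B := le_trans (Real.one_le_exp (by linarith)) hB1
  have h6 : (y ^ C2) ^ 2 ≤ B := by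
    refine (pow_le_pow_left₀ (by linarith) h5 2).trans (le_trans (le_of_eq ?_) hB1)
    rw [← Real.exp_nat_mul]; congr 1; push_cast; ring
  have h7 : 1 + Real.log (y ^ C2) ≤ 2 * y := m2_log (by linarith) hy4 (by
    have := Real.exp_le_exp.2 (show y / 8 ≤ y by linarith)
    have := Real.exp_pos y
    linarith)
  have h8 : (1 + Real.log (y ^ C2)) ^ B0 ≤ (2 * y) ^ B0 :=
    pow_le_pow_left₀ (by linarith [Real.log_nonneg hD]) h7 _
  have h9 : 1 ≤ (2 * y) ^ B0 := one_le_pow₀ (by linarith)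
  have hm : ∀ b, SF b → ‖mdl (sfI B (2 * B)) β (y ^ C2) (y ^ C2) b‖ ≤
      C * C' * (dv b * (2 * y) ^ B0) := fun b hb => by
    have := bb_dv_nonneg b
    rw [mdl, norm_mul]
    calc _ ≤ C * dv b * (2 * y) ^ B0 * C' := mul_le_mul ((h1 _ b hD hb).trans (by gcongr))
          (h2 B _ _ β hD h6 hβ) (norm_nonneg _) (by positivity)
      _ = _ := by ring
  have key : ∀ x : O → ℂ, (∀ b, SF b → ‖x b‖ ≤ (1 + C * C') * (dv b * (2 * y) ^ B0)) →
      nt (sfI (B / 2) (4 * B)) x ≤ B * y ^ (2 * B0 + B1 + 1) := fun x hx => by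
    have a1 : nt (sfI (B / 2) (4 * B)) x ≤
        ∑ b ∈ ball (4 * B), ((1 + C * C') * (2 * y) ^ B0) ^ 2 * dv b ^ 5 := by
      refine le_trans (Finset.sum_le_sum fun b hb => ?_) (Finset.sum_le_sum_of_subset_of_nonneg
        (Finset.filter_subset _ _) fun b _ _ => by have := bb_dv_nonneg b; positivity)
      have := bb_dv_nonneg b
      calc _ ≤ ((1 + C * C') * (dv b * (2 * y) ^ B0)) ^ 2 * dv b ^ 3 := by
            gcongr; exact hx b (mem_sfI.1 hb).1
        _ = _ := by ring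
    rw [← Finset.mul_sum] at a1
    have a2 := h3 (4 * B) (by linarith)
    have a3 : (1 + Real.log (4 * B)) ^ B1 ≤ (2 * y) ^ B1 :=
      pow_le_pow_left₀ (by linarith [Real.log_nonneg (show 1 ≤ 4 * B by linarith)])
        (m2_log (by linarith) hy4 (by linarith)) _
    calc _ ≤ ((1 + C * C') * (2 * y) ^ B0) ^ 2 * (C'' * (4 * B) * (2 * y) ^ B1) :=
          a1.trans (mul_le_mul_of_nonneg_left (a2.trans (by gcongr)) (by positivity))
      _ = B * y ^ (2 * B0 + B1) * ((1 + C * C') ^ 2 * 2 ^ (2 * B0) * (C'' * 4 * 2 ^ B1)) := by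
          simp only [mul_pow]; ring
      _ ≤ B * y ^ (2 * B0 + B1) * y := by gcongr
      _ = _ := by ring
  have hd : ∀ b, SF b → 1 ≤ dv b * (2 * y) ^ B0 := fun b hb =>
    one_le_mul_of_one_le_of_one_le (one_le_dv hb.1.ne_zero) h9
  refine ⟨key _ fun b hb => (hm b hb).trans ?_, key _ fun b hb => ?_⟩
  · have := hd b hb
    linarith
  · have a1 : ‖if b ∈ sfI B (2 * B) then β b else 0‖ ≤ 1 := by
      split_ifs
      · exact hβ b
      · simp
    have := hd b hb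
    have := hm b hb
    refine (norm_sub_le _ _).trans ?_
    linarith

/-- the weight in `Wb` -/
def m2c (H : ℝ) (b : O) : ℝ := H / (Real.sqrt Real.pi * (c0 / 9) * N b)

theorem m2_exp : ∃ C : ℝ, 0 ≤ C ∧ ∀ (B H : ℝ) (β g : O → ℂ) (h : O) (s : ℂ) (Mn : O → O → ℂ) (E : ℝ),
    1 ≤ B → 2 ≤ H → (∀ b, ‖β b‖ ≤ 1) → (∀ b, ‖g b‖ ≤ 1) → SF h → |s.re| ≤ 4 → 0 ≤ E →
    (∀ d ∈ sfb H, ∀ b' ∈ sfI B (2 * B), ‖((B / 2 : ℝ) : ℂ) ^ (-s) * ((N (lc h d) : ℂ) ^ s *
      winS (fun m => if SF (lc h d * m) then g (lc h d * m / h) else 0) (lg b' - lg (lc h d)) H (-s))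
        - Mn d b'‖ ≤ E) →
    ‖∑ b ∈ (sfI (B / 2) (4 * B)).filter (fun b => h ∣ b),
        mdl (sfI B (2 * B)) β H H b * g (b / h) * pw (B / 2) b s -
      ∑ d ∈ sfb H, ∑ b' ∈ sfI B (2 * B), lamD H d * (β b' * (m2c H b' : ℂ)) * Mn d b'‖ ≤
      C * H ^ 4 * (E + B * Real.exp (-(H ^ 2 / 5))) := by
  obtain ⟨C, hC, hcut⟩ := win_cut
  refine ⟨324 * 324 * (1 + C), by positivity, fun B H β g h s Mn E hB hH hβ hg hh hs hE hM => ?_⟩
  set a : O → O → ℂ := fun d => dvR (lc h d) (fun b => if SF b then g (b / h) else 0) with ha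
  have e1 : ∑ b ∈ (sfI (B / 2) (4 * B)).filter (fun b => h ∣ b),
        mdl (sfI B (2 * B)) β H H b * g (b / h) * pw (B / 2) b s =
      ∑ d ∈ sfb H, ∑ b' ∈ sfI B (2 * B), lamD H d * (β b' * (m2c H b' : ℂ)) *
        ∑ b ∈ sfI (B / 2) (4 * B), a d b * pw (B / 2) b s * (gw (H * (lg b - lg b')) : ℂ) := by
    simp only [Finset.mul_sum]
    rw [Finset.sum_filter]
    refine Eq.trans (Finset.sum_congr rfl fun b hb => ?_) (Finset.sum_comm.trans
      (Finset.sum_congr rfl fun d _ => Finset.sum_comm))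
    have hb' := (mem_sfI.1 hb).1
    split_ifs with h1
    · rw [mdl, Finset.sum_filter, Finset.sum_mul, Finset.sum_mul, Finset.sum_mul]
      refine Finset.sum_congr rfl fun d hd => ?_
      have h2 := (lc_spec hh (mem_sfb.1 hd).1).2.2 b
      rw [Wb, Finset.mul_sum, Finset.sum_mul, Finset.sum_mul]
      refine Finset.sum_congr rfl fun b' _ => ?_
      simp only [ha, dvR, if_pos hb', m2c]
      by_cases h3 : d ∣ b
      · rw [if_pos h3, if_pos (h2.2 ⟨h1, h3⟩), Complex.ofReal_mul]; ring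
      · rw [if_neg h3, if_neg fun h4 => h3 (h2.1 h4).2]; ring
    · refine (Finset.sum_eq_zero fun d hd => Finset.sum_eq_zero fun b' _ => ?_).symm
      have h2 := (lc_spec hh (mem_sfb.1 hd).1).2.2 b
      simp only [ha, dvR]
      rw [if_neg fun h4 => h1 (h2.1 h4).1]; ring
  set E' := (1 + C) * (E + B * Real.exp (-(H ^ 2 / 5))) with hE'
  have hx : 0 ≤ B * Real.exp (-(H ^ 2 / 5)) := by positivity
  have hc0 : ∀ b', 0 ≤ m2c H b' := fun b' => by
    have := one_lt_c0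
    have := N_nonneg b'
    unfold m2c
    positivity
  have e2 : ∀ d ∈ sfb H, ∀ b' ∈ sfI B (2 * B), ‖lamD H d * (β b' * (m2c H b' : ℂ)) *
        ∑ b ∈ sfI (B / 2) (4 * B), a d b * pw (B / 2) b s * (gw (H * (lg b - lg b')) : ℂ) -
      lamD H d * (β b' * (m2c H b' : ℂ)) * Mn d b'‖ ≤ ‖lamD H d‖ * (9 * H / B * E') := by
    intro d hd b' hb'
    obtain ⟨-, h1, h2⟩ := mem_sfI.1 hb'
    have hr := (lc_spec hh (mem_sfb.1 hd).1).1
    have h3 := hcut (a d) 1 B H (lg b') s (fun n => by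
        simp only [ha, dvR]
        split_ifs
        · exact hg _
        all_goals simp) (fun n hn => by
        simp only [ha, dvR] at hn
        by_contra h4
        simp [h4] at hn) hB hH (Real.log_le_log (by linarith) h1.le)
      (Real.log_le_log (by linarith) h2) hs
    have h4 := hM d hd b' hb'
    simp only [ha] at h3
    rw [winS_dvR hr.1.ne_zero, neg_neg] at h3
    have h5 := (norm_sub_le_norm_sub_add_norm_sub _ _ _).trans (add_le_add h3 h4)
    have h6 : m2c H b' ≤ 9 * H / B := by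
      have a1 : 1 ≤ Real.sqrt Real.pi := Real.one_le_sqrt.2 (by linarith [Real.pi_gt_three])
      have a2 := one_lt_c0
      have a4 : 0 < N b' := by linarith
      unfold m2c
      rw [div_le_div_iff₀ (by positivity) (by linarith)]
      have a3 : B ≤ Real.sqrt Real.pi * c0 * N b' :=
        h1.le.trans (le_mul_of_one_le_left (N_nonneg _) (by nlinarith))
      nlinarith
    rw [← mul_sub, norm_mul, norm_mul, norm_mul, Complex.norm_real, Real.norm_of_nonneg (hc0 b'),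
      mul_assoc]
    refine mul_le_mul_of_nonneg_left (mul_le_mul ((mul_le_of_le_one_left (hc0 b') (hβ b')).trans h6)
      (h5.trans ?_) (norm_nonneg _) (by positivity)) (norm_nonneg _)
    rw [hE']
    nlinarith [mul_nonneg hC hE]
  rw [e1, ← Finset.sum_sub_distrib]
  refine (norm_sum_le _ _).trans ((Finset.sum_le_sum (g := fun d => ‖lamD H d‖ * (324 * H * E'))
    fun d hd => ?_).trans ?_)
  · rw [← Finset.sum_sub_distrib]
    refine (norm_sum_le _ _).trans ((Finset.sum_le_card_nsmul _ _ _ (e2 d hd)).trans ?_)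
    rw [nsmul_eq_mul]
    calc _ ≤ 36 * B * (‖lamD H d‖ * (9 * H / B * E')) :=
          mul_le_mul_of_nonneg_right (m2_card (by linarith)) (by positivity)
      _ = _ := by field_simp; ring
  · rw [← Finset.sum_mul]
    calc _ ≤ 324 * H ^ 3 * (324 * H * E') :=
          mul_le_mul_of_nonneg_right (lam_sum (by linarith)) (by positivity)
      _ = _ := by rw [hE']; ring

theorem m2_pw {B : ℝ} (hB : 0 < B) {b : O} (hb : b ∈ sfI B (2 * B)) {σ : ℝ} (hs : |σ| ≤ 4) :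
    Real.exp (σ * (lg b - Real.log (B / 2))) ≤ 256 := by
  obtain ⟨-, h1, h2⟩ := mem_sfI.1 hb
  have h3 : Real.log (B / 2) ≤ lg b := Real.log_le_log (by linarith) (by linarith)
  have h4 : lg b ≤ Real.log 4 + Real.log (B / 2) := by
    rw [← Real.log_mul (by norm_num) (by linarith)]
    exact Real.log_le_log (by linarith) (by linarith)
  have h5 : σ * (lg b - Real.log (B / 2)) ≤ (4 : ℕ) * Real.log 4 := by
    push_cast
    exact mul_le_mul (le_of_abs_le hs) (by linarith) (by linarith) (by norm_num)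
  refine (Real.exp_le_exp.2 h5).trans (le_of_eq ?_)
  rw [Real.exp_nat_mul, Real.exp_log (by norm_num)]
  norm_num

theorem m2_norm_pw {B : ℝ} (hB : 0 < B) {b : O} (hb : b ∈ sfI B (2 * B)) {s : ℂ} (hs : |s.re| ≤ 4) :
    ‖pw (B / 2) b s‖ ≤ 256 := by
  have hN := N_pos (mem_sfI.1 hb).1.1.ne_zero
  refine le_trans (le_of_eq ?_) (m2_pw hB hb hs)
  rw [pw, Complex.norm_cpow_eq_rpow_re_of_pos (by positivity), Real.rpow_def_of_pos (by positivity),
    Real.log_div hN.ne' (by positivity), mul_comm, lg]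

theorem m2_pt {B H Y y x C : ℝ} {s W : ℂ} {r b : O} (hB : 1 ≤ B) (hBy : B ≤ Real.exp y) (hH : 1 ≤ H)
    (hC : 0 ≤ C) (hb : b ∈ sfI B (2 * B)) (hr : r ≠ 0) (hrB : N r ≤ B) (hs : |s.re| ≤ 4)
    (h1 : x * (H + |s.im|) ≤ 2 * Y) (h2 : 1 ≤ Y) (h3 : N r * (2 + y) ≤ 2 * Y)
    (hW : ‖W‖ ≤ C * (Real.sqrt B * x * (H + |(-s).im|) +
      dv r * Real.exp (lg b - lg r) / (H * Real.sqrt B) +
      dv r * Real.exp ((lg b - lg r) / 2) * (1 + (lg b - lg r))) *
      Real.exp (-((-s).re * (lg b - lg r)))) :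
    ‖((B / 2 : ℝ) : ℂ) ^ (-s) * ((N r : ℂ) ^ s * W)‖ ≤ 2048 * C * Real.sqrt B * Y := by
  obtain ⟨hb0, h4, h5⟩ := mem_sfI.1 hb
  have hN := N_pos hr
  have hN1 := one_le_N hr
  have hq : 1 ≤ Real.sqrt B := Real.one_le_sqrt.2 hB
  have hq2 : Real.sqrt B * Real.sqrt B = B := Real.mul_self_sqrt (by linarith)
  have hdv : dv r ≤ N r := card_pdiv_le_N hr
  have hdv0 := bb_dv_nonneg r
  have hv : Real.exp (lg b - lg r) = N b / N r := by
    rw [Real.exp_sub, lg, lg, Real.exp_log (by linarith), Real.exp_log hN]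
  have hv0 : 0 ≤ lg b - lg r := sub_nonneg.2 (Real.log_le_log hN (by linarith))
  have hv1 : 1 + (lg b - lg r) ≤ 2 + y := by
    have a1 : 0 ≤ lg r := Real.log_nonneg hN1
    have a2 : lg b ≤ Real.log (2 * Real.exp y) := Real.log_le_log (by linarith) (by linarith)
    rw [Real.log_mul (by norm_num) (Real.exp_pos _).ne', Real.log_exp] at a2
    have := Real.log_le_sub_one_of_pos (by norm_num : (0 : ℝ) < 2)
    linarith
  have t1 : Real.sqrt B * x * (H + |(-s).im|) ≤ Real.sqrt B * (2 * Y) := by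
    rw [Complex.neg_im, abs_neg, mul_assoc]; gcongr
  have t2 : dv r * Real.exp (lg b - lg r) / (H * Real.sqrt B) ≤ Real.sqrt B * (2 * Y) := by
    rw [hv, div_le_iff₀ (by positivity)]
    have a1 : dv r * (N b / N r) ≤ N b := by
      rw [mul_div_assoc', div_le_iff₀ hN, mul_comm]; gcongr; linarith
    have a2 : Real.sqrt B * (2 * Y) * (H * Real.sqrt B) = 2 * B * (Y * H) := by
      linear_combination (2 * Y * H) * hq2
    have a3 : 1 ≤ Y * H := one_le_mul_of_one_le_of_one_le h2 hH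
    nlinarith
  have t3 : dv r * Real.exp ((lg b - lg r) / 2) * (1 + (lg b - lg r)) ≤ Real.sqrt B * (4 * Y) := by
    have a1 : Real.exp ((lg b - lg r) / 2) ≤ 2 * Real.sqrt B := by
      refine le_of_pow_le_pow_left₀ (n := 2) (by norm_num) (by positivity) ?_
      rw [← Real.exp_nat_mul, show ((2 : ℕ) : ℝ) * ((lg b - lg r) / 2) = lg b - lg r by
        push_cast; ring, hv]
      have := div_le_self (show 0 ≤ N b by linarith) hN1
      nlinarith
    calc _ ≤ N r * (2 * Real.sqrt B) * (2 + y) := by gcongr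
      _ = 2 * Real.sqrt B * (N r * (2 + y)) := by ring
      _ ≤ 2 * Real.sqrt B * (2 * Y) := by gcongr
      _ = _ := by ring
  have t4 : ‖W‖ ≤ C * (Real.sqrt B * (8 * Y)) * Real.exp (s.re * (lg b - lg r)) := by
    rw [Complex.neg_re, neg_mul, neg_neg] at hW
    refine hW.trans ?_
    gcongr
    linarith
  rw [norm_mul, norm_mul, Complex.norm_cpow_eq_rpow_re_of_pos (by positivity),
    Complex.norm_cpow_eq_rpow_re_of_pos hN, Real.rpow_def_of_pos (by positivity),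
    Real.rpow_def_of_pos hN]
  calc _ ≤ Real.exp (Real.log (B / 2) * (-s).re) * (Real.exp (Real.log (N r) * s.re) *
        (C * (Real.sqrt B * (8 * Y)) * Real.exp (s.re * (lg b - lg r)))) := by gcongr
    _ = C * (Real.sqrt B * (8 * Y)) * Real.exp (s.re * (lg b - Real.log (B / 2))) := by
        rw [show s.re * (lg b - Real.log (B / 2)) = Real.log (B / 2) * (-s).re +
          (Real.log (N r) * s.re + s.re * (lg b - lg r)) by simp only [lg, Complex.neg_re]; ring,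
          Real.exp_add, Real.exp_add]
        ring
    _ ≤ C * (Real.sqrt B * (8 * Y)) * 256 := by gcongr; exact m2_pw (by linarith) hb hs
    _ = _ := by ring

theorem m2_tot (C K : ℝ) (hC : 0 ≤ C) (hK : 0 ≤ K) (A n C2 : ℕ) (h2 : 1 ≤ C2) :
    ∃ y0 : ℝ, 4 ≤ y0 ∧ ∀ y, y0 ≤ y → ∀ B : ℝ, Real.exp (y / 4) ≤ B → y ^ n ≤ B ∧
      C * (y ^ C2) ^ 4 * (2048 * K * Real.sqrt B * y ^ (n + 1) +
        B * Real.exp (-((y ^ C2) ^ 2 / 5))) ≤ B / y ^ A / 4 := by
  obtain ⟨y1, h4, h1⟩ := m2_ev (4 * C * (2048 * K + 1)) (C2 * 4 + (n + 1) + A)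
  obtain ⟨y2, -, h3⟩ := m2_ev 1 n
  refine ⟨max y1 y2, le_max_of_le_left h4, fun y hy B hB => ?_⟩
  have a1 := h1 y ((le_max_left _ _).trans hy)
  have a2 := h3 y ((le_max_right _ _).trans hy)
  have hy4 : 4 ≤ y := h4.trans ((le_max_left _ _).trans hy)
  have hB0 : 0 < B := (Real.exp_pos _).trans_le hB
  refine ⟨by linarith [Real.exp_le_exp.2 (show y / 8 ≤ y / 4 by linarith)], ?_⟩
  set e := Real.exp (y / 8) with he
  have he0 : 0 < e := Real.exp_pos _
  have a3 : Real.sqrt B ≤ B / e := by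
    have : e ≤ Real.sqrt B := Real.le_sqrt_of_sq_le (le_trans (le_of_eq (by
      rw [he, ← Real.exp_nat_mul]; congr 1; push_cast; ring)) hB)
    rw [le_div_iff₀ he0]
    nlinarith [Real.mul_self_sqrt hB0.le, Real.sqrt_nonneg B]
  have a4 : Real.exp (-((y ^ C2) ^ 2 / 5)) ≤ 1 / e * y ^ (n + 1) := by
    have b1 : y ≤ y ^ C2 := le_self_pow₀ (by linarith) (by omega)
    have b2 : 1 ≤ y ^ (n + 1) := one_le_pow₀ (by linarith)
    refine le_trans ?_ (le_mul_of_one_le_right (by positivity) b2)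
    rw [he, one_div, ← Real.exp_neg]
    exact Real.exp_le_exp.2 (by nlinarith)
  rw [div_div, le_div_iff₀ (by positivity)]
  calc _ ≤ C * (y ^ C2) ^ 4 * (2048 * K * (B / e) * y ^ (n + 1) + B * (1 / e * y ^ (n + 1))) *
        (y ^ A * 4) := by gcongr
    _ = B * ((4 * C * (2048 * K + 1) * y ^ (C2 * 4 + (n + 1) + A)) / e) := by
        ring
    _ ≤ B * 1 := by gcongr; exact (div_le_one he0).2 a1
    _ = _ := mul_one B

theorem m2_beta {B w : ℝ} (hB : 0 ≤ B) (F : Multiset ℕ → ℂ) (g : O → ℂ) {h : O} (hh : SF h)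
    (hw : ∀ p, Prime p → p ∣ h → N p ≤ w) (D : ℝ) (s : ℂ) :
    ∑ b ∈ (sfI (B / 2) (4 * B)).filter (fun b => h ∣ b),
        gam0 B (bet w F) D b * g (b / h) * pw (B / 2) b s =
      (if h = 1 then ∑ b ∈ sfI B (2 * B), bet w F b * g b * pw (B / 2) b s else 0) -
      ∑ b ∈ (sfI (B / 2) (4 * B)).filter (fun b => h ∣ b),
        mdl (sfI B (2 * B)) (bet w F) D D b * g (b / h) * pw (B / 2) b s := by
  simp only [gam0, sub_mul, Finset.sum_sub_distrib]
  congr 1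
  split_ifs with h1
  · subst h1
    simp only [one_dvd, Finset.filter_true, EuclideanDomain.div_one, ite_mul, zero_mul]
    rw [Finset.sum_ite_mem, Finset.inter_eq_right.2 fun b hb => ?_]
    obtain ⟨a1, a2, a3⟩ := mem_sfI.1 hb
    exact mem_sfI.2 ⟨a1, by linarith, by linarith⟩
  · refine Finset.sum_eq_zero fun b hb => ?_
    obtain ⟨p, a1, a2, a3⟩ := hh.1.exists_prime_dvd h1
    obtain ⟨a4, a5⟩ := Finset.mem_filter.1 hb
    have : ¬ Rough w b := fun h3 =>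
      (h3 p ((mem_pf (mem_sfI.1 a4).1.1.ne_zero).2 ⟨a1, a2, a3.trans a5⟩)).not_ge (hw p a1 a3)
    simp [bet, this]

theorem m2_bet {F : Multiset ℕ → ℂ} (hF : ∀ M, ‖F M‖ ≤ 1) (w : ℝ) (b : O) : ‖bet w F b‖ ≤ 1 := by
  unfold bet
  split_ifs
  · exact hF _
  · simp

theorem m2_lc {h d : O} (hh : SF h) (hd : SF d) : N (lc h d) ≤ N h * N d := by
  rw [← (lc_spec hh hd).2.1]
  exact le_mul_of_one_le_right (N_nonneg _) (one_le_N (gp_spec hd h).1.1.ne_zero)

/-- elementary inequalities between the powers of `y` -/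
theorem m2_pows {y : ℝ} (hy : 4 ≤ y) (C1 : ℕ) {C2 : ℕ} {x t r : ℝ} (hx : x ≤ y ^ C1)
    (ht0 : 0 ≤ t) (ht : t ≤ y ^ C1) (hr : r ≤ y ^ (2 * C1 + C2)) :
    x * (y ^ C2 + t) ≤ 2 * y ^ (2 * C1 + C2 + 1) ∧ 1 ≤ y ^ (2 * C1 + C2 + 1) ∧
      r * (2 + y) ≤ 2 * y ^ (2 * C1 + C2 + 1) := by
  have h1 : 1 ≤ y := by linarith
  refine ⟨?_, one_le_pow₀ h1, ?_⟩
  · have a1 : y ^ C1 * y ^ C2 ≤ y ^ (2 * C1 + C2 + 1) := by
      rw [← pow_add]; exact pow_le_pow_right₀ h1 (by omega)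
    have a2 : y ^ C1 * y ^ C1 ≤ y ^ (2 * C1 + C2 + 1) := by
      rw [← pow_add]; exact pow_le_pow_right₀ h1 (by omega)
    calc _ ≤ y ^ C1 * (y ^ C2 + y ^ C1) := by gcongr
      _ ≤ _ := by linarith
  · calc _ ≤ y ^ (2 * C1 + C2) * (2 * y) := by gcongr; linarith
      _ = _ := by ring

theorem m2_np (A C1 C2 : ℕ) (h2 : 1 ≤ C2) : ∃ y0 : ℝ, ∀ y : ℝ, y0 ≤ y →
    ∀ (B w : ℝ) (F : Multiset ℕ → ℂ) (h k : O) (s : ℂ), Real.exp (y / 4) ≤ B → B ≤ Real.exp y →
    (∀ M, ‖F M‖ ≤ 1) → y ^ C1 ≤ w → w ≤ Real.exp (Real.sqrt y) → SF h → N h ≤ y ^ C1 → k ≠ 0 →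
    N k ≤ y ^ C1 → |s.re| ≤ 3 → |s.im| ≤ y ^ C1 → NP k →
    ‖fam1 (sfI (B / 2) (4 * B)) (gam0 B (bet w F) (y ^ C2)) (B / 2) h k s‖ ≤ B / y ^ A := by
  obtain ⟨C, hC, hexp⟩ := m2_exp
  obtain ⟨K, hK, hchi⟩ := mu2_chi
  obtain ⟨y1, h4, htot⟩ := m2_tot C K hC hK A (2 * C1 + C2) C2 h2
  obtain ⟨y2, hsw⟩ := swB 0 (A + 1) C1
  refine ⟨max (max y1 y2) 16, fun y hy B w F h k s hB1 hB2 hF hw1 hw2 hh hNh hk hNk hs1 hs2 hNP => ?_⟩
  have hy1 : y1 ≤ y := ((le_max_left _ _).trans (le_max_left _ _)).trans hy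
  have hy2 : y2 ≤ y := ((le_max_right _ _).trans (le_max_left _ _)).trans hy
  have hy3 : 16 ≤ y := (le_max_right _ _).trans hy
  obtain ⟨a1, a2⟩ := htot y hy1 B hB1
  have hB : 1 ≤ B := le_trans (Real.one_le_exp (by linarith)) hB1
  have hH : y ≤ y ^ C2 := le_self_pow₀ (by linarith) (by omega)
  have hs4 : |s.re| ≤ 4 := by linarith
  have a3 := hexp B (y ^ C2) (bet w F) (phr k) h s (fun _ _ => 0)
    (2048 * K * Real.sqrt B * y ^ (2 * C1 + C2 + 1)) hB (by linarith) (m2_bet hF w)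
    (norm_phr_le k) hh hs4 (by positivity) fun d hd b' hb' => by
      obtain ⟨hd1, hd2⟩ := mem_sfb.1 hd
      have hr := (lc_spec hh hd1).1
      have hNr : N (lc h d) ≤ y ^ (2 * C1 + C2) := by
        refine (m2_lc hh hd1).trans ((mul_le_mul hNh hd2 (N_nonneg _) (by positivity)).trans ?_)
        rw [← pow_add]; exact pow_le_pow_right₀ (by linarith) (by omega)
      obtain ⟨p1, p2, p3⟩ := m2_pows (by linarith) C1 hNk (abs_nonneg _) hs2 hNr
      have hp : Prim (d / gp d h) := hr.1.of_mul_left hh.1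
      have e : (fun m => if SF (lc h d * m) then phr k (lc h d * m / h) else 0) =
          fun m => cub (d / gp d h) k * (if SF (lc h d * m) then cub m k else 0) := by
        funext m
        unfold phr
        split_ifs with b1 b2
        · rw [lc, mul_assoc, mul_div_cancel_left₀ _ hh.1.ne_zero,
            rkub_mul_left hp (b1.1.of_mul_left hr.1)]
        · exact absurd (b1.1.div hh.1 ((dvd_mul_right _ _).mul_right _)) b2
        · simp
      rw [sub_zero, e, winS_smul]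
      refine m2_pt hB hB2 (by linarith) hK hb' hr.1.ne_zero (hNr.trans a1) hs4 p1 p2 p3 ?_
      rw [norm_mul]
      refine (mul_le_of_le_one_left (norm_nonneg _)
        ((rcub_isChar hp).norm_le hp.ne_zero _)).trans ?_
      exact hchi _ k hr hk hNP _ _ _ _ (Real.one_le_sqrt.2 hB)
        (sub_nonneg.2 (Real.log_le_log (N_pos hr.1.ne_zero)
          (by linarith [(mem_sfI.1 hb').2.1]))) (by linarith) (by simpa using hs4)
  simp only [mul_zero, Finset.sum_const_zero, sub_zero] at a3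
  have e : fam1 (sfI (B / 2) (4 * B)) (gam0 B (bet w F) (y ^ C2)) (B / 2) h k s =
      ∑ b ∈ (sfI (B / 2) (4 * B)).filter (fun b => h ∣ b), gam0 B (bet w F) (y ^ C2) b *
        phr k (b / h) * pw (B / 2) b s := by
    refine Finset.sum_congr rfl fun b hb => ?_
    obtain ⟨b1, b2⟩ := Finset.mem_filter.1 hb
    rw [phr, if_pos ((mem_sfI.1 b1).1.1.div hh.1 b2)]
  rw [e, m2_beta (by linarith) F (phr k) hh (fun p _ hp =>
    ((N_le_of_dvd hh.1.ne_zero hp).trans hNh).trans hw1)]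
  have a4 : ‖if h = 1 then ∑ b ∈ sfI B (2 * B), bet w F b * phr k b *
      pw (B / 2) b s else 0‖ ≤ B / y ^ A / 2 := by
    split_ifs
    swap
    · rw [norm_zero]; positivity
    have b1 := hsw y hy2 F w B k s hF hw2 hB1 hB2 hk hNk (Or.inr hNP) hs4 hs2
    have b2 : ∑ b ∈ sfI B (2 * B), bet w F b * phr k b * pw (B / 2) b s =
        ((2 : ℝ) : ℂ) ^ s * ∑ b ∈ sfI B (2 * B), bet w F b * ang b ^ (0 : ℤ) * cub b k * pw B b s := by
      rw [Finset.mul_sum]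
      refine Finset.sum_congr rfl fun b hb => ?_
      rw [phr, if_pos (mem_sfI.1 hb).1.1, pw, pw, show N b / (B / 2) = 2 * (N b / B) by field_simp,
        Complex.ofReal_mul, Complex.mul_cpow_ofReal_nonneg (by norm_num)
          (div_nonneg (N_nonneg _) (by linarith)), zpow_zero]
      ring
    have b3 : ‖((2 : ℝ) : ℂ) ^ s‖ ≤ 8 := by
      rw [Complex.norm_cpow_eq_rpow_re_of_pos (by norm_num)]
      refine (Real.rpow_le_rpow_of_exponent_le (by norm_num) (le_of_abs_le hs1)).trans ?_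
      norm_num
    rw [b2, norm_mul]
    refine (mul_le_mul b3 b1 (norm_nonneg _) (by norm_num)).trans ?_
    rw [pow_succ, ← div_div, mul_div_assoc', div_le_div_iff₀ (by linarith) (by norm_num)]
    have : 0 ≤ B / y ^ A := by positivity
    nlinarith
  have : 0 ≤ B / y ^ A := by positivity
  refine (norm_sub_le _ _).trans ?_
  linarith

theorem m2_main {B H : ℝ} (hB : 0 < B) (hH : 0 < H) {b r : O} (hb : b ≠ 0) (hr : r ≠ 0) (s z : ℂ) :
    (m2c H b : ℂ) * (((B / 2 : ℝ) : ℂ) ^ (-s) * ((N r : ℂ) ^ s *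
      ((c0 : ℂ) / 9 * z * mainW 1 (-s) (lg b - lg r) H))) =
      pw (B / 2) b s * Complex.exp ((1 + s) ^ 2 / (4 * H ^ 2)) * (z / (N r : ℂ)) := by
  have h1 := N_pos hb
  have h2 := N_pos hr
  have h3 : 0 < c0 := lt_trans one_pos one_lt_c0
  have e1 : Complex.exp ((1 - -s) ^ 2 / (4 * H ^ 2) + (1 - -s) * ((lg b - lg r : ℝ) : ℂ)) =
      Complex.exp ((1 + s) ^ 2 / (4 * H ^ 2)) * Complex.exp (s * ((lg b - lg r : ℝ) : ℂ)) *
        ((N b / N r : ℝ) : ℂ) := by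
    rw [← Real.exp_log (div_pos h1 h2), Real.log_div h1.ne' h2.ne', Complex.ofReal_exp,
      ← Complex.exp_add, ← Complex.exp_add, lg, lg]
    congr 1; ring
  have e2 : ((B / 2 : ℝ) : ℂ) ^ (-s) * (N r : ℂ) ^ s * Complex.exp (s * ((lg b - lg r : ℝ) : ℂ)) =
      pw (B / 2) b s := by
    rw [pw, LM.cpow_eq (half_pos hB), LM.cpow_eq h2, LM.cpow_eq (div_pos h1 (half_pos hB)),
      Real.log_div h1.ne' (half_pos hB).ne', ← Complex.exp_add, ← Complex.exp_add, lg, lg]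
    congr 1; push_cast; ring
  have e3 : m2c H b * (c0 / 9) * (Real.sqrt Real.pi / H) * (N b / N r) = 1 / N r := by
    have := Real.sqrt_pos.2 Real.pi_pos
    unfold m2c
    field_simp
  have e4 := congrArg (fun x : ℝ => (x : ℂ)) e3
  simp only [Complex.ofReal_mul] at e4
  rw [mainW, e1, ← e2]
  push_cast at e4 ⊢
  linear_combination (((B : ℂ) / 2) ^ (-s) * (N r : ℂ) ^ s * z *
    Complex.exp ((1 + s) ^ 2 / (4 * H ^ 2)) * Complex.exp (s * ((lg b : ℂ) - lg r))) * e4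

theorem m2_pr (A C1 : ℕ) : ∃ C2' : ℕ, 1 ≤ C2' ∧ ∀ C2 : ℕ, C2' ≤ C2 → ∃ y0 : ℝ, 4 ≤ y0 ∧
    ∀ y : ℝ, y0 ≤ y →
    ∀ (B w : ℝ) (F : Multiset ℕ → ℂ) (h : O) (s : ℂ), Real.exp (y / 4) ≤ B → B ≤ Real.exp y →
    (∀ M, ‖F M‖ ≤ 1) → SF h → N h ≤ y ^ (2 * C1) → (∀ p, Prime p → p ∣ h → N p ≤ w) →
    |s.re| ≤ 3 → |s.im| ≤ y ^ C1 →
    ‖∑ b ∈ (sfI (B / 2) (4 * B)).filter (fun b => h ∣ b),
      gam0 B (bet w F) (y ^ C2) b * pw (B / 2) b s‖ ≤ B / y ^ A := by
  obtain ⟨C, hC, hexp⟩ := m2_exp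
  obtain ⟨K, hK, hmu⟩ := mu2_win 0
  obtain ⟨C', B0, hC', hO⟩ := O2
  refine ⟨A + 4 * C1 + B0 + 1, by omega, fun C2 h2 => ?_⟩
  obtain ⟨y1, h4, htot⟩ := m2_tot C K hC hK A (2 * C1 + C2) C2 (by omega)
  obtain ⟨y2, -, hev⟩ := m2_ev 1 C2
  refine ⟨max (max y1 y2) (2 * (256 * 36) * (9 + 3 * C' * 2 ^ B0)),
    le_max_of_le_left (le_max_of_le_left h4), fun y hy B w F h s hB1 hB2 hF hh hNh hw hs1 hs2 => ?_⟩
  have hy1 : y1 ≤ y := ((le_max_left _ _).trans (le_max_left _ _)).trans hy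
  have hy2 : y2 ≤ y := ((le_max_right _ _).trans (le_max_left _ _)).trans hy
  have hy3 := (le_max_right _ _).trans hy
  have hy4 : 4 ≤ y := h4.trans hy1
  have hy5 : 1 ≤ y := by linarith
  obtain ⟨a1, a2⟩ := htot y hy1 B hB1
  have hB : 1 ≤ B := le_trans (Real.one_le_exp (by linarith)) hB1
  have hH : y ≤ y ^ C2 := le_self_pow₀ (by linarith) (by omega)
  have hs4 : |s.re| ≤ 4 := by linarith
  have a3 := hexp B (y ^ C2) (bet w F) (fun _ => 1) h s
    (fun d b' => ((B / 2 : ℝ) : ℂ) ^ (-s) * ((N (lc h d) : ℂ) ^ s * ((c0 : ℂ) / 9 * ser2 (lc h d) *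
      mainW 1 (-s) (lg b' - lg (lc h d)) (y ^ C2))))
    (2048 * K * Real.sqrt B * y ^ (2 * C1 + C2 + 1)) hB (by linarith) (m2_bet hF w)
    (fun _ => by simp) hh hs4 (by positivity) fun d hd b' hb' => by
      obtain ⟨hd1, hd2⟩ := mem_sfb.1 hd
      have hr := (lc_spec hh hd1).1
      have hNr : N (lc h d) ≤ y ^ (2 * C1 + C2) := by
        rw [pow_add]
        exact (m2_lc hh hd1).trans (mul_le_mul hNh hd2 (N_nonneg _) (by positivity))
      obtain ⟨p1, p2, p3⟩ := m2_pows hy4 C1 (one_le_pow₀ hy5) (abs_nonneg _) hs2 hNr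
      rw [← mul_sub, ← mul_sub]
      refine m2_pt hB hB2 (by linarith) hK hb' hr.1.ne_zero (hNr.trans a1) hs4 p1 p2 p3 ?_
      have b1 := hmu _ hr _ _ _ (-s) (Real.one_le_sqrt.2 hB)
        (sub_nonneg.2 (Real.log_le_log (N_pos hr.1.ne_zero)
          (show _ ≤ N b' by linarith [(mem_sfI.1 hb').2.1]))) (show 1 ≤ y ^ C2 by linarith)
          (by simpa using hs4)
      simp only [zpow_zero, if_true] at b1
      rw [mul_one]
      exact b1
  have a4 := m2_beta (by linarith : 0 ≤ B) F (fun _ => 1) hh hw (y ^ C2) s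
  set P := ∑ b ∈ sfI B (2 * B), bet w F b * pw (B / 2) b s with hP
  set ε := Complex.exp ((1 + s) ^ 2 / (4 * ((y ^ C2 : ℝ) : ℂ) ^ 2)) with hε
  set Z := ∑ d ∈ sfb (y ^ C2), lamD (y ^ C2) d * ser2 (lc h d) / (N (lc h d) : ℂ) with hZ
  have e1 : ∑ d ∈ sfb (y ^ C2), ∑ b' ∈ sfI B (2 * B), lamD (y ^ C2) d *
      (bet w F b' * (m2c (y ^ C2) b' : ℂ)) * (((B / 2 : ℝ) : ℂ) ^ (-s) * ((N (lc h d) : ℂ) ^ s *
        ((c0 : ℂ) / 9 * ser2 (lc h d) * mainW 1 (-s) (lg b' - lg (lc h d)) (y ^ C2)))) =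
      P * ε * Z := by
    rw [hZ, Finset.mul_sum]
    refine Finset.sum_congr rfl fun d hd => ?_
    rw [hP, Finset.sum_mul, Finset.sum_mul]
    refine Finset.sum_congr rfl fun b' hb' => ?_
    have b1 := m2_main (B := B) (H := y ^ C2) (by linarith) (by linarith)
      (mem_sfI.1 hb').1.1.ne_zero (lc_spec hh (mem_sfb.1 hd).1).1.1.ne_zero s (ser2 (lc h d))
    linear_combination (lamD (y ^ C2) d * bet w F b') * b1
  simp only [mul_one] at a3 a4
  rw [e1] at a3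
  have hPle : ‖P‖ ≤ 256 * 36 * B := by
    refine (norm_sum_le _ _).trans ((Finset.sum_le_card_nsmul _ _ 256 fun b hb => ?_).trans ?_)
    · rw [norm_mul]
      exact (mul_le_of_le_one_left (norm_nonneg _) (m2_bet hF w b)).trans
        (m2_norm_pw (by linarith) hb hs4)
    · rw [nsmul_eq_mul]
      linarith [m2_card (show 0 ≤ B by linarith)]
  have hδ : 0 < y ^ (A + 1) := by positivity
  have hδ1 : y ≤ y ^ (A + 1) := le_self_pow₀ hy5 (by omega)
  have hz : ‖(1 + s) ^ 2 / (4 * ((y ^ C2 : ℝ) : ℂ) ^ 2)‖ ≤ 9 / 2 / y ^ (A + 1) := by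
    have b1 : ‖1 + s‖ ^ 2 ≤ 17 * (y ^ C1) ^ 2 := by
      have c1 : 1 ≤ (y ^ C1) ^ 2 := one_le_pow₀ (one_le_pow₀ hy5)
      have c2 := pow_le_pow_left₀ (abs_nonneg _) hs2 2
      rw [sq_abs] at c2
      have c3 := abs_le.1 hs1
      rw [Complex.sq_norm, Complex.normSq_apply]
      simp only [Complex.add_re, Complex.one_re, Complex.add_im, Complex.one_im, zero_add]
      nlinarith [c3.1, c3.2]
    have b2 : (y ^ C1) ^ 2 * y ^ (A + 1) ≤ (y ^ C2) ^ 2 := by
      rw [← pow_mul, ← pow_mul, ← pow_add]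
      exact pow_le_pow_right₀ hy5 (by omega)
    rw [norm_div, norm_pow, norm_mul, norm_pow, Complex.norm_real, Real.norm_of_nonneg (by linarith),
      Complex.norm_ofNat, div_le_div_iff₀ (by positivity) hδ]
    nlinarith [mul_le_mul_of_nonneg_right b1 hδ.le]
  have hz1 : 9 / 2 / y ^ (A + 1) ≤ 1 := by
    rw [div_le_one hδ]
    have : 0 ≤ 3 * C' * 2 ^ B0 := by positivity
    linarith
  have hε1 : ‖ε - 1‖ ≤ 9 / y ^ (A + 1) := by
    refine (Complex.norm_exp_sub_one_le (hz.trans hz1)).trans ?_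
    rw [show 9 / y ^ (A + 1) = 2 * (9 / 2 / y ^ (A + 1)) by ring]
    linarith
  have hε2 : ‖ε‖ ≤ 3 := by
    have b1 := norm_add_le (ε - 1) 1
    rw [sub_add_cancel, norm_one] at b1
    rw [show 9 / y ^ (A + 1) = 2 * (9 / 2 / y ^ (A + 1)) by ring] at hε1
    linarith
  have hZ1 : ‖Z - (if h = 1 then 1 else 0)‖ ≤ C' * 2 ^ B0 / y ^ (A + 1) := by
    refine (hO (y ^ C2) h hh (hNh.trans (pow_le_pow_right₀ hy5 (by omega)))).trans ?_
    have b1 : 1 + Real.log (y ^ C2) ≤ 2 * y := m2_log (by linarith) hy4 (by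
      have := hev y hy2
      have := Real.exp_le_exp.2 (show y / 8 ≤ y by linarith)
      have := Real.exp_pos y
      linarith)
    have b2 : 0 ≤ 1 + Real.log (y ^ C2) := by linarith [Real.log_nonneg (show 1 ≤ y ^ C2 by linarith)]
    have b3 : dv h ≤ y ^ (2 * C1) := (card_pdiv_le_N hh.1.ne_zero).trans hNh
    have b4 : y ^ (2 * C1) * y ^ (2 * C1) * y ^ B0 * y ^ (A + 1) ≤ y ^ C2 := by
      simp only [← pow_add]
      exact pow_le_pow_right₀ hy5 (by omega)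
    have := N_nonneg h
    rw [div_le_div_iff₀ (by linarith) hδ]
    calc _ ≤ C' * y ^ (2 * C1) * y ^ (2 * C1) * (2 * y) ^ B0 * y ^ (A + 1) := by gcongr
      _ = C' * 2 ^ B0 * (y ^ (2 * C1) * y ^ (2 * C1) * y ^ B0 * y ^ (A + 1)) := by
          rw [mul_pow]; ring
      _ ≤ _ := by gcongr
  have a5 : ‖(if h = 1 then P else 0) - P * ε * Z‖ ≤ B / y ^ A / 2 := by
    have e2 : (if h = 1 then P else 0) - P * ε * Z = -P * ((if h = 1 then 1 else 0) * (ε - 1) +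
        ε * (Z - (if h = 1 then 1 else 0))) := by split_ifs <;> ring
    have b1 : ‖(if h = 1 then (1 : ℂ) else 0) * (ε - 1)‖ ≤ 9 / y ^ (A + 1) := by
      rw [norm_mul]
      refine (mul_le_of_le_one_left (norm_nonneg _) ?_).trans hε1
      split_ifs <;> simp
    have b2 : ‖ε * (Z - (if h = 1 then 1 else 0))‖ ≤ 3 * (C' * 2 ^ B0 / y ^ (A + 1)) := by
      rw [norm_mul]
      exact mul_le_mul hε2 hZ1 (norm_nonneg _) (by norm_num)
    rw [e2, norm_mul, norm_neg]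
    refine (mul_le_mul hPle ((norm_add_le _ _).trans (add_le_add b1 b2)) (norm_nonneg _)
      (by linarith)).trans ?_
    calc _ = B / y ^ A / 2 * (2 * (256 * 36) * (9 + 3 * C' * 2 ^ B0) / y) := by
          rw [pow_succ]; field_simp
      _ ≤ B / y ^ A / 2 * 1 := by gcongr; exact (div_le_one (by linarith)).2 hy3
      _ = _ := mul_one _
  have : 0 ≤ B / y ^ A := by positivity
  rw [a4]
  refine (norm_sub_le_norm_sub_add_norm_sub _ (P * ε * Z) _).trans ?_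
  rw [norm_sub_rev (P * ε * Z)]
  linarith

/-- The `β`-part is `0` unless `h = 1` (roughness).  In the `β♯`-part exchange the sums over `b`, `d`, `b'`,
`win_cut`, `r = lc h d`, `b = r m`, `winS_dvR`; `Δ = √B`, `lam_sum`, `∑_{b'} H/N b' ≤ C H`.
**`NP k`**: `swB 0` and `mu2_chi` (`cub (b/h) k = cub (r/h) k cub m k`).
**`¬ NP k`**: `cub n k = [n coprime to k]` for primary `n`; `= ∑_{e ∣ k, e ∣ n} μ(e)`; so reduce to
`h' = h e` squarefree (`≤ dv k ≤ N k` values, `N h' ≤ y^{2C₁}`) and `k = 1`.  `mu2_win 0`: the main term is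
`∑_{b'} β(b') pw (B/2) b' s · exp((1+s)²/4H²) · ∑_d λ_d ser2 r / N r`; `O2`,
`‖exp((1+s)²/4H²) - 1‖ ≤ 2‖1+s‖²/4H²`. -/
theorem mdl_fam1 (A C1 : ℕ) : ∃ C2' : ℕ, ∀ C2 : ℕ, C2' ≤ C2 → ∃ y0 : ℝ, ∀ y : ℝ, y0 ≤ y →
    ∀ (B w : ℝ) (F : Multiset ℕ → ℂ) (h k : O) (s : ℂ), Real.exp (y / 4) ≤ B → B ≤ Real.exp y →
    (∀ M, ‖F M‖ ≤ 1) → y ^ C1 ≤ w → w ≤ Real.exp (Real.sqrt y) → SF h → N h ≤ y ^ C1 → k ≠ 0 →
    N k ≤ y ^ C1 → |s.re| ≤ 3 → |s.im| ≤ y ^ C1 →
    ‖fam1 (sfI (B / 2) (4 * B)) (gam0 B (bet w F) (y ^ C2)) (B / 2) h k s‖ ≤ B / y ^ A := by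
  obtain ⟨C2', h1, hpr⟩ := m2_pr (A + C1) C1
  refine ⟨C2', fun C2 h2 => ?_⟩
  obtain ⟨y1, h4, hpr⟩ := hpr C2 h2
  obtain ⟨y2, hnp⟩ := m2_np A C1 C2 (h1.trans h2)
  refine ⟨max y1 y2, fun y hy B w F h k s hB1 hB2 hF hw1 hw2 hh hNh hk hNk hs1 hs2 => ?_⟩
  by_cases hNP : NP k
  · exact hnp y ((le_max_right _ _).trans hy) B w F h k s hB1 hB2 hF hw1 hw2 hh hNh hk hNk hs1 hs2 hNP
  have hy1 := (le_max_left _ _).trans hy
  have hy0 : 0 < y := by linarith
  have hB : 0 < B := (Real.exp_pos _).trans_le hB1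
  have e : fam1 (sfI (B / 2) (4 * B)) (gam0 B (bet w F) (y ^ C2)) (B / 2) h k s =
      ∑ e ∈ pdiv k, mu e * ∑ b ∈ (sfI (B / 2) (4 * B)).filter (fun b => h * e ∣ b),
        gam0 B (bet w F) (y ^ C2) b * pw (B / 2) b s := by
    simp only [fam1, Finset.mul_sum, Finset.sum_filter]
    rw [Finset.sum_comm]
    refine Finset.sum_congr rfl fun b hb => ?_
    split_ifs with h3
    · obtain ⟨n, rfl⟩ := h3
      have hn : Prim n := (mem_sfI.1 hb).1.1.of_mul_left hh.1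
      have h5 : cub n k = ∑ e ∈ pdiv k, if e ∣ n then mu e else 0 := by
        have h6 : cub n k = if IsCoprime k n then 1 else 0 := by
          split_ifs with h7
          · by_contra h8
            exact hNP ⟨n, hn, h7.symm, h8⟩
          · exact ((rcub_isChar hn).zero_iff k).2 h7
        rw [h6, ← sum_mu_coprime hn, ← Finset.sum_filter]
        refine Finset.sum_congr ?_ fun _ _ => rfl
        ext e
        simp only [Finset.mem_filter, mem_pdiv hk, mem_pdiv hn.ne_zero]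
        tauto
      rw [mul_div_cancel_left₀ _ hh.1.ne_zero, h5, Finset.mul_sum, Finset.sum_mul]
      refine Finset.sum_congr rfl fun e _ => ?_
      simp only [mul_dvd_mul_iff_left hh.1.ne_zero]
      split_ifs <;> ring
    · refine (Finset.sum_eq_zero fun e _ => ?_).symm
      rw [if_neg fun h5 => h3 ((dvd_mul_right _ _).trans h5), mul_zero]
  rw [e]
  refine (norm_sum_le _ _).trans ((Finset.sum_le_card_nsmul _ _ (B / y ^ (A + C1))
    fun e he => ?_).trans ?_)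
  · obtain ⟨he1, he2⟩ := (mem_pdiv hk).1 he
    have hNe := (N_le_of_dvd hk he2).trans hNk
    rw [norm_mul]
    refine (mul_le_of_le_one_left (norm_nonneg _) (norm_mu_le e)).trans ?_
    by_cases h3 : SF (h * e)
    · refine hpr y hy1 B w F (h * e) s hB1 hB2 hF h3 ?_ (fun p hp hp' => ?_) hs1 hs2
      · rw [N_mul, two_mul, pow_add]
        exact mul_le_mul hNh hNe (N_nonneg _) (by positivity)
      · rcases hp.dvd_or_dvd hp' with h5 | h5
        · exact ((N_le_of_dvd hh.1.ne_zero h5).trans hNh).trans hw1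
        · exact ((N_le_of_dvd he1.ne_zero h5).trans hNe).trans hw1
    · rw [Finset.sum_eq_zero fun b hb => absurd ((mem_sfI.1 (Finset.mem_filter.1 hb).1).1.of_dvd
        (hh.1.mul he1) (Finset.mem_filter.1 hb).2) h3, norm_zero]
      positivity
  · rw [nsmul_eq_mul]
    calc _ ≤ y ^ C1 * (B / y ^ (A + C1)) :=
          mul_le_mul_of_nonneg_right ((card_pdiv_le_N hk).trans hNk) (by positivity)
      _ = _ := by rw [pow_add]; field_simp

end Crest.Agent.R12
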