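import Crest.Agent.R12.VA1

/-!
# R12 / VA2 : Voronoi on average, part 2
-/

set_option autoImplicit false

noncomputable section

open scoped Classical ComplexConjugate Topology
open MeasureTheory Filter

namespace Crest.Agent.R12

open Crest.Agent.R17

theorem va2_cpow {x : ℝ} (hx : 0 < x) (s : ℂ) :
    (x : ℂ) ^ s = Complex.exp (s * (Real.log x : ℝ)) := by
  rw [Complex.cpow_def_of_ne_zero (by exact_mod_cast hx.ne'), Complex.ofReal_log hx.le, mul_comm]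

theorem va2_norm_cpow {x : ℝ} (hx : 0 < x) (s : ℂ) :
    ‖(x : ℂ) ^ s‖ = Real.exp (s.re * Real.log x) := by
  rw [va2_cpow hx, Complex.norm_exp]
  simp

theorem va2_exp_lg {n : O} (hn : n ≠ 0) : Real.exp (lg n) = N n := Real.exp_log (N_pos hn)

theorem va2_lg_nonneg {n : O} (hn : n ≠ 0) : 0 ≤ lg n := Real.log_nonneg (one_le_N hn)

theorem va2_lg_mul {a b : O} (ha : a ≠ 0) (hb : b ≠ 0) : lg (a * b) = lg a + lg b := by
  unfold lg
  rw [N_mul, Real.log_mul (N_pos ha).ne' (N_pos hb).ne']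

theorem va2_sqrt {x : ℝ} (hx : 0 < x) : Real.sqrt x = Real.exp (Real.log x / 2) := by
  rw [Real.sqrt_eq_rpow, Real.rpow_def_of_pos hx]
  congr 1
  ring

theorem va2_integrable {T Cκ B : ℝ} (hT : 0 < T) {κ F : ℝ → ℂ} (hκ : Continuous κ)
    (hb : ∀ τ, ‖κ τ‖ ≤ Cκ * mT T τ) (hF : Continuous F) (hB : ∀ τ, ‖F τ‖ ≤ B) :
    Integrable fun τ => κ τ * F τ := by
  refine Integrable.mono' ((integrable_mT hT).const_mul (B * Cκ))
    (hκ.mul hF).aestronglyMeasurable (Eventually.of_forall fun τ => ?_)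
  rw [norm_mul]
  calc ‖κ τ‖ * ‖F τ‖ ≤ (Cκ * mT T τ) * B :=
        mul_le_mul (hb τ) (hB τ) (norm_nonneg _) ((norm_nonneg _).trans (hb τ))
    _ = B * Cκ * mT T τ := by ring

theorem va2_int {ι : Type*} (R : Finset ι) {T Cκ B : ℝ} (hT : 0 < T) {κ : ℝ → ℂ}
    (hκ : Continuous κ) (hb : ∀ τ, ‖κ τ‖ ≤ Cκ * mT T τ) {F : ι → ℝ → ℂ}
    (hF : ∀ i, Continuous (F i)) (hB : ∀ τ, ∑ i ∈ R, ‖F i τ‖ ≤ B) :
    ∑ i ∈ R, ‖∫ τ, κ τ * F i τ‖ ≤ 2 * Cκ * B := by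
  have hi : ∀ i ∈ R, Integrable fun τ => κ τ * F i τ := fun i hi =>
    va2_integrable hT hκ hb (hF i) fun τ =>
      (Finset.single_le_sum (f := fun i => ‖F i τ‖) (fun _ _ => norm_nonneg _) hi).trans (hB τ)
  calc ∑ i ∈ R, ‖∫ τ, κ τ * F i τ‖ ≤ ∑ i ∈ R, ∫ τ, ‖κ τ * F i τ‖ :=
        Finset.sum_le_sum fun i _ => norm_integral_le_integral_norm _
    _ = ∫ τ, ∑ i ∈ R, ‖κ τ * F i τ‖ := (integral_finsetSum _ fun i h => (hi i h).norm).symm
    _ ≤ ∫ τ, (B * Cκ) * mT T τ := by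
        refine integral_mono (integrable_finsetSum _ fun i h => (hi i h).norm)
          ((integrable_mT hT).const_mul _) fun τ => ?_
        simp only [norm_mul]
        rw [← Finset.mul_sum]
        calc ‖κ τ‖ * ∑ i ∈ R, ‖F i τ‖ ≤ (Cκ * mT T τ) * B :=
              mul_le_mul (hb τ) (hB τ) (Finset.sum_nonneg fun _ _ => norm_nonneg _)
                ((norm_nonneg _).trans (hb τ))
          _ = B * Cκ * mT T τ := by ring
    _ = 2 * Cκ * B := by rw [integral_const_mul, integral_mT hT]; ring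

/-- one value of `j` -/
theorem va2_j {b y w : O → ℂ} {Y E B W T Cκ a : ℝ} (hE : 0 < E) (hT : 0 < T) (hW : 0 ≤ W)
    {Sf R : Finset O}
    (hls : ∀ x : O → ℂ, (∀ e ∈ Sf, ‖x e‖ ≤ W * ‖y e‖) →
      ∑ m ∈ R, ‖b m‖ * N m ^ (-(1 / 2 : ℝ)) * min 1 ((Y / N m) ^ 2) *
        ‖∑ e ∈ Sf, x e * cub e m‖ ≤ B)
    (j : ℕ) {κ : ℝ → ℂ} (hκ : Continuous κ) (hκb : ∀ τ, ‖κ τ‖ ≤ Cκ * mT T τ) {Kf : ℝ → ℂ} (s : ℂ)
    (hK : ∀ u : ℝ, Kf u = Real.exp ((1 / 2 - j - s.re) * u) *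
      ∫ τ : ℝ, κ τ * Complex.exp (τ * u * Complex.I))
    (hY : Y = E * Real.exp (-a)) (hR : ∀ m ∈ R, m ≠ 0 ∧ (Y / N m) ^ j ≤ min 1 ((Y / N m) ^ 2))
    (hw : ∀ e ∈ Sf, e ≠ 0 ∧ N e ≤ E ∧ ‖w e‖ ≤ W * ‖y e‖ * Real.exp ((1 / 2 - s.re) * lg e)) :
    ∑ m ∈ R, ‖∑ e ∈ Sf, w e * (b m * cub e m * (N m : ℂ) ^ (s - 1) * Kf (lg m + a - lg e))‖ ≤
      Real.exp ((1 / 2 - s.re) * a) * (2 * Cκ * B) := by
  obtain ⟨x, hx⟩ : ∃ x : ℝ → O → ℂ, x = fun (τ : ℝ) e =>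
      w e * (Real.exp (-((1 / 2 - j - s.re) * lg e) - j * Real.log E) : ℝ) *
        Complex.exp (((-(τ * lg e) : ℝ) : ℂ) * Complex.I) := ⟨_, rfl⟩
  obtain ⟨F, hF⟩ : ∃ F : O → ℝ → ℂ, F = fun m (τ : ℝ) =>
      b m * (N m : ℂ) ^ (s - 1) *
        (Real.exp ((1 / 2 - j - s.re) * (lg m + a) + j * Real.log E) : ℝ) *
        Complex.exp (((τ * (lg m + a) : ℝ) : ℂ) * Complex.I) * ∑ e ∈ Sf, x τ e * cub e m :=
    ⟨_, rfl⟩
  have hxb : ∀ τ, ∀ e ∈ Sf, ‖x τ e‖ ≤ W * ‖y e‖ := by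
    intro τ e he
    obtain ⟨h0, h1, h2⟩ := hw e he
    have h3 : lg e ≤ Real.log E := Real.log_le_log (N_pos h0) h1
    rw [hx]
    simp only [norm_mul, Complex.norm_exp_ofReal_mul_I, mul_one, Complex.norm_real,
      Real.norm_eq_abs, Real.abs_exp]
    refine (mul_le_mul_of_nonneg_right h2 (Real.exp_pos _).le).trans ?_
    rw [mul_assoc, ← Real.exp_add]
    refine mul_le_of_le_one_right (by positivity) (Real.exp_le_one_iff.2 ?_)
    have : (0 : ℝ) ≤ j * (Real.log E - lg e) := mul_nonneg (Nat.cast_nonneg j) (by linarith)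
    nlinarith
  have hFc : ∀ m, Continuous (F m) := by
    intro m
    rw [hF, hx]
    fun_prop
  have heq : ∀ m ∈ R, ∑ e ∈ Sf, w e * (b m * cub e m * (N m : ℂ) ^ (s - 1) *
      Kf (lg m + a - lg e)) = ∫ τ, κ τ * F m τ := by
    intro m _
    have h1 : ∀ τ, κ τ * F m τ = ∑ e ∈ Sf, (w e * (b m * cub e m * (N m : ℂ) ^ (s - 1) *
        (Real.exp ((1 / 2 - j - s.re) * (lg m + a - lg e)) : ℝ))) *
        (κ τ * Complex.exp (τ * (lg m + a - lg e : ℝ) * Complex.I)) := by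
      intro τ
      rw [hF, hx]
      simp only [Finset.mul_sum]
      refine Finset.sum_congr rfl fun e _ => ?_
      have e1 : Real.exp ((1 / 2 - j - s.re) * (lg m + a - lg e)) =
          Real.exp ((1 / 2 - j - s.re) * (lg m + a) + j * Real.log E) *
            Real.exp (-((1 / 2 - j - s.re) * lg e) - j * Real.log E) := by
        rw [← Real.exp_add]; congr 1; ring
      have e2 : Complex.exp (τ * (lg m + a - lg e : ℝ) * Complex.I) =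
          Complex.exp (((τ * (lg m + a) : ℝ) : ℂ) * Complex.I) *
            Complex.exp (((-(τ * lg e) : ℝ) : ℂ) * Complex.I) := by
        rw [← Complex.exp_add]; congr 1; push_cast; ring
      rw [e1, e2, Complex.ofReal_mul (Real.exp _) (Real.exp _)]
      ring
    have h2 : ∀ u : ℝ, Integrable fun τ : ℝ => κ τ * Complex.exp (τ * u * Complex.I) := fun u =>
      va2_integrable (B := 1) hT hκ hκb (by fun_prop) fun τ => by
        rw [← Complex.ofReal_mul, Complex.norm_exp_ofReal_mul_I]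
    simp only [h1]
    rw [integral_finsetSum _ fun e _ => (h2 _).const_mul _]
    refine Finset.sum_congr rfl fun e _ => ?_
    rw [integral_const_mul, hK]
    ring
  rw [Finset.sum_congr rfl fun m hm => by rw [heq m hm]]
  have hB : ∀ τ, ∑ m ∈ R, ‖F m τ‖ ≤ Real.exp ((1 / 2 - s.re) * a) * B := by
    intro τ
    refine le_trans ?_ (mul_le_mul_of_nonneg_left (hls (x τ) (hxb τ)) (Real.exp_pos _).le)
    rw [Finset.mul_sum]
    refine Finset.sum_le_sum fun m hm => ?_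
    obtain ⟨h0, h1⟩ := hR m hm
    have hm0 := N_pos h0
    rw [hF]
    simp only [norm_mul, Complex.norm_exp_ofReal_mul_I, mul_one, Complex.norm_real,
      Real.norm_eq_abs, Real.abs_exp, va2_norm_cpow hm0]
    have e1 : (Y / N m) ^ j = Real.exp (j * (Real.log E - a - lg m)) := by
      rw [Real.exp_nat_mul, hY, Real.exp_sub, Real.exp_sub, Real.exp_log hE, va2_exp_lg h0,
        Real.exp_neg]
      congr 1
    have e2 : N m ^ (-(1 / 2 : ℝ)) = Real.exp (-(1 / 2) * lg m) := by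
      rw [Real.rpow_def_of_pos hm0, mul_comm]; rfl
    have e3 : Real.exp ((s - 1).re * Real.log (N m)) *
        Real.exp ((1 / 2 - j - s.re) * (lg m + a) + j * Real.log E) =
        Real.exp ((1 / 2 - s.re) * a) * (N m ^ (-(1 / 2 : ℝ)) * (Y / N m) ^ j) := by
      rw [e1, e2, ← Real.exp_add, ← Real.exp_add, ← Real.exp_add]
      congr 1
      simp only [Complex.sub_re, Complex.one_re, lg]
      ring
    calc ‖b m‖ * Real.exp ((s - 1).re * Real.log (N m)) *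
          Real.exp ((1 / 2 - j - s.re) * (lg m + a) + j * Real.log E) * ‖∑ e ∈ Sf, x τ e * cub e m‖
        = Real.exp ((1 / 2 - s.re) * a) * (‖b m‖ * N m ^ (-(1 / 2 : ℝ)) * (Y / N m) ^ j *
            ‖∑ e ∈ Sf, x τ e * cub e m‖) := by
          rw [mul_assoc ‖b m‖, e3]; ring
      _ ≤ _ := by gcongr
  refine (va2_int R hT hκ hκb hFc hB).trans (le_of_eq ?_)
  ring

/-- both values of `j`, and the infinite sum -/
theorem va2_m {b y w : O → ℂ} {Y E B W T Cκ a : ℝ} (hE : 0 < E) (hT : 0 < T) (hW : 0 ≤ W)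
    {Sf : Finset O}
    (hls : ∀ (R : Finset O) (x : O → ℂ), (∀ m ∈ R, m ≠ 0) → (∀ e ∈ Sf, ‖x e‖ ≤ W * ‖y e‖) →
      ∑ m ∈ R, ‖b m‖ * N m ^ (-(1 / 2 : ℝ)) * min 1 ((Y / N m) ^ 2) *
        ‖∑ e ∈ Sf, x e * cub e m‖ ≤ B)
    {Kf : ℝ → ℂ} (s : ℂ)
    (hK : ∀ j : ℕ, j = 0 ∨ j = 2 → ∃ κ : ℝ → ℂ, Continuous κ ∧ (∀ τ, ‖κ τ‖ ≤ Cκ * mT T τ) ∧
      ∀ u : ℝ, Kf u = Real.exp ((1 / 2 - j - s.re) * u) *
        ∫ τ : ℝ, κ τ * Complex.exp (τ * u * Complex.I))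
    (hY : Y = E * Real.exp (-a))
    (hw : ∀ e ∈ Sf, e ≠ 0 ∧ N e ≤ E ∧ ‖w e‖ ≤ W * ‖y e‖ * Real.exp ((1 / 2 - s.re) * lg e))
    (hsum : ∀ e ∈ Sf, Summable fun m : O => ‖if m = 0 then 0 else
      b m * cub e m * (N m : ℂ) ^ (s - 1) * Kf (lg m + a - lg e)‖) :
    ‖∑ e ∈ Sf, w e * ∑' m : O, if m = 0 then 0 else
      b m * cub e m * (N m : ℂ) ^ (s - 1) * Kf (lg m + a - lg e)‖ ≤
      Real.exp ((1 / 2 - s.re) * a) * (4 * Cκ * B) := by
  have hY0 : 0 < Y := by rw [hY]; positivity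
  obtain ⟨G, hG⟩ : ∃ G : O → ℂ, G = fun m => ∑ e ∈ Sf, w e * (if m = 0 then 0 else
      b m * cub e m * (N m : ℂ) ^ (s - 1) * Kf (lg m + a - lg e)) := ⟨_, rfl⟩
  have h1 : ∑ e ∈ Sf, w e * ∑' m : O, (if m = 0 then 0 else
      b m * cub e m * (N m : ℂ) ^ (s - 1) * Kf (lg m + a - lg e)) = ∑' m, G m := by
    rw [hG, Summable.tsum_finsetSum fun e he => (hsum e he).of_norm.mul_left _]
    exact Finset.sum_congr rfl fun e _ => tsum_mul_left.symm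
  have h2 : ∀ R : Finset O, ∑ m ∈ R, ‖G m‖ ≤ Real.exp ((1 / 2 - s.re) * a) * (4 * Cκ * B) := by
    intro R
    obtain ⟨κ0, c0, b0, k0⟩ := hK 0 (Or.inl rfl)
    obtain ⟨κ2, c2, b2, k2⟩ := hK 2 (Or.inr rfl)
    have e0 : ∑ m ∈ R, ‖G m‖ = ∑ m ∈ R.filter (fun m => m ≠ 0), ‖∑ e ∈ Sf, w e *
        (b m * cub e m * (N m : ℂ) ^ (s - 1) * Kf (lg m + a - lg e))‖ := by
      rw [Finset.sum_filter]
      refine Finset.sum_congr rfl fun m _ => ?_
      by_cases hm : m = 0 <;> simp [hG, hm]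
    rw [e0, ← Finset.sum_filter_add_sum_filter_not _ (fun m => N m ≤ Y)]
    have i0 := va2_j hE hT hW (R := (R.filter (fun m => m ≠ 0)).filter (fun m => N m ≤ Y))
      (fun x hx => hls _ x (fun m hm => (Finset.mem_filter.1 (Finset.mem_filter.1 hm).1).2) hx)
      0 c0 b0 s k0 hY (fun m hm => by
        obtain ⟨h3, h4⟩ := Finset.mem_filter.1 hm
        have h5 := (Finset.mem_filter.1 h3).2
        refine ⟨h5, ?_⟩
        rw [pow_zero]
        exact le_min le_rfl (one_le_pow₀ ((one_le_div (N_pos h5)).2 h4))) hw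
    have i2 := va2_j hE hT hW (R := (R.filter (fun m => m ≠ 0)).filter (fun m => ¬ N m ≤ Y))
      (fun x hx => hls _ x (fun m hm => (Finset.mem_filter.1 (Finset.mem_filter.1 hm).1).2) hx)
      2 c2 b2 s k2 hY (fun m hm => by
        obtain ⟨h3, h4⟩ := Finset.mem_filter.1 hm
        have h5 := (Finset.mem_filter.1 h3).2
        refine ⟨h5, le_min ?_ le_rfl⟩
        exact pow_le_one₀ (div_nonneg hY0.le (N_nonneg _))
          ((div_le_one (N_pos h5)).2 (not_le.1 h4).le)) hw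
    linarith
  have h3 : Summable fun m => ‖G m‖ := summable_of_sum_le (fun _ => norm_nonneg _) h2
  rw [h1]
  exact (norm_tsum_le_tsum_norm h3).trans (h3.tsum_le_of_sum_le h2)

/-- the `e`-range belonging to `f` -/
def va2S (M : ℝ) (S : Finset O) (d f : O) : Finset O :=
  (sfb (M / N f)).filter (fun e => e * f ∈ S ∧ e ∣ (e * f) / gp (e * f) d)

theorem va2_rearr {A : Type*} [AddCommMonoid A] {M : ℝ} {S : Finset O} (hS : S ⊆ sfb M) (d : O)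
    (H : O → O → A) : ∑ n ∈ S, ∑ e ∈ pdiv (n / gp n d), H n e =
      ∑ f ∈ sfb M, ∑ e ∈ va2S M S d f, H (e * f) e := by
  have hr : ∀ n ∈ S, n / gp n d ≠ 0 ∧ n / gp n d ∣ n := fun n hn => by
    have h := (mem_sfb.1 (hS hn)).1
    have h2 := gp_spec h d
    exact ⟨(h.div h2.1.1 h2.2.1).1.1.ne_zero, EuclideanDomain.div_dvd_of_dvd h2.2.1⟩
  rw [Finset.sum_sigma', Finset.sum_sigma']
  refine Finset.sum_nbij' (fun x => ⟨x.1 / x.2, x.2⟩) (fun x => ⟨x.2 * x.1, x.2⟩) ?_ ?_ ?_ ?_ ?_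
  · rintro ⟨n, e⟩ hx
    obtain ⟨hn, he⟩ := Finset.mem_sigma.1 hx
    simp only at hn he
    obtain ⟨hsf, hM⟩ := mem_sfb.1 (hS hn)
    obtain ⟨he1, he2⟩ := (mem_pdiv (hr n hn).1).1 he
    have hen : e ∣ n := he2.trans (hr n hn).2
    obtain ⟨e1, -, e3⟩ := bb_mul_div hsf.1.ne_zero hen
    have hN : N n = N e * N (n / e) := by rw [← N_mul, ← e1]
    refine Finset.mem_sigma.2 ⟨mem_sfb.2 ⟨(hsf.div he1 hen).1, ?_⟩, ?_⟩
    · exact (N_le_of_dvd hsf.1.ne_zero (EuclideanDomain.div_dvd_of_dvd hen)).trans hM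
    · refine Finset.mem_filter.2 ⟨mem_sfb.2 ⟨hsf.of_dvd he1 hen, ?_⟩, ?_⟩
      · rw [le_div_iff₀ (N_pos e3), ← hN]; exact hM
      · simp only
        rw [← e1]
        exact ⟨hn, he2⟩
  · rintro ⟨f, e⟩ hx
    obtain ⟨-, he⟩ := Finset.mem_sigma.1 hx
    obtain ⟨h1, h2, h3⟩ := Finset.mem_filter.1 he
    exact Finset.mem_sigma.2 ⟨h2, (mem_pdiv (hr _ h2).1).2 ⟨(mem_sfb.1 h1).1.1, h3⟩⟩
  · rintro ⟨n, e⟩ hx
    obtain ⟨hn, he⟩ := Finset.mem_sigma.1 hx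
    simp only at hn he
    have hen : e ∣ n := ((mem_pdiv (hr n hn).1).1 he).2.trans (hr n hn).2
    simp only
    rw [← (bb_mul_div (mem_sfb.1 (hS hn)).1.1.ne_zero hen).1]
  · rintro ⟨f, e⟩ hx
    obtain ⟨-, he⟩ := Finset.mem_sigma.1 hx
    have h1 := (mem_sfb.1 (Finset.mem_filter.1 he).1).1.1.ne_zero
    simp only
    rw [mul_div_cancel_left₀ _ h1]
  · rintro ⟨n, e⟩ hx
    obtain ⟨hn, he⟩ := Finset.mem_sigma.1 hx
    simp only at hn he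
    have hen : e ∣ n := ((mem_pdiv (hr n hn).1).1 he).2.trans (hr n hn).2
    simp only
    rw [← (bb_mul_div (mem_sfb.1 (hS hn)).1.1.ne_zero hen).1]

theorem va2_gp {e f d : O} (hef : SF (e * f)) (h : e ∣ (e * f) / gp (e * f) d) :
    gp (e * f) d = gp f d := by
  have h0 := hef.1.ne_zero
  have he : e ≠ 0 := left_ne_zero_of_mul h0
  have hf : f ≠ 0 := right_ne_zero_of_mul h0
  have hc : IsCoprime e d := (gp_spec hef d).2.2.2.2.of_isCoprime_of_dvd_left h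
  unfold gp
  congr 1
  ext p
  simp only [Finset.mem_filter, mem_pf h0, mem_pf hf]
  constructor
  · rintro ⟨⟨h1, h2, h3⟩, h4⟩
    refine ⟨⟨h1, h2, (h1.dvd_or_dvd h3).resolve_left fun h5 => ?_⟩, h4⟩
    exact h1.not_isUnit (hc.isUnit_of_dvd' h5 h4)
  · rintro ⟨⟨h1, h2, h3⟩, h4⟩
    exact ⟨⟨h1, h2, h3.mul_left _⟩, h4⟩

theorem va2_n2 {M : ℝ} {S : Finset O} (hS : S ⊆ sfb M) (d : O) (u : O → ℂ) :
    ∑ f ∈ sfb M, n2 (va2S M S d f) (fun e => u (e * f)) ≤ nt S u := by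
  unfold n2 nt
  rw [← va2_rearr hS d (fun n _ => ‖u n‖ ^ 2)]
  refine Finset.sum_le_sum fun n hn => ?_
  have h := (mem_sfb.1 (hS hn)).1
  rw [Finset.sum_const, nsmul_eq_mul, mul_comm]
  refine mul_le_mul_of_nonneg_left ?_ (by positivity)
  have h1 : dv (n / gp n d) ≤ dv n :=
    dv_le_of_dvd h.1.ne_zero (EuclideanDomain.div_dvd_of_dvd (gp_spec h d).2.1)
  have h2 := one_le_dv h.1.ne_zero
  exact h1.trans (le_self_pow₀ h2 (by norm_num))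

theorem va2_gsum : ∃ C : ℝ, 0 ≤ C ∧ ∀ (M : ℝ) (d : O), d ≠ 0 →
    ∑ f ∈ sfb M, (N (gp f d) / N f) ^ 2 ≤ (C * dv d) ^ 2 := by
  have hs := summable_N_rpow (σ := 2) (by norm_num)
  obtain ⟨Z, hZ⟩ : ∃ Z, Z = ∑' n : O, N n ^ (-(2 : ℝ)) := ⟨_, rfl⟩
  have hZ0 : 0 ≤ Z := hZ ▸ tsum_nonneg fun n => Real.rpow_nonneg (N_nonneg n) _
  refine ⟨Z + 1, by positivity, fun M d hd => ?_⟩
  have h1 := bb_conv (sfb M) (fun n hn => (mem_sfb.1 hn).1.1.ne_zero) (fun n => {gp n d})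
    (fun n hn g hg => by
      rw [Finset.mem_singleton.1 hg]; exact (gp_spec (mem_sfb.1 hn).1 d).2.1)
    (pdiv d) (fun _ => ball M) (fun _ m => N m ^ (-(2 : ℝ)))
    (fun _ m => Real.rpow_nonneg (N_nonneg m) _) (fun n hn g hg => by
      rw [Finset.mem_singleton.1 hg]
      obtain ⟨hn1, hn2⟩ := mem_sfb.1 hn
      obtain ⟨g1, g2, g3, -⟩ := gp_spec hn1 d
      refine ⟨(mem_pdiv hd).2 ⟨g1.1, g3⟩, mem_ball.2 ⟨(bb_mul_div hn1.1.ne_zero g2).2.2, ?_⟩⟩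
      exact (N_le_of_dvd hn1.1.ne_zero (EuclideanDomain.div_dvd_of_dvd g2)).trans hn2)
  have h2 : ∑ m ∈ ball M, N m ^ (-(2 : ℝ)) ≤ Z :=
    hZ ▸ hs.sum_le_tsum _ fun n _ => Real.rpow_nonneg (N_nonneg n) _
  have h3 := one_le_dv hd
  calc ∑ f ∈ sfb M, (N (gp f d) / N f) ^ 2
      = ∑ n ∈ sfb M, ∑ g ∈ ({gp n d} : Finset O), N (n / g) ^ (-(2 : ℝ)) := by
        refine Finset.sum_congr rfl fun n hn => ?_
        obtain ⟨hn1, -⟩ := mem_sfb.1 hn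
        obtain ⟨e1, e2, e3⟩ := bb_mul_div hn1.1.ne_zero (gp_spec hn1 d).2.1
        have hN : N n = N (gp n d) * N (n / gp n d) := by rw [← N_mul, ← e1]
        have p1 := N_pos e2
        have p2 := N_pos e3
        rw [Finset.sum_singleton, Real.rpow_neg p2.le, Real.rpow_two, hN]
        field_simp
    _ ≤ ∑ _g ∈ pdiv d, Z := h1.trans (Finset.sum_le_sum fun _ _ => h2)
    _ = dv d * Z := by rw [Finset.sum_const, nsmul_eq_mul]; rfl
    _ ≤ ((Z + 1) * dv d) ^ 2 := by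
        have : dv d ≤ dv d ^ 2 := by nlinarith
        have h4 : Z ≤ (Z + 1) ^ 2 := by nlinarith
        rw [mul_pow, mul_comm]
        exact mul_le_mul h4 this (by linarith) (by positivity)

theorem va2_log {M ρ0 Y x : ℝ} (hM : 1 ≤ M) (hρ : 1 ≤ ρ0) (hx : 0 ≤ x) (hY0 : 0 < Y)
    (hY : Y ≤ M * ρ0 * Real.exp (3 * x)) :
    (1 + Real.log (1 + Y)) ^ 2 ≤ 81 * ρ0 ^ 2 * (1 + Real.log M + x) ^ 2 := by
  have h0 : 0 ≤ Real.log M := Real.log_nonneg hM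
  have h1 : 1 ≤ Real.exp (3 * x) := Real.one_le_exp (by positivity)
  have h2 : 1 ≤ M * ρ0 * Real.exp (3 * x) := one_le_mul_of_one_le_of_one_le
    (one_le_mul_of_one_le_of_one_le hM hρ) h1
  have h3 : Real.log (1 + Y) ≤ Real.log (2 * (M * ρ0 * Real.exp (3 * x))) :=
    Real.log_le_log (by positivity) (by linarith)
  rw [Real.log_mul (by norm_num) (by positivity), Real.log_mul (by positivity) (by positivity),
    Real.log_mul (by positivity) (by positivity), Real.log_exp] at h3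
  have h4 : Real.log ρ0 ≤ ρ0 := (Real.log_le_sub_one_of_pos (by linarith)).trans (by linarith)
  have h5 := Real.log_two_lt_d9
  have h6 : 0 ≤ Real.log (1 + Y) := Real.log_nonneg (by linarith)
  have h7 : 1 + Real.log (1 + Y) ≤ 9 * ρ0 * (1 + Real.log M + x) := by nlinarith
  calc (1 + Real.log (1 + Y)) ^ 2 ≤ (9 * ρ0 * (1 + Real.log M + x)) ^ 2 := by gcongr
    _ = _ := by ring

theorem va2_w {e f d : O} {ρ0 : ℝ} {η : ℂ} (u s : ℂ) (hρ0 : 0 < ρ0) (hη : ‖η‖ ≤ 1)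
    (hef : SF (e * f)) (hd : d ≠ 0) (h4 : e ∣ (e * f) / gp (e * f) d) :
    ‖u * (N (e * f) : ℂ) ^ s * ((Real.sqrt (N d) : ℂ) *
      (N d : ℂ) ^ (-(3 * s)) * ((N ((e * f) / gp (e * f) d) : ℂ)⁻¹ *
        (η * (Real.sqrt (N e) : ℂ) * ((N e ^ 2 * ρ0 : ℝ) : ℂ) ^ (1 / 2 - s))))‖ ≤
      N (gp f d) * Real.exp (s.re * lg f + lg d / 2 - 3 * s.re * lg d +
        (1 / 2 - s.re) * Real.log ρ0 - lg f) * ‖u‖ * Real.exp ((1 / 2 - s.re) * lg e) := by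
  have h0 : e ≠ 0 := left_ne_zero_of_mul hef.1.ne_zero
  have hf0 : f ≠ 0 := right_ne_zero_of_mul hef.1.ne_zero
  have hep := N_pos h0
  have hfp := N_pos hf0
  obtain ⟨e1, e2, e3⟩ := bb_mul_div hef.1.ne_zero (gp_spec hef d).2.1
  have hN : N ((e * f) / gp (e * f) d) = N e * N f / N (gp f d) := by
    have h5 : N (e * f) = N (gp (e * f) d) * N ((e * f) / gp (e * f) d) := by
      rw [← N_mul, ← e1]
    have h6 := N_pos e2
    rw [← N_mul, h5, ← va2_gp hef h4]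
    field_simp
  have hg0 : 0 < N (gp f d) := by rw [← va2_gp hef h4]; exact N_pos e2
  have hρe : 0 < N e ^ 2 * ρ0 := by positivity
  have q : (N e * N f / N (gp f d))⁻¹ = N (gp f d) * Real.exp (-lg e - lg f) := by
    rw [Real.exp_sub, Real.exp_neg, va2_exp_lg h0, va2_exp_lg hf0]; field_simp
  have q1 : Real.log (N e ^ 2 * ρ0) = 2 * lg e + Real.log ρ0 := by
    rw [Real.log_mul (by positivity) hρ0.ne', Real.log_pow]; rfl
  have q2 : Real.log (N (e * f)) = lg e + lg f := va2_lg_mul h0 hf0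
  have q3 : (-(3 * s)).re = -(3 * s.re) := by simp
  have q4 : (1 / 2 - s).re = 1 / 2 - s.re := by simp
  rw [norm_mul, norm_mul, norm_mul, norm_mul, norm_mul, norm_mul, norm_mul, norm_inv,
    va2_norm_cpow (N_pos hef.1.ne_zero), va2_norm_cpow (N_pos hd), va2_norm_cpow hρe,
    Complex.norm_of_nonneg (Real.sqrt_nonneg _), Complex.norm_of_nonneg (Real.sqrt_nonneg _),
    Complex.norm_of_nonneg (N_nonneg _), hN, q, q1, q2, q3, q4, va2_sqrt (N_pos hd), va2_sqrt hep]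
  change ‖u‖ * Real.exp (s.re * (lg e + lg f)) * (Real.exp (lg d / 2) *
    Real.exp (-(3 * s.re) * lg d) * (N (gp f d) * Real.exp (-lg e - lg f) *
      (‖η‖ * Real.exp (lg e / 2) * Real.exp ((1 / 2 - s.re) * (2 * lg e + Real.log ρ0))))) ≤ _
  have q5 : Real.exp (s.re * (lg e + lg f)) * Real.exp (lg d / 2) *
      Real.exp (-(3 * s.re) * lg d) * Real.exp (-lg e - lg f) * Real.exp (lg e / 2) *
      Real.exp ((1 / 2 - s.re) * (2 * lg e + Real.log ρ0)) =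
      Real.exp (s.re * lg f + lg d / 2 - 3 * s.re * lg d +
        (1 / 2 - s.re) * Real.log ρ0 - lg f) * Real.exp ((1 / 2 - s.re) * lg e) := by
    simp only [← Real.exp_add]
    congr 1
    ring
  calc _ = ‖η‖ * (N (gp f d) * ‖u‖ * (Real.exp (s.re * (lg e + lg f)) * Real.exp (lg d / 2) *
      Real.exp (-(3 * s.re) * lg d) * Real.exp (-lg e - lg f) * Real.exp (lg e / 2) *
      Real.exp ((1 / 2 - s.re) * (2 * lg e + Real.log ρ0)))) := by ring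
    _ ≤ 1 * (N (gp f d) * ‖u‖ * (Real.exp (s.re * (lg e + lg f)) * Real.exp (lg d / 2) *
      Real.exp (-(3 * s.re) * lg d) * Real.exp (-lg e - lg f) * Real.exp (lg e / 2) *
      Real.exp ((1 / 2 - s.re) * (2 * lg e + Real.log ρ0)))) :=
        mul_le_mul_of_nonneg_right hη (by positivity)
    _ = _ := by rw [q5]; ring

theorem va2_e1 {M ρ0 v σ g : ℝ} {d f : O} (hM0 : 0 < M) (hρ : 1 ≤ ρ0) (hd : d ≠ 0) (hf0 : f ≠ 0)
    (hgn : 0 ≤ g) :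
    Real.exp ((1 / 2 - σ) * (v + lg f - 3 * lg d - Real.log ρ0)) *
      (g * Real.exp (σ * lg f + lg d / 2 - 3 * σ * lg d + (1 / 2 - σ) * Real.log ρ0 - lg f)) *
      (Real.sqrt (Real.exp (Real.log M - lg f)) +
        Real.exp (Real.log M - lg f - (v + lg f - 3 * lg d - Real.log ρ0))) ≤
      ρ0 * (Real.sqrt M * Real.exp (v / 2) / N d + M * Real.exp (-(v / 2)) * N d ^ 2) *
        Real.exp (-(σ * v)) * (g / N f) := by
  have lρ := Real.log_nonneg hρ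
  have lf := va2_lg_nonneg hf0
  have hρ0 : 0 < ρ0 := by linarith
  have := N_pos hd
  have := N_pos hf0
  have p2 : ρ0 * (Real.sqrt M * Real.exp (v / 2) / N d + M * Real.exp (-(v / 2)) * N d ^ 2) *
      Real.exp (-(σ * v)) * (g / N f) =
      g * (Real.exp (Real.log ρ0 + Real.log M / 2 + v / 2 - lg d - σ * v - lg f) +
        Real.exp (Real.log ρ0 + Real.log M - v / 2 + 2 * lg d - σ * v - lg f)) := by
    have q : Real.exp (2 * lg d) = N d ^ 2 := by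
      rw [← va2_exp_lg hd, ← Real.exp_nat_mul]; norm_num
    simp only [Real.exp_sub, Real.exp_add, Real.exp_neg, Real.exp_log hρ0, Real.exp_log hM0,
      va2_exp_lg hd, va2_exp_lg hf0, q, ← va2_sqrt hM0]
    field_simp
  rw [p2, va2_sqrt (Real.exp_pos _), Real.log_exp, mul_left_comm, mul_assoc]
  refine mul_le_mul_of_nonneg_left ?_ hgn
  rw [mul_add]
  simp only [← Real.exp_add]
  refine add_le_add (Real.exp_le_exp.2 ?_) (Real.exp_le_exp.2 ?_) <;> nlinarith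

theorem va2_f {Q0 : O} {τ' : O → O → ℂ} {η u : O → ℂ} {ρ0 G Cl Cκ M v T : ℝ} {s : ℂ}
    {S : Finset O} {d f : O} {Kf : ℝ → ℂ} (hQ : (81 * Q0 ^ 2 : O) ≠ 0) (hρ : 1 ≤ ρ0) (hG : 0 ≤ G)
    (hCl : 0 ≤ Cl) (hCκ : 0 ≤ Cκ)
    (hls : ∀ (b : O → ℂ) (Y E : ℝ) (R S : Finset O) (x : O → ℂ),
      (∀ n, b n ≠ 0 → ∃ c, CubeShape Q0 n c ∧ ‖b n‖ ≤ G * Real.sqrt (N c)) →
      0 < Y → 1 ≤ E → (∀ m ∈ R, m ≠ 0) → S ⊆ sfb E →
      ∑ m ∈ R, ‖b m‖ * N m ^ (-(1 / 2 : ℝ)) * min 1 ((Y / N m) ^ 2) * ‖∑ e ∈ S, x e * cub e m‖ ≤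
        Cl * G * N Q0 ^ 2 * (1 + Real.log (1 + Y)) ^ 2 * (Real.sqrt E + Y) * Real.sqrt (n2 S x))
    (hη : ∀ e, SF e → ‖η e‖ ≤ 1) (hper : ∀ e e', 81 * Q0 ^ 2 ∣ e - e' → τ' e = τ' e')
    (hshape : ∀ e n, τ' e n ≠ 0 → ∃ c, CubeShape Q0 n c ∧ ‖τ' e n‖ ≤ G * Real.sqrt (N c))
    (hsum : ∀ e, SF e → IsCoprime e Q0 → ∀ v : ℝ,
      Summable (fun n : O => ‖if n = 0 then 0 else τ' e n * cub e n * (N n : ℂ) ^ (s - 1) *
        Kf (lg n + v - Real.log (N e ^ 2 * ρ0))‖))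
    (hK : ∀ j : ℕ, j = 0 ∨ j = 2 → ∃ κ : ℝ → ℂ, Continuous κ ∧ (∀ τ, ‖κ τ‖ ≤ Cκ * mT T τ) ∧
      ∀ u : ℝ, Kf u = Real.exp ((1 / 2 - j - s.re) * u) *
        ∫ τ : ℝ, κ τ * Complex.exp (τ * u * Complex.I))
    (hM : 1 ≤ M) (hv : 0 ≤ v) (hT : 0 < T) (hS : S ⊆ sfb M) (hSQ : ∀ n ∈ S, IsCoprime n Q0)
    (hd : d ≠ 0) (hf : f ∈ sfb M) :
    ‖∑ e ∈ va2S M S d f, u (e * f) * (N (e * f) : ℂ) ^ s * ((Real.sqrt (N d) : ℂ) *
      (N d : ℂ) ^ (-(3 * s)) * ((N ((e * f) / gp (e * f) d) : ℂ)⁻¹ *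
        (η e * (Real.sqrt (N e) : ℂ) * ((N e ^ 2 * ρ0 : ℝ) : ℂ) ^ (1 / 2 - s) *
          ∑' m : O, if m = 0 then 0 else τ' e m * cub e m * (N m : ℂ) ^ (s - 1) *
            Kf (lg m + (v + lg (e * f) - 3 * lg d) - Real.log (N e ^ 2 * ρ0)))))‖ ≤
      N (81 * Q0 ^ 2) * (4 * Cκ * (Cl * G * N Q0 ^ 2 * (81 * ρ0 ^ 2 * (1 + Real.log M + lg d) ^ 2)) *
        (ρ0 * (Real.sqrt M * Real.exp (v / 2) / N d + M * Real.exp (-(v / 2)) * N d ^ 2)) *
        Real.exp (-(s.re * v)) *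
        (N (gp f d) / N f * Real.sqrt (n2 (va2S M S d f) (fun e => u (e * f))))) := by
  obtain ⟨hf1, hf2⟩ := mem_sfb.1 hf
  have hf0 := hf1.1.ne_zero
  have hfp := N_pos hf0
  have hM0 : 0 < M := by linarith
  have hρ0 : 0 < ρ0 := by linarith
  obtain ⟨E, hE⟩ : ∃ E, E = M / N f := ⟨_, rfl⟩
  have hE1 : 1 ≤ E := hE ▸ (one_le_div hfp).2 hf2
  obtain ⟨a, ha⟩ : ∃ a, a = v + lg f - 3 * lg d - Real.log ρ0 := ⟨_, rfl⟩
  obtain ⟨Y, hY⟩ : ∃ Y, Y = E * Real.exp (-a) := ⟨_, rfl⟩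
  have hY0 : 0 < Y := by rw [hY]; positivity
  obtain ⟨W, hW⟩ : ∃ W, W = N (gp f d) * Real.exp (s.re * lg f + lg d / 2 - 3 * s.re * lg d +
      (1 / 2 - s.re) * Real.log ρ0 - lg f) := ⟨_, rfl⟩
  have hgn := N_nonneg (gp f d)
  have hW0 : 0 ≤ W := by rw [hW]; positivity
  obtain ⟨nn, hnn⟩ : ∃ nn, nn = Real.sqrt (n2 (va2S M S d f) (fun e => u (e * f))) := ⟨_, rfl⟩
  have hnn0 : 0 ≤ nn := hnn ▸ Real.sqrt_nonneg _
  have lf := va2_lg_nonneg hf0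
  have ld := va2_lg_nonneg hd
  have hEe : E = Real.exp (Real.log M - lg f) := by
    rw [hE, Real.exp_sub, Real.exp_log hM0, va2_exp_lg hf0]
  have hYe : Y = Real.exp (Real.log M - lg f - a) := by
    rw [hY, hEe, ← Real.exp_add]; rfl
  have hlog : (1 + Real.log (1 + Y)) ^ 2 ≤ 81 * ρ0 ^ 2 * (1 + Real.log M + lg d) ^ 2 := by
    refine va2_log hM hρ ld hY0 ?_
    rw [hYe, ← Real.exp_log hM0, ← Real.exp_log hρ0, ← Real.exp_add, ← Real.exp_add,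
      Real.log_exp, ha]
    exact Real.exp_le_exp.2 (by linarith)
  rw [← hnn, ← Finset.sum_fiberwise_of_maps_to (g := fun e => e % (81 * Q0 ^ 2))
    (t := res (81 * Q0 ^ 2)) fun e _ => b4_mod_mem_res hQ e]
  refine (norm_sum_le _ _).trans ((Finset.sum_le_card_nsmul _ _ _ fun c _ => ?_).trans
    (le_of_eq (by rw [card_res hQ, nsmul_eq_mul]; rfl)))
  obtain ⟨Sc, hSc⟩ : ∃ Sc, Sc = (va2S M S d f).filter (fun e => e % (81 * Q0 ^ 2) = c) := ⟨_, rfl⟩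
  have hmem : ∀ e ∈ Sc, SF e ∧ N e ≤ E ∧ e * f ∈ S ∧ e ∣ (e * f) / gp (e * f) d ∧
      τ' e = τ' c := by
    intro e he
    rw [hSc] at he
    obtain ⟨h1, h2⟩ := Finset.mem_filter.1 he
    obtain ⟨h3, h4, h5⟩ := Finset.mem_filter.1 h1
    obtain ⟨h6, h7⟩ := mem_sfb.1 h3
    exact ⟨h6, hE ▸ h7, h4, h5, hper _ _ (h2 ▸ b4_dvd_sub_mod _ e)⟩
  have harg : ∀ e ∈ Sc, ∀ m, lg m + (v + lg (e * f) - 3 * lg d) - Real.log (N e ^ 2 * ρ0) =
      lg m + a - lg e := by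
    intro e he m
    have h0 := (hmem e he).1.1.ne_zero
    have := N_pos h0
    rw [va2_lg_mul h0 hf0, Real.log_mul (by positivity) hρ0.ne', Real.log_pow, ha]
    simp only [lg]
    push_cast
    ring
  have key := va2_m (b := τ' c) (y := fun e => u (e * f)) (Sf := Sc)
    (w := fun e => u (e * f) * (N (e * f) : ℂ) ^ s * ((Real.sqrt (N d) : ℂ) *
      (N d : ℂ) ^ (-(3 * s)) * ((N ((e * f) / gp (e * f) d) : ℂ)⁻¹ *
        (η e * (Real.sqrt (N e) : ℂ) * ((N e ^ 2 * ρ0 : ℝ) : ℂ) ^ (1 / 2 - s)))))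
    (B := Cl * G * N Q0 ^ 2 * (81 * ρ0 ^ 2 * (1 + Real.log M + lg d) ^ 2) * (Real.sqrt E + Y) *
      (W * nn)) (by linarith : 0 < E) hT hW0 ?_ s hK hY ?_ ?_
  · rw [← hSc]
    refine le_trans (le_of_eq ?_) (key.trans ?_)
    · congr 1
      refine Finset.sum_congr rfl fun e he => ?_
      simp only [harg e he, (hmem e he).2.2.2.2]
      ring
    · have e1 : Real.exp ((1 / 2 - s.re) * a) * W * (Real.sqrt E + Y) ≤
          ρ0 * (Real.sqrt M * Real.exp (v / 2) / N d + M * Real.exp (-(v / 2)) * N d ^ 2) *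
            Real.exp (-(s.re * v)) * (N (gp f d) / N f) := by
        rw [hW, hYe, hEe, ha]
        exact va2_e1 hM0 hρ hd hf0 hgn
      calc Real.exp ((1 / 2 - s.re) * a) * (4 * Cκ * (Cl * G * N Q0 ^ 2 *
            (81 * ρ0 ^ 2 * (1 + Real.log M + lg d) ^ 2) * (Real.sqrt E + Y) * (W * nn)))
          = 4 * Cκ * (Cl * G * N Q0 ^ 2 * (81 * ρ0 ^ 2 * (1 + Real.log M + lg d) ^ 2)) *
            (Real.exp ((1 / 2 - s.re) * a) * W * (Real.sqrt E + Y)) * nn := by ring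
        _ ≤ 4 * Cκ * (Cl * G * N Q0 ^ 2 * (81 * ρ0 ^ 2 * (1 + Real.log M + lg d) ^ 2)) *
            (ρ0 * (Real.sqrt M * Real.exp (v / 2) / N d + M * Real.exp (-(v / 2)) * N d ^ 2) *
            Real.exp (-(s.re * v)) * (N (gp f d) / N f)) * nn := by gcongr
        _ = _ := by ring
  · intro R x hR hx
    refine (hls (τ' c) Y E R Sc x (hshape c) hY0 hE1 hR
      fun e he => mem_sfb.2 ⟨(hmem e he).1, (hmem e he).2.1⟩).trans ?_
    have h1 : Real.sqrt (n2 Sc x) ≤ W * nn := by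
      rw [hnn, ← Real.sqrt_sq hW0, ← Real.sqrt_mul (sq_nonneg W)]
      refine Real.sqrt_le_sqrt ?_
      unfold n2
      rw [Finset.mul_sum]
      calc ∑ e ∈ Sc, ‖x e‖ ^ 2 ≤ ∑ e ∈ Sc, W ^ 2 * ‖u (e * f)‖ ^ 2 :=
            Finset.sum_le_sum fun e he => by
              rw [← mul_pow]; exact pow_le_pow_left₀ (norm_nonneg _) (hx e he) 2
        _ ≤ _ := by
            rw [hSc]
            exact Finset.sum_le_sum_of_subset_of_nonneg (Finset.filter_subset _ _)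
              fun _ _ _ => by positivity
    gcongr
  · intro e he
    obtain ⟨h1, h2, h3, h4, -⟩ := hmem e he
    exact ⟨h1.1.ne_zero, h2, hW ▸ va2_w (u (e * f)) s hρ0 (hη e h1) (mem_sfb.1 (hS h3)).1 hd h4⟩
  · intro e he
    obtain ⟨h1, -, h3, -, h5⟩ := hmem e he
    have := hsum e h1 ((hSQ _ h3).of_mul_left_left) (v + lg (e * f) - 3 * lg d)
    simpa only [harg e he, h5] using this

theorem va2_fin {A c c' L X e ρ q x y : ℝ} (hA : 0 ≤ A) (hc : 0 ≤ c) (hc' : 0 ≤ c') (hL : 0 ≤ L)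
    (hX : 0 ≤ X) (he : 0 ≤ e) (hρ : 0 ≤ ρ) (h : ρ ≤ q) (hxy : x ≤ y) (hy : 0 ≤ y) :
    A * (c * (c' * (81 * ρ ^ 2 * L)) * (ρ * X) * e) * x ≤
      A * (c * (c' * (81 * q ^ 2 * L)) * (q * X) * e) * y := by
  have hq : 0 ≤ q := hρ.trans h
  refine (mul_le_mul_of_nonneg_left hxy (by positivity)).trans ?_
  gcongr

/-- **the dual terms for one `d`.**  `K = e^v`, `n = e e' g`, `g = gp n d`, `f = e' g`, `E = M/N f`,
`vor_div` for `φ(d³ ·)`, `r = n/g = e e'`, at `v + lg n - 3 lg d` (`winS_dvR`).  The kernel is evaluated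
at `u = lg m + v + lg f - lg e - 3 lg d - log ρ₀`.  Put `Y = E ρ₀ N d³/(K N f)` (independent of `e`).
For `N m ≤ Y` use `kern_vor` with `j = 0`, for `N m > Y` with `j = 2`; in both cases
`e^{iτu}` separates `m` from `e`, and the size is
`√K · N g · N f^{-1/2} · N d^{-1} · N m^{-1/2} min(1,(Y/N m)²) · (N e/E)^{0 or 2} · K^{-Re s}`.
Split `e` into classes mod `81Q₀²` (`τ' e` depends only on the class), `ls_shape`:
`≤ √(KM)/(N e' N d) ‖u 1_{f∣·}‖ + (M/√K) ρ₀ N d² N g^{-3/2} N e'^{-5/2} ‖u 1_{f∣·}‖`; Cauchy–Schwarz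
in `e'`; at most `dv d` values of `g`. -/
theorem vas_dual (ℓ : ℤ) : ∃ (C : ℝ) (B0 : ℕ), 0 ≤ C ∧ ∀ (Q0 : O), Q0 ≠ 0 → (3 : O) ∣ Q0 →
    ∀ φ : O → ℂ, Per Q0 φ → (∀ m, ‖φ m‖ ≤ 1) → ∀ (M v T : ℝ) (s : ℂ) (S : Finset O) (u : O → ℂ)
    (d : O), 1 ≤ M → 0 ≤ v → 1 ≤ T → |s.re| ≤ 4 → S ⊆ sfb M → (∀ n ∈ S, IsCoprime n Q0) → Prim d →
    ‖∑ n ∈ S, u n * (N n : ℂ) ^ s * ((Real.sqrt (N d) : ℂ) * (N d : ℂ) ^ (-(3 * s)) *
        (winS (dvR (n / gp n d) (prim (th3 ℓ (fun m => φ (d ^ 3 * m))))) (v + lg n - 3 * lg d) T s -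
          resid ℓ (fun m => φ (d ^ 3 * m)) / (N (n / gp n d) : ℂ) *
            mainW (5 / 6) s (v + lg n - 3 * lg d) T))‖ ≤
      C * N Q0 ^ B0 * (T + |s.im|) ^ 8 * (1 + Real.log M + lg d) ^ 2 * Real.sqrt (nt S u) * dv d *
        (Real.sqrt M * Real.exp (v / 2) / N d + M * Real.exp (-(v / 2)) * N d ^ 2) *
        Real.exp (-(s.re * v)) := by
  obtain ⟨B0, hB⟩ := vor_div
  obtain ⟨Cl, hCl, hls⟩ := ls_shape
  obtain ⟨C0, hC0, hk0⟩ := kern_vor ℓ 0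
  obtain ⟨C2, hC2, hk2⟩ := kern_vor ℓ 2
  obtain ⟨Cg, hCg, hg⟩ := va2_gsum
  have h81 := N_nonneg (81 : O)
  refine ⟨N (81 : O) * (4 * (C0 + C2) * Cl * 81) * Cg, 4 * B0 + 4, by positivity, ?_⟩
  intro Q0 hQ h3 φ hφ hφ1 M v T s S u d hM hv hT hs hS hSQ hd
  have hper : Per Q0 (fun m => φ (d ^ 3 * m)) := fun x t => by
    have e : d ^ 3 * (x + Q0 * t) = d ^ 3 * x + Q0 * (d ^ 3 * t) := by ring
    simp only [e, hφ _ _]
  obtain ⟨-, -, -, τ', η, ρ0, hρ1, hρ2, hη, hτ, hsh, hsum, hfe⟩ :=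
    hB ℓ Q0 hQ h3 _ hper (fun m => hφ1 _)
  obtain ⟨hQ1, -, -, hQ'⟩ := vd_rho hQ h3
  have hσ : s.re + (-5) < 5 / 6 := by linarith [(abs_le.1 hs).2]
  have hT0 : 0 < T := by linarith
  have hTs : 1 ≤ T + |s.im| := by linarith [abs_nonneg s.im]
  have hd0 := hd.ne_zero
  have hK : ∀ j : ℕ, j = 0 ∨ j = 2 → ∃ κ : ℝ → ℂ, Continuous κ ∧
      (∀ τ, ‖κ τ‖ ≤ (C0 + C2) * (T + |s.im|) ^ 8 * mT T τ) ∧
      ∀ u : ℝ, kernT (Vor.gamL ℓ) T (-5) s u = Real.exp ((1 / 2 - j - s.re) * u) *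
        ∫ τ : ℝ, κ τ * Complex.exp (τ * u * Complex.I) := by
    have hm : ∀ τ, 0 ≤ mT T τ := fun τ => by unfold mT; positivity
    have h8 : 1 ≤ (T + |s.im|) ^ 8 := one_le_pow₀ hTs
    rintro j (rfl | rfl)
    · obtain ⟨κ, c, b, k⟩ := hk0 T s hT hs
      refine ⟨κ, c, fun τ => (b τ).trans (mul_le_mul_of_nonneg_right ?_ (hm τ)),
        fun u => k _ u hσ⟩
      rw [mul_zero, pow_zero]
      exact mul_le_mul (by linarith) h8 zero_le_one (by linarith)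
    · obtain ⟨κ, c, b, k⟩ := hk2 T s hT hs
      refine ⟨κ, c, fun τ => (b τ).trans (mul_le_mul_of_nonneg_right ?_ (hm τ)),
        fun u => k _ u hσ⟩
      exact mul_le_mul_of_nonneg_right (by linarith) (by positivity)
  obtain ⟨H, hH⟩ : ∃ H : O → O → ℂ, H = fun n e => u n * (N n : ℂ) ^ s * ((Real.sqrt (N d) : ℂ) *
      (N d : ℂ) ^ (-(3 * s)) * ((N (n / gp n d) : ℂ)⁻¹ *
        (η e * (Real.sqrt (N e) : ℂ) * ((N e ^ 2 * ρ0 : ℝ) : ℂ) ^ (1 / 2 - s) *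
          ∑' m : O, if m = 0 then 0 else τ' e m * cub e m * (N m : ℂ) ^ (s - 1) *
            kernT (Vor.gamL ℓ) T (-5) s
              (lg m + (v + lg n - 3 * lg d) - Real.log (N e ^ 2 * ρ0))))) := ⟨_, rfl⟩
  have hterm : ∀ n ∈ S, u n * (N n : ℂ) ^ s * ((Real.sqrt (N d) : ℂ) * (N d : ℂ) ^ (-(3 * s)) *
        (winS (dvR (n / gp n d) (prim (th3 ℓ (fun m => φ (d ^ 3 * m))))) (v + lg n - 3 * lg d) T s -
          resid ℓ (fun m => φ (d ^ 3 * m)) / (N (n / gp n d) : ℂ) *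
            mainW (5 / 6) s (v + lg n - 3 * lg d) T)) = ∑ e ∈ pdiv (n / gp n d), H n e := by
    intro n hn
    have h1 := (mem_sfb.1 (hS hn)).1
    have h2 := gp_spec h1 d
    rw [hfe (n / gp n d) (h1.div h2.1.1 h2.2.1).1 ((hSQ n hn).of_isCoprime_of_dvd_left
      (EuclideanDomain.div_dvd_of_dvd h2.2.1)) _ T (-5) s hT hσ, add_sub_cancel_left, hH]
    simp only [Finset.mul_sum]
  rw [Finset.sum_congr rfl hterm, va2_rearr hS d H]
  obtain ⟨L, hL⟩ : ∃ L, L = (1 + Real.log M + lg d) ^ 2 := ⟨_, rfl⟩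
  obtain ⟨X, hX⟩ : ∃ X, X = Real.sqrt M * Real.exp (v / 2) / N d +
    M * Real.exp (-(v / 2)) * N d ^ 2 := ⟨_, rfl⟩
  have hL0 : 0 ≤ L := by rw [hL]; positivity
  have hX0 : 0 ≤ X := by have := N_pos hd0; rw [hX]; positivity
  have hf : ∀ f ∈ sfb M, ‖∑ e ∈ va2S M S d f, H (e * f) e‖ ≤
      N (81 * Q0 ^ 2) * (4 * ((C0 + C2) * (T + |s.im|) ^ 8) * (Cl * N Q0 ^ B0 * N Q0 ^ 2 *
        (81 * ρ0 ^ 2 * L)) * (ρ0 * X) * Real.exp (-(s.re * v))) *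
        (N (gp f d) / N f * Real.sqrt (n2 (va2S M S d f) (fun e => u (e * f)))) := by
    intro f hf
    have := va2_f (u := u) (Cκ := (C0 + C2) * (T + |s.im|) ^ 8) hQ' hρ1 (by positivity) hCl
      (by positivity) (fun b Y E R S x h1 h2 h3 h4 h5 =>
        hls Q0 b (N Q0 ^ B0) Y E R S x hQ (by positivity) h1 h2 h3 h4 h5) hη hτ hsh
      (fun e h1 h2 v => hsum e h1 h2 v T (-5) s hT hσ) hK hM hv hT0 hS hSQ hd0 hf
    rw [← hL, ← hX] at this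
    rw [hH]
    exact this.trans (le_of_eq (by ring))
  have hcs : ∑ f ∈ sfb M, N (gp f d) / N f * Real.sqrt (n2 (va2S M S d f) (fun e => u (e * f))) ≤
      Cg * dv d * Real.sqrt (nt S u) := by
    refine (Real.sum_mul_le_sqrt_mul_sqrt _ _ _).trans (mul_le_mul ?_ (Real.sqrt_le_sqrt ?_)
      (Real.sqrt_nonneg _) (mul_nonneg hCg (bb_dv_nonneg d)))
    · exact Real.sqrt_le_iff.2 ⟨mul_nonneg hCg (bb_dv_nonneg d), hg M d hd0⟩
    · refine le_trans (le_of_eq (Finset.sum_congr rfl fun f _ => ?_)) (va2_n2 hS d u)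
      exact Real.sq_sqrt (Finset.sum_nonneg fun _ _ => by positivity)
  refine (norm_sum_le _ _).trans ((Finset.sum_le_sum hf).trans ?_)
  rw [← Finset.mul_sum, ← hL, ← hX, N_mul, N_pow]
  have hdv := bb_dv_nonneg d
  refine (va2_fin (by positivity) (by positivity) (by positivity) hL0 hX0 (Real.exp_pos _).le
    (by linarith) hρ2 hcs (by positivity)).trans (le_of_eq ?_)
  ring

theorem va2_mainW {n d : O} (hn : n ≠ 0) (hd : d ≠ 0) (s : ℂ) (v T : ℝ) :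
    (N n : ℂ) ^ s * ((Real.sqrt (N d) : ℂ) * (N d : ℂ) ^ (-(3 * s))) *
      mainW (5 / 6) s (v + lg n - 3 * lg d) T =
      ((N n ^ (5 / 6 : ℝ) : ℝ) : ℂ) * ((N d : ℂ) ^ 2)⁻¹ * mainW (5 / 6) s v T := by
  have e1 : ((N d : ℂ) ^ 2)⁻¹ = Complex.exp (-(2 * (lg d : ℝ))) := by
    rw [Complex.exp_neg, ← va2_exp_lg hd, Complex.ofReal_exp, ← Complex.exp_nat_mul]
    norm_num
  rw [e1, va2_cpow (N_pos hn), va2_cpow (N_pos hd), va2_sqrt (N_pos hd),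
    Real.rpow_def_of_pos (N_pos hn), Complex.ofReal_exp, Complex.ofReal_exp]
  unfold mainW
  rw [mul_left_comm _ ((Real.sqrt Real.pi / T : ℝ) : ℂ), mul_left_comm _ ((Real.sqrt Real.pi / T : ℝ) : ℂ)]
  congr 1
  simp only [← Complex.exp_add]
  congr 1
  simp only [lg]
  push_cast
  ring

theorem va2_split (ℓ : ℤ) {Q0 : O} (hQ : Q0 ≠ 0) (h3Q : (3 : O) ∣ Q0) {φ : O → ℂ} (hφ : Per Q0 φ)
    (hφ1 : ∀ m, ‖φ m‖ ≤ 1) {n : O} (hn : SF n) (Δ v : ℝ) {T : ℝ} (hT : 1 ≤ T) (s u : ℂ) :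
    u * (winS (fun k => h3 ℓ φ (n * k)) v T s -
        ser ℓ φ n * ((N n ^ (5 / 6 : ℝ) : ℝ) : ℂ) * mainW (5 / 6) s v T) =
      u * winS (fun k => h3tail ℓ φ Δ (n * k)) v T s +
      ∑ d ∈ (ball Δ).filter Prim, (mu d * ang d ^ (3 * ℓ)) *
        (u * (N n : ℂ) ^ s * ((Real.sqrt (N d) : ℂ) * (N d : ℂ) ^ (-(3 * s)) *
        (winS (dvR (n / gp n d) (prim (th3 ℓ (fun m => φ (d ^ 3 * m))))) (v + lg n - 3 * lg d) T s -
          resid ℓ (fun m => φ (d ^ 3 * m)) / (N (n / gp n d) : ℂ) *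
            mainW (5 / 6) s (v + lg n - 3 * lg d) T))) -
      u * (ser ℓ φ n - ∑ d ∈ (ball Δ).filter Prim,
        mu d * ((N (EuclideanDomain.gcd n d) / (N d ^ 2 * N n) : ℝ) : ℂ) *
          resid ℓ (fun m => φ (d ^ 3 * m))) * ((N n ^ (5 / 6 : ℝ) : ℝ) : ℂ) *
        mainW (5 / 6) s v T := by
  obtain ⟨B0, hB⟩ := vor_div
  have hn0 := hn.1.ne_zero
  have hw : ∀ a : O → ℂ, winS (fun k => a (n * k)) v T s =
      (N n : ℂ) ^ s * winS (dvR n a) (v + lg n) T s := by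
    intro a
    rw [winS_dvR hn0, add_sub_cancel_right, ← mul_assoc, va2_cpow (N_pos hn0),
      va2_cpow (N_pos hn0), ← Complex.exp_add]
    simp
  have hd : ∀ d ∈ (ball Δ).filter Prim, (mu d * ang d ^ (3 * ℓ)) *
        (u * (N n : ℂ) ^ s * ((Real.sqrt (N d) : ℂ) * (N d : ℂ) ^ (-(3 * s)) *
        (winS (dvR (n / gp n d) (prim (th3 ℓ (fun m => φ (d ^ 3 * m))))) (v + lg n - 3 * lg d) T s -
          resid ℓ (fun m => φ (d ^ 3 * m)) / (N (n / gp n d) : ℂ) *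
            mainW (5 / 6) s (v + lg n - 3 * lg d) T))) =
      u * (N n : ℂ) ^ s * (mu d * (Real.sqrt (N d) : ℂ) * ang d ^ (3 * ℓ) *
        (N d : ℂ) ^ (-(3 * s)) *
        winS (dvR (n / gp n d) (prim (th3 ℓ (fun m => φ (d ^ 3 * m))))) (v + lg n - 3 * lg d) T s) -
      u * (((N n ^ (5 / 6 : ℝ) : ℝ) : ℂ) * mainW (5 / 6) s v T) *
        (mu d * ((N (EuclideanDomain.gcd n d) / (N d ^ 2 * N n) : ℝ) : ℂ) *
          resid ℓ (fun m => φ (d ^ 3 * m))) := by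
    intro d hd
    have hd0 := (Finset.mem_filter.1 hd).2.ne_zero
    have hper : Per Q0 (fun m => φ (d ^ 3 * m)) := fun x t => by
      have e : d ^ 3 * (x + Q0 * t) = d ^ 3 * x + Q0 * (d ^ 3 * t) := by ring
      simp only [e, hφ _ _]
    have h1 : ang d ^ (3 * ℓ) * resid ℓ (fun m => φ (d ^ 3 * m)) =
        resid ℓ (fun m => φ (d ^ 3 * m)) := by
      by_cases h : ℓ = 0
      · rw [h]; simp
      · rw [(hB ℓ Q0 hQ h3Q _ hper (fun m => hφ1 _)).2.1 h, mul_zero]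
    have h2 := va2_mainW hn0 hd0 s v T
    obtain ⟨g1, g2, -, g4, -⟩ := gp_spec hn d
    obtain ⟨e1, e2, e3⟩ := bb_mul_div hn0 g2
    have h3 : ((N (EuclideanDomain.gcd n d) / (N d ^ 2 * N n) : ℝ) : ℂ) =
        ((N d : ℂ) ^ 2)⁻¹ * (N (n / gp n d) : ℂ)⁻¹ := by
      have h5 : N n = N (gp n d) * N (n / gp n d) := by rw [← N_mul, ← e1]
      have p1 := (N_pos e2).ne'
      have p2 := (N_pos e3).ne'
      have p3 := (N_pos hd0).ne'
      have h6 : N (EuclideanDomain.gcd n d) / (N d ^ 2 * N n) =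
          (N d ^ 2)⁻¹ * (N (n / gp n d))⁻¹ := by
        rw [← g4, h5]
        field_simp
      rw [h6]
      push_cast
      ring
    rw [h3]
    linear_combination (-(u * mu d * (N (n / gp n d) : ℂ)⁻¹ * ((N n : ℂ) ^ s *
      ((Real.sqrt (N d) : ℂ) * (N d : ℂ) ^ (-(3 * s))) *
      mainW (5 / 6) s (v + lg n - 3 * lg d) T))) * h1 -
      (u * mu d * (N (n / gp n d) : ℂ)⁻¹ * resid ℓ (fun m => φ (d ^ 3 * m))) * h2
  rw [Finset.sum_congr rfl hd, Finset.sum_sub_distrib, ← Finset.mul_sum, ← Finset.mul_sum, hw, hw,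
    win_h3_split ℓ hφ1 hn Δ (v + lg n) hT s]
  ring

/-- sum of the dual bounds over `N d ≤ Δ` -/
theorem va2_dsum : ∃ (C : ℝ) (B : ℕ), 0 ≤ C ∧ ∀ M v Δ a b : ℝ, 1 ≤ M → Real.log M ≤ 2 * v → 1 ≤ Δ →
    Real.log Δ ≤ v → 0 ≤ a → 0 ≤ b →
    ∑ d ∈ (ball Δ).filter Prim, (1 + Real.log M + lg d) ^ 2 * dv d * (a / N d + b * N d ^ 2) ≤
      C * (1 + v) ^ B * (a + b * Δ ^ 3) := by
  obtain ⟨C4, B4, hC4, h4⟩ := sum_dv_inv 1
  obtain ⟨C5, B5, hC5, h5⟩ := sum_dv 1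
  refine ⟨9 * (C4 + C5), B4 + B5 + 2, by positivity, fun M v Δ a b hM hMv hΔ hΔv ha hb => ?_⟩
  have l1 := Real.log_nonneg hM
  have l2 := Real.log_nonneg hΔ
  have hv : 1 ≤ 1 + v := by linarith
  have hΔ0 : 0 ≤ Δ := by linarith
  have i4 : ∑ d ∈ ball Δ, dv d ^ 1 / N d ≤ (C4 + C5) * (1 + v) ^ (B4 + B5) :=
    (h4 Δ hΔ).trans (mul_le_mul (by linarith) ((pow_le_pow_left₀ (by linarith) (by linarith) _).trans
      (pow_le_pow_right₀ hv (Nat.le_add_right _ _))) (by positivity) (by positivity))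
  have i5 : ∑ d ∈ ball Δ, dv d ^ 1 ≤ (C4 + C5) * Δ * (1 + v) ^ (B4 + B5) :=
    (h5 Δ hΔ).trans (mul_le_mul (mul_le_mul_of_nonneg_right (by linarith) hΔ0)
      ((pow_le_pow_left₀ (by linarith) (by linarith) _).trans
      (pow_le_pow_right₀ hv (Nat.le_add_left _ _))) (by positivity) (by positivity))
  calc _ ≤ ∑ d ∈ ball Δ, (1 + Real.log M + lg d) ^ 2 * dv d * (a / N d + b * N d ^ 2) :=
        Finset.sum_le_sum_of_subset_of_nonneg (Finset.filter_subset _ _) fun d _ _ => by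
          have := bb_dv_nonneg d
          have := N_nonneg d
          positivity
    _ ≤ ∑ d ∈ ball Δ, 9 * (1 + v) ^ 2 * (a * (dv d ^ 1 / N d) + b * Δ ^ 2 * dv d ^ 1) := by
        refine Finset.sum_le_sum fun d hd => ?_
        obtain ⟨d0, d1⟩ := mem_ball.1 hd
        have p := N_pos d0
        have q := bb_dv_nonneg d
        have l3 := va2_lg_nonneg d0
        have l4 : lg d ≤ Real.log Δ := Real.log_le_log p d1
        have j1 : (1 + Real.log M + lg d) ^ 2 ≤ (3 * (1 + v)) ^ 2 :=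
          pow_le_pow_left₀ (by linarith) (by linarith) 2
        calc _ ≤ (3 * (1 + v)) ^ 2 * dv d * (a / N d + b * Δ ^ 2) := by gcongr
          _ = _ := by ring
    _ = 9 * (1 + v) ^ 2 * (a * ∑ d ∈ ball Δ, dv d ^ 1 / N d + b * Δ ^ 2 * ∑ d ∈ ball Δ, dv d ^ 1) := by
        rw [← Finset.mul_sum, Finset.sum_add_distrib, ← Finset.mul_sum, ← Finset.mul_sum]
    _ ≤ 9 * (1 + v) ^ 2 * (a * ((C4 + C5) * (1 + v) ^ (B4 + B5)) +
        b * Δ ^ 2 * ((C4 + C5) * Δ * (1 + v) ^ (B4 + B5))) := by gcongr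
    _ = _ := by ring

/-- the missing main terms -/
theorem va2_msum : ∃ C : ℝ, 0 ≤ C ∧ ∀ (M : ℝ) (S : Finset O) (u : O → ℂ), 1 ≤ M → S ⊆ sfb M →
    ∑ n ∈ S, ‖u n‖ * dv n * (N n ^ (5 / 6 : ℝ) / N n) ≤
      C * Real.exp (Real.log M / 3) * Real.sqrt (nt S u) := by
  obtain ⟨C, hC⟩ := sum_ball_rpow (σ := 1 / 3) (by norm_num)
  refine ⟨|C| + 1, by positivity, fun M S u hM hS => ?_⟩
  have hM0 : 0 < M := by linarith
  refine (Real.sum_mul_le_sqrt_mul_sqrt _ _ _).trans ?_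
  rw [mul_comm]
  refine mul_le_mul (Real.sqrt_le_iff.2 ⟨by positivity, ?_⟩) (Real.sqrt_le_sqrt ?_)
    (Real.sqrt_nonneg _) (by positivity)
  · have e : M ^ (1 - 1 / 3 : ℝ) = Real.exp (Real.log M / 3) ^ 2 := by
      rw [Real.rpow_def_of_pos hM0, ← Real.exp_nat_mul]
      congr 1
      push_cast
      ring
    calc ∑ n ∈ S, (N n ^ (5 / 6 : ℝ) / N n) ^ 2 = ∑ n ∈ S, N n ^ (-(1 / 3 : ℝ)) := by
          refine Finset.sum_congr rfl fun n hn => ?_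
          have p := N_pos (mem_sfb.1 (hS hn)).1.1.ne_zero
          rw [← Real.rpow_sub_one p.ne', ← Real.rpow_natCast, ← Real.rpow_mul p.le]
          norm_num
      _ ≤ ∑ n ∈ ball M, N n ^ (-(1 / 3 : ℝ)) :=
          Finset.sum_le_sum_of_subset_of_nonneg (hS.trans (Finset.filter_subset _ _))
            fun n _ _ => Real.rpow_nonneg (N_nonneg n) _
      _ ≤ C * M ^ (1 - 1 / 3 : ℝ) := hC M hM
      _ ≤ (|C| + 1) ^ 2 * Real.exp (Real.log M / 3) ^ 2 := by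
          rw [e]
          refine mul_le_mul_of_nonneg_right ?_ (by positivity)
          nlinarith [le_abs_self C, abs_nonneg C]
      _ = _ := by ring
  · refine Finset.sum_le_sum fun n hn => ?_
    rw [mul_pow]
    exact mul_le_mul_of_nonneg_left (pow_le_pow_right₀
      (one_le_dv (mem_sfb.1 (hS hn)).1.1.ne_zero) (by norm_num)) (by positivity)

theorem va2_mono {C q t w x Z Z' e : ℝ} {i j k B : ℕ} (hC : 0 ≤ C) (hq : 1 ≤ q) (ht : 1 ≤ t)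
    (hw : 1 ≤ w) (hx : 0 ≤ x) (hZ : 0 ≤ Z) (hZZ : Z ≤ Z') (he : 0 ≤ e) (hi : i ≤ B) (hj : j ≤ B)
    (hk : k ≤ B) : C * q ^ i * t ^ j * w ^ k * x * Z * e ≤ C * q ^ B * t ^ B * w ^ B * x * Z' * e := by
  have := hZ.trans hZZ
  have : 0 ≤ q := by linarith
  have : 0 ≤ t := by linarith
  have : 0 ≤ w := by linarith
  gcongr

/-- **Voronoi on average.**  `Δ⁵ = e^{2v}/M`; `winS_dvR`, `win_h3_split`, `vas_dual` summed over
`N d ≤ Δ` (`sum_dv_inv`, `sum_dv`), `vas_tail`, `ser_bound` (missing main terms: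
`∑ |u n| N n^{-1/6} dv n /Δ · e^{5v/6} ≤ C √nt M^{1/3} e^{5v/6}/Δ`).  All terms are
`≤ √M e^{v/2} Δ^{1/2}` up to logarithms. -/
theorem vas (ℓ : ℤ) : ∃ (C : ℝ) (B0 : ℕ), 0 ≤ C ∧ ∀ (Q0 : O), Q0 ≠ 0 → (3 : O) ∣ Q0 →
    ∀ φ : O → ℂ, Per Q0 φ → (∀ m, ‖φ m‖ ≤ 1) → ∀ (M v T : ℝ) (s : ℂ) (S : Finset O) (u : O → ℂ),
    1 ≤ M → M ≤ Real.exp (2 * v) → 1 ≤ T → |s.re| ≤ 4 → S ⊆ sfb M → (∀ n ∈ S, IsCoprime n Q0) →
    ‖∑ n ∈ S, u n * (winS (fun k => h3 ℓ φ (n * k)) v T s -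
        ser ℓ φ n * ((N n ^ (5 / 6 : ℝ) : ℝ) : ℂ) * mainW (5 / 6) s v T)‖ ≤
      C * N Q0 ^ B0 * (T + |s.im|) ^ B0 * (1 + v) ^ B0 * Real.sqrt (nt S u) *
        (Real.sqrt M * Real.exp (v / 2) * (Real.exp v / Real.sqrt M) ^ (1 / 5 : ℝ)) *
        Real.exp (-(s.re * v)) := by
  obtain ⟨C1, B1, hC1, h1⟩ := vas_dual ℓ
  obtain ⟨C2, B2, hC2, h2⟩ := vas_tail
  obtain ⟨C3, B3, hC3, h3'⟩ := ser_bound
  obtain ⟨C4, B4, hC4, h4⟩ := va2_dsum
  obtain ⟨C5, hC5, h5⟩ := va2_msum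
  obtain ⟨B, hB⟩ : ∃ B, B = B1 + B2 + B3 + B4 + 8 := ⟨_, rfl⟩
  refine ⟨2 * C2 + 2 * (C1 * C4) + C3 * C5 * (2 * Real.exp 7), B, by positivity, ?_⟩
  intro Q0 hQ h3Q φ hφ hφ1 M v T s S u hM hMv hT hs hS hSQ
  have hM0 : 0 < M := by linarith
  obtain ⟨L, hL⟩ : ∃ L, L = Real.log M := ⟨_, rfl⟩
  have hL0 : 0 ≤ L := hL ▸ Real.log_nonneg hM
  have hLv : L ≤ 2 * v := hL ▸ (Real.log_le_iff_le_exp hM0).2 hMv
  have hv : 0 ≤ v := by linarith
  have eM : M = Real.exp L := by rw [hL, Real.exp_log hM0]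
  have eS : Real.sqrt M = Real.exp (L / 2) := by rw [va2_sqrt hM0, hL]
  obtain ⟨Δ, hΔ⟩ : ∃ Δ, Δ = Real.exp ((2 * v - L) / 5) := ⟨_, rfl⟩
  have hΔ1 : 1 ≤ Δ := hΔ ▸ Real.one_le_exp (by linarith)
  have hΔv : Δ ≤ Real.exp v := hΔ ▸ Real.exp_le_exp.2 (by linarith)
  have hΔl : Real.log Δ ≤ v := by rw [hΔ, Real.log_exp]; linarith
  obtain ⟨Z, hZ⟩ : ∃ Z, Z = Real.exp (L / 2 + v / 2 + (2 * v - L) / 10) := ⟨_, rfl⟩
  have hZ0 : 0 < Z := hZ ▸ Real.exp_pos _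
  have eZ : Real.sqrt M * Real.exp (v / 2) * (Real.exp v / Real.sqrt M) ^ (1 / 5 : ℝ) = Z := by
    rw [eS, ← Real.exp_sub, ← Real.exp_mul, ← Real.exp_add, ← Real.exp_add, hZ]
    congr 1
    ring
  have z1 : Real.sqrt M * Real.exp (v / 2) ≤ Z := by
    rw [eS, ← Real.exp_add, hZ]
    exact Real.exp_le_exp.2 (by linarith)
  have z2 : Real.exp (3 / 2 * v) / Δ ^ 2 ≤ Z := by
    rw [hΔ, ← Real.exp_nat_mul, ← Real.exp_sub, hZ]
    exact Real.exp_le_exp.2 (by push_cast; linarith)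
  have z3 : M * Real.exp (-(v / 2)) * Δ ^ 3 ≤ Z := by
    rw [hΔ, ← Real.exp_nat_mul, eM, ← Real.exp_add, ← Real.exp_add, hZ]
    exact Real.exp_le_exp.2 (by push_cast; linarith)
  have z4 : Real.exp (L / 3) * Real.exp (5 / 6 * v) / Δ ≤ Z := by
    rw [hΔ, ← Real.exp_add, ← Real.exp_sub, hZ]
    exact Real.exp_le_exp.2 (by linarith)
  have hq := one_le_N hQ
  have ht : 1 ≤ T + |s.im| := by linarith [abs_nonneg s.im]
  have hw : 1 ≤ 1 + v := by linarith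
  obtain ⟨x, hx⟩ : ∃ x, x = Real.sqrt (nt S u) := ⟨_, rfl⟩
  have hx0 : 0 ≤ x := hx ▸ Real.sqrt_nonneg _
  obtain ⟨e, he⟩ : ∃ e, e = Real.exp (-(s.re * v)) := ⟨_, rfl⟩
  have he0 : 0 ≤ e := he ▸ (Real.exp_pos _).le
  rw [eZ, ← hx, ← he, Finset.sum_congr rfl fun n hn =>
    va2_split ℓ hQ h3Q hφ hφ1 (mem_sfb.1 (hS hn)).1 Δ v hT s (u n), Finset.sum_sub_distrib,
    Finset.sum_add_distrib, Finset.sum_comm]
  have i1 := h2 ℓ Q0 hQ φ hφ hφ1 M Δ v T s S u hM hΔ1 hv hΔv hT hs hS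
  rw [← hx, ← he] at i1
  replace i1 := i1.trans ((le_of_eq (by ring)).trans (va2_mono (C := C2) (i := 1) (j := 0) (k := B2)
    (B := B) hC2 hq ht hw hx0 (by positivity) (add_le_add z1 z2) he0 (by omega) (by omega) (by omega)))
  have i2 : ‖∑ d ∈ (ball Δ).filter Prim, ∑ n ∈ S, (mu d * ang d ^ (3 * ℓ)) *
        (u n * (N n : ℂ) ^ s * ((Real.sqrt (N d) : ℂ) * (N d : ℂ) ^ (-(3 * s)) *
        (winS (dvR (n / gp n d) (prim (th3 ℓ (fun m => φ (d ^ 3 * m))))) (v + lg n - 3 * lg d) T s -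
          resid ℓ (fun m => φ (d ^ 3 * m)) / (N (n / gp n d) : ℂ) *
            mainW (5 / 6) s (v + lg n - 3 * lg d) T)))‖ ≤
      C1 * C4 * N Q0 ^ B * (T + |s.im|) ^ B * (1 + v) ^ B * x * (Z + Z) * e := by
    refine (norm_sum_le _ _).trans ?_
    refine (Finset.sum_le_sum (g := fun d => C1 * N Q0 ^ B1 * (T + |s.im|) ^ 8 * x * e *
      ((1 + Real.log M + lg d) ^ 2 * dv d * (Real.sqrt M * Real.exp (v / 2) / N d +
        M * Real.exp (-(v / 2)) * N d ^ 2))) fun d hd => ?_).trans ?_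
    · have hdP := (Finset.mem_filter.1 hd).2
      rw [← Finset.mul_sum, norm_mul]
      have j1 : ‖mu d * ang d ^ (3 * ℓ)‖ ≤ 1 := by
        rw [norm_mul, norm_zpow, norm_ang hdP.ne_zero, one_zpow, mul_one]
        exact norm_mu_le d
      refine (mul_le_of_le_one_left (norm_nonneg _) j1).trans
        ((h1 Q0 hQ h3Q φ hφ hφ1 M v T s S u d hM hv hT hs hS hSQ hdP).trans (le_of_eq ?_))
      rw [← hx, ← he]
      ring
    · rw [← Finset.mul_sum]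
      refine (mul_le_mul_of_nonneg_left (h4 M v Δ _ _ hM (hL ▸ hLv) hΔ1 hΔl (by positivity)
        (by positivity)) (by positivity)).trans ?_
      exact (le_of_eq (by ring)).trans (va2_mono (C := C1 * C4) (i := B1) (j := 8) (k := B4)
        (B := B) (by positivity) hq ht hw hx0 (by positivity) (add_le_add z1 z3) he0 (by omega)
        (by omega) (by omega))
  have i3 : ‖∑ n ∈ S, u n * (ser ℓ φ n - ∑ d ∈ (ball Δ).filter Prim,
        mu d * ((N (EuclideanDomain.gcd n d) / (N d ^ 2 * N n) : ℝ) : ℂ) *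
          resid ℓ (fun m => φ (d ^ 3 * m))) * ((N n ^ (5 / 6 : ℝ) : ℝ) : ℂ) *
        mainW (5 / 6) s v T‖ ≤
      C3 * C5 * (2 * Real.exp 7) * N Q0 ^ B * (T + |s.im|) ^ B * (1 + v) ^ B * x * Z * e := by
    have hm : ‖mainW (5 / 6) s v T‖ ≤ 2 * Real.exp 7 * (Real.exp (5 / 6 * v) * e) := by
      have r : (5 / 6 : ℂ).re = 5 / 6 := by norm_num
      have := norm_mainW_le (p := 5 / 6) (s := s) v hT (by
        rw [r, abs_le]; constructor <;> linarith [(abs_le.1 hs).1, (abs_le.1 hs).2])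
      rw [r] at this
      refine this.trans (mul_le_mul (div_le_self (by positivity) hT) (le_of_eq ?_)
        (by positivity) (by positivity))
      rw [he, ← Real.exp_add]
      congr 1
      ring
    have hΔ0 : 0 < Δ := by linarith
    refine (norm_sum_le _ _).trans ?_
    refine (Finset.sum_le_sum (g := fun n => C3 * N Q0 ^ B3 / Δ *
      (2 * Real.exp 7 * (Real.exp (5 / 6 * v) * e)) *
      (‖u n‖ * dv n * (N n ^ (5 / 6 : ℝ) / N n))) fun n hn => ?_).trans ?_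
    · have hsf := (mem_sfb.1 (hS hn)).1
      have p := N_pos hsf.1.ne_zero
      have p2 := bb_dv_nonneg n
      have j1 := (h3' ℓ Q0 hQ h3Q φ hφ hφ1 n hsf).2.2 Δ hΔ1
      rw [norm_mul, norm_mul, norm_mul, Complex.norm_of_nonneg (by positivity)]
      refine (mul_le_mul (mul_le_mul_of_nonneg_right (mul_le_mul_of_nonneg_left j1 (norm_nonneg _))
        (by positivity)) hm (norm_nonneg _) (by positivity)).trans (le_of_eq ?_)
      field_simp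
    · rw [← Finset.mul_sum]
      refine (mul_le_mul_of_nonneg_left (h5 M S u hM hS) (by positivity)).trans ?_
      rw [← hL, ← hx]
      exact (le_of_eq (by ring)).trans (va2_mono (C := C3 * C5 * (2 * Real.exp 7)) (i := B3)
        (j := 0) (k := 0) (B := B) (by positivity) hq ht hw hx0 (by positivity) z4 he0 (by omega)
        (by omega) (by omega))
  refine (norm_sub_le _ _).trans ((add_le_add ((norm_add_le _ _).trans (add_le_add i1 i2)) i3).trans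
    (le_of_eq ?_))
  ring

end Crest.Agent.R12
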