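import Crest.Agent.R12.Mod1
import Crest.Agent.R12.VA2
import Crest.Agent.R12.SM

/-!
# R12 / Mod3 : the model `β♯`: no correlation with `conj GG`, and the bilinear form with `β♯`
-/

set_option autoImplicit false

noncomputable section

open scoped Classical ComplexConjugate Topology
open MeasureTheory Filter

namespace Crest.Agent.R12

open Crest.Agent.R17

theorem m3_h3_le {φ : O → ℂ} (hφ : ∀ m, ‖φ m‖ ≤ 1) (n : O) : ‖h3 0 φ n‖ ≤ 1 := by
  unfold h3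
  split_ifs with hn
  · rw [zpow_zero, mul_one, norm_mul, Complex.norm_conj]
    exact mul_le_one₀ (norm_g3_le hn) (norm_nonneg _) (hφ n)
  · simp

theorem m3_conj {n : O} (hn : SF n) (v : ℝ) {T : ℝ} (hT : 1 ≤ T) (s : ℂ) :
    conj (winS (fun k => ff 0 (n * k)) v T s) =
      (winS (fun k => h3 0 (phr lam) (n * k)) v T (conj s) -
        ser 0 (phr lam) n * ((N n ^ (5 / 6 : ℝ) : ℝ) : ℂ) * mainW (5 / 6) (conj s) v T) -
      ((cP * (N n ^ (5 / 6 : ℝ) / N n) : ℝ) : ℂ) *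
        (winS (fun k => if SF (n * k) then ang (n * k) ^ (0 : ℤ) else 0) v T (conj s + 1 / 6) -
          (if (0 : ℤ) = 0 then (c0 : ℂ) / 9 * ser2 n else 0) * mainW 1 (conj s + 1 / 6) v T) := by
  have n0 := N_pos hn.1.ne_zero
  set b : O → ℂ := fun k => if SF (n * k) then ang (n * k) ^ (0 : ℤ) else 0 with hb
  have p1 : PolyBd fun k => h3 0 (phr lam) (n * k) := polyBd_of_le fun k => m3_h3_le (norm_phr_le _) _
  have p2 : PolyBd fun k => b k * (N k : ℂ) ^ (-(1 / 6 : ℂ)) := ⟨1, 0, fun k hk => by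
    rw [pow_zero, one_mul, norm_mul, Complex.norm_cpow_eq_rpow_re_of_pos (N_pos hk)]
    refine mul_le_one₀ ?_ (Real.rpow_nonneg (N_nonneg k) _)
      (Real.rpow_le_one_of_one_le_of_nonpos (one_le_N hk) (by norm_num))
    simp only [hb]
    split_ifs <;> simp⟩
  have e : (fun k => conj (ff 0 (n * k))) = fun k => h3 0 (phr lam) (n * k) +
      -((cP * (N n ^ (5 / 6 : ℝ) / N n) : ℝ) : ℂ) * (b k * (N k : ℂ) ^ (-(1 / 6 : ℂ))) := by
    funext k
    simp only [hb]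
    rw [conj_ff, neg_zero]
    split_ifs with h2
    · rw [← Real.rpow_sub_one n0.ne', N_mul, Real.mul_rpow n0.le (N_nonneg k), Complex.ofReal_mul,
        Complex.ofReal_mul, Complex.ofReal_cpow (N_nonneg k), show (5 / 6 - 1 : ℝ) = -(1 / 6) by norm_num]
      push_cast
      ring
    · ring
  have e1 : mainW 1 (conj s + 1 / 6) v T = mainW (5 / 6) (conj s) v T := by
    unfold mainW
    rw [show 1 - (conj s + 1 / 6) = 5 / 6 - conj s by ring]
  rw [conj_winS, e, winS_add p1 (vd_poly_smul _ p2) v hT, winS_smul, winS_shift, e1, ser_phr_lam, if_pos rfl]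
  push_cast
  ring

theorem m3_numA {M v T t d : ℝ} (hM : 1 ≤ M) (hv : 0 ≤ v) (hT : 1 ≤ T) (ht : 0 ≤ t) (hd : 1 ≤ d) :
    √M * Real.exp (v / 2) * (Real.exp v / √M) ^ (1 / 5 : ℝ) = M ^ (2 / 5 : ℝ) * Real.exp (7 / 10 * v) ∧
    (Real.exp (v / 2) * (T + t) + d * Real.exp v / (T * Real.exp (v / 2)) + d * Real.exp (v / 2) * (1 + v)) *
      Real.exp (-(1 / 6 * v)) ≤ d * (3 * ((T + t) * (1 + v)) * Real.exp (7 / 10 * v)) ∧
    Real.exp (Real.log M / 3) ≤ M ^ (2 / 5 : ℝ) := by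
  have hM0 : 0 < M := by linarith
  have hl := Real.log_nonneg hM
  refine ⟨?_, ?_, ?_⟩
  · rw [va2_sqrt hM0, Real.rpow_def_of_pos hM0, ← Real.exp_sub, ← Real.exp_mul, ← Real.exp_add,
      ← Real.exp_add, ← Real.exp_add]
    congr 1
    ring
  · have e : Real.exp v = Real.exp (v / 2) * Real.exp (v / 2) := by rw [← Real.exp_add, add_halves]
    have e0 := Real.exp_pos (v / 2)
    have e1 : Real.exp (v / 2) ≤ Real.exp (7 / 10 * v) := Real.exp_le_exp.2 (by linarith)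
    have e2 : Real.exp (-(1 / 6 * v)) ≤ 1 := Real.exp_le_one_iff.2 (by linarith)
    have e3 : d * Real.exp v / (T * Real.exp (v / 2)) ≤ d * Real.exp (v / 2) := by
      rw [div_le_iff₀ (by positivity), e]
      nlinarith [mul_le_mul_of_nonneg_left hT (by positivity : 0 ≤ d * (Real.exp (v / 2) * Real.exp (v / 2)))]
    have e4 : T + t ≤ (T + t) * (1 + v) := le_mul_of_one_le_right (by linarith) (by linarith)
    have e5 : 1 + v ≤ (T + t) * (1 + v) := le_mul_of_one_le_left (by linarith) (by linarith)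
    calc _ ≤ (d * Real.exp (v / 2) * ((T + t) * (1 + v)) + d * Real.exp (v / 2) * ((T + t) * (1 + v)) +
          d * Real.exp (v / 2) * ((T + t) * (1 + v))) * 1 := by
          gcongr
          · exact le_mul_of_one_le_left e0.le hd
          · exact e3.trans (le_mul_of_one_le_right (by positivity) (by linarith))
      _ = d * (3 * ((T + t) * (1 + v)) * Real.exp (v / 2)) := by ring
      _ ≤ _ := by gcongr
  · rw [Real.rpow_def_of_pos hM0]
    exact Real.exp_le_exp.2 (by linarith)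

/-- `vas 0` (`Q₀ = 9`, `φ = phr λ`) and `mu2_win 0` at `s + 1/6` with `Δ = e^{v/2}`; `conj_ff`,
`ser_phr_lam`; `mainW 1 (s + 1/6) = mainW (5/6) s`; Cauchy–Schwarz for the `mu2_win` errors -/
theorem vas_ff : ∃ (C : ℝ) (B0 : ℕ), 0 ≤ C ∧ ∀ (M v T t : ℝ) (S : Finset O) (u : O → ℂ), 1 ≤ M →
    M ≤ Real.exp (2 * v) → 1 ≤ T → S ⊆ sfb M →
    ‖∑ n ∈ S, u n * winS (fun k => ff 0 (n * k)) v T (t * Complex.I)‖ ≤
      C * (T + |t|) ^ B0 * (1 + v) ^ B0 * Real.sqrt (nt S u) *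
        (M ^ (2 / 5 : ℝ) * Real.exp (7 / 10 * v)) := by
  obtain ⟨C1, B0, hC1, h1⟩ := vas 0
  obtain ⟨C2, hC2, h2⟩ := mu2_win 0
  obtain ⟨C3, hC3, h3'⟩ := va2_msum
  have hP := cP_pos.le
  have h9 := N_nonneg (9 : O)
  refine ⟨C1 * N (9 : O) ^ B0 + 3 * cP * C2 * C3, B0 + 1, by positivity, fun M v T t S u hM hMv hT hS => ?_⟩
  have hv : 0 ≤ v := by linarith [Real.one_le_exp_iff.1 (hM.trans hMv)]
  have hs := fun n hn => (mem_sfb.1 (hS hn : n ∈ _)).1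
  have r1 : (conj ((t : ℂ) * Complex.I)).re = 0 := by simp
  have r2 : |(conj ((t : ℂ) * Complex.I)).im| = |t| := by simp
  have r3 : (conj ((t : ℂ) * Complex.I) + 1 / 6).re = 1 / 6 := by simp
  have r4 : |(conj ((t : ℂ) * Complex.I) + 1 / 6).im| = |t| := by simp
  have a1 := h1 9 (by decide) ⟨3, by decide⟩ _ phr_lam_per (norm_phr_le _) M v T (conj (t * Complex.I)) S
    (fun n => conj (u n)) hM hMv hT (by rw [r1]; norm_num) hS fun n hn => by
      simpa [show (9 : O) = 3 ^ 2 by norm_num] using (hs n hn).1.isCoprime_three.pow_right (n := 2)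
  have e : nt S (fun n => conj (u n)) = nt S u := by simp only [nt, Complex.norm_conj]
  rw [r1, r2, e, (m3_numA hM hv hT (abs_nonneg t) le_rfl).1, zero_mul, neg_zero, Real.exp_zero,
    mul_one] at a1
  have a2 := (h3' M S u hM hS).trans (mul_le_mul_of_nonneg_right (mul_le_mul_of_nonneg_left
    (m3_numA hM hv hT (abs_nonneg t) le_rfl).2.2 hC3) (Real.sqrt_nonneg _))
  obtain ⟨p, hp⟩ : ∃ p, p = T + |t| := ⟨_, rfl⟩
  obtain ⟨w, hw⟩ : ∃ w, w = 1 + v := ⟨_, rfl⟩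
  have p1 : 1 ≤ p := by linarith [abs_nonneg t]
  have w1 : 1 ≤ w := by linarith
  have hX : 0 ≤ cP * C2 * (3 * (p * w) * Real.exp (7 / 10 * v)) := by positivity
  rw [← Complex.norm_conj, map_sum, Finset.sum_congr rfl fun n hn => by
    rw [map_mul, m3_conj (hs n hn) v hT, mul_sub], Finset.sum_sub_distrib]
  refine (norm_sub_le _ _).trans ((add_le_add a1 ((norm_sum_le _ _).trans ((Finset.sum_le_sum
    fun n hn => ?_).trans ((Finset.mul_sum _ _ _).symm.trans_le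
      (mul_le_mul_of_nonneg_left a2 hX))))).trans ?_)
  · have n0 := N_pos (hs n hn).1.ne_zero
    have b1 := h2 n (hs n hn) (Real.exp (v / 2)) v T (conj (t * Complex.I) + 1 / 6)
      (Real.one_le_exp (by linarith)) hv hT (by rw [r3]; norm_num)
    rw [r3, r4, mul_assoc] at b1
    have b2 := b1.trans (mul_le_mul_of_nonneg_left
      (m3_numA hM hv hT (abs_nonneg t) (one_le_dv (hs n hn).1.ne_zero)).2.1 hC2)
    have b3 : 0 ≤ cP * (N n ^ (5 / 6 : ℝ) / N n) := by positivity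
    rw [norm_mul, norm_mul, Complex.norm_conj, Complex.norm_real, Real.norm_of_nonneg b3]
    refine (mul_le_mul_of_nonneg_left (mul_le_mul_of_nonneg_left b2 b3) (norm_nonneg _)).trans_eq ?_
    rw [hp, hw]
    ring
  · rw [← hp, ← hw]
    have c1 : p ^ B0 ≤ p ^ (B0 + 1) := pow_le_pow_right₀ p1 (by omega)
    have c2 : w ^ B0 ≤ w ^ (B0 + 1) := pow_le_pow_right₀ w1 (by omega)
    have c3 : p ≤ p ^ (B0 + 1) := le_self_pow₀ p1 (by omega)
    have c4 : w ≤ w ^ (B0 + 1) := le_self_pow₀ w1 (by omega)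
    have hM0 : 0 ≤ M := by linarith
    calc _ = (C1 * N (9 : O) ^ B0 * (p ^ B0 * w ^ B0) + 3 * cP * C2 * C3 * (p * w)) *
          (√(nt S u) * (M ^ (2 / 5 : ℝ) * Real.exp (7 / 10 * v))) := by ring
      _ ≤ (C1 * N (9 : O) ^ B0 * (p ^ (B0 + 1) * w ^ (B0 + 1)) +
          3 * cP * C2 * C3 * (p ^ (B0 + 1) * w ^ (B0 + 1))) *
          (√(nt S u) * (M ^ (2 / 5 : ℝ) * Real.exp (7 / 10 * v))) := by gcongr
      _ = _ := by ring

theorem m3_ev {κ : ℝ} (hκ : 0 < κ) (c : ℝ) (n : ℕ) : ∃ y0 : ℝ, ∀ y : ℝ, y0 ≤ y →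
    c * y ^ n ≤ Real.exp (κ * y) := by
  obtain ⟨C, hC, h⟩ := ti1_poly hκ (n + 1)
  refine ⟨|c| * C + 1, fun y hy => ?_⟩
  have h0 : 0 ≤ |c| * C := by positivity
  have hy0 : 0 < y := by linarith
  have h1 : y ^ (n + 1) ≤ C * Real.exp (κ * y) := (pow_le_pow_left₀ hy0.le (by linarith) _).trans (h y hy0.le)
  refine le_of_mul_le_mul_left ?_ hy0
  calc _ ≤ y * (|c| * y ^ n) := by gcongr; exact le_abs_self c
    _ = |c| * y ^ (n + 1) := by ring
    _ ≤ |c| * (C * Real.exp (κ * y)) := by gcongr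
    _ ≤ _ := by rw [← mul_assoc]; gcongr; linarith

theorem m3_mdl : ∃ c : ℝ, 0 ≤ c ∧ ∀ (B H Λ : ℝ) (β F : O → ℂ) (S : Finset O), 0 < B → 1 ≤ H →
    (∀ b, ‖β b‖ ≤ 1) → 0 ≤ Λ → (∀ d ∈ sfb H, ∀ b' ∈ sfI B (2 * B),
      ‖∑ b ∈ S, dvR d F b * (gw (H * (lg b - lg b')) : ℂ)‖ ≤ Λ) →
    ‖∑ b ∈ S, mdl (sfI B (2 * B)) β H H b * F b‖ ≤ c * H ^ 4 * Λ := by
  have hc := c0_pos
  have hπ := sm_sqrt_pi_pos
  refine ⟨324 * (36 / (√Real.pi * (c0 / 9))), by positivity, fun B H Λ β F S hB hH hβ hΛ h => ?_⟩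
  have hH0 : 0 < H := by linarith
  have e : ∑ b ∈ S, mdl (sfI B (2 * B)) β H H b * F b = ∑ d ∈ sfb H, lamD H d * ∑ b' ∈ sfI B (2 * B),
      β b' * ((H / (√Real.pi * (c0 / 9) * N b') : ℝ) : ℂ) *
        ∑ b ∈ S, dvR d F b * (gw (H * (lg b - lg b')) : ℂ) := by
    simp only [mdl, Wb, Finset.sum_filter, Finset.sum_mul_sum]
    simp only [Finset.sum_mul, Finset.mul_sum]
    rw [Finset.sum_comm]
    refine Finset.sum_congr rfl fun d _ => ?_
    rw [Finset.sum_comm]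
    refine Finset.sum_congr rfl fun b' _ => Finset.sum_congr rfl fun b _ => ?_
    unfold dvR
    push_cast
    split_ifs <;> ring
  have h1 : ((sfI B (2 * B)).card : ℝ) ≤ 18 * (2 * B) :=
    le_trans (Nat.cast_le.2 (Finset.card_filter_le _ _)) (card_ball_le (by positivity))
  rw [e]
  refine (norm_sum_le _ _).trans ((Finset.sum_le_sum (g := fun d => ‖lamD H d‖ *
    (36 / (√Real.pi * (c0 / 9)) * H * Λ)) fun d hd => ?_).trans ?_)
  · rw [norm_mul]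
    refine mul_le_mul_of_nonneg_left ((norm_sum_le _ _).trans ((Finset.sum_le_card_nsmul _ _
      (1 * (H / (√Real.pi * (c0 / 9) * B)) * Λ) fun b' hb' => ?_).trans ?_)) (norm_nonneg _)
    · have a1 := (mem_sfI.1 hb').2.1
      have a2 := hB.trans a1
      rw [norm_mul, norm_mul, Complex.norm_real, Real.norm_of_nonneg (by positivity)]
      gcongr
      exacts [hβ b', h d hd b' hb']
    · rw [nsmul_eq_mul]
      refine (mul_le_mul_of_nonneg_right h1 (by positivity)).trans_eq ?_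
      field_simp
      ring
  · rw [← Finset.sum_mul]
    exact (mul_le_mul_of_nonneg_right (lam_sum hH) (by positivity)).trans_eq (by ring)

theorem m3_gw {y H : ℝ} (hy : 40 ≤ y) (hH : y ≤ H) : Real.exp (-(H ^ 2 / 5)) ≤ Real.exp (-(5 * y)) :=
  Real.exp_le_exp.2 (by nlinarith)

theorem m3_numB {B σ x : ℝ} (hB : 0 < B) (h1 : B ≤ x) (h2 : x ≤ 2 * B) (hσ : |σ| ≤ 3) :
    (B / 2) ^ (-σ) * Real.exp ((9 / 10 + σ) * Real.log x) ≤ 128 * B ^ (9 / 10 : ℝ) := by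
  have hx : 0 < x := by linarith
  have a1 : (x / (B / 2)) ^ σ ≤ 64 :=
    calc _ ≤ (x / (B / 2)) ^ (3 : ℝ) := Real.rpow_le_rpow_of_exponent_le
          ((one_le_div (by linarith)).2 (by linarith)) (le_of_abs_le hσ)
      _ ≤ (4 : ℝ) ^ (3 : ℝ) := Real.rpow_le_rpow (by positivity)
          ((div_le_iff₀ (by linarith)).2 (by linarith)) (by norm_num)
      _ = _ := by norm_num
  have a2 : x ^ (9 / 10 : ℝ) ≤ 2 * B ^ (9 / 10 : ℝ) := by
    refine (Real.rpow_le_rpow hx.le h2 (by norm_num)).trans ?_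
    rw [Real.mul_rpow (by norm_num) hB.le]
    exact mul_le_mul_of_nonneg_right (Real.rpow_le_self_of_one_le (by norm_num) (by norm_num)) (by positivity)
  rw [mul_comm _ (Real.log x), ← Real.rpow_def_of_pos hx, Real.rpow_add hx, Real.rpow_neg (by linarith)]
  rw [Real.div_rpow hx.le (by linarith)] at a1
  calc _ = x ^ σ / (B / 2) ^ σ * x ^ (9 / 10 : ℝ) := by ring
    _ ≤ 64 * (2 * B ^ (9 / 10 : ℝ)) := by gcongr
    _ = _ := by ring

theorem m3_numB2 {c C Cw n z H t B κ e : ℝ} {B0 : ℕ} (hc : 0 ≤ c) (hC : 0 ≤ C) (hCw : 0 ≤ Cw) (hB : 1 ≤ B)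
    (hz : z = B ^ κ) (hκ : 0 ≤ κ) (hκ' : κ * (B0 + 10) = 1 / 10) (hH : 0 ≤ H) (h1 : H ≤ z) (n0 : 0 ≤ n)
    (h2 : n ≤ z) (t0 : 0 ≤ t) (h3 : t ≤ z) (e0 : 0 ≤ e) (h4 : B * e ≤ 1)
    (h5 : c * (C * 81 ^ B0 * 16 * 128 + Cw) ≤ z) :
    c * H ^ 4 * (C * (81 * n) ^ B0 * (H + t) ^ 4 * (128 * B ^ (9 / 10 : ℝ)) + Cw * 1 * B * e) ≤
      B ^ (1 - κ) := by
  have hB0 : 0 < B := by linarith
  have z1 : 1 ≤ z := hz ▸ Real.one_le_rpow hB hκ
  have b1 : 1 ≤ B ^ (9 / 10 : ℝ) := Real.one_le_rpow hB (by norm_num)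
  have b2 : 1 ≤ z ^ B0 * z ^ 4 * B ^ (9 / 10 : ℝ) := one_le_mul_of_one_le_of_one_le
    (one_le_mul_of_one_le_of_one_le (one_le_pow₀ z1) (one_le_pow₀ z1)) b1
  calc _ ≤ c * z ^ 4 * (C * (81 * z) ^ B0 * (z + z) ^ 4 * (128 * B ^ (9 / 10 : ℝ)) +
        Cw * (z ^ B0 * z ^ 4 * B ^ (9 / 10 : ℝ))) := by
        rw [mul_one, mul_assoc Cw]
        refine mul_le_mul (by gcongr) (add_le_add (by gcongr) (mul_le_mul_of_nonneg_left
          (h4.trans b2) hCw)) (by positivity) (by positivity)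
    _ = c * (C * 81 ^ B0 * 16 * 128 + Cw) * (z ^ (B0 + 8) * B ^ (9 / 10 : ℝ)) := by ring
    _ ≤ z * (z ^ (B0 + 8) * B ^ (9 / 10 : ℝ)) := by gcongr
    _ = _ := by
      rw [← mul_assoc, ← pow_succ', hz, ← Real.rpow_mul_natCast hB0.le, ← Real.rpow_add hB0]
      congr 1
      push_cast
      linarith

theorem m3_N9 : N (9 : O) = 81 := by
  have := nm_natCast 9
  unfold N
  rw [show (9 : O) = ((9 : ℕ) : O) by norm_num, this]
  norm_num

/-- exchange sums, `win_cut`, conjugate: `dvR d (h3 0 φ)`, `φ = phr λ · 1_{≡ a (q)}`, `Q₀ = 9q`, `HP1` at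
`v = lg b'` (`N d ≤ y^{C₂} ≤ e^{v/4}`), `lam_sum` -/
theorem mdl_fam2 : ∃ κ : ℝ, 0 < κ ∧ ∀ C2 : ℕ, 1 ≤ C2 → ∃ y0 : ℝ, ∀ y : ℝ, y0 ≤ y →
    ∀ (B : ℝ) (β : O → ℂ) (q a : O) (s : ℂ), Real.exp (y / 4) ≤ B → B ≤ Real.exp y →
    (∀ b, ‖β b‖ ≤ 1) → q ≠ 0 → N q ≤ B ^ κ → |s.re| ≤ 3 → |s.im| ≤ B ^ κ →
    ‖fam2 (sfI (B / 2) (4 * B)) (mdl (sfI B (2 * B)) β (y ^ C2) (y ^ C2)) (B / 2) q a s‖ ≤
      B ^ (1 - κ) := by
  obtain ⟨C, B0, hC, hH⟩ := HP1 0
  obtain ⟨Cw, hCw, hw⟩ := win_cut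
  obtain ⟨c, hc, hm⟩ := m3_mdl
  obtain ⟨κ, hκ, k1⟩ : ∃ κ : ℝ, 0 < κ ∧ κ * (B0 + 10) = 1 / 10 :=
    ⟨1 / 10 / (B0 + 10), by positivity, div_mul_cancel₀ _ (by positivity)⟩
  have k2 : κ ≤ 1 / 4 := by nlinarith [(Nat.cast_nonneg B0 : (0 : ℝ) ≤ B0)]
  refine ⟨κ, hκ, fun C2 hC2 => ?_⟩
  obtain ⟨y1, e1⟩ := m3_ev (κ := κ / 4) (by positivity) 1 C2
  obtain ⟨y2, e2⟩ := m3_ev (κ := κ / 4) (by positivity) (c * (C * 81 ^ B0 * 16 * 128 + Cw)) 0
  refine ⟨max 40 (max y1 y2), fun y hy B β q a s hB1 hB2 hβ hq hNq hs1 hs2 => ?_⟩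
  rw [max_le_iff, max_le_iff] at hy
  obtain ⟨hy, hy1, hy2⟩ := hy
  have hB : 1 ≤ B := (Real.one_le_exp (by linarith)).trans hB1
  have hB0 : 0 < B := by linarith
  have hz : Real.exp (κ / 4 * y) ≤ B ^ κ := by
    refine le_trans (le_of_eq ?_) (Real.rpow_le_rpow (Real.exp_pos _).le hB1 hκ.le)
    rw [← Real.exp_mul]
    congr 1
    ring
  have hyH : y ≤ y ^ C2 := le_self_pow₀ (by linarith) (by omega)
  have z1 := (e1 y hy1).trans hz
  have z2 := (e2 y hy2).trans hz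
  rw [one_mul] at z1
  rw [pow_zero, mul_one] at z2
  generalize y ^ C2 = H at hyH z1 ⊢
  have hq0 := N_nonneg q
  have hH0 : 0 ≤ H := by linarith
  have e : fam2 (sfI (B / 2) (4 * B)) (mdl (sfI B (2 * B)) β H H) (B / 2) q a s =
      ∑ b ∈ sfI (B / 2) (4 * B), mdl (sfI B (2 * B)) β H H b *
        ((if q ∣ b - a then GG b else 0) * pw (B / 2) b s) := by
    rw [fam2, Finset.sum_filter]
    refine Finset.sum_congr rfl fun b _ => ?_
    split_ifs <;> ring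
  rw [e]
  refine (hm B H _ β _ _ hB0 (by linarith) hβ (by positivity) fun d hd b' hb' => ?_).trans
    (m3_numB2 (e := Real.exp (-(H ^ 2 / 5))) hc hC hCw hB rfl hκ.le k1 hH0 z1 hq0 hNq (abs_nonneg _) hs2
      (Real.exp_pos _).le ?_ z2)
  swap
  · calc _ ≤ Real.exp y * Real.exp (-(5 * y)) := mul_le_mul hB2 (m3_gw hy hyH) (Real.exp_pos _).le
          (Real.exp_pos _).le
      _ ≤ _ := by rw [← Real.exp_add]; exact Real.exp_le_one_iff.2 (by linarith)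
  obtain ⟨φ, hφ⟩ : ∃ φ : O → ℂ, φ = fun m => phr lam m * if q ∣ m - a then 1 else 0 := ⟨_, rfl⟩
  have φ1 : ∀ m, ‖φ m‖ ≤ 1 := fun m => by
    rw [hφ]
    dsimp only
    split_ifs
    · rw [mul_one]
      exact norm_phr_le _ _
    · simp
  have φ2 : Per (9 * q) φ := hφ ▸ (phr_lam_per.of_dvd (dvd_mul_right _ _)).mul fun x t => by
    simp only [show x + 9 * q * t - a = x - a + q * (9 * t) by ring, dvd_add_left (dvd_mul_right q _)]
  obtain ⟨-, b1, b2⟩ := mem_sfI.1 hb'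
  have b3 : Real.log B ≤ lg b' := Real.log_le_log hB0 b1.le
  have b0 := (Real.log_nonneg hB).trans b3
  have a1 := hw (fun b => conj (dvR d (h3 0 φ) b)) 1 B H (lg b') s (fun n => by
      rw [Complex.norm_conj, dvR]
      split_ifs
      exacts [m3_h3_le φ1 n, by simp])
    (fun n hn => by
      by_contra h
      refine hn ?_
      simp only [dvR, h3]
      split_ifs with _ hp
      · rw [g3_eq_zero hp fun hs => h ⟨hp, hs⟩]
        simp
      all_goals simp)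
    hB (by linarith) b3 (Real.log_le_log (by linarith) b2) (by linarith)
  have a2 := (Finset.single_le_sum (f := fun r => ‖winS (dvR r (h3 0 φ)) (lg b') H (conj (-s))‖)
    (fun _ _ => norm_nonneg _) (mem_sfb.2 ⟨(mem_sfb.1 hd).1, (mem_sfb.1 hd).2.trans (z1.trans ?_)⟩)).trans
    (hH (9 * q) (mul_ne_zero (by decide) hq) ⟨3 * q, by ring⟩ φ φ2 φ1 (lg b') H (conj (-s)) b0
      (by linarith) (by simpa using hs1.trans (by norm_num)))
  swap
  · rw [Real.rpow_def_of_pos hB0]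
    exact Real.exp_le_exp.2 (by nlinarith [Real.log_nonneg hB])
  have a3 : ∑ b ∈ sfI (B / 2) (4 * B), dvR d (fun b => (if q ∣ b - a then GG b else 0) * pw (B / 2) b s) b *
      (gw (H * (lg b - lg b')) : ℂ) = ∑ b ∈ sfI (B / 2) (4 * B), conj (dvR d (h3 0 φ) b) * pw (B / 2) b s *
      (gw (H * (lg b - lg b')) : ℂ) := Finset.sum_congr rfl fun b hb => by
    have hp := (mem_sfI.1 hb).1.1
    simp only [dvR, h3, hφ, phr, if_pos hp, GG]
    split_ifs <;> simp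
  rw [← Complex.norm_conj, conj_winS, Complex.conj_conj, N_mul, m3_N9, Complex.conj_re, Complex.conj_im,
    Complex.neg_re, Complex.neg_im, neg_neg, sub_neg_eq_add] at a2
  rw [a3]
  refine (norm_le_norm_add_norm_sub' _ _).trans (add_le_add ?_ a1)
  rw [norm_mul, Complex.norm_cpow_eq_rpow_re_of_pos (half_pos hB0), Complex.neg_re]
  refine (mul_le_mul_of_nonneg_left a2 (by positivity)).trans ?_
  rw [mul_left_comm]
  exact mul_le_mul_of_nonneg_left (m3_numB hB0 b1.le b2 hs1) (by positivity)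

theorem m3_four {ι : Type*} (I : Finset ι) (z : ι → ℂ) (x : ι → ℝ) {T : ℝ} (hT : 0 < T) :
    ‖∑ i ∈ I, z i * (gw (T * x i) : ℂ)‖ ≤
      ∫ t : ℝ, gh T t * ‖∑ i ∈ I, z i * Complex.exp (t * x i * Complex.I)‖ := by
  have hi : ∀ i, Integrable fun t : ℝ => (gh T t : ℂ) * (z i * Complex.exp (t * x i * Complex.I)) :=
    fun i => (integrable_gh hT).ofReal.mul_bdd (c := ‖z i‖) (by fun_prop) (ae_of_all _ fun t => by
      rw [norm_mul, ← Complex.ofReal_mul, Complex.norm_exp_ofReal_mul_I, mul_one])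
  have e : ∑ i ∈ I, z i * (gw (T * x i) : ℂ) =
      ∫ t : ℝ, (gh T t : ℂ) * ∑ i ∈ I, z i * Complex.exp (t * x i * Complex.I) := by
    simp only [Finset.mul_sum]
    rw [integral_finsetSum _ fun i _ => hi i]
    refine Finset.sum_congr rfl fun i _ => ?_
    rw [gw_fourier hT, ← integral_const_mul]
    congr 1
    funext t
    ring
  rw [e]
  refine (norm_integral_le_integral_norm _).trans_eq (integral_congr_ae (ae_of_all _ fun t => ?_))
  simp only [norm_mul, Complex.norm_real, Real.norm_of_nonneg (gh_nonneg T t hT)]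

theorem m3_sf {a b : O} (ha : Prim a) (h : ff 0 (a * b) ≠ 0) : SF a ∧ SF b := by
  have h1 : SF (a * b) := by
    by_contra h2
    exact h (if_neg h2)
  exact ⟨h1.of_dvd ha (dvd_mul_right _ _), h1.of_dvd (h1.1.of_mul_left ha) (dvd_mul_left _ _)⟩

theorem m3_reidx {d : O} (hd : SF d) {S : Finset O} {X : ℝ} (hS : S ⊆ sfb X) {ω : O → ℂ}
    (hω : ∀ a, ‖ω a‖ ≤ 1) : ∃ (S' : Finset O) (u : O → ℂ), S' ⊆ sfb (X * N d) ∧
      nt S' u ≤ N d ^ 3 * ∑ a ∈ ball X, dv a ^ 3 ∧ ∀ (v T : ℝ) (s : ℂ),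
      ∑ a ∈ S, ω a * winS (fun m => ff 0 (a * (d * m))) v T s =
        ∑ n ∈ S', u n * winS (fun m => ff 0 (n * m)) v T s := by
  have d0 := hd.1.ne_zero
  have hi : Set.InjOn (fun a => a * d) (S.filter fun a => SF (a * d)) :=
    fun a _ b _ e => mul_right_cancel₀ d0 e
  refine ⟨(S.filter fun a => SF (a * d)).image fun a => a * d, fun n => ω (n / d), fun n hn => ?_, ?_,
    fun v T s => ?_⟩
  · obtain ⟨a, ha, rfl⟩ := Finset.mem_image.1 hn
    obtain ⟨a1, a2⟩ := Finset.mem_filter.1 ha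
    exact mem_sfb.2 ⟨a2, (N_mul a d).trans_le
      (mul_le_mul_of_nonneg_right (mem_sfb.1 (hS a1)).2 (N_nonneg d))⟩
  · rw [nt, Finset.sum_image hi, Finset.mul_sum]
    refine le_trans (Finset.sum_le_sum fun a ha => ?_) (Finset.sum_le_sum_of_subset_of_nonneg
      ((Finset.filter_subset _ _).trans (hS.trans (Finset.filter_subset _ _))) fun a _ _ =>
        mul_nonneg (pow_nonneg (N_nonneg d) 3) (pow_nonneg (bb_dv_nonneg a) 3))
    have a1 := dv_mul_le (mem_sfb.1 (hS (Finset.mem_filter.1 ha).1)).1.1.ne_zero d0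
    have a2 : dv d ≤ N d := card_pdiv_le_N d0
    have a3 := bb_dv_nonneg (a * d)
    have a4 := bb_dv_nonneg a
    have a5 := hω (a * d / d)
    calc _ ≤ 1 ^ 2 * (dv a * N d) ^ 3 := by gcongr; exact a1.trans (by gcongr)
      _ = _ := by ring
  · rw [Finset.sum_image hi, ← Finset.sum_filter_of_ne (p := fun a => SF (a * d)) fun a ha hne => ?_]
    · refine Finset.sum_congr rfl fun a _ => ?_
      simp only [mul_div_cancel_right₀ a d0, mul_assoc]
    · by_contra h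
      refine hne ?_
      rw [show (fun m => ff 0 (a * (d * m))) = fun m => 0 * ff 0 m from funext fun m => by
        by_contra h2
        rw [zero_mul, ← mul_assoc] at h2
        exact h (m3_sf ((mem_sfb.1 (hS ha)).1.1.mul hd.1) h2).1, winS_smul, zero_mul, mul_zero]

theorem m3_numC {y B P W n x : ℝ} (hy : 200 ≤ y) (h1 : Real.exp (y / 3) * W ^ 5 ≤ B)
    (h2 : B ≤ Real.exp (y / 2 + 80)) (hW : 3 * P ≤ W) (n1 : 1 ≤ n) (n2 : n ≤ P) (x1 : B ≤ x)
    (x2 : x ≤ 2 * B) :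
    1 ≤ B ∧ 1 ≤ Real.exp (y + 1) / B ∧ Real.log (Real.exp (y + 1) / B) ≤ y ∧
    Real.exp (y + 1) / B * n ≤ Real.exp (2 * (Real.log x - Real.log n)) ∧
    √(Real.exp (y + 1) / B) * ((Real.exp (y + 1) / B * n) ^ (2 / 5 : ℝ) *
      Real.exp (7 / 10 * (Real.log x - Real.log n))) ≤ Real.exp 2 * Real.exp (5 / 6 * y) / W ∧
    0 ≤ Real.log x - Real.log n ∧ Real.log x - Real.log n ≤ y := by
  have hW0 : 0 < W := by linarith
  have hB0 : 0 < B := lt_of_lt_of_le (by positivity) h1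
  obtain ⟨ξ, rfl⟩ : ∃ τ, Real.exp τ = x := ⟨_, Real.exp_log (by linarith)⟩
  obtain ⟨p, rfl⟩ : ∃ τ, Real.exp τ = P := ⟨_, Real.exp_log (by linarith)⟩
  obtain ⟨ν, rfl⟩ : ∃ τ, Real.exp τ = n := ⟨_, Real.exp_log (by linarith)⟩
  obtain ⟨w, rfl⟩ : ∃ τ, Real.exp τ = W := ⟨_, Real.exp_log hW0⟩
  obtain ⟨b, rfl⟩ : ∃ τ, Real.exp τ = B := ⟨_, Real.exp_log hB0⟩
  have a1 : Real.exp (p + 1) ≤ Real.exp w := by
    rw [Real.exp_add]
    nlinarith [Real.exp_one_lt_d9, Real.exp_pos p]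
  have a2 : Real.exp ξ ≤ Real.exp (b + 1) := by
    rw [Real.exp_add]
    nlinarith [Real.exp_one_gt_d9, Real.exp_pos b]
  rw [Real.sqrt_eq_rpow]
  simp only [← Real.exp_mul, ← Real.exp_add, ← Real.exp_sub, ← Real.exp_nat_mul, Real.exp_le_exp,
    Real.one_le_exp_iff, Real.log_exp] at a1 a2 h1 h2 n1 n2 x1 ⊢
  push_cast at h1
  refine ⟨?_, ?_, ?_, ?_, ?_, ?_, ?_⟩ <;> linarith

theorem m3_numD {C C3 P H t w ν X n l Z U : ℝ} {B0 B3 : ℕ} (hC : 0 ≤ C) (hC3 : 0 ≤ C3) (hP : 1 ≤ P)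
    (H0 : 0 ≤ H) (h1 : H ≤ P) (t0 : 0 ≤ t) (h2 : t ≤ P) (w0 : 0 ≤ w) (h3 : w ≤ P) (hX : 0 ≤ X) (n0 : 0 ≤ n)
    (h4 : n ≤ P) (l0 : 0 ≤ l) (h5 : l ≤ P) (h6 : ν ≤ n ^ 3 * (C3 * X * (1 + l) ^ B3)) (hZ : 0 ≤ Z)
    (h7 : √X * Z ≤ U) :
    C * (H + t) ^ B0 * (1 + w) ^ B0 * √ν * Z ≤
      C * (C3 + 1) * 2 ^ (2 * B0 + B3) * P ^ (2 * B0 + B3 + 2) * U := by
  have a1 : 1 ≤ (2 * P) ^ B3 := one_le_pow₀ (by linarith)
  have a2 : √ν ≤ (C3 + 1) * P ^ 2 * (2 * P) ^ B3 * √X := by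
    refine Real.sqrt_le_iff.2 ⟨by positivity, h6.trans ?_⟩
    rw [mul_pow, Real.sq_sqrt hX]
    calc _ ≤ P ^ 4 * ((C3 + 1) ^ 2 * X * ((2 * P) ^ B3) ^ 2) := by
          gcongr ?_ * (?_ * X * ?_)
          · exact (pow_le_pow_left₀ n0 h4 3).trans (pow_le_pow_right₀ hP (by norm_num))
          · nlinarith
          · exact (pow_le_pow_left₀ (by linarith) (by linarith) B3).trans (le_self_pow₀ a1 two_ne_zero)
      _ = _ := by ring
  calc _ ≤ C * (2 * P) ^ B0 * (2 * P) ^ B0 * ((C3 + 1) * P ^ 2 * (2 * P) ^ B3 * √X) * Z := by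
        gcongr <;> linarith
    _ = C * (C3 + 1) * 2 ^ (2 * B0 + B3) * P ^ (2 * B0 + B3 + 2) * (√X * Z) := by ring
    _ ≤ _ := by gcongr

theorem m3_numE {c K K2 K3 P H y E ε ε' : ℝ} {j A C2 : ℕ} (hc : 0 ≤ c) (hK : 0 ≤ K) (hK2 : 0 ≤ K2)
    (hK3 : 0 ≤ K3) (hy : 1 ≤ y) (hH : H = y ^ C2) (h1 : H ≤ P) (hE : 0 ≤ E)
    (e1 : ε ≤ Real.exp (-(5 * y))) (e2 : ε' ≤ Real.exp (-(5 * y))) (h2 : 2 * (c * K * E) ≤ y)
    (h3 : 2 * (c * (K2 + 2 * K3) * Real.exp 1) * y ^ (C2 * 4 + A) ≤ Real.exp (1 * y)) :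
    c * H ^ 4 * (K * P ^ j * (E * Real.exp (5 / 6 * y) / (P ^ (j + 4) * y ^ A * y)) +
      K2 * Real.exp (y + 1) * ε) + 2 * (c * H ^ 4 * (K3 * Real.exp (y + 1))) * ε' ≤
      Real.exp (5 / 6 * y) / y ^ A := by
  have y0 : 0 < y := by linarith
  have H0 : 0 < H := hH ▸ pow_pos y0 _
  have P0 : 0 < P := by linarith
  have a1 : c * H ^ 4 * (K * P ^ j * (E * Real.exp (5 / 6 * y) / (P ^ (j + 4) * y ^ A * y))) ≤
      Real.exp (5 / 6 * y) / y ^ A / 2 :=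
    calc _ ≤ c * P ^ 4 * (K * P ^ j * (E * Real.exp (5 / 6 * y) / (P ^ (j + 4) * y ^ A * y))) := by gcongr
      _ = 2 * (c * K * E) / y * (Real.exp (5 / 6 * y) / y ^ A / 2) := by
          field_simp
          ring
      _ ≤ _ := mul_le_of_le_one_left (by positivity) ((div_le_one y0).2 h2)
  have a2 : c * H ^ 4 * (K2 * Real.exp (y + 1) * ε) + 2 * (c * H ^ 4 * (K3 * Real.exp (y + 1))) * ε' ≤
      Real.exp (5 / 6 * y) / y ^ A / 2 :=
    calc _ ≤ c * H ^ 4 * (K2 * Real.exp (y + 1) * Real.exp (-(5 * y))) +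
          2 * (c * H ^ 4 * (K3 * Real.exp (y + 1))) * Real.exp (-(5 * y)) := by gcongr
      _ = 2 * (c * (K2 + 2 * K3) * Real.exp 1) * y ^ (C2 * 4 + A) * (Real.exp y * Real.exp (-(5 * y))) /
          y ^ A / 2 := by
          rw [hH, Real.exp_add, pow_add, pow_mul]
          field_simp
      _ ≤ Real.exp (1 * y) * (Real.exp y * Real.exp (-(5 * y))) / y ^ A / 2 := by gcongr
      _ ≤ _ := by
          rw [← Real.exp_add, ← Real.exp_add]
          gcongr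
          linarith
  linarith

/-- `gw_fourier` for the `T`-window (`|t| ≤ T y`, else trivial: `integral_gh_le`), exchange sums,
`win_cut`, `b = d k`, `n = a d` (`ff = 0` unless squarefree), `vas_ff` with `M = e^{y+1} y^{C₂}/B`,
`v = lg b' - lg d`, `T = H = y^{C₂}`; `nt ≤ dv d³ ∑ dv a³`;
`A^{9/10} B^{7/10} = (AB)^{5/6} (A/B²)^{1/15}`, `A = e^y/B`, `A/B² ≤ y^{-3A₂}`. -/
theorem mdl_BF (A A1 C2 : ℕ) (hC : 1 ≤ C2) : ∃ (A2 : ℕ) (y0 : ℝ), ∀ y : ℝ, y0 ≤ y →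
    ∀ (B v T : ℝ) (α β : O → ℂ), Real.exp (y / 3) * y ^ A2 ≤ B → B ≤ Real.exp (y / 2 + 80) → 1 ≤ T →
    T ≤ y ^ A1 → (∀ a, ‖α a‖ ≤ 1) → (∀ b, ‖β b‖ ≤ 1) →
    ‖BF 0 (SA y B) (sfI (B / 2) (4 * B)) α (mdl (sfI B (2 * B)) β (y ^ C2) (y ^ C2)) v T‖ ≤
      Real.exp (5 / 6 * y) / y ^ A := by
  obtain ⟨C, B0, hC0, hv⟩ := vas_ff
  obtain ⟨Cw, hCw, hw⟩ := win_cut
  obtain ⟨c, hc, hm⟩ := m3_mdl
  obtain ⟨C3, B3, hC3, hd⟩ := sum_dv 3
  have hP := cP_pos.le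
  obtain ⟨y1, e1⟩ := m3_ev one_pos
    (2 * (c * (18 * Cw * (1 + cP) + 2 * (1296 * (1 + cP))) * Real.exp 1)) (C2 * 4 + A)
  refine ⟨((C2 + A1 + 1) * (2 * B0 + B3 + 2 + 4) + A + 1) * 5,
    max 200 (max y1 (2 * (c * (C * (C3 + 1) * 2 ^ (2 * B0 + B3)) * Real.exp 2))),
    fun y hy B v T α β hB1 hB2 hT hT1 hα hβ => ?_⟩
  rw [max_le_iff, max_le_iff] at hy
  obtain ⟨hy, hy1, hy2⟩ := hy
  have y1' : 1 ≤ y := by linarith
  have hT0 : 0 < T := by linarith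
  rw [pow_mul, pow_succ y, pow_add y _ A, pow_mul] at hB1
  obtain ⟨P, eP⟩ : ∃ P, P = y ^ (C2 + A1 + 1) := ⟨_, rfl⟩
  obtain ⟨H, eH⟩ : ∃ H, H = y ^ C2 := ⟨_, rfl⟩
  have p1 : H ≤ P := by rw [eH, eP]; exact pow_le_pow_right₀ y1' (by omega)
  have p2 : T * y ≤ P := (mul_le_mul_of_nonneg_right hT1 (by linarith)).trans (by
    rw [← pow_succ, eP]
    exact pow_le_pow_right₀ y1' (by omega))
  have p3 : y ≤ H := eH ▸ le_self_pow₀ y1' (by omega)
  have p4 : 1 ≤ P := by linarith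
  rw [← eP] at hB1
  rw [← eH]
  have p5 : 3 * P ≤ P ^ (2 * B0 + B3 + 2 + 4) * y ^ A * y := by
    rw [mul_comm]
    exact mul_le_mul ((le_self_pow₀ p4 (by omega)).trans (le_mul_of_one_le_right (by positivity)
      (one_le_pow₀ y1'))) (by linarith) (by norm_num) (by positivity)
  obtain ⟨hB, hX, hL, -⟩ := m3_numC hy hB1 hB2 p5 le_rfl p4 le_rfl
    (by linarith [lt_of_lt_of_le (by positivity) hB1])
  have hB0 : 0 < B := by linarith
  have H0 : 0 < H := by linarith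
  have hsub : SA y B ⊆ sfb (Real.exp (y + 1) / B) := fun a ha =>
    mem_sfb.2 ⟨(mem_sfI.1 ha).1, (mem_sfI.1 ha).2.2⟩
  have c1 := ls0_card_sfb (by linarith) hsub
  have c2 : ((sfI (B / 2) (4 * B)).card : ℝ) ≤ 18 * (4 * B) :=
    le_trans (Nat.cast_le.2 (Finset.card_filter_le _ _)) (card_ball_le (by linarith))
  obtain ⟨F, hF⟩ : ∃ F : ℝ → O → ℂ, F = fun (t : ℝ) b => ∑ a ∈ SA y B,
    α a * ff 0 (a * b) * Complex.exp (t * (lg (a * b) - v : ℝ) * Complex.I) := ⟨_, rfl⟩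
  have f1 : ∀ t b, ‖F t b‖ ≤ 18 * (Real.exp (y + 1) / B) * (1 + cP) := fun t b => by
    rw [hF]
    refine (norm_sum_le _ _).trans ((Finset.sum_le_card_nsmul _ _ (1 + cP) fun a _ => ?_).trans ?_)
    · rw [norm_mul, norm_mul, ← Complex.ofReal_mul, Complex.norm_exp_ofReal_mul_I, mul_one]
      exact (mul_le_of_le_one_left (norm_nonneg _) (hα a)).trans (norm_ff_le _ _)
    · rw [nsmul_eq_mul]
      exact mul_le_mul_of_nonneg_right c1 (by linarith)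
  have f2 := m3_four (SA y B ×ˢ sfI (B / 2) (4 * B)) (fun p => α p.1 *
    mdl (sfI B (2 * B)) β H H p.2 * ff 0 (p.1 * p.2)) (fun p => lg (p.1 * p.2) - v) hT0
  simp only [Finset.sum_product] at f2
  have f3 : ∀ t : ℝ, ∑ a ∈ SA y B, ∑ b ∈ sfI (B / 2) (4 * B), α a * mdl (sfI B (2 * B)) β H H b *
      ff 0 (a * b) * Complex.exp (t * (lg (a * b) - v : ℝ) * Complex.I) =
      ∑ b ∈ sfI (B / 2) (4 * B), mdl (sfI B (2 * B)) β H H b * F t b := fun t => by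
    rw [Finset.sum_comm, hF]
    simp only [Finset.mul_sum]
    exact Finset.sum_congr rfl fun b _ => Finset.sum_congr rfl fun a _ => by ring
  simp only [f3] at f2
  have hK : 0 ≤ C * (C3 + 1) * 2 ^ (2 * B0 + B3) := by positivity
  have hK2 : 0 ≤ 18 * Cw * (1 + cP) := by positivity
  have hK3 : 0 ≤ 1296 * (1 + cP) := by positivity
  have hΛ : 0 ≤ C * (C3 + 1) * 2 ^ (2 * B0 + B3) * P ^ (2 * B0 + B3 + 2) * (Real.exp 2 *
      Real.exp (5 / 6 * y) / (P ^ (2 * B0 + B3 + 2 + 4) * y ^ A * y)) +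
      18 * Cw * (1 + cP) * Real.exp (y + 1) * Real.exp (-(H ^ 2 / 5)) := by positivity
  refine f2.trans ((integral_gh_le (R := T * y) hT0 (by positivity) (by positivity) (fun _ => norm_nonneg _)
    (fun t ht => hm B H _ β _ _ hB0 (by linarith) hβ hΛ fun d hd' b' hb' => ?_)
    fun t => hm B H _ β _ _ hB0 (by linarith) hβ (by positivity) fun d _ b' _ => ?_).trans
    (m3_numE hc hK hK2 hK3 y1' eH p1 (Real.exp_pos 2).le (m3_gw (by linarith) p3)
      (Real.exp_le_exp.2 ?_) hy2 (e1 y hy1)))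
  rotate_left
  · refine (norm_sum_le _ _).trans ((Finset.sum_le_card_nsmul _ _
      (18 * (Real.exp (y + 1) / B) * (1 + cP)) fun b _ => ?_).trans ?_)
    · rw [norm_mul, Complex.norm_real, Real.norm_of_nonneg (gw_pos _).le]
      refine (mul_le_of_le_one_right (norm_nonneg _) (gw_le_one _)).trans ?_
      unfold dvR
      split_ifs
      exacts [f1 t b, (norm_zero.trans_le (norm_nonneg _)).trans (f1 t b)]
    · rw [nsmul_eq_mul]
      refine (mul_le_mul_of_nonneg_right c2 ((norm_nonneg _).trans (f1 t 0))).trans_eq ?_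
      field_simp
      norm_num
  · rw [show (T * y) ^ 2 / (8 * T ^ 2) = y ^ 2 / 8 by field_simp]
    nlinarith
  obtain ⟨d1, d2⟩ := mem_sfb.1 hd'
  obtain ⟨-, b1, b2⟩ := mem_sfI.1 hb'
  have d0 := d1.1.ne_zero
  obtain ⟨-, -, -, n1, n2', n3, n4⟩ := m3_numC hy hB1 hB2 p5 (one_le_N d0) (d2.trans p1) b1.le b2
  obtain ⟨ω, hω⟩ : ∃ ω : O → ℂ, ω = fun a =>
    α a * Complex.exp (t * (lg a + Real.log (B / 2) - v : ℝ) * Complex.I) := ⟨_, rfl⟩
  have ω1 : ∀ a, ‖ω a‖ ≤ 1 := fun a => by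
    rw [hω]
    dsimp only
    rw [norm_mul, ← Complex.ofReal_mul, Complex.norm_exp_ofReal_mul_I, mul_one]
    exact hα a
  obtain ⟨S', u, u1, u2, u3⟩ := m3_reidx d1 hsub ω1
  have a1 := (hv _ (lg b' - lg d) H (-t) S' u (one_le_mul_of_one_le_of_one_le hX (one_le_N d0)) n1
    (by linarith) u1).trans (m3_numD hC0 hC3 p4 H0.le p1 (abs_nonneg _) (by rw [abs_neg]; linarith) n3
      (n4.trans (p3.trans p1)) (by linarith) (N_nonneg d) (d2.trans p1) (Real.log_nonneg hX) (by linarith)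
      (u2.trans (mul_le_mul_of_nonneg_left (hd _ hX) (pow_nonneg (N_nonneg d) 3)))
      (mul_nonneg (Real.rpow_nonneg (mul_nonneg (by linarith) (N_nonneg d)) _) (Real.exp_pos _).le) n2')
  rw [← u3, Complex.ofReal_neg, neg_mul] at a1
  have a2 : ∑ b ∈ sfI (B / 2) (4 * B), dvR d (F t) b * (gw (H * (lg b - lg b')) : ℂ) =
      ((B / 2 : ℝ) : ℂ) ^ (-((t : ℂ) * Complex.I)) * (N d : ℂ) ^ (-(-((t : ℂ) * Complex.I))) *
        ∑ a ∈ SA y B, ω a * winS (fun m => ff 0 (a * (d * m))) (lg b' - lg d) H (-(t * Complex.I)) +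
      ∑ a ∈ SA y B, ω a * (∑ b ∈ sfI (B / 2) (4 * B), dvR d (fun b => ff 0 (a * b)) b *
        pw (B / 2) b (t * Complex.I) * (gw (H * (lg b - lg b')) : ℂ) -
        ((B / 2 : ℝ) : ℂ) ^ (-((t : ℂ) * Complex.I)) *
          winS (dvR d fun b => ff 0 (a * b)) (lg b') H (-(t * Complex.I))) := by
    rw [Finset.mul_sum, ← Finset.sum_add_distrib]
    refine Eq.trans ?_ (Finset.sum_congr rfl (f := fun a => ω a * ∑ b ∈ sfI (B / 2) (4 * B),
      dvR d (fun b => ff 0 (a * b)) b * pw (B / 2) b (t * Complex.I) * (gw (H * (lg b - lg b')) : ℂ))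
      fun a _ => by rw [winS_dvR d0]; ring)
    simp only [Finset.mul_sum]
    rw [Finset.sum_comm]
    refine Finset.sum_congr rfl fun b hb => ?_
    have b0 := (mem_sfI.1 hb).1.1.ne_zero
    simp only [dvR, hF, hω]
    split_ifs
    · rw [Finset.sum_mul]
      refine Finset.sum_congr rfl fun a ha => ?_
      rw [va2_lg_mul (mem_sfI.1 ha).1.1.ne_zero b0, pw, va2_cpow (div_pos (N_pos b0) (half_pos hB0)),
        Real.log_div (N_pos b0).ne' (half_pos hB0).ne', show (t : ℂ) * (lg a + lg b - v : ℝ) * Complex.I =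
          t * (lg a + Real.log (B / 2) - v : ℝ) * Complex.I +
            t * Complex.I * (Real.log (N b) - Real.log (B / 2) : ℝ) by rw [lg, lg]; push_cast; ring,
        Complex.exp_add]
      ring
    · simp
  rw [a2]
  refine (norm_add_le _ _).trans (add_le_add ?_ ((norm_sum_le _ _).trans
    ((Finset.sum_le_card_nsmul _ _ _ fun a ha => (norm_mul _ _).trans_le ((mul_le_of_le_one_left
      (norm_nonneg _) (ω1 a)).trans (hw _ (1 + cP) B H (lg b') _ (fun n => ?_) (fun n hn => ?_) hB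
        (by linarith) (Real.log_le_log hB0 b1.le) (Real.log_le_log (by linarith) b2) (by simp)))).trans ?_)))
  · rw [norm_mul, norm_mul, va2_norm_cpow (half_pos hB0), va2_norm_cpow (N_pos d0)]
    simpa using a1
  · unfold dvR
    split_ifs
    exacts [norm_ff_le _ _, (norm_zero.trans_le (norm_nonneg _)).trans (norm_ff_le 0 0)]
  · unfold dvR at hn
    split_ifs at hn
    exacts [(m3_sf (mem_sfI.1 ha).1.1 hn).2, absurd rfl hn]
  · rw [nsmul_eq_mul]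
    refine (mul_le_mul_of_nonneg_right c1 (mul_nonneg (mul_nonneg (mul_nonneg hCw (by linarith)) hB0.le)
      (Real.exp_pos _).le)).trans_eq ?_
    field_simp

end Crest.Agent.R12
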