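import Crest.Agent.R12.BF

/-!
# R12 / Narrow : the narrow range: products of three primes of size `e^{y/3}`
-/

set_option autoImplicit false

noncomputable section

open scoped Classical ComplexConjugate Topology
open MeasureTheory Filter

namespace Crest.Agent.R12

open Crest.Agent.R17

theorem nr_card {S : Finset ℕ} {c r : ℝ} (hr : 0 ≤ r) (h : ∀ i ∈ S, |(i : ℝ) * Real.log 2 - c| ≤ r) :
    (S.card : ℝ) ≤ 3 * r + 1 := by
  rcases S.eq_empty_or_nonempty with rfl | hS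
  · simp
    positivity
  have h1 := abs_le.1 (h _ (S.min'_mem hS))
  have h2 := abs_le.1 (h _ (S.max'_mem hS))
  have h3 : S.card ≤ (Finset.Icc (S.min' hS) (S.max' hS)).card :=
    Finset.card_le_card fun k hk => Finset.mem_Icc.2 ⟨S.min'_le _ hk, S.le_max' _ hk⟩
  have h4 := S.min'_le_max' hS
  rw [Nat.card_Icc] at h3
  have h5 : (S.card : ℝ) + S.min' hS ≤ S.max' hS + 1 := by exact_mod_cast (by omega : S.card + S.min' hS ≤ S.max' hS + 1)
  have h6 : (S.min' hS : ℝ) ≤ S.max' hS := by exact_mod_cast h4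
  nlinarith [Real.log_two_gt_d9, h1.1, h2.2]

/-- the primes of box `i` -/
def nrP (i : ℕ) : Finset O := (sfb (2 * 2 ^ i)).filter (fun p => Prime p ∧ box p = i)

theorem nr_box {p : O} (hp : p ≠ 0) : (2 : ℝ) ^ box p ≤ N p ∧ N p ≤ 2 * 2 ^ box p := by
  unfold N box
  rw [← pow_succ']
  exact ⟨by exact_mod_cast Nat.pow_log_le_self 2 (nm_pos hp).ne',
    by exact_mod_cast (Nat.lt_pow_succ_log_self (by norm_num : 1 < 2) (nm p)).le⟩

theorem mem_nrP {i : ℕ} {p : O} : p ∈ nrP i ↔ Prime p ∧ Prim p ∧ box p = i := by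
  rw [nrP, Finset.mem_filter, mem_sfb]
  exact ⟨fun h => ⟨h.2.1, h.1.1.1, h.2.2⟩,
    fun h => ⟨⟨⟨h.2.1, h.1.squarefree⟩, h.2.2 ▸ (nr_box h.1.ne_zero).2⟩, h.1, h.2.2⟩⟩

theorem nr_div {n p : O} {i : ℕ} (hn : SF n) (hp : p ∈ nrP i) (h : p ∣ n) :
    SF (n / p) ∧ n / p * p = n ∧ bx (n / p) = (bx n).erase i := by
  obtain ⟨h1, h2, h3⟩ := mem_nrP.1 hp
  obtain ⟨h4, h5⟩ := hn.div h2 h
  have e := EuclideanDomain.mul_div_cancel' h1.ne_zero h
  refine ⟨h4, (mul_comm _ _).trans e, ?_⟩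
  conv_rhs => rw [← e, bx_mul h1.ne_zero h4.1.ne_zero h5, bx_prime h1 h2, h3, Multiset.singleton_add,
    Multiset.erase_cons_head]

theorem nr_peel {n : O} {i : ℕ} (hn : SF n) (hi : i ∈ bx n) : ∃ p ∈ nrP i, p ∣ n := by
  obtain ⟨p, hp, rfl⟩ := Multiset.mem_map.1 hi
  obtain ⟨h1, h2, h3⟩ := (mem_pf hn.1.ne_zero).1 hp
  exact ⟨p, mem_nrP.2 ⟨h1, h2, rfl⟩, h3⟩

theorem nr_two {S : Finset O} (hS : ∀ a ∈ S, SF a) (j k : ℕ) :
    n2 S (fun a => if bx a = {j, k} then 1 else 0) ≤ (nrP k).card * (nrP j).card := by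
  have e : n2 S (fun a => if bx a = {j, k} then 1 else 0) = (S.filter fun a => bx a = {j, k}).card := by
    rw [n2, Finset.card_filter]
    push_cast
    exact Finset.sum_congr rfl fun a _ => by split_ifs <;> simp
  rw [e, ← Nat.cast_mul, Nat.cast_le]
  refine (Finset.card_le_card fun a ha => ?_).trans (Finset.card_image₂_le (· * ·) (nrP k) (nrP j))
  obtain ⟨h1, h2⟩ := Finset.mem_filter.1 ha
  obtain ⟨p, hp, h3⟩ := nr_peel (i := j) (hS a h1) (by simp [h2])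
  obtain ⟨a1, a2, a3⟩ := nr_div (hS a h1) hp h3
  rw [h2, Multiset.insert_eq_cons, Multiset.erase_cons_head] at a3
  obtain ⟨q, hq, h4⟩ := nr_peel (i := k) a1 (by simp [a3])
  obtain ⟨b1, b2, b3⟩ := nr_div a1 hq h4
  rw [a3, Multiset.erase_singleton, bx, Multiset.map_eq_zero, Finset.val_eq_zero] at b3
  rw [← b1.prod_pf, b3, Finset.prod_empty, one_mul] at b2
  exact Finset.mem_image₂.2 ⟨q, hq, p, hp, by rw [b2, a2]⟩

theorem nr_id (ℓ : ℤ) {M : Multiset ℕ} {i : ℕ} (hM : Multiset.card M = 3) (hi : i ∈ M) {X : ℝ}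
    (hX : 2 ^ (M.sum + 3) ≤ X) (v T : ℝ) :
    (M.count i : ℂ) * ∑ n ∈ (sfb X).filter (fun n => bx n = M), ff ℓ n * (gw (T * (lg n - v)) : ℂ) =
      BF ℓ (SA (M.sum * Real.log 2 + 1) (2 ^ i)) (nrP i) (fun a => if bx a = M.erase i then 1 else 0)
        (fun _ => 1) v T := by
  have e1 : ∀ n ∈ (sfb X).filter (fun n => bx n = M), (M.count i : ℂ) * (ff ℓ n * (gw (T * (lg n - v)) : ℂ)) =
      ∑ p ∈ nrP i, if p ∣ n then ff ℓ n * (gw (T * (lg n - v)) : ℂ) else 0 := fun n hn => by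
    obtain ⟨h1, h2⟩ := Finset.mem_filter.1 hn
    rw [← Finset.sum_filter, Finset.sum_const, nsmul_eq_mul, ← h2, bx, Multiset.count_map]
    congr 2
    rw [← Finset.filter_val, Finset.card_val]
    congr 1
    ext p
    rw [Finset.mem_filter, Finset.mem_filter, mem_pf (mem_sfb.1 h1).1.1.ne_zero, mem_nrP, eq_comm]
    tauto
  rw [Finset.mul_sum, Finset.sum_congr rfl e1, Finset.sum_comm, BF, Finset.sum_comm (t := nrP i)]
  refine Finset.sum_congr rfl fun p hp => ?_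
  obtain ⟨p1, p2, p3⟩ := mem_nrP.1 hp
  rw [← Finset.sum_filter, ← Finset.sum_filter_of_ne (s := SA _ _)
    (p := fun a => bx a = M.erase i ∧ SF (a * p)) fun a _ h => ?_]
  · refine Finset.sum_nbij' (fun n => n / p) (fun a => a * p) (fun n hn => ?_) (fun a ha => ?_)
      (fun n hn => ?_) (fun a _ => mul_div_cancel_right₀ a p1.ne_zero) fun n hn => ?_
    · obtain ⟨h1, h2⟩ := Finset.mem_filter.1 hn
      obtain ⟨h3, h4⟩ := Finset.mem_filter.1 h1
      obtain ⟨a1, a2, a3⟩ := nr_div (mem_sfb.1 h3).1 hp h2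
      rw [h4] at a3
      refine Finset.mem_filter.2 ⟨?_, a3, a2.symm ▸ (mem_sfb.1 h3).1⟩
      obtain ⟨b1, b2⟩ := a1.N_bx
      rw [a3] at b1 b2
      rw [Multiset.card_erase_of_mem hi, hM, pow_add] at b2
      have e : ∀ x : ℝ, Real.exp (M.sum * Real.log 2 + 1 + x) / 2 ^ i = 2 ^ (M.erase i).sum * Real.exp (1 + x) := by
        intro x
        rw [add_assoc, Real.exp_add, Real.exp_nat_mul, Real.exp_log two_pos, ← Multiset.sum_erase hi, pow_add]
        field_simp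
      have b3 : (0 : ℝ) < 2 ^ (M.erase i).sum := by positivity
      rw [SA, mem_sfI, sub_eq_add_neg, e, e]
      refine ⟨a1, lt_of_lt_of_le (mul_lt_of_lt_one_right b3 (Real.exp_lt_one_iff.2 (by norm_num))) b1,
        b2.trans (mul_le_mul_of_nonneg_left ?_ b3.le)⟩
      rw [Real.exp_add]
      norm_num
      nlinarith [Real.add_one_le_exp (1 : ℝ)]
    · obtain ⟨h1, h2, h3⟩ := Finset.mem_filter.1 ha
      have h4 : bx (a * p) = M := by
        rw [bx_mul (mem_sfI.1 h1).1.1.ne_zero p1.ne_zero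
          (isRelPrime_iff_isCoprime.1 (squarefree_mul_iff.1 h3.2).1), h2, bx_prime p1 p2, p3, add_comm,
          Multiset.singleton_add, Multiset.cons_erase hi]
      refine Finset.mem_filter.2 ⟨Finset.mem_filter.2 ⟨mem_sfb.2 ⟨h3, ?_⟩, h4⟩, dvd_mul_left _ _⟩
      have := h3.N_bx.2
      rw [h4, hM] at this
      exact this.trans hX
    · obtain ⟨h1, h2⟩ := Finset.mem_filter.1 hn
      exact (nr_div (mem_sfb.1 (Finset.mem_filter.1 h1).1).1 hp h2).2.1
    · obtain ⟨h1, h2⟩ := Finset.mem_filter.1 hn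
      obtain ⟨h3, h4⟩ := Finset.mem_filter.1 h1
      obtain ⟨a1, a2, a3⟩ := nr_div (mem_sfb.1 h3).1 hp h2
      rw [a2, a3, h4, if_pos rfl, one_mul, one_mul]
  · refine ⟨by_contra fun h1 => h (by simp [h1]), by_contra fun h1 => h (by simp [ff, h1])⟩

theorem nr_num {y s b : ℝ} (hy : 100 ≤ y) (h1 : |s - y| ≤ 5) (h2 : s ≤ 3 * b) (h3 : b ≤ y / 3 + y / 24) :
    1 ≤ Real.exp (s + 1 - 3) / Real.exp b ∧
    Real.exp (s + 1) / Real.exp b / 1 + Real.sqrt (Real.exp (s + 1) / Real.exp b) +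
      1 ^ 3 * Real.exp b ^ 4 / Real.exp (s + 1) + Real.exp (2 / 3 * (s + 1)) *
        ((1 : ℝ) ^ (-(1 / 42 : ℝ)) + Real.exp b ^ (-(1 / 84 : ℝ))) ≤ 5 * Real.exp (2 / 3 * y + 5) := by
  obtain ⟨h4, h5⟩ := abs_le.1 h1
  simp only [← Real.exp_sub, ← Real.exp_half, ← Real.exp_nat_mul, ← Real.exp_mul, Real.one_rpow, div_one, one_pow,
    one_mul, mul_add, mul_one, ← Real.exp_add]
  have h : ∀ x, x ≤ 2 / 3 * y + 5 → Real.exp x ≤ Real.exp (2 / 3 * y + 5) := fun x hx => Real.exp_le_exp.2 hx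
  refine ⟨Real.one_le_exp (by linarith), ?_⟩
  push_cast
  linarith [h (s + 1 - b) (by linarith), h ((s + 1 - b) / 2) (by linarith), h (4 * b - (s + 1)) (by linarith),
    h (2 / 3 * s + 2 / 3) (by linarith), h (2 / 3 * s + 2 / 3 + b * -(1 / 84)) (by linarith)]

theorem nr_one : ∃ C : ℝ, 0 ≤ C ∧ ∀ (ℓ : ℤ) (y : ℝ) (M : Multiset ℕ) (X v T : ℝ), 100 ≤ y →
    Multiset.card M = 3 → (∀ i ∈ M, |(i : ℝ) * Real.log 2 - y / 3| ≤ y / 24) →
    |(M.sum : ℝ) * Real.log 2 - y| ≤ 5 → 2 ^ (M.sum + 3) ≤ X → 1 ≤ T →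
    ‖∑ n ∈ (sfb X).filter (fun n => bx n = M), ff ℓ n * (gw (T * (lg n - v)) : ℂ)‖ ≤
      C * (Real.exp (5 / 6 * y) / y ^ (3 / 2 : ℝ)) := by
  obtain ⟨C1, hC1, h1⟩ := II_ann
  obtain ⟨C2, hC2, h2⟩ := card_primes_le
  refine ⟨Real.sqrt (C1 * 5 * Real.exp 10 * (8 * (4 * C2) ^ 3)), Real.sqrt_nonneg _,
    fun ℓ y M X v T hy hM hi hs hX hT => ?_⟩
  have hy0 : 0 < y := by linarith
  have hP : ∀ i ∈ M, ((nrP i).card : ℝ) ≤ 4 * C2 * 2 ^ i / y := fun i h => by
    have a1 := (abs_le.1 (hi i h)).1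
    have a2 : (2 : ℝ) ≤ 2 ^ i := le_self_pow₀ one_le_two (by rintro rfl; simp at a1; linarith)
    refine (h2 _ a2 _ fun p hp => ?_).trans ?_
    · obtain ⟨b1, b2, rfl⟩ := mem_nrP.1 hp
      exact ⟨b1, b2, nr_box b1.ne_zero⟩
    · rw [Real.log_pow]
      calc _ ≤ C2 * 2 ^ i / (y / 4) := by gcongr; linarith
        _ = _ := by field_simp
  obtain ⟨i, j, k, rfl, hj, hk⟩ : ∃ i j k : ℕ, M = {i, j, k} ∧ j ≤ i ∧ k ≤ i := by
    obtain ⟨i, j, k, rfl⟩ := Multiset.card_eq_three.1 hM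
    rcases le_total i j with a1 | a1 <;> rcases le_total j k with a2 | a2 <;> rcases le_total i k with a3 | a3
    all_goals first
      | exact ⟨i, j, k, rfl, by omega, by omega⟩
      | exact ⟨j, i, k, Multiset.cons_swap _ _ _, by omega, by omega⟩
      | exact ⟨k, i, j, by simp only [Multiset.insert_eq_cons, ← Multiset.singleton_add]; abel, by omega, by omega⟩
  have hi' : i ∈ ({i, j, k} : Multiset ℕ) := by simp
  have hsum : ({i, j, k} : Multiset ℕ).sum = i + j + k := by simp [add_assoc]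
  have e2 : ∀ m : ℕ, (2 : ℝ) ^ m = Real.exp (m * Real.log 2) := fun m => by
    rw [Real.exp_nat_mul, Real.exp_log two_pos]
  obtain ⟨n1, n2'⟩ := nr_num (b := i * Real.log 2) hy hs (by
    rw [hsum, ← mul_assoc]
    exact mul_le_mul_of_nonneg_right (by exact_mod_cast (by omega : i + j + k ≤ 3 * i))
      (Real.log_nonneg one_le_two)) (by linarith [(abs_le.1 (hi i hi')).2])
  rw [← e2] at n1 n2'
  have h3 := h1 ℓ (nrP i) (fun a => if bx a = ({i, j, k} : Multiset ℕ).erase i then 1 else 0) (fun _ => 1) _ (2 ^ i)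
    v T 1 (one_le_pow₀ one_le_two) (fun p hp => by
      obtain ⟨b1, b2, rfl⟩ := mem_nrP.1 hp
      obtain ⟨b3, b4⟩ := nr_box b1.ne_zero
      exact ⟨⟨b2, b1.squarefree⟩, b3, by linarith⟩) le_rfl hT (by rwa [one_pow])
  rw [← nr_id ℓ hM hi' hX] at h3
  have h4 : n2 (SA (({i, j, k} : Multiset ℕ).sum * Real.log 2 + 1) (2 ^ i))
      (fun a => if bx a = ({i, j, k} : Multiset ℕ).erase i then 1 else 0) ≤
      4 * C2 * 2 ^ k / y * (4 * C2 * 2 ^ j / y) := by
    refine le_trans ?_ (mul_le_mul (hP k (by simp)) (hP j (by simp)) (Nat.cast_nonneg _) (by positivity))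
    rw [Multiset.insert_eq_cons, Multiset.erase_cons_head]
    exact nr_two (fun a ha => (mem_sfI.1 ha).1) j k
  have h5 : nt (nrP i) (fun _ => 1) ≤ 4 * C2 * 2 ^ i / y * 8 := by
    refine (Finset.sum_le_card_nsmul _ _ 8 fun p hp => le_of_eq ?_).trans
      (by rw [nsmul_eq_mul]; exact mul_le_mul_of_nonneg_right (hP i hi') (by norm_num))
    obtain ⟨b1, b2, -⟩ := mem_nrP.1 hp
    have := congrArg Multiset.card (bx_prime b1 b2)
    rw [bx, Multiset.card_map, Finset.card_val, Multiset.card_singleton] at this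
    rw [SF.dv_eq ⟨b2, b1.squarefree⟩, this]
    norm_num
  have h6 : (2 : ℝ) ^ (i + j + k) ≤ Real.exp (y + 5) := by
    rw [e2, ← hsum]
    exact Real.exp_le_exp.2 (by linarith [(abs_le.1 hs).2])
  have h7 : (1 : ℝ) ≤ ‖(({i, j, k} : Multiset ℕ).count i : ℂ)‖ := by
    rw [Complex.norm_natCast]
    exact_mod_cast Multiset.one_le_count_iff_mem.2 hi'
  rw [norm_mul] at h3
  refine (le_mul_of_one_le_left (norm_nonneg _) h7).trans (le_of_sq_le_sq (h3.trans ?_) (by positivity))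
  have e3 : (y ^ (3 / 2 : ℝ)) ^ 2 = y ^ 3 := by
    rw [← Real.rpow_natCast, ← Real.rpow_mul hy0.le]
    norm_num
  have e4 : Real.exp (2 / 3 * y + 5) * Real.exp (y + 5) = Real.exp 10 * Real.exp (5 / 6 * y) ^ 2 := by
    rw [sq, ← Real.exp_add, ← Real.exp_add, ← Real.exp_add]
    congr 1
    ring
  rw [mul_pow, Real.sq_sqrt (by positivity), div_pow, e3]
  calc _ ≤ C1 * (5 * Real.exp (2 / 3 * y + 5)) * (4 * C2 * 2 ^ k / y * (4 * C2 * 2 ^ j / y)) *
        (4 * C2 * 2 ^ i / y * 8) :=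
        mul_le_mul (mul_le_mul (mul_le_mul_of_nonneg_left n2' hC1) h4 (bf_n2_nonneg _ _) (by positivity)) h5
          (bf_nt_nonneg _ _) (by positivity)
    _ = C1 * 5 * (8 * (4 * C2) ^ 3) / y ^ 3 * (Real.exp (2 / 3 * y + 5) * 2 ^ (i + j + k)) := by
        field_simp
        ring
    _ ≤ C1 * 5 * (8 * (4 * C2) ^ 3) / y ^ 3 * (Real.exp (2 / 3 * y + 5) * Real.exp (y + 5)) := by gcongr
    _ = _ := by
        rw [e4]
        ring

/-- There are `≤ C (log y)²` multisets `M` in the support.  For each: `i` a largest entry, `B = 2^i`,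
`S` = primes of box `i`, `α = [bx a = M.erase i]`, `y' = M.sum · log 2 + 1` (then all such `a` lie in
`SA y' B`, `SF.N_bx`), `win (ff · [bx = M]) = BF / count i M`; `II_ann` with `T₁ = 1`;
`n2 α ≤ C 2^{i₁+i₂}/y²`, `nt β ≤ C 2^i/y` (`card_primes_le`). -/
theorem narrow (A : ℝ) : ∃ C y0 : ℝ, 0 ≤ C ∧ ∀ (ℓ : ℤ) (y : ℝ), y0 ≤ y → ∀ (F : Multiset ℕ → ℂ),
    (∀ M, ‖F M‖ ≤ 8) → Nar y A F → ∀ v T : ℝ, 1 ≤ T →
    ‖win (fun n => ff ℓ n * F (bx n)) v T‖ ≤
      C * Real.log y ^ 2 * Real.exp (5 / 6 * y) / y ^ (3 / 2 : ℝ) := by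
  obtain ⟨C, hC, h⟩ := nr_one
  obtain ⟨y0, h0⟩ := eventually_atTop.1 (((Real.isLittleO_log_id_atTop.const_mul_left |A|).bound
    (show (0 : ℝ) < 1 / 24 by norm_num)).and (eventually_ge_atTop 100))
  refine ⟨(3 * |A| + 1) ^ 2 * 16 * (8 * C), y0, by positivity, fun ℓ y hy F hF hN v T hT => ?_⟩
  obtain ⟨h1, h2⟩ := h0 y hy
  have hy0 : 0 < y := by linarith
  have hL : 1 ≤ Real.log y := (Real.le_log_iff_exp_le hy0).2 (by linarith [Real.exp_one_lt_three])
  have hA : A * Real.log y ≤ |A| * Real.log y := mul_le_mul_of_nonneg_right (le_abs_self A) (by linarith)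
  rw [Real.norm_of_nonneg (by positivity), id, Real.norm_of_nonneg hy0.le] at h1
  have hX : ∀ M, F M ≠ 0 → (2 : ℝ) ^ (M.sum + 3) ≤ Real.exp (y + 5) * 2 ^ 3 := fun M hM => by
    rw [pow_add, ← Real.exp_log (show (0 : ℝ) < 2 ^ M.sum by positivity), Real.log_pow]
    exact mul_le_mul_of_nonneg_right (Real.exp_le_exp.2 (by linarith [(abs_le.1 (hN M hM).2.2).2])) (by norm_num)
  obtain ⟨𝓜, h𝓜⟩ : ∃ 𝓜, 𝓜 = ((sfb (Real.exp (y + 5) * 2 ^ 3)).image bx).filter fun M => F M ≠ 0 := ⟨_, rfl⟩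
  have hM : ∀ M ∈ 𝓜, F M ≠ 0 := fun M hM => by
    rw [h𝓜] at hM
    exact (Finset.mem_filter.1 hM).2
  have e : win (fun n => ff ℓ n * F (bx n)) v T = ∑ M ∈ 𝓜, F M *
      ∑ n ∈ (sfb (Real.exp (y + 5) * 2 ^ 3)).filter (fun n => bx n = M), ff ℓ n * (gw (T * (lg n - v)) : ℂ) := by
    rw [win, tsum_eq_sum (s := sfb (Real.exp (y + 5) * 2 ^ 3)) fun n hn => ?_, h𝓜,
      Finset.sum_filter_of_ne fun M _ h => left_ne_zero_of_mul h,
      ← Finset.sum_fiberwise_of_maps_to (g := bx) fun n hn => Finset.mem_image_of_mem _ hn]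
    · refine Finset.sum_congr rfl fun M _ => ?_
      rw [Finset.mul_sum]
      refine Finset.sum_congr rfl fun n hn => ?_
      obtain ⟨a1, a2⟩ := Finset.mem_filter.1 hn
      rw [if_neg (mem_sfb.1 a1).1.1.ne_zero, a2]
      ring
    · by_cases a1 : SF n
      · by_cases a2 : F (bx n) = 0
        · simp [a2]
        · refine absurd (mem_sfb.2 ⟨a1, a1.N_bx.2.trans ?_⟩) hn
          rw [(hN _ a2).1]
          exact hX _ a2
      · simp [ff, a1]
  have hJ : ((𝓜.biUnion Multiset.toFinset).card : ℝ) ≤ (3 * |A| + 1) * Real.log y := by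
    refine (nr_card (c := y / 3) (r := |A| * Real.log y) (by positivity) fun i hi => ?_).trans (by linarith)
    obtain ⟨M, a1, a2⟩ := Finset.mem_biUnion.1 hi
    exact ((hN M (hM M a1)).2.1 i (Multiset.mem_toFinset.1 a2)).trans hA
  have hK : ((𝓜.image Multiset.sum).card : ℝ) ≤ 16 := by
    refine (nr_card (c := y) (r := 5) (by norm_num) fun s hs => ?_).trans (by norm_num)
    obtain ⟨M, a1, rfl⟩ := Finset.mem_image.1 hs
    exact (hN M (hM M a1)).2.2
  have hc : 𝓜.card ≤ (𝓜.biUnion Multiset.toFinset).card * ((𝓜.biUnion Multiset.toFinset).card *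
      (𝓜.image Multiset.sum).card) := by
    rw [← Finset.card_product, ← Finset.card_product]
    refine (Finset.card_le_card fun M hM' => ?_).trans (Finset.card_image_le
      (f := fun x : ℕ × ℕ × ℕ => ({x.1, x.2.1, x.2.2 - x.1 - x.2.1} : Multiset ℕ)))
    obtain ⟨i, j, k, rfl⟩ := Multiset.card_eq_three.1 (hN M (hM M hM')).1
    refine Finset.mem_image.2 ⟨(i, j, i + j + k), Finset.mem_product.2 ⟨Finset.mem_biUnion.2 ⟨_, hM', by simp⟩,
      Finset.mem_product.2 ⟨Finset.mem_biUnion.2 ⟨_, hM', by simp⟩,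
        Finset.mem_image.2 ⟨_, hM', by simp [add_assoc]⟩⟩⟩, ?_⟩
    rw [show i + j + k - i - j = k by omega]
  rw [e]
  refine (norm_sum_le _ _).trans ((Finset.sum_le_card_nsmul _ _
    (8 * (C * (Real.exp (5 / 6 * y) / y ^ (3 / 2 : ℝ)))) fun M hM' => ?_).trans ?_)
  · obtain ⟨a1, a2, a3⟩ := hN M (hM M hM')
    rw [norm_mul]
    exact mul_le_mul (hF M) (h ℓ y M _ v T h2 a1 (fun i hi => (a2 i hi).trans (by linarith)) a3
      (hX M (hM M hM')) hT) (norm_nonneg _) (by norm_num)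
  · rw [nsmul_eq_mul]
    calc _ ≤ (3 * |A| + 1) * Real.log y * ((3 * |A| + 1) * Real.log y * 16) *
          (8 * (C * (Real.exp (5 / 6 * y) / y ^ (3 / 2 : ℝ)))) := by
          refine mul_le_mul_of_nonneg_right ((Nat.cast_le.2 hc).trans ?_) (by positivity)
          push_cast
          gcongr
      _ = _ := by ring

/-- the proof of `plS_step` without the tail -/
theorem plS_step_all : ∃ C : ℝ, 0 ≤ C ∧ ∀ (a : O → ℂ) (T y1 y2 W : ℝ), PolyBd a → 1 ≤ T → y1 ≤ y2 →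
    (∀ v, ‖win a v (4 * T)‖ ≤ W) → ‖plS a (2 * T) y1 y2 - plS a T y1 y2‖ ≤ C * W := by
  refine ⟨16, by norm_num, fun a T y1 y2 W hpb hT hy hW => ?_⟩
  have hT0 : 0 < T := by linarith
  have hT4 : 1 ≤ 4 * T := by linarith
  have hB : 0 < 4 * T := by linarith
  have hp := sm_sqrt_pi_pos
  obtain ⟨a1, ha1, ha1'⟩ : ∃ a1 : ℝ, 0 < a1 ∧ a1 ^ 2 = 16 / 3 * T ^ 2 :=
    ⟨Real.sqrt (16 / 3 * T ^ 2), Real.sqrt_pos.2 (by positivity), Real.sq_sqrt (by positivity)⟩
  obtain ⟨a2, ha2, ha2'⟩ : ∃ a2 : ℝ, 0 < a2 ∧ a2 ^ 2 = 16 / 15 * T ^ 2 :=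
    ⟨Real.sqrt (16 / 15 * T ^ 2), Real.sqrt_pos.2 (by positivity), Real.sq_sqrt (by positivity)⟩
  have hT1 : T ≤ a1 := (pow_le_pow_iff_left₀ hT0.le ha1.le two_ne_zero).1 (by nlinarith [sq_nonneg T])
  have hT2 : T ≤ a2 := (pow_le_pow_iff_left₀ hT0.le ha2.le two_ne_zero).1 (by nlinarith [sq_nonneg T])
  let D : ℝ → ℝ := fun v => Pl a1 y1 y2 v - Pl a2 y1 y2 v
  have hD : Continuous D := (sm_continuous_Pl _ _ _).sub (sm_continuous_Pl _ _ _)
  have hDb : ∀ v, |D v| ≤ 2 * (gw (T * (v - y1)) + gw (T * (v - y2))) := fun v => by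
    have h1 := abs_le.1 (Pl_sub_le ha1 hy v)
    have h2 := abs_le.1 (Pl_sub_le ha2 hy v)
    have h3 := sm_gw_anti hT0.le hT1 (v - y1)
    have h4 := sm_gw_anti hT0.le hT1 (v - y2)
    have h5 := sm_gw_anti hT0.le hT2 (v - y1)
    have h6 := sm_gw_anti hT0.le hT2 (v - y2)
    exact abs_le.2 ⟨by simp only [D]; linarith [h1.1, h1.2, h2.1, h2.2],
      by simp only [D]; linarith [h1.1, h1.2, h2.1, h2.2]⟩
  have hPl : ∀ u, Pl (2 * T) y1 y2 u - Pl T y1 y2 u =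
      4 * T / Real.sqrt Real.pi * ∫ v, D v * gw (4 * T * (u - v)) := fun u => by
    rw [sm_Pl_conv ha1 hB (by positivity : 0 < 2 * T) (by rw [ha1']; ring) hy,
      sm_Pl_conv ha2 hB hT0 (by rw [ha2']; ring) hy, ← mul_sub,
      ← integral_sub (sm_integrable_Pl ha1 hB hy u) (sm_integrable_Pl ha2 hB hy u)]
    simp only [D, sub_mul]
  have e : plS a (2 * T) y1 y2 - plS a T y1 y2 =
      ((4 * T / Real.sqrt Real.pi : ℝ) : ℂ) * ∫ v, (D v : ℂ) * win a v (4 * T) := by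
    refine ((sm_hasSum_plS hpb (by linarith) y1 y2).summable.hasSum.sub
      (sm_hasSum_plS hpb hT y1 y2).summable.hasSum).unique
      (((sm_hasSum_int hpb hT hT4 hD hDb).mul_left _).congr_fun fun n => ?_)
    split_ifs
    · rw [sub_self, mul_zero]
    · rw [← mul_sub, ← Complex.ofReal_sub, hPl, Complex.ofReal_mul]
      ring
  have hi := sm_integrable_gw hT0
  have hb : ‖∫ v, (D v : ℂ) * win a v (4 * T)‖ ≤ ∫ v, 2 * W * (gw (T * (y1 - v)) + gw (T * (y2 - v))) := by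
    refine norm_integral_le_of_norm_le (((hi y1).add (hi y2)).const_mul _) (Eventually.of_forall fun v => ?_)
    rw [norm_mul, Complex.norm_real, Real.norm_eq_abs]
    calc _ ≤ 2 * (gw (T * (v - y1)) + gw (T * (v - y2))) * W :=
          mul_le_mul (hDb v) (hW v) (norm_nonneg _) ((abs_nonneg _).trans (hDb v))
      _ = _ := by
          rw [sm_gw_comm T v y1, sm_gw_comm T v y2]
          ring
  rw [integral_const_mul, integral_add (hi y1) (hi y2), integral_gw hT0, integral_gw hT0] at hb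
  rw [e, norm_mul, Complex.norm_real, Real.norm_of_nonneg (by positivity)]
  refine (mul_le_mul_of_nonneg_left hb (by positivity)).trans (le_of_eq ?_)
  field_simp
  ring

/-- `S = 2^i T₀`, `1 ≤ T₀ < 2`; `norm_plS_le`, `plS_step_all` -/
theorem plS_le_all : ∃ C : ℝ, 0 ≤ C ∧ ∀ (a : O → ℂ) (S y W : ℝ), PolyBd a → 1 ≤ S →
    (∀ v T, 1 ≤ T → ‖win a v T‖ ≤ W) → ‖plS a S (y - 1) y‖ ≤ C * (1 + Real.log S) * W := by
  obtain ⟨C, hC, h⟩ := plS_step_all
  refine ⟨2 + 2 * C, by positivity, fun a S y W ha hS hW => ?_⟩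
  have hW0 : 0 ≤ W := (norm_nonneg _).trans (hW 0 1 le_rfl)
  have base : ∀ S : ℝ, 1 ≤ S → S < 2 → ‖plS a S (y - 1) y‖ ≤ 2 * W := fun S h1 h2 =>
    (norm_plS_le ha h1 (by linarith) fun v _ _ => hW v S h1).trans
      (mul_le_mul_of_nonneg_right (by linarith) hW0)
  have key : ∀ (i : ℕ) (S : ℝ), 1 ≤ S → S < 2 ^ (i + 1) → ‖plS a S (y - 1) y‖ ≤ (2 + C * i) * W := by
    intro i
    induction i with
    | zero => exact fun S h1 h2 => by simpa using base S h1 (by simpa using h2)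
    | succ i ih =>
      intro S h1 h2
      rcases lt_or_ge S 2 with h3 | h3
      · exact (base S h1 h3).trans (mul_le_mul_of_nonneg_right (le_add_of_nonneg_right (by positivity)) hW0)
      · have h4 := h a (S / 2) (y - 1) y W ha (by linarith) (by linarith) fun v => hW v _ (by linarith)
        rw [mul_div_cancel₀ _ two_ne_zero] at h4
        refine (norm_le_norm_sub_add _ _).trans ((add_le_add h4 (ih _ (by linarith)
          (by rw [pow_succ] at h2; linarith))).trans (le_of_eq ?_))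
        push_cast
        ring
  obtain ⟨i, h1, h2⟩ := exists_nat_pow_near hS one_lt_two
  have h3 := Real.log_le_log (by positivity) h1
  rw [Real.log_pow] at h3
  have h4 : (i : ℝ) ≤ 2 * Real.log S := by nlinarith [Real.log_two_gt_d9, Nat.cast_nonneg (α := ℝ) i]
  refine (key i S hS h2).trans (mul_le_mul_of_nonneg_right ?_ hW0)
  nlinarith [Real.log_nonneg hS, mul_le_mul_of_nonneg_left h4 hC]

end Crest.Agent.R12
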