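import Crest.Agent.R12.Defs
import Crest.Agent.R20.PNT

/-!
# R12 / PNT3 : prime number theorem for primes `≡ 1 mod 3`, weighted by `p^{-1/6}`

Copy the proof of `R20.psi_tendsto` (`R20/PNT.lean`, uses `R20.tauber`) with `vonMangoldt` replaced by
`ArithmeticFunction.vonMangoldt.residueClass (1 : ZMod 3)` (`continuousOn_LFunctionResidueClassAux`,
`eqOn_LFunctionResidueClassAux`: pole `1/φ(3) = 1/2`).  Prime powers are `O(√x log x)`
(`Chebyshev.isBigO_psi_sub_theta_sqrt` or directly).  Then partial summation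
(`sum_mul_eq_sub_integral_mul`) or a dyadic/`(1+δ)`-adic argument.
-/

set_option autoImplicit false

noncomputable section

open scoped Classical ComplexConjugate Topology
open MeasureTheory Filter

namespace Crest.Agent.R12

open Crest.Agent.R17

open ArithmeticFunction ArithmeticFunction.vonMangoldt

/-- `ψ(x; 3, 1)` -/
def p3_psi (x : ℝ) : ℝ := ∑ k ∈ Finset.Icc 1 ⌊x⌋₊, residueClass (q := 3) 1 k

theorem p3_psi_nonneg (x : ℝ) : 0 ≤ p3_psi x := Finset.sum_nonneg fun k _ => residueClass_nonneg _ k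

theorem p3_psi_le (x : ℝ) : p3_psi x ≤ Chebyshev.psi x :=
  Finset.sum_le_sum fun k _ => residueClass_le _ k

theorem p3_psi_mono : Monotone p3_psi := fun _ _ h =>
  Finset.sum_le_sum_of_subset_of_nonneg (Finset.Icc_subset_Icc_right (Nat.floor_mono h))
    fun k _ _ => residueClass_nonneg _ k

theorem p3_lseries {z : ℂ} (hz : 0 < z.re) :
    LSeries (fun n => ((residueClass (q := 3) 1 n : ℝ) : ℂ)) (1 + z) =
      (1 + z) * ∫ t in Set.Ioi (0 : ℝ),
        ((p3_psi (Real.exp t) * Real.exp (-t) : ℝ) : ℂ) * Complex.exp (-(z * t)) := by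
  have hs : (1 : ℝ) < (1 + z).re := by simpa using hz
  have hO : (fun n : ℕ => ∑ k ∈ Finset.Icc 1 n, residueClass (q := 3) 1 k) =O[atTop]
      fun n : ℕ => (n : ℝ) ^ (1 : ℝ) := by
    refine Asymptotics.IsBigO.of_bound (Real.log 4 + 4) (Eventually.of_forall fun n => ?_)
    have h1 := (p3_psi_le n).trans (Chebyshev.psi_le_const_mul_self (x := (n : ℝ)) (Nat.cast_nonneg n))
    have h2 := p3_psi_nonneg (n : ℝ)
    rw [p3_psi, Nat.floor_natCast] at h1 h2
    rw [Real.rpow_one, Real.norm_of_nonneg h2, Real.norm_of_nonneg (Nat.cast_nonneg n)]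
    exact h1
  rw [LSeries_eq_mul_integral_of_nonneg (fun n => residueClass (q := 3) 1 n) zero_le_one hs hO
    (fun n => residueClass_nonneg _ n)]
  congr 1
  have h := integral_comp_exp_Ioi (fun t : ℝ =>
    (∑ k ∈ Finset.Icc 1 ⌊t⌋₊, ((residueClass (q := 3) 1 k : ℝ) : ℂ)) * (t : ℂ) ^ (-(1 + z + 1))) 0
  rw [Real.exp_zero] at h
  rw [← h]
  refine setIntegral_congr_fun measurableSet_Ioi fun t _ => ?_
  rw [p3_psi, Complex.real_smul]
  have e1 : ((Real.exp t : ℝ) : ℂ) ^ (-(1 + z + 1)) = Complex.exp (t * (-(1 + z + 1))) := by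
    rw [Complex.cpow_def_of_ne_zero (by simp), ← Complex.ofReal_log (Real.exp_pos t).le,
      Real.log_exp]
  rw [e1]
  push_cast
  have e2 : Complex.exp (t : ℂ) * Complex.exp (t * (-(1 + z + 1))) =
      Complex.exp (-t) * Complex.exp (-(z * t)) := by
    rw [← Complex.exp_add, ← Complex.exp_add]
    congr 1
    ring
  linear_combination (∑ k ∈ Finset.Icc 1 ⌊Real.exp t⌋₊, ((residueClass (q := 3) 1 k : ℝ) : ℂ)) * e2

theorem p3_bd (t : ℝ) : 0 ≤ p3_psi (Real.exp t) * Real.exp (-t) ∧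
    p3_psi (Real.exp t) * Real.exp (-t) ≤ Real.log 4 + 4 := by
  refine ⟨mul_nonneg (p3_psi_nonneg _) (Real.exp_pos _).le, ?_⟩
  have h1 := (p3_psi_le _).trans (Chebyshev.psi_le_const_mul_self (x := Real.exp t) (Real.exp_pos t).le)
  have h2 : Real.exp t * Real.exp (-t) = 1 := by rw [← Real.exp_add]; simp
  calc _ ≤ (Real.log 4 + 4) * Real.exp t * Real.exp (-t) :=
        mul_le_mul_of_nonneg_right h1 (Real.exp_pos _).le
    _ = _ := by rw [mul_assoc, h2, mul_one]

theorem p3_meas : Measurable (fun t : ℝ => p3_psi (Real.exp t) * Real.exp (-t)) :=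
  (p3_psi_mono.measurable.comp Real.measurable_exp).mul (Real.measurable_exp.comp measurable_neg)

theorem p3_exp :
    Tendsto (fun t : ℝ => p3_psi (Real.exp t) * Real.exp (-t) - 1 / 2) atTop (𝓝 0) := by
  have hC : (0 : ℝ) < Real.log 4 + 4 := by
    have := Real.log_nonneg (show (1 : ℝ) ≤ 4 by norm_num)
    linarith
  refine R20.tauber _ (Real.log 4 + 4 + 1) (p3_meas.sub measurable_const) (fun t _ => ?_)
    (fun z => (LFunctionResidueClassAux (q := 3) 1 (1 + z) - 1 / 2) / (1 + z)) ?_ (fun z hz => ?_)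
    (fun ε hε => ?_)
  · obtain ⟨h1, h2⟩ := p3_bd t
    rw [abs_le]
    constructor <;> linarith
  · refine ContinuousOn.div (ContinuousOn.sub ?_ continuousOn_const) (by fun_prop) ?_
    · refine (continuousOn_LFunctionResidueClassAux (q := 3) 1).comp (by fun_prop) ?_
      intro z hz
      simpa using hz
    · intro z hz h
      have h1 : (1 + z).re = 0 := by rw [h]; simp
      have h2 : 0 ≤ z.re := hz
      simp at h1
      linarith
  · have hs : (1 : ℝ) < (1 + z).re := by simpa using hz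
    have hz0 : z ≠ 0 := by
      rintro rfl
      simp at hz
    have hz1 : 1 + z ≠ 0 := by
      intro h
      rw [h] at hs
      norm_num at hs
    have h1 := eqOn_LFunctionResidueClassAux (q := 3) (a := 1) isUnit_one hs
    have ht : Nat.totient 3 = 2 := by decide
    simp only [ht, add_sub_cancel_left] at h1
    have hint : IntegrableOn (fun t : ℝ => Complex.exp (-(z * t))) (Set.Ioi 0) := by
      have := integrableOn_exp_mul_complex_Ioi (a := -z) (by simpa using hz) 0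
      simpa using this
    have hval : ∫ t in Set.Ioi (0 : ℝ), Complex.exp (-(z * t)) = 1 / z := by
      have := integral_exp_mul_complex_Ioi (a := -z) (by simpa using hz) 0
      simpa using this
    have hint2 : IntegrableOn (fun t : ℝ =>
        ((p3_psi (Real.exp t) * Real.exp (-t) : ℝ) : ℂ) * Complex.exp (-(z * t))) (Set.Ioi 0) := by
      refine Integrable.bdd_mul (c := Real.log 4 + 4) hint ?_ (Eventually.of_forall fun t => ?_)
      · exact (Complex.measurable_ofReal.comp p3_meas).aestronglyMeasurable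
      · obtain ⟨h1, h2⟩ := p3_bd t
        rw [Complex.norm_real, Real.norm_of_nonneg h1]
        exact h2
    have h3 : ∫ t in Set.Ioi (0 : ℝ),
        ((p3_psi (Real.exp t) * Real.exp (-t) - 1 / 2 : ℝ) : ℂ) * Complex.exp (-(z * t)) =
        (∫ t in Set.Ioi (0 : ℝ),
          ((p3_psi (Real.exp t) * Real.exp (-t) : ℝ) : ℂ) * Complex.exp (-(z * t))) -
        1 / 2 * ∫ t in Set.Ioi (0 : ℝ), Complex.exp (-(z * t)) := by
      rw [← integral_const_mul, ← integral_sub hint2 (hint.const_mul _)]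
      refine setIntegral_congr_fun measurableSet_Ioi fun t _ => ?_
      push_cast
      ring
    rw [h3, hval, h1, p3_lseries hz]
    push_cast
    field_simp
    ring
  · refine ⟨ε / (Real.log 4 + 4), div_pos hε hC, fun t s _ hts hs => ?_⟩
    obtain ⟨h1, h2⟩ := p3_bd t
    have h3 : p3_psi (Real.exp t) ≤ p3_psi (Real.exp s) := p3_psi_mono (Real.exp_le_exp.2 hts)
    have h4 : Real.exp (-s) = Real.exp (-t) * Real.exp (t - s) := by
      rw [← Real.exp_add]; congr 1; ring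
    have h5 : 1 - ε / (Real.log 4 + 4) ≤ Real.exp (t - s) := by
      have := Real.add_one_le_exp (t - s)
      linarith
    have h6 : p3_psi (Real.exp t) * Real.exp (-t) * Real.exp (t - s) ≤
        p3_psi (Real.exp s) * Real.exp (-s) := by
      rw [h4, mul_assoc]
      exact mul_le_mul_of_nonneg_right h3 (by positivity)
    have h7 : p3_psi (Real.exp t) * Real.exp (-t) * (ε / (Real.log 4 + 4)) ≤ ε := by
      calc _ ≤ (Real.log 4 + 4) * (ε / (Real.log 4 + 4)) :=
            mul_le_mul_of_nonneg_right h2 (div_pos hε hC).le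
        _ = ε := by field_simp
    have h8 := mul_le_mul_of_nonneg_left h5 h1
    nlinarith

theorem p3_psi_tendsto : Tendsto (fun x : ℝ => p3_psi x / x) atTop (𝓝 (1 / 2)) := by
  have h := (p3_exp.comp Real.tendsto_log_atTop).add_const (1 / 2)
  rw [zero_add] at h
  refine h.congr' ?_
  filter_upwards [eventually_gt_atTop 0] with x hx
  simp only [Function.comp, Real.exp_neg, Real.exp_log hx]
  ring

theorem p3_diff (x : ℝ) :
    0 ≤ p3_psi x - ∑ p ∈ (Finset.Icc 1 ⌊x⌋₊).filter (fun p => p.Prime ∧ p % 3 = 1), Real.log p ∧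
    p3_psi x - ∑ p ∈ (Finset.Icc 1 ⌊x⌋₊).filter (fun p => p.Prime ∧ p % 3 = 1), Real.log p ≤
      Chebyshev.psi x - Chebyshev.theta x := by
  have hψ : Chebyshev.psi x = ∑ k ∈ Finset.Icc 1 ⌊x⌋₊, vonMangoldt k := rfl
  have hθ : Chebyshev.theta x = ∑ p ∈ (Finset.Icc 1 ⌊x⌋₊).filter Nat.Prime, Real.log p := rfl
  have key : ∀ k : ℕ, 0 ≤ residueClass (q := 3) 1 k - (if k.Prime ∧ k % 3 = 1 then Real.log k else 0) ∧
      residueClass (q := 3) 1 k - (if k.Prime ∧ k % 3 = 1 then Real.log k else 0) ≤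
        vonMangoldt k - (if k.Prime then Real.log k else 0) := by
    intro k
    have h1 : ((k : ZMod 3) = 1) ↔ k % 3 = 1 := by
      rw [show (1 : ZMod 3) = ((1 : ℕ) : ZMod 3) by simp, ZMod.natCast_eq_natCast_iff']
    by_cases hp : k.Prime
    · by_cases h3 : k % 3 = 1
      · rw [residueClass, Set.indicator_of_mem (by exact h1.2 h3), vonMangoldt_apply_prime hp]
        simp [hp, h3]
      · rw [residueClass, Set.indicator_of_notMem (by exact fun h => h3 (h1.1 h)),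
          vonMangoldt_apply_prime hp]
        simp [hp, h3]
    · simp only [hp, false_and, if_false, sub_zero]
      exact ⟨residueClass_nonneg _ k, residueClass_le _ k⟩
  rw [hψ, hθ, p3_psi, Finset.sum_filter, Finset.sum_filter, ← Finset.sum_sub_distrib,
    ← Finset.sum_sub_distrib]
  exact ⟨Finset.sum_nonneg fun k _ => (key k).1, Finset.sum_le_sum fun k _ => (key k).2⟩

theorem theta3 : Tendsto (fun x : ℝ =>
    (∑ p ∈ (Finset.Icc 1 ⌊x⌋₊).filter (fun p => p.Prime ∧ p % 3 = 1), Real.log p) / x)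
    atTop (𝓝 (1 / 2)) := by
  have h1 : Tendsto (fun x : ℝ => (Chebyshev.psi x - Chebyshev.theta x) / x) atTop (𝓝 0) := by
    have h := R20.psi_tendsto.sub R20.theta_tendsto
    rw [sub_self] at h
    exact h.congr fun x => by ring
  have h2 : Tendsto (fun x : ℝ => (p3_psi x -
      ∑ p ∈ (Finset.Icc 1 ⌊x⌋₊).filter (fun p => p.Prime ∧ p % 3 = 1), Real.log p) / x) atTop (𝓝 0) := by
    refine tendsto_of_tendsto_of_tendsto_of_le_of_le' tendsto_const_nhds h1 ?_ ?_
    · filter_upwards [eventually_gt_atTop 0] with x hx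
      exact div_nonneg (p3_diff x).1 hx.le
    · filter_upwards [eventually_gt_atTop 0] with x hx
      exact div_le_div_of_nonneg_right (p3_diff x).2 hx.le
  have h3 := p3_psi_tendsto.sub h2
  rw [sub_zero] at h3
  exact h3.congr fun x => by ring

theorem p3_Icc (f : ℕ → ℝ) (X : ℕ) : ∑ k ∈ Finset.Icc 1 X, f k = ∑ k ∈ Finset.range X, f (k + 1) := by
  induction X with
  | zero => simp
  | succ X ih => rw [Finset.sum_Icc_succ_top (by omega), ih, Finset.sum_range_succ]

theorem p3_abel (b w : ℕ → ℝ) (X : ℕ) : ∑ k ∈ Finset.range X, b k * w k =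
    (∑ k ∈ Finset.range X, b k) * w X +
      ∑ k ∈ Finset.range X, (∑ j ∈ Finset.range (k + 1), b j) * (w k - w (k + 1)) := by
  induction X with
  | zero => simp
  | succ X ih =>
    rw [Finset.sum_range_succ, ih, Finset.sum_range_succ (fun k => (∑ j ∈ Finset.range (k + 1), b j) * _),
      Finset.sum_range_succ b X]
    ring

/-- the weight -/
def p3_w (k : ℕ) : ℝ := ((k : ℝ) + 1) ^ (-(1 / 6 : ℝ))

theorem p3_w_pos (k : ℕ) : 0 < p3_w k := by
  unfold p3_w
  positivity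

theorem p3_bern {y s : ℝ} (hy : 0 < y) (hs : 0 ≤ y + s) :
    (y + s) ^ (5 / 6 : ℝ) ≤ y ^ (5 / 6 : ℝ) + 5 / 6 * s * y ^ (-(1 / 6 : ℝ)) := by
  have h1 : -1 ≤ s / y := by
    rw [le_div_iff₀ hy]
    linarith
  have h2 := rpow_one_add_le_one_add_mul_self h1 (p := 5 / 6) (by norm_num) (by norm_num)
  have h3 : y + s = y * (1 + s / y) := by field_simp
  have h4 : y ^ (-(1 / 6 : ℝ)) = y ^ (5 / 6 : ℝ) / y := by
    rw [← Real.rpow_sub_one hy.ne']
    norm_num
  rw [h3, Real.mul_rpow hy.le (by linarith), h4]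
  have h5 : 0 < y ^ (5 / 6 : ℝ) := by positivity
  calc _ ≤ y ^ (5 / 6 : ℝ) * (1 + 5 / 6 * (s / y)) := mul_le_mul_of_nonneg_left h2 h5.le
    _ = _ := by ring

theorem p3_V_bd (X : ℕ) : 6 / 5 * (X : ℝ) ^ (5 / 6 : ℝ) - 6 / 5 ≤ ∑ k ∈ Finset.range X, p3_w k ∧
    ∑ k ∈ Finset.range X, p3_w k ≤ 6 / 5 * (X : ℝ) ^ (5 / 6 : ℝ) := by
  have h : 6 / 5 * ((X : ℝ) + 1) ^ (5 / 6 : ℝ) - 6 / 5 ≤ ∑ k ∈ Finset.range X, p3_w k ∧
      ∑ k ∈ Finset.range X, p3_w k ≤ 6 / 5 * (X : ℝ) ^ (5 / 6 : ℝ) := by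
    induction X with
    | zero => simp
    | succ X ih =>
      have h0 : (0 : ℝ) ≤ X := Nat.cast_nonneg X
      have h1 := p3_bern (y := (X : ℝ) + 1) (s := 1) (by positivity) (by positivity)
      have h2 := p3_bern (y := (X : ℝ) + 1) (s := -1) (by positivity) (by linarith)
      rw [add_neg_cancel_right] at h2
      rw [Finset.sum_range_succ, p3_w]
      push_cast
      constructor <;> linarith [ih.1, ih.2]
  have h1 : (X : ℝ) ^ (5 / 6 : ℝ) ≤ ((X : ℝ) + 1) ^ (5 / 6 : ℝ) :=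
    Real.rpow_le_rpow (Nat.cast_nonneg X) (by linarith) (by norm_num)
  exact ⟨by linarith [h.1], h.2⟩

theorem p3_pow_top : Tendsto (fun X : ℕ => (X : ℝ) ^ (5 / 6 : ℝ)) atTop atTop :=
  (tendsto_rpow_atTop (by norm_num)).comp tendsto_natCast_atTop_atTop

theorem p3_V : Tendsto (fun X : ℕ => (∑ k ∈ Finset.range X, p3_w k) / (X : ℝ) ^ (5 / 6 : ℝ)) atTop
    (𝓝 (6 / 5)) := by
  have h1 : Tendsto (fun X : ℕ => 6 / 5 - 6 / 5 * ((X : ℝ) ^ (5 / 6 : ℝ))⁻¹) atTop (𝓝 (6 / 5 - 6 / 5 * 0)) :=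
    (p3_pow_top.inv_tendsto_atTop.const_mul _).const_sub _
  rw [mul_zero, sub_zero] at h1
  refine tendsto_of_tendsto_of_tendsto_of_le_of_le' h1 tendsto_const_nhds ?_ ?_
  · filter_upwards [eventually_gt_atTop 0] with X hX
    have h0 : (0 : ℝ) < (X : ℝ) ^ (5 / 6 : ℝ) := by positivity
    rw [le_div_iff₀ h0, sub_mul, mul_assoc, inv_mul_cancel₀ h0.ne', mul_one]
    exact (p3_V_bd X).1
  · filter_upwards [eventually_gt_atTop 0] with X hX
    have h0 : (0 : ℝ) < (X : ℝ) ^ (5 / 6 : ℝ) := by positivity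
    rw [div_le_iff₀ h0]
    exact (p3_V_bd X).2

theorem p3_w_diff (k : ℕ) : |((k + 1 : ℕ) : ℝ) * (p3_w k - p3_w (k + 1))| ≤ p3_w k := by
  have h0 : (0 : ℝ) < (k : ℝ) + 1 := by positivity
  have h1 : p3_w (k + 1) = p3_w k * (((k : ℝ) + 1) / ((k : ℝ) + 1 + 1)) ^ (1 / 6 : ℝ) := by
    unfold p3_w
    push_cast
    rw [Real.div_rpow h0.le (by positivity), Real.rpow_neg h0.le, Real.rpow_neg (by positivity)]
    field_simp
  have h2 : ((k : ℝ) + 1) / ((k : ℝ) + 1 + 1) ≤ 1 := by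
    rw [div_le_one (by positivity)]
    linarith
  have h3 : (((k : ℝ) + 1) / ((k : ℝ) + 1 + 1)) ^ (1 / 6 : ℝ) ≤ 1 :=
    Real.rpow_le_one (by positivity) h2 (by norm_num)
  have h4 : ((k : ℝ) + 1) / ((k : ℝ) + 1 + 1) ≤ (((k : ℝ) + 1) / ((k : ℝ) + 1 + 1)) ^ (1 / 6 : ℝ) :=
    Real.self_le_rpow_of_le_one (by positivity) h2 (by norm_num)
  have h5 : ((k : ℝ) + 1) * (1 - ((k : ℝ) + 1) / ((k : ℝ) + 1 + 1)) ≤ 1 := by
    have : ((k : ℝ) + 1) * (1 - ((k : ℝ) + 1) / ((k : ℝ) + 1 + 1)) = ((k : ℝ) + 1) / ((k : ℝ) + 1 + 1) := by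
      field_simp
      ring
    rwa [this]
  have hw := p3_w_pos k
  rw [h1]
  push_cast
  generalize (((k : ℝ) + 1) / ((k : ℝ) + 1 + 1)) ^ (1 / 6 : ℝ) = r at *
  have e : ((k : ℝ) + 1) * (p3_w k - p3_w k * r) = p3_w k * (((k : ℝ) + 1) * (1 - r)) := by ring
  rw [e, abs_of_nonneg (mul_nonneg hw.le (mul_nonneg h0.le (by linarith)))]
  refine mul_le_of_le_one_right hw.le (le_trans ?_ h5)
  exact mul_le_mul_of_nonneg_left (by linarith) h0.le

open Asymptotics in
/-- partial summation -/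
theorem p3_small {b : ℕ → ℝ} (hb : (fun X : ℕ => ∑ k ∈ Finset.range X, b k) =o[atTop] fun X : ℕ => (X : ℝ)) :
    Tendsto (fun X : ℕ => (∑ k ∈ Finset.range X, b k * p3_w k) / (X : ℝ) ^ (5 / 6 : ℝ)) atTop (𝓝 0) := by
  refine IsLittleO.tendsto_div_nhds_zero ?_
  rw [funext (p3_abel b p3_w)]
  refine IsLittleO.add ?_ ?_
  · refine (hb.mul_isBigO (isBigO_refl p3_w atTop)).trans_isBigO (IsBigO.of_bound 1 ?_)
    filter_upwards [eventually_gt_atTop 0] with X hX
    have h0 : (0 : ℝ) < X := by exact_mod_cast hX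
    have h1 : p3_w X ≤ (X : ℝ) ^ (-(1 / 6 : ℝ)) :=
      Real.rpow_le_rpow_of_nonpos h0 (by linarith) (by norm_num)
    have h2 : (X : ℝ) ^ (5 / 6 : ℝ) = X * (X : ℝ) ^ (-(1 / 6 : ℝ)) := by
      rw [mul_comm, ← Real.rpow_add_one h0.ne']
      norm_num
    rw [one_mul, Real.norm_of_nonneg (mul_nonneg h0.le (p3_w_pos X).le), Real.norm_of_nonneg (by positivity), h2]
    exact mul_le_mul_of_nonneg_left h1 h0.le
  · have h1 : (fun k : ℕ => (∑ j ∈ Finset.range (k + 1), b j) * (p3_w k - p3_w (k + 1))) =o[atTop] p3_w := by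
      refine ((hb.comp_tendsto (tendsto_add_atTop_nat 1)).mul_isBigO
        (isBigO_refl (fun k => p3_w k - p3_w (k + 1)) atTop)).trans_isBigO
        (IsBigO.of_bound 1 (Eventually.of_forall fun k => ?_))
      rw [one_mul, Real.norm_of_nonneg (p3_w_pos k).le]
      exact p3_w_diff k
    have h2 : Tendsto (fun X : ℕ => ∑ k ∈ Finset.range X, p3_w k) atTop atTop :=
      tendsto_atTop_mono (fun X => (p3_V_bd X).1)
        (tendsto_atTop_add_const_right _ _ (p3_pow_top.const_mul_atTop (by norm_num)))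
    refine (h1.sum_range (fun k => (p3_w_pos k).le) h2).trans_isBigO
      (IsBigO.of_bound (6 / 5) (Eventually.of_forall fun X => ?_))
    rw [Real.norm_of_nonneg (Finset.sum_nonneg fun k _ => (p3_w_pos k).le), Real.norm_of_nonneg (by positivity)]
    exact (p3_V_bd X).2

theorem p3_W : Tendsto (fun X : ℕ =>
    (∑ p ∈ (Finset.Icc 1 X).filter (fun p => p.Prime ∧ p % 3 = 1), Real.log p * (p : ℝ) ^ (-(1 / 6 : ℝ))) /
      (X : ℝ) ^ (5 / 6 : ℝ)) atTop (𝓝 (3 / 5)) := by
  set a : ℕ → ℝ := fun k => if k.Prime ∧ k % 3 = 1 then Real.log k else 0 with ha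
  have h1 : (fun X : ℕ => ∑ k ∈ Finset.range X, (a (k + 1) - 1 / 2)) =o[atTop] fun X : ℕ => (X : ℝ) := by
    refine Asymptotics.isLittleO_of_tendsto' ?_ ?_
    · filter_upwards [eventually_gt_atTop 0] with X hX h
      exact absurd h (by exact_mod_cast hX.ne')
    · have h := (theta3.comp tendsto_natCast_atTop_atTop).sub_const (1 / 2)
      rw [sub_self] at h
      refine h.congr' ?_
      filter_upwards [eventually_gt_atTop 0] with X hX
      have h0 : (X : ℝ) ≠ 0 := by exact_mod_cast hX.ne'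
      simp only [Function.comp, Nat.floor_natCast]
      rw [Finset.sum_filter, p3_Icc, Finset.sum_sub_distrib, Finset.sum_const, Finset.card_range,
        nsmul_eq_mul]
      simp only [ha]
      field_simp
  have h2 := (p3_small h1).add (p3_V.const_mul (1 / 2))
  rw [show (0 : ℝ) + 1 / 2 * (6 / 5) = 3 / 5 by norm_num] at h2
  refine h2.congr fun X => ?_
  rw [Finset.sum_filter, p3_Icc, ← mul_div_assoc, ← add_div, Finset.mul_sum, ← Finset.sum_add_distrib]
  congr 1
  refine Finset.sum_congr rfl fun k _ => ?_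
  simp only [ha, p3_w]
  push_cast
  split_ifs <;> ring

theorem p3_sqrt (X : ℕ) : ∑ k ∈ Finset.Icc 1 X, (k : ℝ) ^ (-(1 / 2 : ℝ)) ≤ 2 * (X : ℝ) ^ (1 / 2 : ℝ) := by
  induction X with
  | zero => simp
  | succ X ih =>
    rw [Finset.sum_Icc_succ_top (by omega)]
    push_cast
    have h0 : (0 : ℝ) ≤ X := Nat.cast_nonneg X
    rw [Real.rpow_neg (by positivity), ← Real.sqrt_eq_rpow]
    rw [← Real.sqrt_eq_rpow] at ih
    have h1 : 0 < √((X : ℝ) + 1) := Real.sqrt_pos.2 (by positivity)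
    have h2 := Real.sq_sqrt h0
    have h3 := Real.sq_sqrt (show (0 : ℝ) ≤ X + 1 by positivity)
    have h4 : (√((X : ℝ) + 1))⁻¹ ≤ 2 * √((X : ℝ) + 1) - 2 * √(X : ℝ) := by
      rw [inv_le_iff_one_le_mul₀ h1]
      nlinarith [sq_nonneg (√((X : ℝ) + 1) - √(X : ℝ))]
    linarith

theorem p3_D_le {X : ℕ} (hX : 0 < X) :
    ((∑ p ∈ (Finset.Icc 1 X).filter (fun p => p.Prime ∧ p % 3 = 1),
      (Real.log X - Real.log p) * (p : ℝ) ^ (-(1 / 6 : ℝ))) / (X : ℝ) ^ (5 / 6 : ℝ)) ^ 2 ≤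
      288 * ((Nat.primeCounting X : ℝ) / X) := by
  have h0 : (0 : ℝ) < X := by exact_mod_cast hX
  have h1 := sq_sum_le_card_mul_sum_sq (s := (Finset.Icc 1 X).filter (fun p => p.Prime ∧ p % 3 = 1))
    (f := fun p => (Real.log X - Real.log p) * (p : ℝ) ^ (-(1 / 6 : ℝ)))
  have h2 : (((Finset.Icc 1 X).filter (fun p => p.Prime ∧ p % 3 = 1)).card : ℝ) ≤ Nat.primeCounting X := by
    have : Nat.primeCounting X = (Nat.primesBelow (X + 1)).card :=
      (Nat.primesBelow_card_eq_primeCounting' _).symm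
    rw [this]
    refine Nat.cast_le.2 (Finset.card_le_card fun p hp => ?_)
    obtain ⟨a, b, -⟩ := Finset.mem_filter.1 hp
    exact Nat.mem_primesBelow.2 ⟨Nat.lt_succ_of_le (Finset.mem_Icc.1 a).2, b⟩
  have h3 : ∑ p ∈ (Finset.Icc 1 X).filter (fun p => p.Prime ∧ p % 3 = 1),
      ((Real.log X - Real.log p) * (p : ℝ) ^ (-(1 / 6 : ℝ))) ^ 2 ≤ 288 * (X : ℝ) ^ (2 / 3 : ℝ) := by
    calc _ ≤ ∑ p ∈ Finset.Icc 1 X, ((Real.log X - Real.log p) * (p : ℝ) ^ (-(1 / 6 : ℝ))) ^ 2 :=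
          Finset.sum_le_sum_of_subset_of_nonneg (Finset.filter_subset _ _) fun _ _ _ => sq_nonneg _
      _ ≤ ∑ p ∈ Finset.Icc 1 X, 144 * (X : ℝ) ^ (1 / 6 : ℝ) * (p : ℝ) ^ (-(1 / 2 : ℝ)) := by
          refine Finset.sum_le_sum fun p hp => ?_
          obtain ⟨a, b⟩ := Finset.mem_Icc.1 hp
          have hp0 : (0 : ℝ) < p := by exact_mod_cast a
          have hpX : (p : ℝ) ≤ X := by exact_mod_cast b
          have c1 : Real.log X - Real.log p ≤ ((X : ℝ) / p) ^ (1 / 12 : ℝ) / (1 / 12) := by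
            rw [← Real.log_div h0.ne' hp0.ne']
            exact Real.log_le_rpow_div (by positivity) (by norm_num)
          have c2 : 0 ≤ Real.log X - Real.log p := sub_nonneg.2 (Real.log_le_log hp0 hpX)
          calc _ ≤ (((X : ℝ) / p) ^ (1 / 12 : ℝ) / (1 / 12) * (p : ℝ) ^ (-(1 / 6 : ℝ))) ^ 2 := by gcongr
            _ = _ := by
              have d1 : (((X : ℝ) / p) ^ (1 / 12 : ℝ)) ^ 2 = (X : ℝ) ^ (1 / 6 : ℝ) * (p : ℝ) ^ (-(1 / 6 : ℝ)) := by
                rw [← Real.rpow_natCast, ← Real.rpow_mul (by positivity), Real.div_rpow h0.le hp0.le,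
                  Real.rpow_neg hp0.le, div_eq_mul_inv]
                norm_num
              have d2 : (p : ℝ) ^ (-(1 / 2 : ℝ)) = ((p : ℝ) ^ (-(1 / 6 : ℝ))) ^ 3 := by
                rw [← Real.rpow_natCast, ← Real.rpow_mul hp0.le]
                norm_num
              rw [mul_pow, div_pow, d1, d2]
              ring
      _ ≤ 144 * (X : ℝ) ^ (1 / 6 : ℝ) * (2 * (X : ℝ) ^ (1 / 2 : ℝ)) := by
          rw [← Finset.mul_sum]
          exact mul_le_mul_of_nonneg_left (p3_sqrt X) (by positivity)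
      _ = _ := by
          rw [show (2 / 3 : ℝ) = 1 / 6 + 1 / 2 by norm_num, Real.rpow_add h0]
          ring
  have h4 : ((X : ℝ) ^ (5 / 6 : ℝ)) ^ 2 = (X : ℝ) ^ (2 / 3 : ℝ) * X := by
    rw [← Real.rpow_natCast, ← Real.rpow_mul h0.le, ← Real.rpow_add_one h0.ne']
    norm_num
  rw [div_pow, h4, div_le_iff₀ (by positivity)]
  calc _ ≤ _ := h1
    _ ≤ (Nat.primeCounting X : ℝ) * (288 * (X : ℝ) ^ (2 / 3 : ℝ)) :=
        mul_le_mul h2 h3 (Finset.sum_nonneg fun _ _ => sq_nonneg _) (Nat.cast_nonneg _)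
    _ = _ := by field_simp

theorem p3_D : Tendsto (fun X : ℕ => (∑ p ∈ (Finset.Icc 1 X).filter (fun p => p.Prime ∧ p % 3 = 1),
      (Real.log X - Real.log p) * (p : ℝ) ^ (-(1 / 6 : ℝ))) / (X : ℝ) ^ (5 / 6 : ℝ)) atTop (𝓝 0) := by
  have h1 : Tendsto (fun X : ℕ => 288 * ((Nat.primeCounting X : ℝ) / X)) atTop (𝓝 0) := by
    have h := (((R20.pnt.mul Real.tendsto_log_atTop.inv_tendsto_atTop).comp
      tendsto_natCast_atTop_atTop).const_mul 288)
    rw [mul_zero, mul_zero] at h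
    refine h.congr' ?_
    filter_upwards [eventually_gt_atTop 1] with X hX
    have h0 : (1 : ℝ) < X := by exact_mod_cast hX
    have h2 := Real.log_pos h0
    simp only [Function.comp, Nat.floor_natCast, Pi.inv_apply]
    field_simp
  have h2 := tendsto_of_tendsto_of_tendsto_of_le_of_le' tendsto_const_nhds h1
    (Eventually.of_forall fun X => sq_nonneg _)
    (eventually_of_mem (eventually_gt_atTop 0) fun X hX => p3_D_le hX)
  have h3 := h2.sqrt
  simp only [Real.sqrt_sq_eq_abs, Real.sqrt_zero] at h3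
  exact tendsto_zero_iff_abs_tendsto_zero _ |>.2 h3

theorem pnt3 : Tendsto (fun X : ℕ =>
    (∑ p ∈ (Nat.primesBelow (X + 1)).filter (fun p => p % 3 = 1), (p : ℝ) ^ (-(1 / 6 : ℝ))) /
      ((X : ℝ) ^ ((5 : ℝ) / 6) / Real.log (X : ℝ))) atTop (𝓝 (3 / 5)) := by
  have h := p3_W.add p3_D
  rw [add_zero] at h
  refine h.congr fun X => ?_
  have e : (Nat.primesBelow (X + 1)).filter (fun p => p % 3 = 1) =
      (Finset.Icc 1 X).filter (fun p => p.Prime ∧ p % 3 = 1) := by
    ext p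
    simp only [Finset.mem_filter, Nat.mem_primesBelow, Finset.mem_Icc]
    constructor
    · rintro ⟨⟨a, b⟩, c⟩
      exact ⟨⟨b.pos, by omega⟩, b, c⟩
    · rintro ⟨⟨a, b⟩, c, d⟩
      exact ⟨⟨by omega, c⟩, d⟩
  rw [e, ← add_div, ← Finset.sum_add_distrib, div_div_eq_mul_div, Finset.sum_mul]
  congr 1
  refine Finset.sum_congr rfl fun p _ => ?_
  ring

end Crest.Agent.R12
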