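import Crest.Agent.R12.Basic1
import Crest.Agent.R17.Kernel
import Crest.Agent.R17.Contour

/-!
# R12 / WinFE : functional equation ⇒ summation formula for windows

Port of `R17/Kernel.lean` (`kernel_lemma`) and `blks_mellin` to Gaussians of width `1/T` and to one
simple pole.  `gw (T x) = (2π)⁻¹ ∫ (√π/T) exp(w²/(4T²) - w x) dτ`, `w = σ + iτ`.
-/

set_option autoImplicit false

noncomputable section

open scoped Classical ComplexConjugate Topology
open MeasureTheory Filter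

namespace Crest.Agent.R12

open Crest.Agent.R17

/-- the Gaussian factor -/
def wf_K (T u : ℝ) (w : ℂ) : ℂ :=
  ((Real.sqrt Real.pi / T : ℝ) : ℂ) * Complex.exp (w ^ 2 / (4 * T ^ 2) + w * u)

theorem wf_kern (G : ℂ → ℂ) (T σ : ℝ) (s : ℂ) (u : ℝ) : kernT G T σ s u =
    (1 / (2 * Real.pi) : ℂ) * ∫ τ : ℝ, G (s + (σ + τ * Complex.I)) * wf_K T u (σ + τ * Complex.I) := rfl

theorem wf_K_diff (T u : ℝ) : Differentiable ℂ (wf_K T u) := by
  unfold wf_K
  fun_prop

theorem wf_quad {T : ℝ} (hT : 0 < T) (σ u τ : ℝ) :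
    ((σ : ℂ) + τ * Complex.I) ^ 2 / (4 * T ^ 2) + (σ + τ * Complex.I) * u =
      ((-(1 / (4 * T ^ 2)) : ℝ) : ℂ) * τ ^ 2 + (Complex.I * (σ / (2 * T ^ 2) + u)) * τ +
        (σ ^ 2 / (4 * T ^ 2) + σ * u) := by
  have h : (T : ℂ) ≠ 0 := Complex.ofReal_ne_zero.2 hT.ne'
  push_cast
  field_simp
  linear_combination (2 * (τ : ℂ) ^ 2) * Complex.I_sq

theorem wf_neg {T : ℝ} (hT : 0 < T) : ((-(1 / (4 * T ^ 2)) : ℝ) : ℂ).re < 0 := by
  rw [Complex.ofReal_re, neg_lt_zero]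
  positivity

theorem wf_K_int {T : ℝ} (hT : 0 < T) (σ u : ℝ) :
    Integrable fun τ : ℝ => wf_K T u (σ + τ * Complex.I) := by
  simp only [wf_K, wf_quad hT]
  exact (integrable_cexp_quadratic' (wf_neg hT) _ _).const_mul _

theorem wf_K_integral {T : ℝ} (hT : 0 < T) (σ u : ℝ) :
    ∫ τ : ℝ, wf_K T u (σ + τ * Complex.I) = 2 * Real.pi * (gw (T * u) : ℂ) := by
  have h : (T : ℂ) ≠ 0 := Complex.ofReal_ne_zero.2 hT.ne'
  simp only [wf_K, wf_quad hT]
  rw [integral_const_mul, integral_cexp_quadratic (wf_neg hT)]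
  have h1 : ((Real.pi : ℂ) / -((-(1 / (4 * T ^ 2)) : ℝ) : ℂ)) ^ (1 / 2 : ℂ) =
      ((2 * T * Real.sqrt Real.pi : ℝ) : ℂ) := by
    have h2 : ((Real.pi : ℂ) / -((-(1 / (4 * T ^ 2)) : ℝ) : ℂ)) = (((2 * T) ^ 2 * Real.pi : ℝ) : ℂ) := by
      push_cast
      field_simp
      ring
    have h3 : (1 / 2 : ℂ) = ((1 / 2 : ℝ) : ℂ) := by push_cast; ring
    rw [h2, h3, ← Complex.ofReal_cpow (by positivity), ← Real.sqrt_eq_rpow,
      Real.sqrt_mul (by positivity), Real.sqrt_sq (by positivity)]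
  have h4 : Real.sqrt Real.pi / T * (2 * T * Real.sqrt Real.pi) = 2 * Real.pi := by
    field_simp
    exact Real.sq_sqrt Real.pi_pos.le
  rw [h1, ← mul_assoc, ← Complex.ofReal_mul, h4]
  congr 1
  · push_cast
    rfl
  unfold gw
  rw [Complex.ofReal_exp]
  congr 1
  push_cast
  rw [mul_pow, Complex.I_sq]
  field_simp
  ring

theorem wf_K_norm {T : ℝ} (hT : 0 < T) (σ u τ : ℝ) : ‖wf_K T u (σ + τ * Complex.I)‖ =
    Real.sqrt Real.pi / T * Real.exp (σ ^ 2 / (4 * T ^ 2) + σ * u - τ ^ 2 / (4 * T ^ 2)) := by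
  rw [wf_K, norm_mul, Complex.norm_exp, Complex.norm_real, Real.norm_of_nonneg (by positivity), wf_quad hT]
  congr 2
  have e : ((-(1 / (4 * T ^ 2)) : ℝ) : ℂ) * τ ^ 2 + (Complex.I * (σ / (2 * T ^ 2) + u)) * τ +
      (σ ^ 2 / (4 * T ^ 2) + σ * u) = ((σ ^ 2 / (4 * T ^ 2) + σ * u - τ ^ 2 / (4 * T ^ 2) : ℝ) : ℂ) +
        (((σ / (2 * T ^ 2) + u) * τ : ℝ) : ℂ) * Complex.I := by
    push_cast
    ring
  rw [e, Complex.add_re, Complex.ofReal_re, Complex.re_ofReal_mul, Complex.I_re, mul_zero, add_zero]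

theorem wf_K_shift (T u c : ℝ) (w : ℂ) : wf_K T (u + c) w = Complex.exp (w * c) * wf_K T u w := by
  rw [wf_K, wf_K, mul_left_comm, ← Complex.exp_add]
  congr 2
  push_cast
  ring

/-- exchange of sum and integral on a vertical line -/
theorem wf_exch {b : O → ℂ} {H z : ℝ → ℂ} {x : ℝ} (hH : Integrable H) (hz : Continuous z)
    (hx : ∀ τ, (z τ).re = x) (hs : Summable fun n : O => ‖b n‖ * N n ^ (-x)) :
    Summable (fun n : O => ‖∫ τ, (if n = 0 then 0 else b n * (N n : ℂ) ^ (-z τ)) * H τ‖) ∧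
      ∫ τ, dser b (z τ) * H τ = ∑' n : O, ∫ τ, (if n = 0 then 0 else b n * (N n : ℂ) ^ (-z τ)) * H τ := by
  have hb : ∀ n τ, ‖(if n = 0 then 0 else b n * (N n : ℂ) ^ (-z τ)) * H τ‖ ≤ ‖b n‖ * N n ^ (-x) * ‖H τ‖ := by
    intro n τ
    split_ifs with hn
    · rw [zero_mul, norm_zero]
      have := Real.rpow_nonneg (N_nonneg n) (-x)
      positivity
    · rw [norm_mul, norm_mul, Complex.norm_cpow_eq_rpow_re_of_pos (N_pos hn), Complex.neg_re, hx]
  have hFi : ∀ n : O, Integrable fun τ => (if n = 0 then 0 else b n * (N n : ℂ) ^ (-z τ)) * H τ := by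
    intro n
    refine (hH.norm.const_mul _).mono' (AEStronglyMeasurable.mul (Continuous.aestronglyMeasurable ?_) hH.1)
      (Eventually.of_forall (hb n))
    split_ifs with hn
    · exact continuous_const
    · simp only [bk2_cpow hn]
      fun_prop
  have hFs : Summable fun n : O => ∫ τ, ‖(if n = 0 then 0 else b n * (N n : ℂ) ^ (-z τ)) * H τ‖ := by
    refine Summable.of_nonneg_of_le (fun n => integral_nonneg fun τ => norm_nonneg _) (fun n => ?_)
      (hs.mul_right (∫ τ, ‖H τ‖))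
    rw [← integral_const_mul]
    exact integral_mono (hFi n).norm (hH.norm.const_mul _) (hb n)
  refine ⟨Summable.of_nonneg_of_le (fun n => norm_nonneg _) (fun n => norm_integral_le_integral_norm _) hFs, ?_⟩
  rw [integral_tsum_of_summable_integral_norm hFi hFs]
  refine integral_congr_ae (Eventually.of_forall fun τ => ?_)
  simp only
  rw [dser, tsum_mul_right]

theorem winS_mellin {a : O → ℂ} (v σ : ℝ) {T : ℝ} (hT : 0 < T) (s : ℂ)
    (hs : Summable (fun n : O => ‖a n‖ * N n ^ (-(s.re + σ)))) :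
    winS a v T s = kernT (dser a) T σ s v := by
  rw [wf_kern, (wf_exch (z := fun τ : ℝ => s + (σ + τ * Complex.I)) (wf_K_int hT σ v) (by fun_prop)
    (fun τ => by simp) hs).2, ← tsum_mul_left, winS]
  refine tsum_congr fun n => ?_
  split_ifs with hn
  · simp
  · have e : ∀ τ : ℝ, a n * (N n : ℂ) ^ (-(s + (σ + τ * Complex.I))) * wf_K T v (σ + τ * Complex.I) =
        a n * (N n : ℂ) ^ (-s) * wf_K T (v + -lg n) (σ + τ * Complex.I) := by
      intro τ
      rw [wf_K_shift, bk2_cpow hn, bk2_cpow hn, ← mul_assoc, mul_assoc (a n) _ (Complex.exp _),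
        ← Complex.exp_add, lg]
      congr 3
      push_cast
      ring
    simp only [e]
    rw [integral_const_mul, wf_K_integral hT]
    have h2 : gw (T * (v + -lg n)) = gw (T * (lg n - v)) := by
      unfold gw
      congr 1
      ring
    have h4 : (Real.pi : ℂ) ≠ 0 := by exact_mod_cast Real.pi_pos.ne'
    rw [h2]
    field_simp

theorem wf_bound {G : ℂ → ℂ} {C a b T : ℝ} (hT : 0 < T) (s : ℂ)
    (hg : ∀ z : ℂ, s.re + a ≤ z.re → z.re ≤ s.re + b → ‖G z‖ ≤ C * Real.exp (C * |z.im|)) :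
    ∃ A, 0 ≤ A ∧ ∀ σ τ u : ℝ, a ≤ σ → σ ≤ b →
      ‖G (s + (σ + τ * Complex.I)) * wf_K T u (σ + τ * Complex.I)‖ ≤
        A * Real.exp (σ ^ 2 / (4 * T ^ 2) + σ * u) * Real.exp (-(1 / (8 * T ^ 2)) * τ ^ 2) := by
  refine ⟨|C| * Real.exp (|C| * |s.im| + 2 * C ^ 2 * T ^ 2) * (Real.sqrt Real.pi / T), by positivity,
    fun σ τ u h1 h2 => ?_⟩
  have h3 := hg (s + (σ + τ * Complex.I)) (by simpa using h1) (by simpa using h2)
  have e1 : (s + (σ + τ * Complex.I) : ℂ).im = s.im + τ := by simp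
  rw [e1] at h3
  have h4 : C * |s.im + τ| ≤ |C| * |s.im| + 2 * C ^ 2 * T ^ 2 + τ ^ 2 / (8 * T ^ 2) := by
    have a1 : C * |s.im + τ| ≤ |C| * (|s.im| + |τ|) :=
      mul_le_mul (le_abs_self C) (abs_add_le _ τ) (abs_nonneg _) (abs_nonneg _)
    have a2 : |C| * |τ| - 2 * C ^ 2 * T ^ 2 ≤ τ ^ 2 / (8 * T ^ 2) := by
      rw [le_div_iff₀ (by positivity), ← sq_abs C, ← sq_abs τ]
      nlinarith [sq_nonneg (4 * |C| * T ^ 2 - |τ|)]
    linarith
  have h5 : ‖G (s + (σ + τ * Complex.I))‖ ≤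
      |C| * Real.exp (|C| * |s.im| + 2 * C ^ 2 * T ^ 2 + τ ^ 2 / (8 * T ^ 2)) :=
    h3.trans (mul_le_mul (le_abs_self C) (Real.exp_le_exp.2 h4) (Real.exp_pos _).le (abs_nonneg C))
  rw [norm_mul, wf_K_norm hT]
  refine (mul_le_mul_of_nonneg_right h5 (by positivity)).trans (le_of_eq ?_)
  have e3 : Real.exp (|C| * |s.im| + 2 * C ^ 2 * T ^ 2 + τ ^ 2 / (8 * T ^ 2)) *
      Real.exp (σ ^ 2 / (4 * T ^ 2) + σ * u - τ ^ 2 / (4 * T ^ 2)) =
      Real.exp (|C| * |s.im| + 2 * C ^ 2 * T ^ 2) * Real.exp (σ ^ 2 / (4 * T ^ 2) + σ * u) *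
        Real.exp (-(1 / (8 * T ^ 2)) * τ ^ 2) := by
    simp only [← Real.exp_add]
    congr 1
    field_simp
    ring
  linear_combination (|C| * (Real.sqrt Real.pi / T)) * e3

theorem wf_diff {G : ℂ → ℂ} {a b : ℝ} (T : ℝ) (s : ℂ) (u : ℝ)
    (hG : DifferentiableOn ℂ G {z | s.re + a ≤ z.re ∧ z.re ≤ s.re + b}) :
    DifferentiableOn ℂ (fun w => G (s + w) * wf_K T u w) {w | a ≤ w.re ∧ w.re ≤ b} := by
  refine DifferentiableOn.mul (hG.comp (by fun_prop) fun w hw => ?_) (wf_K_diff T u).differentiableOn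
  simpa using hw

/-- a Gaussian majorant on the whole strip -/
theorem wf_major {G : ℂ → ℂ} {C a b T : ℝ} (hT : 0 < T) (s : ℂ) (u : ℝ)
    (hg : ∀ z : ℂ, s.re + a ≤ z.re → z.re ≤ s.re + b → ‖G z‖ ≤ C * Real.exp (C * |z.im|)) :
    ∃ g : ℝ → ℝ, Integrable g ∧ Tendsto g (cocompact ℝ) (𝓝 0) ∧ ∀ σ τ : ℝ, a ≤ σ → σ ≤ b →
      ‖G (s + (σ + τ * Complex.I)) * wf_K T u (σ + τ * Complex.I)‖ ≤ g τ := by
  obtain ⟨A, hA, hb⟩ := wf_bound hT s hg
  set R := |a| + |b| with hR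
  have h8 : 0 < 1 / (8 * T ^ 2) := by positivity
  refine ⟨fun τ => A * Real.exp (R ^ 2 / (4 * T ^ 2) + R * |u|) * Real.exp (-(1 / (8 * T ^ 2)) * τ ^ 2),
    (integrable_exp_neg_mul_sq h8).const_mul _, ?_, fun σ τ h1 h2 => ?_⟩
  · have := (tendsto_rpow_abs_mul_exp_neg_mul_sq_cocompact h8 0).const_mul
      (A * Real.exp (R ^ 2 / (4 * T ^ 2) + R * |u|))
    simpa using this
  · refine (hb σ τ u h1 h2).trans (mul_le_mul_of_nonneg_right (mul_le_mul_of_nonneg_left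
      (Real.exp_le_exp.2 ?_) hA) (Real.exp_pos _).le)
    have a1 : |σ| ≤ R := abs_le.2 ⟨by linarith [neg_abs_le a, abs_nonneg b],
      by linarith [le_abs_self b, abs_nonneg a]⟩
    have a2 : σ ^ 2 ≤ R ^ 2 := by
      rw [← sq_abs σ]
      exact pow_le_pow_left₀ (abs_nonneg _) a1 2
    have a3 : σ * u ≤ R * |u| := by
      refine (le_abs_self _).trans ?_
      rw [abs_mul]
      exact mul_le_mul_of_nonneg_right a1 (abs_nonneg _)
    have a4 : σ ^ 2 / (4 * T ^ 2) ≤ R ^ 2 / (4 * T ^ 2) := by gcongr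
    linarith

theorem wf_int {G : ℂ → ℂ} {C a b T σ : ℝ} (hT : 0 < T) (s : ℂ) (u : ℝ) (h1 : a ≤ σ) (h2 : σ ≤ b)
    (hG : DifferentiableOn ℂ G {z | s.re + a ≤ z.re ∧ z.re ≤ s.re + b})
    (hg : ∀ z : ℂ, s.re + a ≤ z.re → z.re ≤ s.re + b → ‖G z‖ ≤ C * Real.exp (C * |z.im|)) :
    Integrable fun τ : ℝ => G (s + (σ + τ * Complex.I)) * wf_K T u (σ + τ * Complex.I) := by
  obtain ⟨g, i1, -, i3⟩ := wf_major hT s u hg
  exact ct_int h1 h2 (wf_diff T s u hG).continuousOn i1 fun τ => i3 σ τ h1 h2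

/-- `shift_line` with a Gaussian majorant (as `Kn.shift`) -/
theorem kernT_shift {G : ℂ → ℂ} {C a b T : ℝ} (hT : 0 < T) (hab : a ≤ b) (s : ℂ) (u : ℝ)
    (hG : DifferentiableOn ℂ G {z | s.re + a ≤ z.re ∧ z.re ≤ s.re + b})
    (hg : ∀ z : ℂ, s.re + a ≤ z.re → z.re ≤ s.re + b → ‖G z‖ ≤ C * Real.exp (C * |z.im|)) :
    kernT G T a s u = kernT G T b s u := by
  obtain ⟨g, i1, i2, i3⟩ := wf_major hT s u hg
  rw [wf_kern, wf_kern]
  congr 1
  exact shift_line hab (wf_diff T s u hG) i1 i2 i3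

/-- Representation of the kernel on the line `Re z = x`: shift to `σ' = x - Re s`;
`κ τ = (2π)⁻¹ γ(x + i(Im s + τ)) (√π/T) exp((σ'+iτ)²/(4T²))`, and
`T⁻¹ ∫ (1 + |Im s| + |τ|)^m e^{-τ²/(4T²)} dτ ≤ C (T + |Im s|)^m`. -/
theorem kernT_rep (m : ℕ) (R : ℝ) : ∃ C : ℝ, 0 ≤ C ∧ ∀ (γ : ℂ → ℂ) (s1 x M : ℝ),
    DifferentiableOn ℂ γ {z | z.re < s1} →
    (∀ σ1 σ2 : ℝ, σ2 < s1 → ∃ C, ∀ z : ℂ, σ1 ≤ z.re → z.re ≤ σ2 →
      ‖γ z‖ ≤ C * Real.exp (C * |z.im|)) →
    x < s1 → (∀ z : ℂ, z.re = x → ‖γ z‖ ≤ M * (1 + |z.im|) ^ m) →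
    ∀ (T : ℝ) (s : ℂ), 1 ≤ T → |x - s.re| ≤ R → ∃ κ : ℝ → ℂ, Continuous κ ∧
      (∀ τ, ‖κ τ‖ ≤ C * M * (T + |s.im|) ^ m * mT T τ) ∧
      ∀ σ u : ℝ, s.re + σ < s1 → kernT γ T σ s u =
        Real.exp ((x - s.re) * u) * ∫ τ : ℝ, κ τ * Complex.exp (τ * u * Complex.I) := by
  refine ⟨1 / (2 * Real.pi) * Real.sqrt Real.pi * Real.exp (R ^ 2 / 4 + (m + 1) ^ 2), by positivity,
    fun γ s1 x M hγ hg hx hM T s hT hR => ?_⟩
  have hT0 : 0 < T := by linarith
  have hM0 : 0 ≤ M := by simpa using (norm_nonneg _).trans (hM x (by simp))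
  set σ' := x - s.re with hσ'
  refine ⟨fun τ => (1 / (2 * Real.pi) : ℂ) *
    (γ (s + (σ' + τ * Complex.I)) * wf_K T 0 (σ' + τ * Complex.I)), ?_, fun τ => ?_, fun σ u hσ => ?_⟩
  · refine continuous_const.mul (Continuous.mul ?_ ((wf_K_diff T 0).continuous.comp (by fun_prop)))
    exact hγ.continuousOn.comp_continuous (by fun_prop) fun τ => by simpa [hσ'] using hx
  · have h1 := hM (s + (σ' + τ * Complex.I)) (by simp [hσ'])
    have e1 : (s + (σ' + τ * Complex.I) : ℂ).im = s.im + τ := by simp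
    have e2 : ‖(1 / (2 * Real.pi) : ℂ)‖ = 1 / (2 * Real.pi) := by
      rw [norm_div, norm_mul, norm_one, Complex.norm_real, Real.norm_of_nonneg Real.pi_pos.le]
      simp
    rw [e1] at h1
    set r := |τ| / T with hr
    have hr0 : 0 ≤ r := by positivity
    have h2 : 1 + |s.im + τ| ≤ (T + |s.im|) * Real.exp r := by
      have a1 : T * r = |τ| := by rw [hr]; field_simp
      have a2 := Real.add_one_le_exp r
      have a3 := abs_add_le s.im τ
      have a4 := abs_nonneg s.im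
      nlinarith [mul_le_mul_of_nonneg_left a2 (show 0 ≤ T + |s.im| by positivity), mul_nonneg a4 hr0]
    have h3 : (1 + |s.im + τ|) ^ m ≤ (T + |s.im|) ^ m * Real.exp (m * r) := by
      rw [Real.exp_nat_mul, ← mul_pow]
      exact pow_le_pow_left₀ (by positivity) h2 m
    have h4 : Real.exp (m * r) * Real.exp (σ' ^ 2 / (4 * T ^ 2) + σ' * 0 - τ ^ 2 / (4 * T ^ 2)) ≤
        Real.exp (R ^ 2 / 4 + (m + 1) ^ 2) * Real.exp (-r) := by
      rw [← Real.exp_add, ← Real.exp_add, Real.exp_le_exp]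
      have a1 : τ ^ 2 / (4 * T ^ 2) = r ^ 2 / 4 := by
        rw [hr, div_pow, sq_abs]
        field_simp
      have a2 : σ' ^ 2 ≤ R ^ 2 := by
        rw [← sq_abs σ']
        exact pow_le_pow_left₀ (abs_nonneg _) hR 2
      have a3 : σ' ^ 2 / (4 * T ^ 2) ≤ R ^ 2 / 4 := by
        refine div_le_div₀ (sq_nonneg _) a2 (by norm_num) ?_
        nlinarith
      rw [a1]
      nlinarith [sq_nonneg (r / 2 - (m + 1))]
    rw [norm_mul, norm_mul, e2, wf_K_norm hT0, mT, ← hr]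
    calc 1 / (2 * Real.pi) * (‖γ (s + (σ' + τ * Complex.I))‖ * (Real.sqrt Real.pi / T *
          Real.exp (σ' ^ 2 / (4 * T ^ 2) + σ' * 0 - τ ^ 2 / (4 * T ^ 2))))
        ≤ 1 / (2 * Real.pi) * ((M * ((T + |s.im|) ^ m * Real.exp (m * r))) * (Real.sqrt Real.pi / T *
          Real.exp (σ' ^ 2 / (4 * T ^ 2) + σ' * 0 - τ ^ 2 / (4 * T ^ 2)))) := by
          gcongr
          exact h1.trans (mul_le_mul_of_nonneg_left h3 hM0)
      _ = 1 / (2 * Real.pi) * M * (T + |s.im|) ^ m * (Real.sqrt Real.pi / T) * (Real.exp (m * r) *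
          Real.exp (σ' ^ 2 / (4 * T ^ 2) + σ' * 0 - τ ^ 2 / (4 * T ^ 2))) := by ring
      _ ≤ 1 / (2 * Real.pi) * M * (T + |s.im|) ^ m * (Real.sqrt Real.pi / T) *
          (Real.exp (R ^ 2 / 4 + (m + 1) ^ 2) * Real.exp (-r)) := by gcongr
      _ = _ := by ring
  · have h1 : kernT γ T σ s u = kernT γ T σ' s u := by
      rcases le_total σ σ' with h | h
      · obtain ⟨C, hC⟩ := hg (s.re + σ) (s.re + σ') (by linarith)
        exact kernT_shift hT0 h s u (hγ.mono fun z hz => lt_of_le_of_lt hz.2 (by linarith)) hC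
      · obtain ⟨C, hC⟩ := hg (s.re + σ') (s.re + σ) hσ
        exact (kernT_shift hT0 h s u (hγ.mono fun z hz => lt_of_le_of_lt hz.2 hσ) hC).symm
    rw [h1, wf_kern, ← integral_const_mul, ← integral_const_mul]
    refine integral_congr_ae (Eventually.of_forall fun τ => ?_)
    simp only
    have e := wf_K_shift T 0 u (σ' + τ * Complex.I)
    have e' : Complex.exp ((σ' + τ * Complex.I) * u) =
        (Real.exp (σ' * u) : ℂ) * Complex.exp (τ * u * Complex.I) := by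
      rw [Complex.ofReal_exp, ← Complex.exp_add]
      congr 1
      push_cast
      ring
    rw [zero_add] at e
    rw [e, e']
    ring

theorem wf_mT {T : ℝ} (hT : 0 < T) : ∫ τ, mT T τ = 2 := by
  have e : mT T = fun τ => T⁻¹ * (fun x : ℝ => Real.exp (-|x|)) (τ / T) := by
    funext τ
    simp only [mT, abs_div, abs_of_pos hT]
  rw [e, integral_const_mul, Measure.integral_comp_div (fun x : ℝ => Real.exp (-|x|)),
    integral_comp_abs (f := fun x => Real.exp (-x)), integral_exp_neg_Ioi_zero, abs_of_pos hT, smul_eq_mul]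
  field_simp

theorem integrable_mT {T : ℝ} (hT : 0 < T) : Integrable (mT T) :=
  Integrable.of_integral_ne_zero (by rw [wf_mT hT]; norm_num)
theorem integral_mT {T : ℝ} (hT : 0 < T) : ∫ τ, mT T τ = 2 := wf_mT hT

/-- **Summation formula.**  `winS_mellin` on a line far to the right; shift `E` by `kernT_shift` and
`R/(z - p)` by `shift_line_pole` far to the left; there insert the functional equation, exchange sum
and integral, and shift each term back to the line `σ`. -/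
theorem win_fe {a b : O → ℂ} (ha : PolyBd a) (hb : PolyBd b) {E γ : ℂ → ℂ} {R p : ℂ} {ρ s1 : ℝ}
    (hρ : 0 < ρ) (hE : Differentiable ℂ E) (hgE : Vor.ExpGr E)
    (hγ : DifferentiableOn ℂ γ {s | s.re < s1})
    (hgγ : ∀ σ1 σ2 : ℝ, σ2 < s1 → ∃ C, ∀ s : ℂ, σ1 ≤ s.re → s.re ≤ σ2 →
      ‖γ s‖ ≤ C * Real.exp (C * |s.im|))
    (hDa : ∃ σ0 : ℝ, ∀ s : ℂ, σ0 < s.re → E s + R / (s - p) = dser a s)
    (hDb : ∃ σ0 : ℝ, ∀ s : ℂ, s.re < σ0 →
      E s + R / (s - p) = (ρ : ℂ) ^ (1 / 2 - s) * γ s * dser b (1 - s))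
    {T σ : ℝ} (hT : 1 ≤ T) {s : ℂ} (hσ : s.re + σ < s1) (v : ℝ) :
    Summable (fun n : O => ‖if n = 0 then 0 else
      b n * (N n : ℂ) ^ (s - 1) * kernT γ T σ s (lg n + v - Real.log ρ)‖) ∧
    winS a v T s = R * mainW p s v T + (ρ : ℂ) ^ (1 / 2 - s) * ∑' n : O, if n = 0 then 0 else
      b n * (N n : ℂ) ^ (s - 1) * kernT γ T σ s (lg n + v - Real.log ρ) := by
  have hT0 : 0 < T := by linarith
  obtain ⟨xa, hxa⟩ := Kn.polySummable ha
  obtain ⟨xb, hxb⟩ := Kn.polySummable hb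
  obtain ⟨σa, hσa⟩ := hDa
  obtain ⟨σb, hσb⟩ := hDb
  set j : ℝ := |xa| + |xb| + |σa| + |σb| + |σ| + |s.re| + |p.re| + 1 with hj
  have p1 := le_abs_self xa
  have p2 := le_abs_self xb
  have p3 := le_abs_self σa
  have p4 := neg_abs_le σb
  have p5 := neg_abs_le σ
  have p6 := le_abs_self s.re
  have p7 := neg_abs_le s.re
  have p8 := le_abs_self p.re
  have p9 := neg_abs_le p.re
  have q1 := abs_nonneg xa
  have q2 := abs_nonneg xb
  have q3 := abs_nonneg σa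
  have q4 := abs_nonneg σb
  have q5 := abs_nonneg σ
  have q6 := abs_nonneg s.re
  have q7 := abs_nonneg p.re
  obtain ⟨CE, hCE⟩ := hgE (s.re + -j) (s.re + j)
  -- splitting the integrals on the two lines
  have split : ∀ x : ℝ, -j ≤ x → x ≤ j → 1 ≤ |x - (p - s).re| →
      kernT (fun z => E z + R / (z - p)) T x s v = kernT E T x s v + (1 / (2 * Real.pi) : ℂ) * (R *
        ∫ τ : ℝ, wf_K T v (x + τ * Complex.I) / (x + τ * Complex.I - (p - s))) := by
    intro x h1 h2 h3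
    have hn : ∀ τ : ℝ, 1 ≤ ‖(x + τ * Complex.I - (p - s) : ℂ)‖ := fun τ =>
      le_trans (by simpa using h3) (Complex.abs_re_le_norm _)
    have i2 : Integrable fun τ : ℝ => wf_K T v (x + τ * Complex.I) / (x + τ * Complex.I - (p - s)) := by
      refine (wf_K_int hT0 x v).norm.mono' (Continuous.aestronglyMeasurable ?_)
        (Eventually.of_forall fun τ => ?_)
      · refine ((wf_K_diff T v).continuous.comp (by fun_prop)).div (by fun_prop) fun τ h => ?_
        have := hn τ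
        rw [h, norm_zero] at this
        linarith
      · rw [norm_div]
        exact div_le_self (norm_nonneg _) (hn τ)
    rw [wf_kern, wf_kern, ← mul_add, ← integral_const_mul R,
      ← integral_add (wf_int hT0 s v h1 h2 hE.differentiableOn hCE) (i2.const_mul R)]
    congr 1
    refine integral_congr_ae (Eventually.of_forall fun τ => ?_)
    simp only
    rw [show s + (x + τ * Complex.I) - p = x + τ * Complex.I - (p - s) by ring]
    ring
  have h1 : winS a v T s = kernT (fun z => E z + R / (z - p)) T j s v := by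
    rw [winS_mellin v j hT0 s (hxa _ (by linarith)), wf_kern, wf_kern]
    congr 1
    refine integral_congr_ae (Eventually.of_forall fun τ => ?_)
    simp only
    rw [hσa _ (by simp; linarith)]
  have h2 : kernT E T (-j) s v = kernT E T j s v :=
    kernT_shift hT0 (by linarith) s v hE.differentiableOn hCE
  obtain ⟨g, g1, g2, g3⟩ := wf_major (G := fun _ => 1) (C := 1) (a := -j) (b := j) hT0 s v
    fun z _ _ => by simp
  have h3 := shift_line_pole (G := wf_K T v) (a := -j) (b := j) (s0 := p - s) (by simp; linarith)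
    (by simp; linarith) (wf_K_diff T v).differentiableOn g1 g2 fun σ τ h h' => by simpa using g3 σ τ h h'
  have hpi : (Real.pi : ℂ) ≠ 0 := by exact_mod_cast Real.pi_pos.ne'
  have h4 : winS a v T s = R * mainW p s v T + kernT (fun z => E z + R / (z - p)) T (-j) s v := by
    rw [h1, split j (by linarith) le_rfl (le_abs.2 (Or.inl (by simp; linarith))),
      split (-j) le_rfl (by linarith) (le_abs.2 (Or.inr (by simp; linarith))), h2, h3,
      show mainW p s v T = wf_K T v (p - s) from rfl]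
    have e : (1 / (2 * Real.pi) : ℂ) * (2 * Real.pi) = 1 := by field_simp
    linear_combination (R * wf_K T v (p - s)) * e
  obtain ⟨Cγ, hCγ⟩ := hgγ (s.re + -j) (s.re + σ) hσ
  have hγ' : DifferentiableOn ℂ γ {z | s.re + -j ≤ z.re ∧ z.re ≤ s.re + σ} :=
    hγ.mono fun z hz => lt_of_le_of_lt hz.2 hσ
  have h5 : ∀ u, kernT γ T (-j) s u = kernT γ T σ s u := fun u =>
    kernT_shift hT0 (by linarith) s u hγ' hCγ
  obtain ⟨k1, k2⟩ := wf_exch (b := b) (z := fun τ : ℝ => 1 - (s + ((-j : ℝ) + τ * Complex.I)))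
    (x := 1 - (s.re + -j)) (wf_int hT0 s (v + -Real.log ρ) le_rfl (by linarith) hγ' hCγ) (by fun_prop)
    (fun τ => by simp) (hxb _ (by linarith))
  have hterm : ∀ n : O, (if n = 0 then 0 else
      b n * (N n : ℂ) ^ (s - 1) * kernT γ T σ s (lg n + v - Real.log ρ)) = (1 / (2 * Real.pi) : ℂ) *
      ∫ τ : ℝ, (if n = 0 then 0 else b n * (N n : ℂ) ^ (-(1 - (s + ((-j : ℝ) + τ * Complex.I))))) *
        (γ (s + ((-j : ℝ) + τ * Complex.I)) * wf_K T (v + -Real.log ρ) ((-j : ℝ) + τ * Complex.I)) := by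
    intro n
    split_ifs with hn
    · simp
    · rw [← h5, wf_kern, mul_left_comm, ← integral_const_mul]
      congr 1
      refine integral_congr_ae (Eventually.of_forall fun τ => ?_)
      simp only
      rw [show lg n + v - Real.log ρ = v + -Real.log ρ + lg n by ring, wf_K_shift T _ (lg n), bk2_cpow hn,
        bk2_cpow hn, lg]
      set w : ℂ := (-j : ℝ) + τ * Complex.I
      have e : Complex.exp ((Real.log (N n) : ℂ) * -(1 - (s + w))) =
          Complex.exp ((Real.log (N n) : ℂ) * (s - 1)) * Complex.exp (w * (Real.log (N n) : ℂ)) := by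
        rw [← Complex.exp_add]
        congr 1
        ring
      rw [e]
      ring
  simp only [hterm]
  refine ⟨by simpa only [norm_mul] using k1.mul_left _, ?_⟩
  rw [h4, tsum_mul_left, ← k2, wf_kern, mul_left_comm, ← integral_const_mul ((ρ : ℂ) ^ (1 / 2 - s))]
  congr 2
  refine integral_congr_ae (Eventually.of_forall fun τ => ?_)
  simp only
  rw [hσb _ (by simp; linarith), wf_K_shift, Kn.cpow_eq hρ, Kn.cpow_eq hρ]
  set w : ℂ := (-j : ℝ) + τ * Complex.I
  have e : Complex.exp ((1 / 2 - (s + w)) * (Real.log ρ : ℂ)) =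
      Complex.exp ((1 / 2 - s) * (Real.log ρ : ℂ)) * Complex.exp (w * ((-Real.log ρ : ℝ) : ℂ)) := by
    rw [← Complex.exp_add]
    congr 1
    push_cast
    ring
  rw [e]
  ring

end Crest.Agent.R12
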