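import Crest.Agent.R12.PStepA
import Crest.Agent.R12.WinFE

/-!
# R12 / PStep : one Poisson step
-/

set_option autoImplicit false

noncomputable section

open scoped Classical ComplexConjugate Topology
open MeasureTheory Filter

namespace Crest.Agent.R12

open Crest.Agent.R17

theorem ps_cub_le {m : O} (hm : Prim m) (d : O) : ‖cub m d‖ ≤ 1 :=
  norm_sym_le (k := 3) (by simp) (by simpa using hm.isCoprime_three) d

theorem ps_cub_zero {m : O} (hm : Prim m) (h : m ≠ 1) : cub m 0 = 0 :=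
  ((sym_isChar (k := 3) (by simp) (by simpa using hm.isCoprime_three)).zero_iff 0).2
    fun h' => h (hm.eq_one_of_isUnit (isCoprime_zero_left.1 h'))

/-- the character of a pair -/
def psPhi (m m' : O) : O → ℂ := fun d => cub m d * conj (cub m' d)

theorem psPhi_per (m m' : O) : Per (m * m') (psPhi m m') := fun x t => by
  unfold psPhi
  rw [rkub_congr (d := m) (x := x + m * m' * t) (y := x) ⟨m' * t, by ring⟩,
    rkub_congr (d := m') (x := x + m * m' * t) (y := x) ⟨m * t, by ring⟩]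

theorem psPhi_le {m m' : O} (hm : Prim m) (hm' : Prim m') (d : O) : ‖psPhi m m' d‖ ≤ 1 := by
  rw [psPhi, norm_mul, Complex.norm_conj]
  exact mul_le_one₀ (ps_cub_le hm d) (norm_nonneg _) (ps_cub_le hm' d)

theorem ps_gs {m m' : O} (hm : SF m) (hm' : SF m') (h : IsCoprime m m') (k : O) :
    gs (m * m') (psPhi m m') k = (Real.sqrt (N m) : ℂ) * (Real.sqrt (N m') : ℂ) *
      (g3 m * conj (cub m k)) * conj (g3 m' * conj (cub m' k)) := gs_pair hm hm' h k

theorem ps_mob {m : O} {X : ℝ} (hm : SF m) (hX : N m ≤ X) (m' : O) :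
    (if IsCoprime m m' then (1 : ℂ) else 0) =
      ∑ r ∈ sfb X, if r ∣ m ∧ r ∣ m' then mu r else 0 := by
  rw [← Finset.sum_filter, isCoprime_comm, ← sum_mu_coprime hm.1 m']
  congr 1
  ext r
  rw [Finset.mem_filter, Finset.mem_filter, mem_pdiv hm.1.ne_zero, mem_sfb]
  exact ⟨fun h => ⟨⟨hm.of_dvd h.1.1 h.1.2, (N_le_of_dvd hm.1.ne_zero h.1.2).trans hX⟩, h.1.2, h.2⟩,
    fun h => ⟨⟨h.1.1.1, h.2.1⟩, h.2.2⟩⟩

theorem ps_norm_cpow {x : ℝ} (hx : 0 < x) (σ τ : ℝ) :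
    ‖(x : ℂ) ^ (-(σ + τ * Complex.I))‖ = x ^ (-σ) := by
  rw [Complex.norm_cpow_eq_rpow_re_of_pos hx]
  simp

theorem ps_int {μ : ℝ → ℂ} {K T x : ℝ} (hT : 0 < T) (hx : 0 < x) (σ : ℝ) (hμ : Continuous μ)
    (h : ∀ τ, ‖μ τ‖ ≤ K * mT T τ) :
    Integrable (fun τ : ℝ => μ τ * (x : ℂ) ^ (-(σ + τ * Complex.I))) ∧
      ‖∫ τ : ℝ, μ τ * (x : ℂ) ^ (-(σ + τ * Complex.I))‖ ≤ 2 * K * x ^ (-σ) := by
  have hb : ∀ τ : ℝ, ‖μ τ * (x : ℂ) ^ (-(σ + τ * Complex.I))‖ ≤ K * x ^ (-σ) * mT T τ := fun τ => by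
    rw [norm_mul, ps_norm_cpow hx, mul_right_comm]
    exact mul_le_mul_of_nonneg_right (h τ) (by positivity)
  have hi := (integrable_mT hT).const_mul (K * x ^ (-σ))
  refine ⟨hi.mono' (hμ.mul (Continuous.const_cpow (by fun_prop)
    (Or.inl (Complex.ofReal_ne_zero.2 hx.ne')))).aestronglyMeasurable
    (Eventually.of_forall hb), ?_⟩
  refine (norm_integral_le_of_norm_le hi (Eventually.of_forall hb)).trans_eq ?_
  rw [integral_const_mul, integral_mT hT]
  ring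

/-- the common factor -/
def psW (D K G B σ τ : ℝ) : ℂ := D * Complex.exp (-(σ + τ * Complex.I) *
  (Real.log D + Real.log K : ℝ) + 2 * (σ - 1 / 2 + τ * Complex.I) * (Real.log B - Real.log G : ℝ))

theorem psW_norm {D K G B : ℝ} (hD : 0 < D) (hK : 0 < K) (hG : 0 < G) (hB : 0 < B) (σ τ : ℝ) :
    ‖psW D K G B σ τ‖ = D * G / B * (K / (B ^ 2 / (D * G ^ 2))) ^ (-σ) := by
  have e1 : G / B = Real.exp (Real.log G - Real.log B) := by
    rw [Real.exp_sub, Real.exp_log hG, Real.exp_log hB]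
  rw [psW, norm_mul, Complex.norm_real, Real.norm_of_nonneg hD.le, Complex.norm_exp, mul_div_assoc,
    Real.rpow_def_of_pos (by positivity), Real.log_div hK.ne' (by positivity),
    Real.log_div (by positivity) (by positivity), Real.log_mul hD.ne' (by positivity), Real.log_pow,
    Real.log_pow, e1, mul_assoc D, ← Real.exp_add]
  congr 2
  simp
  ring

theorem psW_eq {D K G B M M' : ℝ} (hD : 0 < D) (hK : 0 < K) (hG : 0 < G) (hB : 0 < B) (hM : 0 < M)
    (hM' : 0 < M') (σ τ : ℝ) :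
    ((D / (M * M') : ℝ) : ℂ) * ((Real.sqrt M : ℂ) * (Real.sqrt M' : ℂ)) *
      ((D * K / (M * M') : ℝ) : ℂ) ^ (-(σ + τ * Complex.I)) =
      psW D K G B σ τ * (((G * M / B : ℝ) : ℂ) ^ (σ - 1 / 2 + τ * Complex.I) *
        conj (((G * M' / B : ℝ) : ℂ) ^ (σ - 1 / 2 + (-τ : ℝ) * Complex.I))) := by
  have e1 : D / (M * M') * (Real.sqrt M * Real.sqrt M') =
      D * Real.exp (-((Real.log M + Real.log M') / 2)) := by
    have h1 := Real.sqrt_pos.2 hM
    have h2 := Real.sqrt_pos.2 hM'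
    rw [Real.exp_neg, Real.exp_half, Real.exp_add, Real.exp_log hM, Real.exp_log hM',
      Real.sqrt_mul hM.le]
    nth_rewrite 1 [← Real.mul_self_sqrt hM.le, ← Real.mul_self_sqrt hM'.le]
    field_simp
  rw [← Complex.ofReal_mul, ← Complex.ofReal_mul, e1, Kn.cpow_eq (by positivity),
    Kn.cpow_eq (by positivity), Kn.cpow_eq (by positivity), ← Complex.exp_conj, psW,
    Real.log_div (by positivity) (by positivity), Real.log_div (by positivity) (by positivity),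
    Real.log_div (by positivity) (by positivity), Real.log_mul hD.ne' hK.ne',
    Real.log_mul hM.ne' hM'.ne', Real.log_mul hG.ne' hM.ne', Real.log_mul hG.ne' hM'.ne',
    Complex.ofReal_mul, Complex.ofReal_exp, mul_assoc, mul_assoc, ← Complex.exp_add,
    ← Complex.exp_add, ← Complex.exp_add]
  congr 2
  simp only [map_mul, map_add, map_sub, Complex.conj_ofReal, Complex.conj_I, map_div₀, map_one,
    map_ofNat]
  push_cast
  ring

theorem ps_Xs {g : O} (hg : g ≠ 0) (S : Finset O) (r : O) (x : O → ℂ) :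
    ∑ n ∈ S.filter (fun n => g * r ∣ n), x n =
      ∑ n ∈ S.filter (fun n => g ∣ n), if r ∣ n / g then x n else 0 := by
  rw [← Finset.sum_filter, Finset.filter_filter]
  refine Finset.sum_congr (Finset.filter_congr fun n _ => ⟨fun h => ?_, fun h => ?_⟩) fun _ _ => rfl
  · obtain ⟨t, rfl⟩ := h
    rw [mul_assoc, mul_div_cancel_left₀ _ hg]
    exact ⟨dvd_mul_right _ _, dvd_mul_right _ _⟩
  · rw [← EuclideanDomain.mul_div_cancel' hg h.1]
    exact mul_dvd_mul_left g h.2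

/-- the coefficient of a pair in the dual sum -/
def psC (c : O → ℂ) (D : ℝ) (g k n n' : O) : ℂ :=
  if IsCoprime (n / g) (n' / g) then c n * conj (c n') *
    (((D / N (n / g * (n' / g)) : ℝ) : ℂ) * gs (n / g * (n' / g)) (psPhi (n / g) (n' / g)) k) else 0

theorem ps_point {D B : ℝ} (hD : 0 < D) (hB : 0 < B) {S : Finset O} (hS : In S B) (c : O → ℂ)
    {g k : O} (hg : SF g) (hk : k ≠ 0) (σ τ : ℝ) :
    ‖∑ n ∈ S.filter (fun n => g ∣ n), ∑ n' ∈ S.filter (fun n => g ∣ n), psC c D g k n n' *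
      ((D * N k / N (n / g * (n' / g)) : ℝ) : ℂ) ^ (-(σ + τ * Complex.I))‖ ≤
    D * N g / B * (N k / (B ^ 2 / (D * N g ^ 2))) ^ (-σ) * ∑ r ∈ sfb (16 * B),
      (‖Xs S c B g r k (σ - 1 / 2 + τ * Complex.I)‖ ^ 2 +
        ‖Xs S c B g r k (σ - 1 / 2 + (-τ : ℝ) * Complex.I)‖ ^ 2) / 2 := by
  have hg0 := hg.1.ne_zero
  have hG := N_pos hg0
  have hK := N_pos hk
  obtain ⟨x, hx⟩ : ∃ x : ℂ → O → ℂ, x = fun s n =>
    c n * g3 (n / g) * conj (cub (n / g) k) * pw B n s := ⟨_, rfl⟩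
  have hX : ∀ r s, Xs S c B g r k s =
      ∑ n ∈ S.filter (fun n => g ∣ n), if r ∣ n / g then x s n else 0 := fun r s => by
    rw [← ps_Xs hg0, hx, Xs]
  have hm : ∀ n ∈ S.filter (fun n => g ∣ n),
      SF (n / g) ∧ N n = N g * N (n / g) ∧ N (n / g) ≤ 16 * B := fun n hn => by
    obtain ⟨h1, h2⟩ := Finset.mem_filter.1 hn
    have h3 := hS n h1
    have h4 := EuclideanDomain.mul_div_cancel' hg0 h2
    exact ⟨(h3.1.div hg.1 h2).1, by rw [← N_mul, h4],
      (N_le_of_dvd h3.1.1.ne_zero (Dvd.intro_left _ h4)).trans h3.2.2⟩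
  have e : ∑ n ∈ S.filter (fun n => g ∣ n), ∑ n' ∈ S.filter (fun n => g ∣ n), psC c D g k n n' *
      ((D * N k / N (n / g * (n' / g)) : ℝ) : ℂ) ^ (-(σ + τ * Complex.I)) =
      psW D (N k) (N g) B σ τ * ∑ r ∈ sfb (16 * B), mu r *
        (Xs S c B g r k (σ - 1 / 2 + τ * Complex.I) *
          conj (Xs S c B g r k (σ - 1 / 2 + (-τ : ℝ) * Complex.I))) := by
    simp only [hX, map_sum, Finset.sum_mul_sum]
    simp only [Finset.mul_sum]
    rw [Finset.sum_comm (s := sfb (16 * B))]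
    refine Finset.sum_congr rfl fun n hn => ?_
    rw [Finset.sum_comm (s := sfb (16 * B))]
    refine Finset.sum_congr rfl fun n' hn' => ?_
    obtain ⟨a1, a2, a3⟩ := hm n hn
    obtain ⟨b1, b2, -⟩ := hm n' hn'
    have e1 : psC c D g k n n' *
        ((D * N k / N (n / g * (n' / g)) : ℝ) : ℂ) ^ (-(σ + τ * Complex.I)) =
        psW D (N k) (N g) B σ τ * (x (σ - 1 / 2 + τ * Complex.I) n *
          conj (x (σ - 1 / 2 + (-τ : ℝ) * Complex.I) n')) *
          if IsCoprime (n / g) (n' / g) then 1 else 0 := by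
      unfold psC
      split_ifs with h
      · have e2 := psW_eq hD hK hG hB (N_pos a1.1.ne_zero) (N_pos b1.1.ne_zero) σ τ
        rw [ps_gs a1 b1 h, hx, N_mul]
        simp only [pw, a2, b2, map_mul]
        linear_combination (c n * conj (c n') * g3 (n / g) * conj (cub (n / g) k) *
          conj (g3 (n' / g)) * conj (conj (cub (n' / g) k))) * e2
      · simp
    rw [e1, ps_mob a1 a3, Finset.mul_sum]
    refine Finset.sum_congr rfl fun r _ => ?_
    by_cases h1 : r ∣ n / g <;> by_cases h2 : r ∣ n' / g <;> simp [h1, h2]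
    ring
  rw [e, norm_mul, psW_norm hD hK hG hB]
  refine mul_le_mul_of_nonneg_left ((norm_sum_le _ _).trans (Finset.sum_le_sum fun r _ => ?_))
    (by positivity)
  rw [norm_mul, norm_mul, Complex.norm_conj]
  refine (mul_le_of_le_one_left (by positivity) (norm_mu_le r)).trans ?_
  nlinarith [sq_nonneg (‖Xs S c B g r k (σ - 1 / 2 + τ * Complex.I)‖ -
    ‖Xs S c B g r k (σ - 1 / 2 + (-τ : ℝ) * Complex.I)‖)]

theorem ps_congr {f g : O → ℂ} {a : ℂ} (h : HasSum f a) (e : ∀ k, g k = f k) : HasSum g a :=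
  (funext e : g = f) ▸ h

theorem ps_sig_mem (T x : ℝ) : sig T x ∈ ({1 / 6, 1 / 2, 5 / 2} : Finset ℝ) := by
  unfold sig
  split_ifs <;> simp

theorem ps_mT_neg (T τ : ℝ) : mT T (-τ) = mT T τ := by rw [mT, mT, abs_neg]

theorem ps_mT_nonneg {T : ℝ} (hT : 0 < T) (τ : ℝ) : 0 ≤ mT T τ := by unfold mT; positivity

/-- the dual sums over finite sets of frequencies -/
theorem ps_dual : ∃ C : ℝ, 0 ≤ C ∧ ∀ (C0 D T B : ℝ) (κ : ℝ → ℂ) (μ : ℝ → ℝ → ℂ), 0 ≤ C0 → 0 < D →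
    1 ≤ T → 0 < B →
    (∀ σ ∈ ({1 / 6, 1 / 2, 5 / 2} : Finset ℝ), Continuous (μ σ) ∧
      (∀ τ, ‖μ σ τ‖ ≤ C0 * (if σ = 5 / 2 then T ^ 4 else 1) * mT T τ) ∧
      ∀ x : ℝ, 0 < x → κ x = ∫ τ : ℝ, μ σ τ * (x : ℂ) ^ (-(σ + τ * Complex.I))) →
    ∀ (S : Finset O) (c : O → ℂ), In S B → ∀ g : O, SF g → ∀ E1 E2 : O → ℝ → ℝ,
    (∀ r τ, 0 ≤ E1 r τ ∧ 0 ≤ E2 r τ) →
    (∀ r, Integrable (fun τ => mT T τ * E1 r τ) ∧ Integrable (fun τ => mT T τ * E2 r τ)) →
    (∀ r ∈ sfb (16 * B), ∀ σ ∈ ({1 / 6, 1 / 2, 5 / 2} : Finset ℝ), ∀ τ Y : ℝ, 0 < Y →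
      ∑ k ∈ ball Y, ‖Xs S c B g r k (σ - 1 / 2 + τ * Complex.I)‖ ^ 2 ≤
        E1 r τ * (Y / (B ^ 2 / (D * N g ^ 2))) ^ (1 / 3 : ℝ) +
        E2 r τ * (Y / (B ^ 2 / (D * N g ^ 2))) ^ 2) →
    ∀ R : Finset O, (∀ k ∈ R, k ≠ 0) →
    ‖∑ k ∈ R, ∑ n ∈ S.filter (fun n => g ∣ n), ∑ n' ∈ S.filter (fun n => g ∣ n),
      psC c D g k n n' * κ (D * N k / N (n / g * (n' / g)))‖ ≤
      C * C0 * (D / B) * ∑ r ∈ sfb (16 * B), N g *
        ∫ τ : ℝ, mT T τ * (E1 r τ + T ^ 3 * E2 r τ) := by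
  obtain ⟨C, hC, hd⟩ := dyadic3
  refine ⟨C, hC, fun C0 D T B κ μ hC0 hD hT hB hμ S c hS g hg E1 E2 hE hEi hX R hR => ?_⟩
  have hT0 : 0 < T := by linarith
  have hG := N_pos hg.1.ne_zero
  obtain ⟨K, hK⟩ : ∃ K, K = B ^ 2 / (D * N g ^ 2) := ⟨_, rfl⟩
  have hK0 : 0 < K := hK ▸ by positivity
  have hx : ∀ k ∈ R, ∀ n ∈ S.filter (fun n => g ∣ n), ∀ n' ∈ S.filter (fun n => g ∣ n),
      0 < D * N k / N (n / g * (n' / g)) := fun k hk n hn n' hn' => by
    obtain ⟨h1, h2⟩ := Finset.mem_filter.1 hn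
    obtain ⟨h3, h4⟩ := Finset.mem_filter.1 hn'
    have h5 := N_pos (mul_ne_zero ((hS n h1).1.div hg.1 h2).1.1.ne_zero
      ((hS n' h3).1.div hg.1 h4).1.1.ne_zero)
    have h6 := N_pos (hR k hk)
    positivity
  obtain ⟨H, hH⟩ : ∃ H : O → O → O → ℝ → ℂ, H = fun k n n' τ => psC c D g k n n' *
    (μ (sig T (N k / K)) τ * ((D * N k / N (n / g * (n' / g)) : ℝ) : ℂ) ^
      (-(sig T (N k / K) + τ * Complex.I))) := ⟨_, rfl⟩
  have hHi : ∀ k ∈ R, ∀ n ∈ S.filter (fun n => g ∣ n), ∀ n' ∈ S.filter (fun n => g ∣ n),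
      Integrable (H k n n') := fun k hk n hn n' hn' => by
    obtain ⟨h1, h2, -⟩ := hμ _ (ps_sig_mem T (N k / K))
    rw [hH]
    exact (ps_int hT0 (hx k hk n hn n' hn') _ h1 h2).1.const_mul _
  have e : ∑ k ∈ R, ∑ n ∈ S.filter (fun n => g ∣ n), ∑ n' ∈ S.filter (fun n => g ∣ n),
      psC c D g k n n' * κ (D * N k / N (n / g * (n' / g))) =
      ∫ τ : ℝ, ∑ k ∈ R, ∑ n ∈ S.filter (fun n => g ∣ n), ∑ n' ∈ S.filter (fun n => g ∣ n),
        H k n n' τ := by
    rw [integral_finsetSum _ fun k hk => integrable_finsetSum _ fun n hn =>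
      integrable_finsetSum _ fun n' hn' => hHi k hk n hn n' hn']
    refine Finset.sum_congr rfl fun k hk => ?_
    rw [integral_finsetSum _ fun n hn => integrable_finsetSum _ fun n' hn' => hHi k hk n hn n' hn']
    refine Finset.sum_congr rfl fun n hn => ?_
    rw [integral_finsetSum _ fun n' hn' => hHi k hk n hn n' hn']
    refine Finset.sum_congr rfl fun n' hn' => ?_
    rw [hH, (hμ _ (ps_sig_mem T (N k / K))).2.2 _ (hx k hk n hn n' hn'), integral_const_mul]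
  obtain ⟨F, hF⟩ : ∃ F : O → ℝ → ℝ, F = fun r τ => mT T τ * (E1 r τ + T ^ 3 * E2 r τ) := ⟨_, rfl⟩
  have hFi : ∀ r, Integrable (F r) := fun r => by
    refine ((hEi r).1.add ((hEi r).2.const_mul (T ^ 3))).congr (Eventually.of_forall fun τ => ?_)
    simp only [hF, Pi.add_apply]
    ring
  have hbi : Integrable fun τ => C * C0 * (D * N g / B) *
      ∑ r ∈ sfb (16 * B), (F r τ + F r (-τ)) / 2 :=
    (integrable_finsetSum _ fun r _ => ((hFi r).add (hFi r).comp_neg).div_const 2).const_mul _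
  rw [e]
  refine (norm_integral_le_of_norm_le hbi (Eventually.of_forall fun τ => ?_)).trans_eq ?_
  · have hm := ps_mT_nonneg hT0 τ
    have key : ∀ r ∈ sfb (16 * B), ∀ t : ℝ, ∑ k ∈ R, (if sig T (N k / K) = 5 / 2 then T ^ 4 else 1) *
        (N k / K) ^ (-sig T (N k / K)) *
        ‖Xs S c B g r k (sig T (N k / K) - 1 / 2 + t * Complex.I)‖ ^ 2 ≤
        C * (E1 r t + T ^ 3 * E2 r t) := fun r hr t =>
      hd (fun σ k => ‖Xs S c B g r k (σ - 1 / 2 + t * Complex.I)‖ ^ 2) K T _ _ hK0 hT (hE r t).1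
        (hE r t).2 (fun _ _ => sq_nonneg _) (fun σ hσ Y hY => hK ▸ hX r hr σ hσ t Y hY) R hR
    calc _ ≤ ∑ k ∈ R, C0 * (if sig T (N k / K) = 5 / 2 then T ^ 4 else 1) * mT T τ *
          (D * N g / B * (N k / K) ^ (-sig T (N k / K)) * ∑ r ∈ sfb (16 * B),
            (‖Xs S c B g r k (sig T (N k / K) - 1 / 2 + τ * Complex.I)‖ ^ 2 +
            ‖Xs S c B g r k (sig T (N k / K) - 1 / 2 + (-τ : ℝ) * Complex.I)‖ ^ 2) / 2) := by
          refine (norm_sum_le _ _).trans (Finset.sum_le_sum fun k hk => ?_)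
          have h1 := ps_point hD hB hS c hg (hR k hk) (sig T (N k / K)) τ
          rw [← hK] at h1
          have h2 := (hμ _ (ps_sig_mem T (N k / K))).2.1 τ
          refine le_trans (le_of_eq ?_) (mul_le_mul h2 h1 (norm_nonneg _)
            ((norm_nonneg _).trans h2))
          rw [← norm_mul, Finset.mul_sum]
          congr 1
          refine Finset.sum_congr rfl fun n _ => ?_
          rw [Finset.mul_sum]
          refine Finset.sum_congr rfl fun n' _ => ?_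
          rw [hH]
          ring
      _ = C0 * mT T τ * (D * N g / B) * ∑ r ∈ sfb (16 * B),
          (∑ k ∈ R, (if sig T (N k / K) = 5 / 2 then T ^ 4 else 1) *
            (N k / K) ^ (-sig T (N k / K)) *
            ‖Xs S c B g r k (sig T (N k / K) - 1 / 2 + τ * Complex.I)‖ ^ 2 +
          ∑ k ∈ R, (if sig T (N k / K) = 5 / 2 then T ^ 4 else 1) *
            (N k / K) ^ (-sig T (N k / K)) *
            ‖Xs S c B g r k (sig T (N k / K) - 1 / 2 + (-τ : ℝ) * Complex.I)‖ ^ 2) / 2 := by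
          simp only [← Finset.sum_add_distrib, Finset.sum_div, Finset.mul_sum]
          rw [Finset.sum_comm]
          refine Finset.sum_congr rfl fun r _ => Finset.sum_congr rfl fun k _ => ?_
          ring
      _ ≤ C0 * mT T τ * (D * N g / B) * ∑ r ∈ sfb (16 * B),
          (C * (E1 r τ + T ^ 3 * E2 r τ) + C * (E1 r (-τ) + T ^ 3 * E2 r (-τ))) / 2 := by
          refine mul_le_mul_of_nonneg_left (Finset.sum_le_sum fun r hr => ?_) (by positivity)
          linarith [key r hr τ, key r hr (-τ)]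
      _ = _ := by
          simp only [hF, ps_mT_neg, Finset.mul_sum]
          refine Finset.sum_congr rfl fun r _ => ?_
          ring
  · rw [integral_const_mul, integral_finsetSum (f := fun r τ => (F r τ + F r (-τ)) / 2) _
      fun r _ => ((hFi r).add (hFi r).comp_neg).div_const 2, Finset.mul_sum, Finset.mul_sum]
    refine Finset.sum_congr rfl fun r _ => ?_
    rw [integral_div, integral_add (hFi r) (hFi r).comp_neg, integral_neg_eq_self, hF]
    ring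

/-- Poisson summation for one pair -/
theorem ps_pair : ∃ Z : ℝ, 0 ≤ Z ∧ ∀ (V : O → ℝ) (C0 D T : ℝ) (κ : ℝ → ℂ), 0 ≤ C0 → 1 ≤ T →
    T ^ 2 ≤ D → (∀ d, 0 ≤ V d) → Summable V → ∑' d, V d ≤ C0 * (D / T + Real.sqrt D) →
    (∀ (q : O) (φ : O → ℂ), q ≠ 0 → Per q φ → gs q φ 0 = 0 → φ 0 = 0 →
      HasSum (fun k : O => if k = 0 then 0 else
        ((D / N q : ℝ) : ℂ) * gs q φ k * κ (D * N k / N q)) (∑' d, φ d * (V d : ℂ))) →
    (∀ x : ℝ, 0 < x → ‖κ x‖ ≤ 2 * (C0 * T ^ 4) * x ^ (-(5 / 2 : ℝ))) →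
    ∀ m m' : O, SF m → SF m' → IsCoprime m m' → ∃ L : ℂ,
      HasSum (fun k : O => if k = 0 then 0 else ((D / N (m * m') : ℝ) : ℂ) *
        gs (m * m') (psPhi m m') k * κ (D * N k / N (m * m'))) L ∧
      ‖∑' d, psPhi m m' d * (V d : ℂ) - L‖ ≤
        if m = 1 ∧ m' = 1 then Z * C0 * (D / T + Real.sqrt D) else 0 := by
  have hz := summable_N_rpow (σ := 5 / 2) (by norm_num)
  obtain ⟨Z, hZ⟩ : ∃ Z, Z = ∑' n : O, N n ^ (-(5 / 2 : ℝ)) := ⟨_, rfl⟩
  have hZ0 : 0 ≤ Z := hZ ▸ tsum_nonneg fun n => Real.rpow_nonneg (N_nonneg n) _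
  refine ⟨1 + 2 * Z, by positivity, fun V C0 D T κ hC0 hT hD hV hVs hVt hP hκ m m' hm hm' h => ?_⟩
  have hD1 : 1 ≤ D := le_trans (by nlinarith) hD
  have hD0 : 0 < D := by linarith
  split_ifs with h1
  · obtain ⟨rfl, rfl⟩ := h1
    have hb : ∀ k : O, ‖if k = 0 then 0 else ((D / N (1 * 1) : ℝ) : ℂ) *
        gs (1 * 1) (psPhi 1 1) k * κ (D * N k / N (1 * 1))‖ ≤
        2 * C0 * Real.sqrt D * N k ^ (-(5 / 2 : ℝ)) := fun k => by
      have h0 := N_nonneg k
      split_ifs with hk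
      · rw [norm_zero]; positivity
      · have h2 := N_pos hk
        have h3 : ‖gs 1 (psPhi 1 1) k‖ ≤ 1 := by
          simpa using norm_gs_le (q := 1) one_ne_zero (psPhi_le Prim.one Prim.one) k
        have h4 := hκ (D * N k) (by positivity)
        have h5 : T ^ 4 ≤ D ^ 2 := by nlinarith
        have h6 : D * D ^ 2 * D ^ (-(5 / 2 : ℝ)) = Real.sqrt D := by
          rw [← pow_succ', ← Real.rpow_natCast, ← Real.rpow_add hD0, Real.sqrt_eq_rpow]
          norm_num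
        rw [mul_one, N_one, div_one, div_one, norm_mul, norm_mul, Complex.norm_real,
          Real.norm_of_nonneg hD0.le, ← h6]
        rw [Real.mul_rpow hD0.le h0] at h4
        calc _ ≤ D * 1 * (2 * (C0 * D ^ 2) * (D ^ (-(5 / 2 : ℝ)) * N k ^ (-(5 / 2 : ℝ)))) := by
              gcongr
              exact h4.trans (by gcongr)
          _ = _ := by ring
    have hs := Summable.of_norm_bounded (hz.mul_left _) hb
    refine ⟨_, hs.hasSum, (norm_sub_le _ _).trans ?_⟩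
    have h2 := tsum_of_norm_bounded (hz.hasSum.mul_left _) hb
    have h3 : ‖∑' d, psPhi 1 1 d * (V d : ℂ)‖ ≤ ∑' d, V d :=
      tsum_of_norm_bounded hVs.hasSum fun d => by
        rw [norm_mul, Complex.norm_real, Real.norm_of_nonneg (hV d)]
        exact mul_le_of_le_one_left (hV d) (psPhi_le Prim.one Prim.one d)
    rw [← hZ] at h2
    have h4 : 0 ≤ C0 * Z * (D / T) := by positivity
    nlinarith
  · have h0 : cub m 0 = 0 ∨ cub m' 0 = 0 :=
      (not_and_or.1 h1).imp (ps_cub_zero hm.1) (ps_cub_zero hm'.1)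
    refine ⟨_, hP _ _ (mul_ne_zero hm.1.ne_zero hm'.1.ne_zero) (psPhi_per m m') ?_ ?_, by simp⟩
    · rw [ps_gs hm hm' h]
      rcases h0 with h0 | h0 <;> simp [h0]
    · rcases h0 with h0 | h0 <;> simp [psPhi, h0]

/-- **Poisson step.**  `gcd_split3`.  In `Qf3 V S c g`, for `(m,m') ≠ (1,1)` apply the Poisson
formula of `PW` to `φ = cub m · conj (cub m')` modulo `q = m m'` (`gs q φ 0 = 0`, `φ 0 = 0`),
`gs_pair`.  For `m = m' = 1` the term is `|c g|² ∑' V ≤ C₀ (D/T + √D)|c g|²`; add and subtract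
`|c g|² D ∑_{k ≠ 0} κ(D N k)`, which is `≤ C D T⁴ D^{-5/2} ≤ C √D` (line `5/2`, `T² ≤ D`).
For each `k ≠ 0` use the line `σ = sig T (N k/K_g)`, `K_g = B²/(D N(g)²)`:
`(D/√(N m N m')) κ(D N k/(N m N m')) = ∫ μ σ τ · D (D N k)^{-σ-iτ} (N m N m')^{σ-1/2+iτ}` and
`N m = (N n/B)(B/N g)`, so the modulus of the `k`-term is at most
`(D N g/B)(N k/K_g)^{-σ} ∫ ‖μ σ τ‖ ∑_r ‖Xs g r k (σ-1/2+iτ)‖ ‖Xs g r k (σ-1/2-iτ)‖`
(Möbius for `(m,m') = 1`: `sum_mu_coprime`).  AM-GM, `mT T` is even, exchange `∑_k` and `∫`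
(finite sets `R` of `k`, then `HasSum` limit), `dyadic3` for each `τ`. -/
theorem pstep3 (C0 : ℝ) : ∃ C : ℝ, 0 ≤ C ∧ ∀ (V : O → ℝ) (D T B : ℝ), PW V D T C0 → 1 ≤ T →
    T ^ 2 ≤ D → 0 < B → ∀ (S : Finset O) (c : O → ℂ), In S B → ∀ E1 E2 : O → O → ℝ → ℝ,
    (∀ g r τ, 0 ≤ E1 g r τ ∧ 0 ≤ E2 g r τ) →
    (∀ g r, Integrable (fun τ => mT T τ * E1 g r τ) ∧ Integrable (fun τ => mT T τ * E2 g r τ)) →
    (∀ g ∈ sfb (16 * B), ∀ r ∈ sfb (16 * B), ∀ σ ∈ ({1 / 6, 1 / 2, 5 / 2} : Finset ℝ),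
      ∀ τ Y : ℝ, 0 < Y →
      ∑ k ∈ ball Y, ‖Xs S c B g r k (σ - 1 / 2 + τ * Complex.I)‖ ^ 2 ≤
        E1 g r τ * (Y / (B ^ 2 / (D * N g ^ 2))) ^ (1 / 3 : ℝ) +
        E2 g r τ * (Y / (B ^ 2 / (D * N g ^ 2))) ^ 2) →
    ∑' d : O, V d * ‖∑ n ∈ S, c n * cub n d‖ ^ 2 ≤
      C * (D / T + Real.sqrt D) * n2 S c +
      C * (D / B) * ∑ g ∈ sfb (16 * B), ∑ r ∈ sfb (16 * B), N g *
        ∫ τ : ℝ, mT T τ * (E1 g r τ + T ^ 3 * E2 g r τ) := by
  obtain ⟨C, hC, hdual⟩ := ps_dual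
  obtain ⟨Z, hZ, hpair⟩ := ps_pair
  refine ⟨(C + Z) * |C0|, by positivity, fun V D T B hV hT hD hB S c hS E1 E2 hE hEi hX => ?_⟩
  obtain ⟨κ, μ, hP, hμ⟩ := hV.ker
  have hT0 : 0 < T := by linarith
  have hD0 : 0 < D := lt_of_lt_of_le (by positivity) hD
  have hW : 0 < D / T + Real.sqrt D := by positivity
  have hC0 : 0 ≤ C0 := nonneg_of_mul_nonneg_left ((tsum_nonneg hV.nonneg).trans hV.tot) hW
  rw [abs_of_nonneg hC0]
  have hκ : ∀ x : ℝ, 0 < x → ‖κ x‖ ≤ 2 * (C0 * T ^ 4) * x ^ (-(5 / 2 : ℝ)) := fun x hx => by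
    obtain ⟨h1, h2, h3⟩ := hμ (5 / 2) (by simp)
    rw [if_pos rfl] at h2
    rw [h3 x hx]
    exact (ps_int hT0 hx _ h1 h2).2
  have hsub : S ⊆ sfb (16 * B) := fun n hn => mem_sfb.2 ⟨(hS n hn).1, (hS n hn).2.2⟩
  have hI : ∀ g r, 0 ≤ N g * ∫ τ : ℝ, mT T τ * (E1 g r τ + T ^ 3 * E2 g r τ) := fun g r =>
    mul_nonneg (N_nonneg g) (integral_nonneg fun τ => mul_nonneg (ps_mT_nonneg hT0 τ)
      (add_nonneg (hE g r τ).1 (mul_nonneg (by positivity) (hE g r τ).2)))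
  have key : ∀ g ∈ sfb (16 * B), ‖Qf3 V S c g‖ ≤
      Z * C0 * (D / T + Real.sqrt D) * (if g ∈ S then ‖c g‖ ^ 2 else 0) +
      C * C0 * (D / B) * ∑ r ∈ sfb (16 * B), N g *
        ∫ τ : ℝ, mT T τ * (E1 g r τ + T ^ 3 * E2 g r τ) := fun g hg => by
    have hg1 := (mem_sfb.1 hg).1
    have hg0 := hg1.1.ne_zero
    have hL : ∀ n n' : O, ∃ L : ℂ, n ∈ S.filter (fun n => g ∣ n) → n' ∈ S.filter (fun n => g ∣ n) →
        HasSum (fun k : O => if k = 0 then 0 else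
          psC c D g k n n' * κ (D * N k / N (n / g * (n' / g)))) L ∧
        ‖(if IsCoprime (n / g) (n' / g) then c n * conj (c n') *
          ∑' d : O, cub (n / g) d * conj (cub (n' / g) d) * (V d : ℂ) else 0) - L‖ ≤
          if g = n then if g = n' then Z * C0 * (D / T + Real.sqrt D) * ‖c g‖ ^ 2 else 0
          else 0 := fun n n' => by
      have hnn : (0 : ℝ) ≤ if g = n then if g = n' then
          Z * C0 * (D / T + Real.sqrt D) * ‖c g‖ ^ 2 else 0 else 0 := by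
        split_ifs <;> positivity
      by_cases hn : n ∈ S.filter (fun n => g ∣ n)
      swap
      · exact ⟨0, fun h => absurd h hn⟩
      by_cases hn' : n' ∈ S.filter (fun n => g ∣ n)
      swap
      · exact ⟨0, fun _ h => absurd h hn'⟩
      by_cases hc : IsCoprime (n / g) (n' / g)
      swap
      · refine ⟨0, fun _ _ => ⟨?_, ?_⟩⟩
        · simp only [psC, if_neg hc, zero_mul, ite_self]
          exact hasSum_zero
        · rw [if_neg hc, sub_zero, norm_zero]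
          exact hnn
      obtain ⟨h1, h2⟩ := Finset.mem_filter.1 hn
      obtain ⟨h3, h4⟩ := Finset.mem_filter.1 hn'
      obtain ⟨L, h5, h6⟩ := hpair V C0 D T κ hC0 hT hD hV.nonneg hV.summ hV.tot hP hκ _ _
        ((hS n h1).1.div hg1.1 h2).1 ((hS n' h3).1.div hg1.1 h4).1 hc
      refine ⟨c n * conj (c n') * L, fun _ _ => ⟨?_, ?_⟩⟩
      · refine ps_congr (h5.mul_left (c n * conj (c n'))) fun k => ?_
        rw [psC, if_pos hc]
        split_ifs
        · rw [mul_zero]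
        · ring
      · rw [if_pos hc, ← mul_sub, norm_mul]
        split_ifs at h6 with h7
        · have e1 : g = n := by rw [← EuclideanDomain.mul_div_cancel' hg0 h2, h7.1, mul_one]
          have e2 : g = n' := by rw [← EuclideanDomain.mul_div_cancel' hg0 h4, h7.2, mul_one]
          rw [if_pos e1, if_pos e2, norm_mul, Complex.norm_conj, mul_comm]
          refine mul_le_mul h6 (by rw [← e1, ← e2, sq]) (by positivity) (by positivity)
        · exact (mul_nonpos_of_nonneg_of_nonpos (norm_nonneg _) h6).trans hnn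
    choose L hL using hL
    have hs : HasSum (fun k : O => ∑ n ∈ S.filter (fun n => g ∣ n),
        ∑ n' ∈ S.filter (fun n => g ∣ n), if k = 0 then 0 else
          psC c D g k n n' * κ (D * N k / N (n / g * (n' / g))))
        (∑ n ∈ S.filter (fun n => g ∣ n), ∑ n' ∈ S.filter (fun n => g ∣ n), L n n') :=
      hasSum_sum fun n hn => hasSum_sum fun n' hn' => (hL n n' hn hn').1
    have h1 : ‖∑ n ∈ S.filter (fun n => g ∣ n), ∑ n' ∈ S.filter (fun n => g ∣ n), L n n'‖ ≤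
        C * C0 * (D / B) * ∑ r ∈ sfb (16 * B), N g *
          ∫ τ : ℝ, mT T τ * (E1 g r τ + T ^ 3 * E2 g r τ) := by
      refine le_of_tendsto' (Filter.Tendsto.norm hs) fun R => ?_
      refine le_trans (le_of_eq ?_) (hdual C0 D T B κ μ hC0 hD0 hT hB hμ S c hS g hg1 (E1 g) (E2 g)
        (hE g) (hEi g) (hX g hg) (R.filter fun k => k ≠ 0) fun k hk => (Finset.mem_filter.1 hk).2)
      rw [Finset.sum_filter]
      congr 1
      refine Finset.sum_congr rfl fun k _ => ?_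
      by_cases hk : k = 0 <;> simp [hk]
    have h2 : ‖Qf3 V S c g -
        ∑ n ∈ S.filter (fun n => g ∣ n), ∑ n' ∈ S.filter (fun n => g ∣ n), L n n'‖ ≤
        Z * C0 * (D / T + Real.sqrt D) * (if g ∈ S then ‖c g‖ ^ 2 else 0) := by
      rw [Qf3, ← Finset.sum_sub_distrib]
      refine (norm_sum_le _ _).trans ((Finset.sum_le_sum fun n hn => ?_ :
        _ ≤ ∑ n ∈ S.filter (fun n => g ∣ n), if g = n then
          Z * C0 * (D / T + Real.sqrt D) * ‖c g‖ ^ 2 else 0).trans ?_)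
      · rw [← Finset.sum_sub_distrib]
        refine (norm_sum_le _ _).trans ((Finset.sum_le_sum fun n' hn' =>
          (hL n n' hn hn').2).trans ?_)
        split_ifs
        · rw [Finset.sum_ite_eq]
          split_ifs
          · exact le_rfl
          · positivity
        · simp
      · rw [Finset.sum_ite_eq]
        by_cases hgS : g ∈ S <;> simp [hgS]
    linarith [norm_le_norm_add_norm_sub' (Qf3 V S c g)
      (∑ n ∈ S.filter (fun n => g ∣ n), ∑ n' ∈ S.filter (fun n => g ∣ n), L n n')]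
  refine (gcd_split3 hV.nonneg hV.summ hsub c).trans ((Finset.sum_le_sum key).trans ?_)
  rw [Finset.sum_add_distrib, ← Finset.mul_sum, ← Finset.mul_sum, ← Finset.sum_filter,
    Finset.filter_mem_eq_inter, Finset.inter_eq_right.2 hsub]
  have h3 : 0 ≤ n2 S c := Finset.sum_nonneg fun _ _ => sq_nonneg _
  have h4 : 0 ≤ ∑ g ∈ sfb (16 * B), ∑ r ∈ sfb (16 * B), N g *
      ∫ τ : ℝ, mT T τ * (E1 g r τ + T ^ 3 * E2 g r τ) :=
    Finset.sum_nonneg fun g _ => Finset.sum_nonneg fun r _ => hI g r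
  refine add_le_add ?_ ?_
  · change _ * n2 S c ≤ _
    gcongr
    linarith
  · gcongr
    linarith

end Crest.Agent.R12
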