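import Crest.Agent.R12.Basic1
import Crest.Agent.R17.TLS

/-!
# R12 / PStepA : gcd splitting and the dyadic lemma for the Poisson step
-/

set_option autoImplicit false

noncomputable section

open scoped Classical ComplexConjugate Topology
open MeasureTheory Filter

namespace Crest.Agent.R12

open Crest.Agent.R17

/-- the coprime form: `∑_d V d ∑_{(m,m')=1} c(gm) conj c(gm') (d/m)₃ conj (d/m')₃` over the
`m` with `g m ∈ S` -/
def Qf3 (V : O → ℝ) (S : Finset O) (c : O → ℂ) (g : O) : ℂ :=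
  ∑ n ∈ S.filter (fun n => g ∣ n), ∑ n' ∈ S.filter (fun n => g ∣ n),
    if IsCoprime (n / g) (n' / g) then
      c n * conj (c n') * ∑' d : O, cub (n / g) d * conj (cub (n' / g) d) * (V d : ℂ) else 0

/-- the primary gcd of a squarefree primary `h` with an arbitrary `d` -/
theorem psa_exists_G {h : O} (hh : SF h) (d : O) :
    ∃ G t, Prim G ∧ Prim t ∧ h = G * t ∧ G ∣ d ∧ IsCoprime d t := by
  have hga := EuclideanDomain.gcd_dvd_left h d
  have hgb := EuclideanDomain.gcd_dvd_right h d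
  have hbez := EuclideanDomain.gcd_eq_gcd_ab h d
  obtain ⟨u, hu, hp⟩ := exists_unit_mul_prim (hh.1.isCoprime_three.of_isCoprime_of_dvd_left hga)
  obtain ⟨t, ht⟩ := hu.mul_left_dvd.2 hga
  obtain ⟨d', hd'⟩ := hu.mul_left_dvd.2 hgb
  have hs : Squarefree (u * EuclideanDomain.gcd h d * t) := ht ▸ hh.2
  have h1 : IsCoprime (u * EuclideanDomain.gcd h d) t := (squarefree_mul_iff.1 hs).1.isCoprime
  have h2 : IsCoprime d' t := by
    refine ⟨u * EuclideanDomain.gcdB h d, u * EuclideanDomain.gcdA h d, ?_⟩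
    apply mul_left_cancel₀ hp.ne_zero
    generalize EuclideanDomain.gcdA h d = x at *
    generalize EuclideanDomain.gcdB h d = y at *
    generalize EuclideanDomain.gcd h d = g at *
    linear_combination -u * x * ht - u * y * hd' - u * hbez
  refine ⟨_, t, hp, Prim.of_mul_left (ht ▸ hh.1) hp, ht, ⟨d', hd'⟩, ?_⟩
  rw [hd']
  exact h1.mul_left h2

theorem psa_uniq_G {G t G' t' d : O} (hG : Prim G) (hG' : Prim G') (e : G * t = G' * t')
    (h1 : G ∣ d) (h2 : IsCoprime d t) (h1' : G' ∣ d) (h2' : IsCoprime d t') : G = G' := by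
  refine hG.eq_of_associated hG' (associated_of_dvd_dvd ?_ ?_)
  · exact (h2'.of_isCoprime_of_dvd_left h1).dvd_of_dvd_mul_right ⟨t, e.symm⟩
  · exact (h2.of_isCoprime_of_dvd_left h1').dvd_of_dvd_mul_right ⟨t', e⟩

/-- the pointwise identity: both sides are `cub a d conj (cub a' d)` where `n = h a`, `n' = h a'`,
`h` the primary gcd. -/
theorem psa_pair {X : ℝ} {n n' : O} (hn : n ∈ sfb X) (hn' : n' ∈ sfb X) (d : O) :
    ∑ g ∈ sfb X, (if g ∣ n ∧ g ∣ n' ∧ IsCoprime (n / g) (n' / g) then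
        cub (n / g) d * conj (cub (n' / g) d) else 0) =
      ∑ G ∈ sfb X, (if G ∣ d ∧ G ∣ n ∧ G ∣ n' then
        cub (n / G) d * conj (cub (n' / G) d) else 0) := by
  obtain ⟨h1, h2⟩ := mem_sfb.1 hn
  obtain ⟨h1', -⟩ := mem_sfb.1 hn'
  obtain ⟨h, a, a', hh, ha, ha', e, e', hc⟩ := exists_prim_gcd h1.1 h1'.1
  have hhs : SF h := h1.of_dvd hh ⟨a, e⟩
  have hdv : ∀ g, g ∣ n → g ∣ n' → g ∣ h := by
    intro g a1 a2
    obtain ⟨x, y, hxy⟩ := hc
    have : h = x * n + y * n' := by rw [e, e']; linear_combination -h * hxy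
    rw [this]
    exact (a1.mul_left x).add (a2.mul_left y)
  have hmem : ∀ g, Prim g → g ∣ h → g ∈ sfb X := fun g hg hd =>
    mem_sfb.2 ⟨hhs.of_dvd hg hd, le_trans (N_le_of_dvd h1.1.ne_zero (hd.trans ⟨a, e⟩)) h2⟩
  obtain ⟨G, t, hG, ht, eh, hGd, hdt⟩ := psa_exists_G hhs d
  have hdiv : ∀ {g s b : O}, Prim g → g * s * b / g = s * b := fun hg => by
    rw [mul_assoc, mul_div_cancel_left₀ _ hg.ne_zero]
  rw [Finset.sum_eq_single_of_mem h (hmem h hh dvd_rfl),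
    Finset.sum_eq_single_of_mem G (hmem G hG ⟨t, eh⟩)]
  · have e1 : n / h = a := by rw [e, mul_div_cancel_left₀ _ hh.ne_zero]
    have e2 : n' / h = a' := by rw [e', mul_div_cancel_left₀ _ hh.ne_zero]
    have e3 : n / G = t * a := by rw [e, eh, hdiv hG]
    have e4 : n' / G = t * a' := by rw [e', eh, hdiv hG]
    have hG1 : G ∣ h := ⟨t, eh⟩
    rw [if_pos ⟨⟨a, e⟩, ⟨a', e'⟩, by rw [e1, e2]; exact hc⟩,
      if_pos ⟨hGd, hG1.trans ⟨a, e⟩, hG1.trans ⟨a', e'⟩⟩, e1, e2, e3, e4, rkub_mul_left ht ha,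
      rkub_mul_left ht ha', map_mul]
    have e5 : cub t d * conj (cub t d) = 1 := by
      rw [Complex.mul_conj', (rcub_isChar ht).norm_eq_one ht.ne_zero hdt]
      simp
    linear_combination -(cub a d * conj (cub a' d)) * e5
  · intro g hg hne
    split_ifs with hc'
    · obtain ⟨a1, a2, a3⟩ := hc'
      have hgp := (mem_sfb.1 hg).1.1
      obtain ⟨s, es⟩ := hdv g a2 a3
      have hs : Prim s := Prim.of_mul_left (es ▸ hh) hgp
      have e3 : n / g = s * a := by rw [e, es, hdiv hgp]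
      have e5 : cub s d = 0 := by
        rw [(rcub_isChar hs).zero_iff]
        intro h5
        exact hne (psa_uniq_G hgp hG (es.symm.trans eh) a1 h5 hGd hdt)
      rw [e3, rkub_mul_left hs ha, e5, zero_mul, zero_mul]
    · rfl
  · intro g hg hne
    rw [if_neg]
    rintro ⟨a1, a2, x, y, hxy⟩
    have hgp := (mem_sfb.1 hg).1.1
    refine hne (hgp.eq_of_associated hh (associated_of_dvd_dvd (hdv g a1 a2) ?_))
    have b1 := EuclideanDomain.mul_div_cancel' hgp.ne_zero a1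
    have b2 := EuclideanDomain.mul_div_cancel' hgp.ne_zero a2
    have : g = x * n + y * n' := by linear_combination -g * hxy + x * b1 + y * b2
    rw [this]
    exact (Dvd.dvd.mul_left ⟨a, e⟩ x).add (Dvd.dvd.mul_left ⟨a', e'⟩ y)

/-- `P_G(d)` -/
def psaP (S : Finset O) (c : O → ℂ) (G d : O) : ℝ :=
  ‖∑ n ∈ S.filter (fun n => G ∣ n), c n * cub (n / G) d‖ ^ 2

/-- `Q_g(d)` -/
def psaQ (S : Finset O) (c : O → ℂ) (g d : O) : ℂ :=
  ∑ n ∈ S.filter (fun n => g ∣ n), ∑ n' ∈ S.filter (fun n => g ∣ n),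
    if IsCoprime (n / g) (n' / g) then
      c n * conj (c n') * (cub (n / g) d * conj (cub (n' / g) d)) else 0

theorem psa_sum {S : Finset O} {X : ℝ} (hS : S ⊆ sfb X) (c : O → ℂ) (d : O) :
    ∑ g ∈ sfb X, psaQ S c g d =
      ((∑ G ∈ sfb X, if G ∣ d then psaP S c G d else 0 : ℝ) : ℂ) := by
  have e1 : ∀ g, psaQ S c g d = ∑ n ∈ S, ∑ n' ∈ S, c n * conj (c n') *
      (if g ∣ n ∧ g ∣ n' ∧ IsCoprime (n / g) (n' / g) then
        cub (n / g) d * conj (cub (n' / g) d) else 0) := by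
    intro g
    rw [psaQ, Finset.sum_filter]
    refine Finset.sum_congr rfl fun n _ => ?_
    by_cases a1 : g ∣ n
    · rw [if_pos a1, Finset.sum_filter]
      refine Finset.sum_congr rfl fun n' _ => ?_
      by_cases a2 : g ∣ n' <;> by_cases a3 : IsCoprime (n / g) (n' / g) <;> simp [a1, a2, a3]
    · simp [a1]
  have e2 : ∀ G, (((if G ∣ d then psaP S c G d else 0 : ℝ)) : ℂ) =
      ∑ n ∈ S, ∑ n' ∈ S, c n * conj (c n') *
      (if G ∣ d ∧ G ∣ n ∧ G ∣ n' then cub (n / G) d * conj (cub (n' / G) d) else 0) := by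
    intro G
    by_cases a0 : G ∣ d
    · rw [if_pos a0, psaP, Complex.ofReal_pow, ← Complex.mul_conj', map_sum, Finset.sum_mul_sum,
        Finset.sum_filter]
      refine Finset.sum_congr rfl fun n _ => ?_
      by_cases a1 : G ∣ n
      · rw [if_pos a1, Finset.sum_filter]
        refine Finset.sum_congr rfl fun n' _ => ?_
        by_cases a2 : G ∣ n'
        · rw [if_pos a2, if_pos ⟨a0, a1, a2⟩, map_mul]
          ring
        · simp [a2]
      · simp [a1]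
    · simp [a0]
  rw [Complex.ofReal_sum]
  simp_rw [e1, e2]
  rw [Finset.sum_comm, Finset.sum_comm (s := sfb X)]
  refine Finset.sum_congr rfl fun n hn => ?_
  rw [Finset.sum_comm, Finset.sum_comm (s := sfb X)]
  refine Finset.sum_congr rfl fun n' hn' => ?_
  rw [← Finset.mul_sum, ← Finset.mul_sum, psa_pair (hS hn) (hS hn')]

theorem psa_hasSum {V : O → ℝ} (hV : ∀ d, 0 ≤ V d) (hs : Summable V) {S : Finset O} {X : ℝ}
    (hS : S ⊆ sfb X) (c : O → ℂ) {g : O} (hg : Prim g) :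
    HasSum (fun d => psaQ S c g d * (V d : ℂ)) (Qf3 V S c g) := by
  unfold psaQ Qf3
  simp_rw [Finset.sum_mul]
  refine hasSum_sum fun n hn => hasSum_sum fun n' hn' => ?_
  rw [Finset.mem_filter] at hn hn'
  have h1 := (mem_sfb.1 (hS hn.1)).1.1.div hg hn.2
  have h2 := (mem_sfb.1 (hS hn'.1)).1.1.div hg hn'.2
  split_ifs
  · simp_rw [mul_assoc (c n * conj (c n'))]
    refine HasSum.mul_left _ (Summable.hasSum ?_)
    refine Summable.of_norm_bounded hs fun d => ?_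
    rw [norm_mul, norm_mul, Complex.norm_conj, Complex.norm_real, Real.norm_of_nonneg (hV d)]
    have a1 := (rcub_isChar h1).norm_le h1.ne_zero d
    have a2 := (rcub_isChar h2).norm_le h2.ne_zero d
    have a3 := hV d
    calc _ ≤ 1 * 1 * V d := by gcongr
      _ = _ := by ring
  · simp only [zero_mul]
    exact hasSum_zero

/-- Cubic, finite version of `R17.gcd_split` (copy the idea from `TLS.lean`).  For fixed `d` put
`P_G = |∑_{G ∣ n} c(n) cub (n/G) d|² ≥ 0`.  By Möbius over `r = gcd(m,m')`,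
`Q_g(d) := ∑_{(m,m')=1} c(gm) conj c(gm') cub m d conj cub m' d = ∑_r μ(r) 1_{(r,d)=1} P_{gr}`, so
`∑_g Q_g(d) = ∑_G P_G ∑_{r ∣ G, (r,d)=1} μ(r) ≥ P_1` (the inner sum is `0` or `1`, and `1` for
`G = 1`).  Multiply by `V d ≥ 0`, sum over `d`, take real parts. -/
theorem gcd_split3 {V : O → ℝ} (hV : ∀ d, 0 ≤ V d) (hs : Summable V) {S : Finset O} {X : ℝ}
    (hS : S ⊆ sfb X) (c : O → ℂ) :
    ∑' d : O, V d * ‖∑ n ∈ S, c n * cub n d‖ ^ 2 ≤ ∑ g ∈ sfb X, ‖Qf3 V S c g‖ := by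
  set R : O → ℝ := fun d => ∑ G ∈ sfb X, if G ∣ d then psaP S c G d else 0 with hR
  have h1 : HasSum (fun d => ((V d * R d : ℝ) : ℂ)) (∑ g ∈ sfb X, Qf3 V S c g) := by
    have h := hasSum_sum (s := sfb X) fun g hg => psa_hasSum hV hs hS c (mem_sfb.1 hg).1.1
    convert h using 2 with d
    rw [← Finset.sum_mul, psa_sum hS, Complex.ofReal_mul, mul_comm]
  have h2 : HasSum (fun d => V d * R d) (∑ g ∈ sfb X, Qf3 V S c g).re := by
    simpa using Complex.hasSum_re h1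
  have h3 : ∀ d, V d * ‖∑ n ∈ S, c n * cub n d‖ ^ 2 ≤ V d * R d := by
    intro d
    refine mul_le_mul_of_nonneg_left ?_ (hV d)
    have h0 : ∀ G ∈ sfb X, 0 ≤ (if G ∣ d then psaP S c G d else 0) := by
      intro G _
      split_ifs
      · exact sq_nonneg _
      · exact le_rfl
    rcases S.eq_empty_or_nonempty with h | ⟨n, hn⟩
    · rw [h, Finset.sum_empty, norm_zero, zero_pow two_ne_zero]
      exact Finset.sum_nonneg h0
    · obtain ⟨a1, a2⟩ := mem_sfb.1 (hS hn)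
      have h4 : (1 : O) ∈ sfb X :=
        mem_sfb.2 ⟨b1_sf_one, le_trans (N_le_of_dvd a1.1.ne_zero (one_dvd _)) a2⟩
      refine le_trans (le_of_eq ?_) (Finset.single_le_sum h0 h4)
      rw [if_pos (one_dvd _), psaP, Finset.filter_true_of_mem fun n _ => one_dvd n]
      simp
  have h4 : Summable fun d => V d * ‖∑ n ∈ S, c n * cub n d‖ ^ 2 :=
    Summable.of_nonneg_of_le (fun d => mul_nonneg (hV d) (sq_nonneg _)) h3 h2.summable
  refine (hasSum_le h3 h4.hasSum h2).trans ((Complex.re_le_norm _).trans (norm_sum_le _ _))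

/-- the Gauss sum of `cub m · conj (cub m')` for coprime squarefree primary `m, m'`
(`gs_mul`, `gs_cub`, `conj_gs`, `cub_rec`, `cub_neg_one`) -/
theorem gs_pair {m m' : O} (hm : SF m) (hm' : SF m') (h : IsCoprime m m') (k : O) :
    gs (m * m') (fun d => cub m d * conj (cub m' d)) k =
      (Real.sqrt (N m) : ℂ) * (Real.sqrt (N m') : ℂ) *
        (g3 m * conj (cub m k)) * conj (g3 m' * conj (cub m' k)) := by
  have c1 := rcub_isChar hm.1
  have c2 := rcub_isChar hm'.1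
  have e0 : ∀ {n : O}, SF n → gs n (cub n) 1 = (Real.sqrt (N n) : ℂ) * g3 n := fun hn => by
    rw [g3, mul_div_cancel₀]
    exact Complex.ofReal_ne_zero.2 (Real.sqrt_pos.2 (N_pos hn.1.ne_zero)).ne'
  have e1 : cub m m' * conj (cub m' m) = 1 := by
    rw [← cub_rec hm.1 hm'.1, Complex.mul_conj', c1.norm_eq_one hm.1.ne_zero h.symm]
    simp
  have e2 : gs m' (fun d => conj (cub m' d)) k = conj (gs m' (cub m') (-k)) := by
    rw [conj_gs hm'.1.ne_zero, neg_neg]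
  have e3 : cub m' (-k) = cub m' k := by
    rw [← neg_one_mul, c2.mul, cub_neg_one hm'.1.isCoprime_three, one_mul]
  rw [gs_mul hm.1.ne_zero hm'.1.ne_zero h c1 c2.conj, e1, e2,
    gs_cub hm.1.isCoprime_three hm.2, gs_cub hm'.1.isCoprime_three hm'.2, e3, e0 hm, e0 hm']
  simp only [map_mul, Complex.conj_ofReal]
  ring

/-- the line used for the frequency `x = N k / K` -/
def sig (T x : ℝ) : ℝ := if x ≤ 1 then 1 / 6 else if x ≤ T ^ 2 then 1 / 2 else 5 / 2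

theorem psa_geo0 {α : Type*} [LinearOrder α] {f : α → ℝ} {q : ℝ} (hq0 : 0 ≤ q) (hq : q < 1)
    (hf0 : ∀ i, 0 ≤ f i) (hf : ∀ i j, i < j → f i ≤ q * f j) (I : Finset α) :
    ∀ M, 0 ≤ M → (∀ i ∈ I, f i ≤ M) → ∑ i ∈ I, f i ≤ M / (1 - q) := by
  have h1 : 0 < 1 - q := by linarith
  induction I using Finset.induction_on_max with
  | empty => intro M hM _; rw [Finset.sum_empty]; positivity
  | insert a s hs ih =>
    intro M hM h
    rw [Finset.sum_insert fun ha => lt_irrefl _ (hs a ha)]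
    have h2 := ih (q * f a) (mul_nonneg hq0 (hf0 a)) fun i hi => hf i a (hs i hi)
    have h3 := h a (Finset.mem_insert_self _ _)
    calc _ ≤ f a + q * f a / (1 - q) := by linarith
      _ = f a / (1 - q) := by field_simp; ring
      _ ≤ _ := by gcongr

/-- geometric sums over `ℤ` -/
theorem psa_geo {ρ : ℝ} (hρ : ρ ≠ 0) : ∃ C : ℝ, 0 ≤ C ∧ ∀ (I : Finset ℤ) (M : ℝ), 0 ≤ M →
    (∀ i ∈ I, ((2 : ℝ) ^ i) ^ ρ ≤ M) → ∑ i ∈ I, ((2 : ℝ) ^ i) ^ ρ ≤ C * M := by
  have hf0 : ∀ i : ℤ, 0 ≤ ((2 : ℝ) ^ i) ^ ρ := fun i => by positivity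
  rcases lt_or_gt_of_ne hρ with h | h
  · have hq : (2 : ℝ) ^ ρ < 1 := Real.rpow_lt_one_of_one_lt_of_neg (by norm_num) h
    refine ⟨1 / (1 - 2 ^ ρ), div_nonneg zero_le_one (by linarith), fun I M hM hI => ?_⟩
    have := psa_geo0 (α := ℤᵒᵈ) (f := fun i : ℤ => ((2 : ℝ) ^ i) ^ ρ) (q := 2 ^ ρ) (by positivity)
      hq hf0 (fun (i j : ℤ) (hij : j < i) => ?_) I M hM hI
    · rw [one_div_mul_eq_div]
      exact this
    · rw [← Real.mul_rpow (by norm_num) (by positivity)]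
      refine Real.rpow_le_rpow_of_nonpos (by positivity) ?_ h.le
      rw [mul_comm, ← zpow_add_one₀ (by norm_num)]
      exact zpow_le_zpow_right₀ (by norm_num) hij
  · have hq : (2⁻¹ : ℝ) ^ ρ < 1 := Real.rpow_lt_one (by norm_num) (by norm_num) h
    refine ⟨1 / (1 - 2⁻¹ ^ ρ), div_nonneg zero_le_one (by linarith), fun I M hM hI => ?_⟩
    have := psa_geo0 (α := ℤ) (f := fun i : ℤ => ((2 : ℝ) ^ i) ^ ρ) (q := 2⁻¹ ^ ρ) (by positivity)
      hq hf0 (fun i j hij => ?_) I M hM hI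
    · rw [one_div_mul_eq_div]
      exact this
    · rw [← Real.mul_rpow (by norm_num) (by positivity)]
      refine Real.rpow_le_rpow (by positivity) ?_ h.le
      rw [mul_comm, ← zpow_sub_one₀ (by norm_num)]
      exact zpow_le_zpow_right₀ (by norm_num) (by omega)

/-- the shell of `k` -/
def psaCl (K : ℝ) (k : O) : ℤ := Int.clog 2 (N k / K)

theorem psa_le_cl (K : ℝ) (k : O) : N k / K ≤ (2 : ℝ) ^ psaCl K k := by
  exact_mod_cast Int.self_le_zpow_clog (b := 2) (by norm_num) (N k / K)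

theorem psa_cl_le {K : ℝ} (hK : 0 < K) {k : O} (hk : k ≠ 0) :
    (2 : ℝ) ^ psaCl K k ≤ 2 * (N k / K) := by
  have h := Int.zpow_pred_clog_lt_self (b := 2) (by norm_num) (div_pos (N_pos hk) hK)
  rw [zpow_sub_one₀ (by norm_num)] at h
  push_cast at h
  unfold psaCl
  linarith

theorem psa_shell {a : O → ℝ} (ha : ∀ k, 0 ≤ a k) {K σ E1 E2 : ℝ} (hK : 0 < K) (hσ : 0 ≤ σ)
    (hB : ∀ Y : ℝ, 0 < Y → ∑ k ∈ ball Y, a k ≤ E1 * (Y / K) ^ (1 / 3 : ℝ) + E2 * (Y / K) ^ 2)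
    (R : Finset O) (hR : ∀ k ∈ R, k ≠ 0) :
    ∑ k ∈ R, (N k / K) ^ (-σ) * a k ≤
      2 ^ σ * (E1 * ∑ i ∈ R.image (psaCl K), ((2 : ℝ) ^ i) ^ (1 / 3 - σ) +
        E2 * ∑ i ∈ R.image (psaCl K), ((2 : ℝ) ^ i) ^ (2 - σ)) := by
  rw [← Finset.sum_fiberwise_of_maps_to (t := R.image (psaCl K)) (g := psaCl K)
    fun k hk => Finset.mem_image_of_mem _ hk, Finset.mul_sum, Finset.mul_sum,
    ← Finset.sum_add_distrib, Finset.mul_sum]
  refine Finset.sum_le_sum fun i _ => ?_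
  have hi : (0 : ℝ) < 2 ^ i := by positivity
  have h1 : ∑ k ∈ R.filter (fun k => psaCl K k = i), (N k / K) ^ (-σ) * a k ≤
      (2 ^ σ * ((2 : ℝ) ^ i) ^ (-σ)) * ∑ k ∈ ball (2 ^ i * K), a k := by
    refine le_trans (Finset.sum_le_sum (g := fun k => (2 ^ σ * ((2 : ℝ) ^ i) ^ (-σ)) * a k)
      fun k hk => ?_) ?_
    · obtain ⟨h1, rfl⟩ := Finset.mem_filter.1 hk
      refine mul_le_mul_of_nonneg_right ?_ (ha k)
      have h2 := psa_cl_le hK (hR k h1)
      have h3 : (N k / K) ^ (-σ) ≤ (2⁻¹ * (2 : ℝ) ^ psaCl K k) ^ (-σ) :=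
        Real.rpow_le_rpow_of_nonpos (by positivity) (by linarith) (by linarith)
      rwa [Real.mul_rpow (by norm_num) (by positivity), Real.inv_rpow (by norm_num),
        ← Real.rpow_neg (by norm_num), neg_neg] at h3
    · rw [← Finset.mul_sum]
      refine mul_le_mul_of_nonneg_left (Finset.sum_le_sum_of_subset_of_nonneg (fun k hk => ?_)
        fun k _ _ => ha k) (by positivity)
      obtain ⟨h1, rfl⟩ := Finset.mem_filter.1 hk
      exact mem_ball.2 ⟨hR k h1, (div_le_iff₀ hK).1 (psa_le_cl K k)⟩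
  refine h1.trans ?_
  have h2 := hB (2 ^ i * K) (by positivity)
  rw [mul_div_cancel_right₀ _ hK.ne'] at h2
  rw [mul_assoc]
  refine mul_le_mul_of_nonneg_left ?_ (by positivity)
  refine (mul_le_mul_of_nonneg_left h2 (by positivity)).trans (le_of_eq ?_)
  rw [sub_eq_add_neg, sub_eq_add_neg, Real.rpow_add hi, Real.rpow_add hi, Real.rpow_two]
  ring

theorem psa_fin {E1 E2 U C1 C2 C3 C4 C5 C6 x y z : ℝ} (h1 : 0 ≤ E1) (h2 : 0 ≤ E2) (hU : 1 ≤ U)
    (hC1 : 0 ≤ C1) (hC2 : 0 ≤ C2) (hC3 : 0 ≤ C3) (hC4 : 0 ≤ C4) (hC5 : 0 ≤ C5) (hC6 : 0 ≤ C6)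
    (v1 : x ≤ 8 * (E1 * (C1 * 4) + E2 * (C2 * 4)))
    (v2 : y ≤ 8 * (E1 * (C3 * 1) + E2 * (C4 * (4 * U))))
    (v3 : z ≤ 8 * (E1 * C5 + E2 * (C6 * U))) :
    x + (y + z) ≤ 8 * (4 * (C1 + C2 + C3 + C4 + C5 + C6)) * (E1 + U * E2) := by
  have p1 : E2 * C2 ≤ U * (E2 * C2) := le_mul_of_one_le_left (mul_nonneg h2 hC2) hU
  have q0 : 0 ≤ U * E2 := mul_nonneg (by linarith) h2
  have := mul_nonneg h1 hC1
  have := mul_nonneg h1 hC2
  have := mul_nonneg h1 hC3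
  have := mul_nonneg h1 hC4
  have := mul_nonneg h1 hC5
  have := mul_nonneg h1 hC6
  have := mul_nonneg q0 hC1
  have := mul_nonneg q0 hC2
  have := mul_nonneg q0 hC3
  have := mul_nonneg q0 hC4
  have := mul_nonneg q0 hC5
  have := mul_nonneg q0 hC6
  linarith

/-- Dyadic lemma.  Split `k` into shells `2^i K < N k ≤ 2^{i+1} K` (`i ∈ ℤ`) inside each of the three
ranges; geometric sums `∑_{i<0} 2^{i(1/3-1/6)}`, `∑_{1 ≤ 2^i ≤ T²} 2^{-i/2}(E₁2^{i/3} + E₂4^i)`,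
`T⁴ ∑_{2^i ≥ T²/2} 2^{-5i/2}(E₁2^{i/3} + E₂4^i)`. -/
theorem dyadic3 : ∃ C : ℝ, 0 ≤ C ∧ ∀ (a : ℝ → O → ℝ) (K T E1 E2 : ℝ), 0 < K → 1 ≤ T → 0 ≤ E1 →
    0 ≤ E2 → (∀ σ k, 0 ≤ a σ k) →
    (∀ σ ∈ ({1 / 6, 1 / 2, 5 / 2} : Finset ℝ), ∀ Y : ℝ, 0 < Y →
      ∑ k ∈ ball Y, a σ k ≤ E1 * (Y / K) ^ (1 / 3 : ℝ) + E2 * (Y / K) ^ 2) →
    ∀ R : Finset O, (∀ k ∈ R, k ≠ 0) →
    ∑ k ∈ R, (if sig T (N k / K) = 5 / 2 then T ^ 4 else 1) * (N k / K) ^ (-sig T (N k / K)) *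
      a (sig T (N k / K)) k ≤ C * (E1 + T ^ 3 * E2) := by
  obtain ⟨C1, hC1, g1⟩ := psa_geo (ρ := 1 / 3 - 1 / 6) (by norm_num)
  obtain ⟨C2, hC2, g2⟩ := psa_geo (ρ := 2 - 1 / 6) (by norm_num)
  obtain ⟨C3, hC3, g3⟩ := psa_geo (ρ := 1 / 3 - 1 / 2) (by norm_num)
  obtain ⟨C4, hC4, g4⟩ := psa_geo (ρ := 2 - 1 / 2) (by norm_num)
  obtain ⟨C5, hC5, g5⟩ := psa_geo (ρ := 1 / 3 - 5 / 2) (by norm_num)
  obtain ⟨C6, hC6, g6⟩ := psa_geo (ρ := 2 - 5 / 2) (by norm_num)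
  refine ⟨8 * (4 * (C1 + C2 + C3 + C4 + C5 + C6)), by positivity,
    fun a K T E1 E2 hK hT h1 h2 ha hB R hR => ?_⟩
  have hT0 : 0 < T := by linarith
  have hT2 : 1 ≤ T ^ 2 := one_le_pow₀ hT
  have hT3 : 1 ≤ T ^ 3 := one_le_pow₀ hT
  have h8 : ∀ σ : ℝ, σ ≤ 3 → (2 : ℝ) ^ σ ≤ 8 := fun σ h => by
    have := Real.rpow_le_rpow_of_exponent_le (x := 2) (by norm_num) h
    norm_num at this
    exact this
  have h4 : ∀ σ : ℝ, σ ≤ 2 → (2 : ℝ) ^ σ ≤ 4 := fun σ h => by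
    have := Real.rpow_le_rpow_of_exponent_le (x := 2) (by norm_num) h
    norm_num at this
    exact this
  set R1 := R.filter (fun k => N k / K ≤ 1) with hR1
  set R2 := (R.filter (fun k => ¬ N k / K ≤ 1)).filter (fun k => N k / K ≤ T ^ 2) with hR2
  set R3 := (R.filter (fun k => ¬ N k / K ≤ 1)).filter (fun k => ¬ N k / K ≤ T ^ 2) with hR3
  have n1 : ∀ k ∈ R1, k ≠ 0 := fun k hk => hR k (Finset.mem_filter.1 hk).1
  have n2 : ∀ k ∈ R2, k ≠ 0 := fun k hk => hR k (Finset.mem_filter.1 (Finset.mem_filter.1 hk).1).1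
  have n3 : ∀ k ∈ R3, k ≠ 0 := fun k hk => hR k (Finset.mem_filter.1 (Finset.mem_filter.1 hk).1).1
  have s1 := psa_shell (ha (1 / 6)) hK (σ := 1 / 6) (by norm_num) (hB _ (by simp)) R1 n1
  have s2 := psa_shell (ha (1 / 2)) hK (σ := 1 / 2) (by norm_num) (hB _ (by simp)) R2 n2
  have s3 := psa_shell (ha (5 / 2)) hK (σ := 5 / 2) (by norm_num) (hB _ (by simp)) R3 n3
  have u1 : ∀ i ∈ R1.image (psaCl K), (2 : ℝ) ^ i ≤ 2 := by
    intro i hi
    obtain ⟨k, hk, rfl⟩ := Finset.mem_image.1 hi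
    have := psa_cl_le hK (n1 k hk)
    have := (Finset.mem_filter.1 hk).2
    linarith
  have u2 : ∀ i ∈ R2.image (psaCl K), 1 ≤ (2 : ℝ) ^ i ∧ (2 : ℝ) ^ i ≤ 2 * T ^ 2 := by
    intro i hi
    obtain ⟨k, hk, rfl⟩ := Finset.mem_image.1 hi
    have := psa_cl_le hK (n2 k hk)
    have := psa_le_cl K k
    have := (Finset.mem_filter.1 hk).2
    have := not_le.1 (Finset.mem_filter.1 (Finset.mem_filter.1 hk).1).2
    constructor <;> linarith
  have u3 : ∀ i ∈ R3.image (psaCl K), T ^ 2 ≤ (2 : ℝ) ^ i := by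
    intro i hi
    obtain ⟨k, hk, rfl⟩ := Finset.mem_image.1 hi
    have := psa_le_cl K k
    have := not_le.1 (Finset.mem_filter.1 hk).2
    linarith
  have t1 := g1 (R1.image (psaCl K)) 4 (by norm_num) fun i hi =>
    (Real.rpow_le_rpow (by positivity) (u1 i hi) (by norm_num)).trans (h4 _ (by norm_num))
  have t2 := g2 (R1.image (psaCl K)) 4 (by norm_num) fun i hi =>
    (Real.rpow_le_rpow (by positivity) (u1 i hi) (by norm_num)).trans (h4 _ (by norm_num))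
  have t3 := g3 (R2.image (psaCl K)) 1 (by norm_num) fun i hi =>
    Real.rpow_le_one_of_one_le_of_nonpos (u2 i hi).1 (by norm_num)
  have t4 := g4 (R2.image (psaCl K)) (4 * T ^ 3) (by positivity) fun i hi => by
    refine (Real.rpow_le_rpow (by positivity) (u2 i hi).2 (by norm_num)).trans ?_
    rw [Real.mul_rpow (by norm_num) (by positivity), ← Real.rpow_natCast T 2,
      ← Real.rpow_mul hT0.le, ← Real.rpow_natCast T 3]
    refine mul_le_mul (h4 _ (by norm_num)) (le_of_eq ?_) (by positivity) (by norm_num)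
    norm_num
  have t5 := g5 (R3.image (psaCl K)) (T ^ 4)⁻¹ (by positivity) fun i hi => by
    refine (Real.rpow_le_rpow_of_nonpos (by positivity) (u3 i hi) (by norm_num)).trans ?_
    rw [← Real.rpow_natCast T 2, ← Real.rpow_mul hT0.le, ← Real.rpow_natCast T 4,
      ← Real.rpow_neg hT0.le]
    exact Real.rpow_le_rpow_of_exponent_le hT (by norm_num)
  have t6 := g6 (R3.image (psaCl K)) T⁻¹ (by positivity) fun i hi => by
    refine (Real.rpow_le_rpow_of_nonpos (by positivity) (u3 i hi) (by norm_num)).trans ?_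
    rw [← Real.rpow_natCast T 2, ← Real.rpow_mul hT0.le, ← Real.rpow_neg_one]
    exact Real.rpow_le_rpow_of_exponent_le hT (by norm_num)
  have v1 : ∑ k ∈ R1, (N k / K) ^ (-(1 / 6 : ℝ)) * a (1 / 6) k ≤
      8 * (E1 * (C1 * 4) + E2 * (C2 * 4)) := by
    refine s1.trans ?_
    have := h8 (1 / 6) (by norm_num)
    gcongr
  have v2 : ∑ k ∈ R2, (N k / K) ^ (-(1 / 2 : ℝ)) * a (1 / 2) k ≤
      8 * (E1 * (C3 * 1) + E2 * (C4 * (4 * T ^ 3))) := by
    refine s2.trans ?_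
    have := h8 (1 / 2) (by norm_num)
    gcongr
  have v3 : T ^ 4 * ∑ k ∈ R3, (N k / K) ^ (-(5 / 2 : ℝ)) * a (5 / 2) k ≤
      8 * (E1 * C5 + E2 * (C6 * T ^ 3)) := by
    have := h8 (5 / 2) (by norm_num)
    calc _ ≤ T ^ 4 * (8 * (E1 * (C5 * (T ^ 4)⁻¹) + E2 * (C6 * T⁻¹))) := by
          refine mul_le_mul_of_nonneg_left (s3.trans ?_) (by positivity)
          gcongr
      _ = _ := by field_simp
  rw [← Finset.sum_filter_add_sum_filter_not R (fun k => N k / K ≤ 1),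
    ← Finset.sum_filter_add_sum_filter_not (R.filter fun k => ¬ N k / K ≤ 1)
      (fun k => N k / K ≤ T ^ 2)]
  have w1 : ∑ k ∈ R1, (if sig T (N k / K) = 5 / 2 then T ^ 4 else 1) *
      (N k / K) ^ (-sig T (N k / K)) * a (sig T (N k / K)) k =
      ∑ k ∈ R1, (N k / K) ^ (-(1 / 6 : ℝ)) * a (1 / 6) k := by
    refine Finset.sum_congr rfl fun k hk => ?_
    have e : sig T (N k / K) = 1 / 6 := if_pos (Finset.mem_filter.1 hk).2
    rw [e, if_neg (by norm_num), one_mul]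
  have w2 : ∑ k ∈ R2, (if sig T (N k / K) = 5 / 2 then T ^ 4 else 1) *
      (N k / K) ^ (-sig T (N k / K)) * a (sig T (N k / K)) k =
      ∑ k ∈ R2, (N k / K) ^ (-(1 / 2 : ℝ)) * a (1 / 2) k := by
    refine Finset.sum_congr rfl fun k hk => ?_
    have e : sig T (N k / K) = 1 / 2 := by
      rw [sig, if_neg (Finset.mem_filter.1 (Finset.mem_filter.1 hk).1).2,
        if_pos (Finset.mem_filter.1 hk).2]
    rw [e, if_neg (by norm_num), one_mul]
  have w3 : ∑ k ∈ R3, (if sig T (N k / K) = 5 / 2 then T ^ 4 else 1) *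
      (N k / K) ^ (-sig T (N k / K)) * a (sig T (N k / K)) k =
      T ^ 4 * ∑ k ∈ R3, (N k / K) ^ (-(5 / 2 : ℝ)) * a (5 / 2) k := by
    rw [Finset.mul_sum]
    refine Finset.sum_congr rfl fun k hk => ?_
    have e : sig T (N k / K) = 5 / 2 := by
      rw [sig, if_neg (Finset.mem_filter.1 (Finset.mem_filter.1 hk).1).2,
        if_neg (Finset.mem_filter.1 hk).2]
    rw [e, if_pos rfl, mul_assoc]
  rw [w1, w2, w3]
  exact psa_fin h1 h2 hT3 hC1 hC2 hC3 hC4 hC5 hC6 v1 v2 v3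

end Crest.Agent.R12
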