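import Crest.Agent.R12.TI1
import Crest.Agent.R12.Const

/-!
# R12 / TI2 : type I bound for the defect `ff` (main terms cancel by `resid_const`)
-/

set_option autoImplicit false

noncomputable section

open scoped Classical ComplexConjugate Topology
open MeasureTheory Filter

namespace Crest.Agent.R12

open Crest.Agent.R17

/-- the singular series of squarefree numbers -/
def ser2 (r : O) : ℂ :=
  ∑' d : O, if Prim d then mu d * ((N (EuclideanDomain.gcd r d) / N d ^ 2 : ℝ) : ℂ) else 0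

/-- `phr λ (d³ m) = phr λ m` for primary `d, m` (`cub_cube`-type: `cub (d³m) λ = cub m λ`),
`resid_congr`, `resid_const` -/
theorem ser_phr_lam (r : O) : ser 0 (phr lam) r = ((cP * c0 / 9 / N r : ℝ) : ℂ) * ser2 r := by
  unfold ser ser2
  rw [← tsum_mul_left]
  refine tsum_congr fun d => ?_
  split_ifs with hd
  · rw [resid_congr 0 (φ' := phr lam) fun m hm => ?_, resid_const]
    · push_cast
      ring
    · have := sym_pow_eq (k := 3) (Or.inr (Or.inl rfl)) (n := d) (by exact_mod_cast hd.isCoprime_three) lam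
      rw [if_pos hd.isCoprime_lam.symm] at this
      simp only [phr, if_pos hm, if_pos ((hd.pow 3).mul hm), cub]
      rw [sym_mul_left 3 (hd.pow 3).ne_zero hm.ne_zero, sym_pow_left 3 hd.ne_zero, this, one_mul]
  · rw [mul_zero]

theorem ti2_norm_term (r d : O) : ‖mu d * ((N (EuclideanDomain.gcd r d) / N d ^ 2 : ℝ) : ℂ)‖ ≤
    N (EuclideanDomain.gcd r d) / N d ^ 2 := by
  have h : 0 ≤ N (EuclideanDomain.gcd r d) / N d ^ 2 := div_nonneg (N_nonneg _) (sq_nonneg _)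
  rw [norm_mul, Complex.norm_real, Real.norm_of_nonneg h]
  exact mul_le_of_le_one_left h (norm_mu_le d)

theorem ti2_ser_tail : ∃ C : ℝ, 0 ≤ C ∧ ∀ r : O, Prim r → ∀ Δ : ℝ, 1 ≤ Δ →
    ‖ser2 r - ∑ d ∈ (ball Δ).filter Prim,
      mu d * ((N (EuclideanDomain.gcd r d) / N d ^ 2 : ℝ) : ℂ)‖ ≤ C * dv r / Δ := by
  obtain ⟨C, hC0, hC⟩ := sum_gcd_tail
  refine ⟨C, hC0, fun r hr Δ hΔ => ?_⟩
  set g : O → ℂ := fun d => mu d * ((N (EuclideanDomain.gcd r d) / N d ^ 2 : ℝ) : ℂ) with hg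
  set u : O → ℝ := fun d => if Prim d ∧ Δ < N d then N (EuclideanDomain.gcd r d) / N d ^ 2 else 0 with hu
  have u0 : 0 ≤ u := fun d => by
    simp only [hu]
    split_ifs
    exacts [div_nonneg (N_nonneg _) (sq_nonneg _), le_rfl]
  have key : ∀ S : Finset O, ∑ d ∈ S, u d ≤ C * dv r / Δ := fun S => by
    rw [← Finset.sum_filter]
    exact hC r hr Δ hΔ _ fun d hd => (Finset.mem_filter.1 hd).2
  have hb : ∀ d, ‖if Prim d ∧ Δ < N d then g d else 0‖ ≤ u d := fun d => by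
    simp only [hu]
    split_ifs
    exacts [ti2_norm_term r d, norm_zero.le]
  have hs := summable_of_sum_le u0 key
  have h1 : HasSum (fun d => if d ∈ (ball Δ).filter Prim then g d else 0)
      (∑ d ∈ (ball Δ).filter Prim, g d) := by
    have := hasSum_sum_of_ne_finset_zero (L := .unconditional O)
      (f := fun d => if d ∈ (ball Δ).filter Prim then g d else 0) (s := (ball Δ).filter Prim)
      fun d hd => if_neg hd
    rwa [Finset.sum_congr rfl fun d hd => if_pos hd] at this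
  have h2 := (h1.add (Summable.of_norm_bounded hs hb).hasSum).tsum_eq
  have h3 : ser2 r = ∑ d ∈ (ball Δ).filter Prim, g d + ∑' d, if Prim d ∧ Δ < N d then g d else 0 := by
    rw [← h2, ser2]
    refine tsum_congr fun d => ?_
    by_cases hd : Prim d
    · by_cases h : Δ < N d
      · simp [hd, mem_ball, h, hg]
      · simp [hd, mem_ball, h, hg, hd.ne_zero, not_lt.1 h]
    · simp [hd]
  rw [h3, add_sub_cancel_left]
  exact (tsum_of_norm_bounded hs.hasSum hb).trans (Real.tsum_le_of_sum_le u0 key)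

theorem norm_ser2_le : ∃ C : ℝ, 0 ≤ C ∧ ∀ r, SF r → ‖ser2 r‖ ≤ C * dv r := by
  obtain ⟨C, hC0, hC⟩ := ti2_ser_tail
  refine ⟨C + 18, by positivity, fun r hr => ?_⟩
  have h1 := hC r hr.1 1 le_rfl
  have h2 : ‖∑ d ∈ (ball 1).filter Prim, mu d * ((N (EuclideanDomain.gcd r d) / N d ^ 2 : ℝ) : ℂ)‖ ≤ 18 := by
    refine (norm_sum_le _ _).trans ((Finset.sum_le_card_nsmul _ _ 1 fun d hd => ?_).trans ?_)
    · have hd0 := (Finset.mem_filter.1 hd).2.ne_zero
      have := one_le_N hd0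
      refine (ti2_norm_term r d).trans ?_
      rw [div_le_one (by positivity)]
      nlinarith [N_le_of_dvd hd0 (EuclideanDomain.gcd_dvd_right r d)]
    · have := card_ball_le (X := 1) zero_le_one
      have h3 : (((ball 1).filter Prim).card : ℝ) ≤ (ball 1).card := by
        exact_mod_cast Finset.card_filter_le _ _
      rw [nsmul_eq_mul]
      linarith
  have h3 := one_le_dv hr.1.ne_zero
  have h4 := norm_add_le (ser2 r - ∑ d ∈ (ball 1).filter Prim,
    mu d * ((N (EuclideanDomain.gcd r d) / N d ^ 2 : ℝ) : ℂ))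
    (∑ d ∈ (ball 1).filter Prim, mu d * ((N (EuclideanDomain.gcd r d) / N d ^ 2 : ℝ) : ℂ))
  rw [sub_add_cancel] at h4
  rw [div_one] at h1
  linarith

theorem ti2_winS_le {a : O → ℂ} {v T B : ℝ} {s : ℂ} (h : ∀ S : Finset O, (∀ n ∈ S, n ≠ 0) →
    ∑ n ∈ S, ‖a n‖ * (N n ^ (-s.re) * gw (T * (lg n - v))) ≤ B) : ‖winS a v T s‖ ≤ B := by
  set u : O → ℝ := fun n => if n ≠ 0 then ‖a n‖ * (N n ^ (-s.re) * gw (T * (lg n - v))) else 0 with hu
  have hb : ∀ n, ‖if n = 0 then 0 else a n * (N n : ℂ) ^ (-s) * (gw (T * (lg n - v)) : ℂ)‖ = u n := by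
    intro n
    by_cases hn : n = 0
    · simp [hu, hn]
    · simp only [hu, if_neg hn, if_pos hn]
      rw [norm_mul, norm_mul, Complex.norm_cpow_eq_rpow_re_of_pos (N_pos hn), Complex.norm_real,
        Real.norm_of_nonneg (gw_pos _).le, Complex.neg_re, mul_assoc]
  have u0 : 0 ≤ u := fun n => by rw [← hb]; exact norm_nonneg _
  have key : ∀ S : Finset O, ∑ n ∈ S, u n ≤ B := fun S => by
    rw [← Finset.sum_filter]
    exact h _ fun n hn => (Finset.mem_filter.1 hn).2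
  exact (tsum_of_norm_bounded (summable_of_sum_le u0 key).hasSum fun n => (hb n).le).trans
    (Real.tsum_le_of_sum_le u0 key)

/-- `e_d = d² / (r, d)` -/
def ti2e (r d : O) : O := d * (d / gp r d)

theorem ti2e_spec {r d : O} (hr : SF r) (hd : Prim d) : Prim (ti2e r d) ∧
    (N (ti2e r d))⁻¹ = N (EuclideanDomain.gcd r d) / N d ^ 2 ∧ N (d / gp r d) ^ 2 ≤ N (ti2e r d) ∧
    ∀ k, d ^ 2 ∣ r * k ↔ ti2e r d ∣ k := by
  obtain ⟨h1, h2, h3, h4, h5⟩ := gp_spec hr d
  have hd' := hd.div h1.1 h3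
  have e1 := EuclideanDomain.mul_div_cancel' h1.1.ne_zero h2
  have e2 := EuclideanDomain.mul_div_cancel' h1.1.ne_zero h3
  have p1 := N_pos h1.1.ne_zero
  have p2 := N_pos hd'.ne_zero
  have n2 : N d = N (gp r d) * N (d / gp r d) := by rw [← N_mul, e2]
  refine ⟨hd.mul hd', ?_, ?_, fun k => ?_⟩
  · rw [ti2e, N_mul, ← h4, n2]
    field_simp
  · rw [ti2e, N_mul, sq]
    exact mul_le_mul_of_nonneg_right (N_le_of_dvd hd.ne_zero (EuclideanDomain.div_dvd_of_dvd h3)) p2.le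
  · have e3 : d ^ 2 = gp r d * ti2e r d := by rw [ti2e, mul_left_comm, e2, sq]
    have e4 : r * k = gp r d * (r / gp r d * k) := by rw [← mul_assoc, e1]
    rw [e3, e4, mul_dvd_mul_iff_left h1.1.ne_zero]
    refine ⟨fun h => IsCoprime.dvd_of_dvd_mul_left ?_ h, fun h => h.mul_left _⟩
    exact (h5.mul_right (h5.of_isCoprime_of_dvd_right (EuclideanDomain.div_dvd_of_dvd h3))).symm

/-- the majorant of the tail -/
def ti2psi (v : ℝ) (m : O) : ℝ :=
  if N m ≤ Real.exp (v / 2) then Real.exp (v / 2) * (N m)⁻¹ else Real.exp v * N m ^ (-(2 : ℝ))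

theorem ti2psi_nonneg (v : ℝ) (m : O) : 0 ≤ ti2psi v m := by
  have := N_nonneg m
  unfold ti2psi
  split_ifs <;> positivity

theorem ti2psi_sum : ∃ C : ℝ, 0 ≤ C ∧ ∀ v : ℝ, 0 ≤ v → ∀ S : Finset O, (∀ m ∈ S, m ≠ 0) →
    ∑ m ∈ S, ti2psi v m ≤ C * (Real.exp (v / 2) * (1 + v)) := by
  obtain ⟨C1, h1⟩ := sum_ball_inv
  obtain ⟨C2, h20, h2⟩ := b2_tail (σ := 2) one_lt_two
  refine ⟨|C1| + C2, by positivity, fun v hv S hS => ?_⟩
  have hE := Real.exp_pos (v / 2)
  have a1 := h1 (Real.exp (v / 2)) (Real.one_le_exp (by linarith))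
  have a2 := h2 (Real.exp (v / 2)) hE S
  rw [Real.log_exp] at a1
  rw [show (1 : ℝ) - 2 = -1 by norm_num, Real.rpow_neg_one] at a2
  have a3 : ∑ m ∈ S.filter (fun m => N m ≤ Real.exp (v / 2)), (N m)⁻¹ ≤ |C1| * (1 + v) := by
    refine (Finset.sum_le_sum_of_subset_of_nonneg (fun m hm => ?_)
      fun m _ _ => inv_nonneg.2 (N_nonneg m)).trans (a1.trans ?_)
    · exact mem_ball.2 ⟨hS m (Finset.mem_filter.1 hm).1, (Finset.mem_filter.1 hm).2⟩
    · exact mul_le_mul (le_abs_self _) (by linarith) (by linarith) (abs_nonneg _)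
  have e : Real.exp v = Real.exp (v / 2) * Real.exp (v / 2) := by rw [← Real.exp_add, add_halves]
  calc ∑ m ∈ S, ti2psi v m = Real.exp (v / 2) * ∑ m ∈ S.filter (fun m => N m ≤ Real.exp (v / 2)), (N m)⁻¹ +
        Real.exp v * ∑ m ∈ S, (if Real.exp (v / 2) < N m then N m ^ (-(2 : ℝ)) else 0) := by
        rw [Finset.sum_filter, Finset.mul_sum, Finset.mul_sum, ← Finset.sum_add_distrib]
        refine Finset.sum_congr rfl fun m _ => ?_
        unfold ti2psi
        by_cases h : N m ≤ Real.exp (v / 2)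
        · rw [if_pos h, if_pos h, if_neg (not_lt.2 h), mul_zero, add_zero]
        · rw [if_neg h, if_neg h, if_pos (not_le.1 h), mul_zero, zero_add]
    _ ≤ Real.exp (v / 2) * (|C1| * (1 + v)) + Real.exp v * (C2 * (Real.exp (v / 2))⁻¹) := by
        gcongr
    _ = |C1| * (Real.exp (v / 2) * (1 + v)) + C2 * (Real.exp (v / 2) * 1) := by
        rw [e]; field_simp
    _ ≤ _ := by
        rw [add_mul]
        gcongr
        linarith

/-- window sums over multiples of `e` -/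
theorem ti2_mult : ∃ C : ℝ, 0 ≤ C ∧ ∀ a v T : ℝ, |a| ≤ 12 → 1 ≤ T → ∀ e m : O, e ≠ 0 → m ≠ 0 →
    N m ^ 2 ≤ N e → ∀ S : Finset O, (∀ n ∈ S, n ≠ 0 ∧ e ∣ n) →
    ∑ n ∈ S, N n ^ a * gw (T * (lg n - v)) ≤
      C * Real.exp (a * v) * (Real.exp v / T * (N e)⁻¹ + ti2psi v m) := by
  obtain ⟨C, hC0, hC⟩ := an_pow
  refine ⟨C, hC0, fun a v T ha hT e m he hm hme S hS => ?_⟩
  have pe := N_pos he
  have pm := N_pos hm
  obtain ⟨h1, h2⟩ := hC a (v - lg e) T ha hT (S.image (· / e)) fun n hn => by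
    obtain ⟨k, hk, rfl⟩ := Finset.mem_image.1 hn
    exact (bb_mul_div (hS k hk).1 (hS k hk).2).2.2
  have e1 : ∑ n ∈ S, N n ^ a * gw (T * (lg n - v)) =
      N e ^ a * ∑ n ∈ S.image (· / e), N n ^ a * gw (T * (lg n - (v - lg e))) := by
    rw [Finset.sum_image fun x hx y hy h => by
      rw [(bb_mul_div (hS x hx).1 (hS x hx).2).1, (bb_mul_div (hS y hy).1 (hS y hy).2).1]
      exact congrArg (e * ·) h, Finset.mul_sum]
    refine Finset.sum_congr rfl fun n hn => ?_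
    obtain ⟨b1, -, b2⟩ := bb_mul_div (hS n hn).1 (hS n hn).2
    have b3 : N n = N e * N (n / e) := by rw [← N_mul, ← b1]
    unfold lg
    rw [b3, Real.mul_rpow pe.le (N_nonneg _), Real.log_mul pe.ne' (N_pos b2).ne', mul_assoc]
    congr 3
    ring
  have e2 : N e ^ a * Real.exp (a * (v - lg e)) = Real.exp (a * v) := by
    rw [Real.rpow_def_of_pos pe, ← Real.exp_add, lg]
    congr 1
    ring
  have e3 : Real.exp (v - lg e) = Real.exp v * (N e)⁻¹ := by
    rw [Real.exp_sub, lg, Real.exp_log pe, div_eq_mul_inv]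
  have pa := Real.rpow_pos_of_pos pe a
  have t0 : 0 ≤ Real.exp v / T * (N e)⁻¹ := by positivity
  rw [e1, ← e2]
  unfold ti2psi
  split_ifs with h
  · have e4 : Real.exp ((v - lg e) / 2) ≤ Real.exp (v / 2) * (N m)⁻¹ := by
      have : 2 * Real.log (N m) ≤ lg e := by
        have := Real.log_le_log (by positivity) hme
        rwa [Real.log_pow] at this
      rw [← Real.exp_log pm, ← Real.exp_neg, ← Real.exp_add]
      exact Real.exp_le_exp.2 (by linarith)
    calc _ ≤ N e ^ a * (C * Real.exp (a * (v - lg e)) *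
          (Real.exp v / T * (N e)⁻¹ + Real.exp (v / 2) * (N m)⁻¹)) := by
          refine mul_le_mul_of_nonneg_left (h1.trans (mul_le_mul_of_nonneg_left
            (add_le_add (le_of_eq ?_) e4) (by positivity))) pa.le
          rw [e3]; ring
      _ = _ := by ring
  · have e4 : Real.exp (v - lg e) ≤ Real.exp v * N m ^ (-(2 : ℝ)) := by
      rw [e3, Real.rpow_neg pm.le, Real.rpow_two]
      gcongr
    calc _ ≤ N e ^ a * (C * Real.exp (a * (v - lg e)) *
          (Real.exp v / T * (N e)⁻¹ + Real.exp v * N m ^ (-(2 : ℝ)))) :=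
          mul_le_mul_of_nonneg_left (h2.trans (mul_le_mul_of_nonneg_left
            (e4.trans (le_add_of_nonneg_left t0)) (by positivity))) pa.le
      _ = _ := by ring

/-- the `d` with `N d > Δ` -/
def ti2D (r : O) (Δ : ℝ) (k : O) : Finset O := (pdiv (r * k)).filter fun d => d ^ 2 ∣ r * k ∧ Δ < N d

/-- the tail -/
def ti2tail (ℓ : ℤ) (r : O) (Δ : ℝ) (k : O) : ℂ :=
  if Prim k then (∑ d ∈ ti2D r Δ k, mu d) * ang (r * k) ^ ℓ else 0

theorem ti2tail_le (ℓ : ℤ) {r : O} (hr : r ≠ 0) (Δ : ℝ) (k : O) :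
    ‖ti2tail ℓ r Δ k‖ ≤ (ti2D r Δ k).card := by
  unfold ti2tail
  split_ifs with hk
  · rw [norm_mul, lw_norm_ang1 ℓ (mul_ne_zero hr hk.ne_zero), mul_one]
    refine (norm_sum_le _ _).trans ((Finset.sum_le_card_nsmul _ _ 1 fun d _ => norm_mu_le d).trans ?_)
    rw [nsmul_eq_mul, mul_one]
  · rw [norm_zero]; positivity

theorem ti2tail_win : ∃ C : ℝ, 0 ≤ C ∧ ∀ (ℓ : ℤ) (r : O), SF r → ∀ (Δ v T : ℝ) (s : ℂ), 1 ≤ Δ → 0 ≤ v →
    1 ≤ T → |s.re| ≤ 4 → ‖winS (ti2tail ℓ r Δ) v T s‖ ≤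
      C * (dv r * Real.exp v / (T * Δ) + dv r * Real.exp (v / 2) * (1 + v)) * Real.exp (-(s.re * v)) := by
  obtain ⟨C1, p1, h1⟩ := ti2_mult
  obtain ⟨C2, p2, h2⟩ := sum_gcd_tail
  obtain ⟨C3, p3, h3⟩ := ti2psi_sum
  refine ⟨C1 * (C2 + C3), by positivity, fun ℓ r hr Δ v T s hΔ hv hT hs => ti2_winS_le fun S hS => ?_⟩
  have hr0 := hr.1.ne_zero
  set w : O → ℝ := fun n => N n ^ (-s.re) * gw (T * (lg n - v)) with hw
  have w0 : ∀ n, 0 ≤ w n := fun n => mul_nonneg (Real.rpow_nonneg (N_nonneg n) _) (gw_pos _).le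
  set A := S.biUnion (ti2D r Δ) with hA
  have hD : ∀ k ∈ S, ∀ d ∈ ti2D r Δ k, Prim d ∧ d ^ 2 ∣ r * k ∧ Δ < N d := fun k hk d hd =>
    ⟨((mem_pdiv (mul_ne_zero hr0 (hS k hk))).1 (Finset.mem_filter.1 hd).1).1, (Finset.mem_filter.1 hd).2⟩
  have hA' : ∀ d ∈ A, Prim d ∧ Δ < N d := fun d hd => by
    obtain ⟨k, hk, h⟩ := Finset.mem_biUnion.1 hd
    exact ⟨(hD k hk d h).1, (hD k hk d h).2.2⟩
  have a1 : ∑ d ∈ A, ti2psi v (d / gp r d) ≤ dv r * (C3 * (Real.exp (v / 2) * (1 + v))) := by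
    have := bb_conv A (fun d hd => (hA' d hd).1.ne_zero) (fun d => {gp r d})
      (fun d _ g hg => by rw [Finset.mem_singleton.1 hg]; exact (gp_spec hr d).2.2.1) (pdiv r)
      (fun g => (A.filter (g ∣ ·)).image (· / g)) (fun _ m => ti2psi v m) (fun _ m => ti2psi_nonneg v m)
      fun d hd g hg => by
        rw [Finset.mem_singleton.1 hg]
        obtain ⟨b1, b2, b3, -⟩ := gp_spec hr d
        exact ⟨(mem_pdiv hr0).2 ⟨b1.1, b2⟩, Finset.mem_image_of_mem _ (Finset.mem_filter.2 ⟨hd, b3⟩)⟩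
    simp only [Finset.sum_singleton] at this
    refine this.trans ?_
    rw [dv, ← nsmul_eq_mul]
    refine Finset.sum_le_card_nsmul _ _ _ fun g _ => h3 v hv _ fun m hm => ?_
    obtain ⟨d, hd, rfl⟩ := Finset.mem_image.1 hm
    exact (bb_mul_div (hA' d (Finset.mem_filter.1 hd).1).1.ne_zero (Finset.mem_filter.1 hd).2).2.2
  have a2 := h2 r hr.1 Δ hΔ A hA'
  have d0 := bb_dv_nonneg r
  calc ∑ n ∈ S, ‖ti2tail ℓ r Δ n‖ * w n ≤ ∑ n ∈ S, ∑ _d ∈ ti2D r Δ n, w n := by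
        refine Finset.sum_le_sum fun n _ => ?_
        rw [Finset.sum_const, nsmul_eq_mul]
        exact mul_le_mul_of_nonneg_right (ti2tail_le ℓ hr0 Δ n) (w0 n)
    _ = ∑ d ∈ A, ∑ n ∈ S.filter (fun n => d ∈ ti2D r Δ n), w n :=
        Finset.sum_comm' fun n d => by
          simp only [hA, Finset.mem_filter, Finset.mem_biUnion]
          exact ⟨fun h => ⟨h, n, h⟩, fun h => h.1⟩
    _ ≤ ∑ d ∈ A, C1 * Real.exp (-s.re * v) * (Real.exp v / T * (N (EuclideanDomain.gcd r d) / N d ^ 2) +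
          ti2psi v (d / gp r d)) := by
        refine Finset.sum_le_sum fun d hd => ?_
        have hd' := (hA' d hd).1
        obtain ⟨b1, b2, b3, b4⟩ := ti2e_spec hr hd'
        rw [← b2]
        refine h1 (-s.re) v T (by rw [abs_neg]; linarith) hT _ _ b1.ne_zero
          (hd'.div (gp_spec hr d).1.1 (gp_spec hr d).2.2.1).ne_zero b3 _ fun n hn => ?_
        obtain ⟨c1, c2⟩ := Finset.mem_filter.1 hn
        exact ⟨hS n c1, (b4 n).1 (hD n c1 d c2).2.1⟩
    _ ≤ C1 * Real.exp (-s.re * v) * (Real.exp v / T * (C2 * dv r / Δ) +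
          dv r * (C3 * (Real.exp (v / 2) * (1 + v)))) := by
        rw [← Finset.mul_sum, Finset.sum_add_distrib, ← Finset.mul_sum]
        gcongr
    _ = C1 * (C2 * (dv r * Real.exp v / (T * Δ)) + C3 * (dv r * Real.exp (v / 2) * (1 + v))) *
          Real.exp (-(s.re * v)) := by
        rw [neg_mul]; field_simp
    _ ≤ _ := by
        have x0 : 0 ≤ dv r * Real.exp v / (T * Δ) := by positivity
        have y0 : 0 ≤ dv r * Real.exp (v / 2) * (1 + v) := by positivity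
        rw [mul_assoc C1 (C2 + C3)]
        gcongr
        nlinarith [mul_nonneg p2 y0, mul_nonneg p3 x0]

theorem ti2_mainW {e : O} (he : e ≠ 0) (p s : ℂ) (v T : ℝ) :
    mainW p s (v - lg e) T = (N e : ℂ) ^ (-(p - s)) * mainW p s v T := by
  unfold mainW lg
  rw [Complex.cpow_def_of_ne_zero (Complex.ofReal_ne_zero.2 (N_pos he).ne'),
    ← Complex.ofReal_log (N_nonneg e), mul_left_comm, ← Complex.exp_add]
  congr 2
  push_cast
  ring

theorem ti2_norm_cpow {e : O} (he : e ≠ 0) (s : ℂ) (v : ℝ) :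
    ‖(N e : ℂ) ^ (-s)‖ * Real.exp (-(s.re * (v - lg e))) = Real.exp (-(s.re * v)) := by
  rw [Complex.norm_cpow_eq_rpow_re_of_pos (N_pos he), Real.rpow_def_of_pos (N_pos he), ← Real.exp_add,
    Complex.neg_re, lg]
  congr 1
  ring

theorem ti2_split (ℓ : ℤ) {r : O} (hr : SF r) (Δ : ℝ) (k : O) :
    (if SF (r * k) then ang (r * k) ^ ℓ else 0) = ti2tail ℓ r Δ k + ∑ d ∈ (ball Δ).filter Prim,
      mu d * dvR (ti2e r d) (prim fun k => ang (r * k) ^ ℓ) k := by
  unfold ti2tail dvR prim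
  by_cases hk : Prim k
  · have hn := hr.1.mul hk
    have h1 := sum_mu_sq hn
    rw [← Finset.sum_filter_add_sum_filter_not _ (fun d => Δ < N d), Finset.filter_filter] at h1
    have h2 : ∑ d ∈ (ball Δ).filter Prim, mu d * (if ti2e r d ∣ k then ang (r * k) ^ ℓ else 0) =
        (∑ d ∈ ((pdiv (r * k)).filter fun d => d ^ 2 ∣ r * k).filter (fun d => ¬ Δ < N d), mu d) *
          ang (r * k) ^ ℓ := by
      simp only [mul_ite, mul_zero]
      rw [← Finset.sum_filter, Finset.sum_mul]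
      refine Finset.sum_congr ?_ fun _ _ => rfl
      ext d
      simp only [Finset.mem_filter, mem_ball, mem_pdiv hn.ne_zero, not_lt]
      constructor
      · rintro ⟨⟨⟨-, b1⟩, b2⟩, b3⟩
        have b4 := ((ti2e_spec hr b2).2.2.2 k).2 b3
        exact ⟨⟨⟨b2, (dvd_pow_self d two_ne_zero).trans b4⟩, b4⟩, b1⟩
      · rintro ⟨⟨⟨b1, -⟩, b2⟩, b3⟩
        exact ⟨⟨⟨b1.ne_zero, b3⟩, b1⟩, ((ti2e_spec hr b1).2.2.2 k).1 b2⟩
    simp only [if_pos hk]
    rw [h2, ti2D, ← add_mul, h1]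
    simp [SF, hn]
  · rw [if_neg fun h => hk (h.1.of_mul_left hr.1)]
    simp [hk]

/-- For primary `k`: `[rk squarefree] = ∑_{d² ∣ rk} μ(d)`, and for squarefree `d`:
`d² ∣ rk ↔ e_d ∣ k`, `e_d = d²/gp r d`.  `N d ≤ Δ`: `winS_dvR`, `lw_prim`.  Missing main terms:
`sum_gcd_tail`.  `N d > Δ`: `an_pow` at `v - lg e_d`, first bound if `N e_d ≤ e^v`; write
`d = g d'` with `g = gp r d ∣ r` (`N e_d = N g N d'²`), `∑_{N d' ≤ e^{v/2}} 1/N d' ≤ C(1+v)`. -/
theorem mu2_win (ℓ : ℤ) : ∃ C : ℝ, 0 ≤ C ∧ ∀ r : O, SF r → ∀ (Δ v T : ℝ) (s : ℂ), 1 ≤ Δ → 0 ≤ v →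
    1 ≤ T → |s.re| ≤ 4 →
    ‖winS (fun k => if SF (r * k) then ang (r * k) ^ ℓ else 0) v T s -
        (if ℓ = 0 then (c0 : ℂ) / 9 * ser2 r else 0) * mainW 1 s v T‖ ≤
      C * (Δ * (T + |s.im|) + dv r * Real.exp v / (T * Δ) + dv r * Real.exp (v / 2) * (1 + v)) *
        Real.exp (-(s.re * v)) := by
  obtain ⟨C1, p1, h1⟩ := lw_prim ℓ
  obtain ⟨C2, p2, h2⟩ := ti2_ser_tail
  obtain ⟨C3, p3, h3⟩ := ti2tail_win
  have c0p : 0 < c0 := by unfold c0; positivity
  refine ⟨18 * C1 + c0 / 9 * C2 * (2 * Real.exp 7) + C3, by positivity,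
    fun r hr Δ v T s hΔ hv hT hs => ?_⟩
  have hr0 := hr.1.ne_zero
  set I := (ball Δ).filter Prim with hI
  set κ : ℂ := if ℓ = 0 then (c0 : ℂ) / 9 else 0 with hκ
  have pA : ∀ d, PolyBd fun k => mu d * dvR (ti2e r d) (prim fun k => ang (r * k) ^ ℓ) k := fun d =>
    vd_poly_smul _ (polyBd_of_le (M := 1) fun k => by
      unfold dvR prim
      split_ifs with _ hk
      · exact (lw_norm_ang1 ℓ (mul_ne_zero hr0 hk.ne_zero)).le
      all_goals simp)
  have pT : PolyBd (ti2tail ℓ r Δ) := ⟨N r, 1, fun k hk => by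
    refine (ti2tail_le ℓ hr0 Δ k).trans ?_
    rw [pow_one, ← N_mul]
    refine le_trans ?_ (card_pdiv_le_N (mul_ne_zero hr0 hk))
    exact_mod_cast Finset.card_filter_le _ _⟩
  have e1 : winS (fun k => if SF (r * k) then ang (r * k) ^ ℓ else 0) v T s =
      winS (ti2tail ℓ r Δ) v T s + ∑ d ∈ I,
        winS (fun k => mu d * dvR (ti2e r d) (prim fun k => ang (r * k) ^ ℓ) k) v T s := by
    rw [← winS_sum I (fun d _ => pA d) v hT, ← winS_add pT (vd_poly_sum I fun d _ => pA d) v hT]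
    congr 1
    funext k
    exact ti2_split ℓ hr Δ k
  have e2 : ∀ d ∈ I, ‖winS (fun k => mu d * dvR (ti2e r d) (prim fun k => ang (r * k) ^ ℓ) k) v T s -
      κ * (mu d * ((N (EuclideanDomain.gcd r d) / N d ^ 2 : ℝ) : ℂ)) * mainW 1 s v T‖ ≤
      C1 * (T + |s.im|) * Real.exp (-(s.re * v)) := by
    intro d hd
    obtain ⟨b1, b2, -, -⟩ := ti2e_spec hr (Finset.mem_filter.1 hd).2
    set e := ti2e r d
    have b3 : (fun m => prim (fun k => ang (r * k) ^ ℓ) (e * m)) =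
        fun m => ang (r * e) ^ ℓ * prim (fun n => ang n ^ ℓ) m := by
      funext m
      unfold prim
      by_cases hm : Prim m
      · rw [if_pos hm, if_pos (b1.mul hm)]
        beta_reduce
        rw [← mul_assoc, ang_mul, mul_zpow]
      · rw [if_neg hm, if_neg fun h => hm (h.of_mul_left b1), mul_zero]
    have b4 : κ * (mu d * ((N (EuclideanDomain.gcd r d) / N d ^ 2 : ℝ) : ℂ)) * mainW 1 s v T =
        mu d * ((N e : ℂ) ^ (-s) * (ang (r * e) ^ ℓ * (κ * mainW 1 s (v - lg e) T))) := by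
      have : (((N e)⁻¹ : ℝ) : ℂ) = (N e : ℂ) ^ (-s) * (N e : ℂ) ^ (-(1 - s)) := by
        rw [← Complex.cpow_add _ _ (Complex.ofReal_ne_zero.2 (N_pos b1.ne_zero).ne'),
          show -s + -(1 - s) = -1 by ring, Complex.cpow_neg_one, Complex.ofReal_inv]
      rw [← b2, ti2_mainW b1.ne_zero, this, hκ]
      split_ifs with h0
      · rw [h0, zpow_zero]; ring
      · ring
    rw [winS_smul, winS_dvR b1.ne_zero, b3, winS_smul, b4, ← mul_sub, ← mul_sub, ← mul_sub, norm_mul,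
      norm_mul, norm_mul, lw_norm_ang1 ℓ (mul_ne_zero hr0 b1.ne_zero), one_mul,
      ← ti2_norm_cpow b1.ne_zero s v]
    refine (mul_le_of_le_one_left (by positivity) (norm_mu_le d)).trans ?_
    refine (mul_le_mul_of_nonneg_left (h1 (v - lg e) T s hT hs) (norm_nonneg _)).trans_eq ?_
    ring
  have e3 : (if ℓ = 0 then (c0 : ℂ) / 9 * ser2 r else 0) = κ * ser2 r := by
    rw [hκ]; split_ifs <;> simp
  have nκ : ‖κ‖ ≤ c0 / 9 := by
    rw [hκ]
    split_ifs
    · rw [norm_div, Complex.norm_real, Real.norm_of_nonneg c0p.le]; simp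
    · rw [norm_zero]; positivity
  have nW := norm_mainW_le (p := 1) (s := s) v hT (by
    have := abs_le.1 hs
    rw [Complex.one_re, abs_le]; constructor <;> linarith)
  have cI : (I.card : ℝ) ≤ 18 * Δ :=
    le_trans (by exact_mod_cast Finset.card_filter_le _ _) (card_ball_le (by linarith))
  have d0 := bb_dv_nonneg r
  have x0 : 0 ≤ Δ * (T + |s.im|) := by positivity
  have y0 : 0 ≤ dv r * Real.exp v / (T * Δ) := by positivity
  have z0 : 0 ≤ dv r * Real.exp (v / 2) * (1 + v) := by positivity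
  calc _ = ‖winS (ti2tail ℓ r Δ) v T s + ∑ d ∈ I,
          (winS (fun k => mu d * dvR (ti2e r d) (prim fun k => ang (r * k) ^ ℓ) k) v T s -
          κ * (mu d * ((N (EuclideanDomain.gcd r d) / N d ^ 2 : ℝ) : ℂ)) * mainW 1 s v T) -
          κ * (ser2 r - ∑ d ∈ I, mu d * ((N (EuclideanDomain.gcd r d) / N d ^ 2 : ℝ) : ℂ)) *
            mainW 1 s v T‖ := by
        rw [e1, e3, Finset.sum_sub_distrib, ← Finset.sum_mul, ← Finset.mul_sum]
        congr 1
        ring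
    _ ≤ C3 * (dv r * Real.exp v / (T * Δ) + dv r * Real.exp (v / 2) * (1 + v)) * Real.exp (-(s.re * v)) +
          18 * Δ * (C1 * (T + |s.im|) * Real.exp (-(s.re * v))) +
          c0 / 9 * (C2 * dv r / Δ) * (2 * Real.exp 7 / T * Real.exp ((1 - s.re) * v)) := by
        refine (norm_sub_le _ _).trans (add_le_add ((norm_add_le _ _).trans (add_le_add
          (h3 ℓ r hr Δ v T s hΔ hv hT hs) ?_)) ?_)
        · refine (norm_sum_le _ _).trans ((Finset.sum_le_card_nsmul _ _ _ e2).trans ?_)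
          rw [nsmul_eq_mul]
          gcongr
        · rw [norm_mul, norm_mul]
          have := h2 r hr.1 Δ hΔ
          rw [Complex.one_re] at nW
          gcongr
    _ = (18 * C1 * (Δ * (T + |s.im|)) + c0 / 9 * C2 * (2 * Real.exp 7) * (dv r * Real.exp v / (T * Δ)) +
          C3 * (dv r * Real.exp v / (T * Δ) + dv r * Real.exp (v / 2) * (1 + v))) *
          Real.exp (-(s.re * v)) := by
        rw [show (1 - s.re) * v = v + -(s.re * v) by ring, Real.exp_add]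
        field_simp
        ring
    _ ≤ _ := by
        have q0 : 0 ≤ c0 / 9 * C2 * (2 * Real.exp 7) := by positivity
        gcongr ?_ * _
        nlinarith [mul_nonneg p1 y0, mul_nonneg p1 z0, mul_nonneg q0 x0, mul_nonneg q0 z0, mul_nonneg p3 x0]

theorem ti2_conj (ℓ : ℤ) {r : O} (hr : r ≠ 0) (v : ℝ) {T : ℝ} (hT : 1 ≤ T) :
    conj (win (dvR r (ff ℓ)) v T) = winS (dvR r (h3 (-ℓ) (phr lam))) v T 0 - cP * ((N r : ℂ) ^ (-(1 / 6 : ℂ)) *
      winS (fun k => if SF (r * k) then ang (r * k) ^ (-ℓ) else 0) (v - lg r) T (1 / 6)) := by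
  set b : O → ℂ := fun n => if SF n then ang n ^ (-ℓ) else 0 with hb
  have p1 : PolyBd (dvR r (h3 (-ℓ) (phr lam))) := polyBd_of_le (M := 1) fun n => by
    unfold dvR h3
    split_ifs with _ hn
    · rw [norm_mul, norm_mul, lw_norm_ang1 _ hn.ne_zero, mul_one, Complex.norm_conj]
      exact mul_le_one₀ (norm_g3_le hn) (norm_nonneg _) (norm_phr_le _ _)
    all_goals simp
  have p2 : PolyBd fun n => dvR r b n * (N n : ℂ) ^ (-(1 / 6 : ℂ)) := ⟨1, 0, fun n hn => by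
    rw [pow_zero, one_mul, norm_mul, Complex.norm_cpow_eq_rpow_re_of_pos (N_pos hn)]
    refine mul_le_one₀ ?_ (Real.rpow_nonneg (N_nonneg n) _)
      (Real.rpow_le_one_of_one_le_of_nonpos (one_le_N hn) (by norm_num))
    simp only [dvR, hb]
    split_ifs
    · exact (lw_norm_ang1 _ hn).le
    all_goals simp⟩
  have e : (fun n => conj (dvR r (ff ℓ) n)) = fun n => dvR r (h3 (-ℓ) (phr lam)) n +
      -cP * (dvR r b n * (N n : ℂ) ^ (-(1 / 6 : ℂ))) := by
    funext n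
    simp only [dvR, hb]
    split_ifs with h1 h2
    · rw [conj_ff, if_pos h2, Complex.ofReal_mul, Complex.ofReal_cpow (N_nonneg n)]
      push_cast
      ring
    · rw [conj_ff, if_neg h2]; ring
    · simp
  rw [win_eq_winS, conj_winS, map_zero, e, winS_add p1 (vd_poly_smul _ p2) v hT, winS_smul, winS_shift,
    zero_add, winS_dvR hr b]
  ring

theorem ti2_cancel (ℓ : ℤ) {r : O} (hr : SF r) (v T : ℝ) :
    ser ℓ (phr lam) r * mainW (5 / 6) 0 v T = cP * ((N r : ℂ) ^ (-(1 / 6 : ℂ)) *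
      ((if ℓ = 0 then (c0 : ℂ) / 9 * ser2 r else 0) * mainW 1 (1 / 6) (v - lg r) T)) := by
  have hr0 := hr.1.ne_zero
  split_ifs with h
  · have e1 : mainW 1 (1 / 6) v T = mainW (5 / 6) 0 v T := by
      unfold mainW
      norm_num
    have e2 : (N r : ℂ)⁻¹ = (N r : ℂ) ^ (-(1 / 6 : ℂ)) * (N r : ℂ) ^ (-(1 - 1 / 6 : ℂ)) := by
      rw [← Complex.cpow_add _ _ (Complex.ofReal_ne_zero.2 (N_pos hr0).ne'),
        show -(1 / 6 : ℂ) + -(1 - 1 / 6) = -1 by ring, Complex.cpow_neg_one]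
    rw [h, ser_phr_lam, ti2_mainW hr0, e1]
    push_cast
    rw [div_eq_mul_inv _ (N r : ℂ), e2]
    ring
  · obtain ⟨C, B0, -, hC⟩ := ser_bound
    rw [(hC ℓ 9 (by decide) ⟨3, by decide⟩ _ phr_lam_per (norm_phr_le _) r hr).2.1 h]
    ring

theorem ti2_tri (W1 Wt W2 M z : ℂ) {c : ℝ} (hc : 0 ≤ c) :
    ‖W1 - c * (z * W2)‖ ≤ ‖Wt‖ + (‖W1 - Wt - c * (z * M)‖ + c * (‖z‖ * ‖W2 - M‖)) := by
  rw [show W1 - c * (z * W2) = Wt + ((W1 - Wt - c * (z * M)) - c * (z * (W2 - M))) by ring]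
  refine (norm_add_le _ _).trans (add_le_add le_rfl ((norm_sub_le _ _).trans_eq ?_))
  rw [norm_mul, norm_mul, Complex.norm_real, Real.norm_of_nonneg hc]

theorem ti2_log (B : ℕ) : ∃ K : ℝ, 0 ≤ K ∧ ∀ v : ℝ, 0 ≤ v → (1 + v) ^ B ≤ K * Real.exp (v / 100) := by
  refine ⟨100 ^ B * B.factorial * Real.exp (1 / 100), by positivity, fun v hv => ?_⟩
  have := Real.pow_div_factorial_le_exp ((1 + v) / 100) (by positivity) B
  rw [div_le_iff₀ (by positivity), div_pow, div_le_iff₀ (by positivity), add_div, Real.exp_add] at this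
  linarith

theorem ti2_num1 {v t ρ n d : ℝ} (hv : 0 ≤ v) (ht : 0 ≤ t) (hn : 0 < n) (hρ : n ≤ Real.exp ρ) (hd : 0 ≤ d)
    (h : 5 / 2 * ρ + 2 * t ≤ 97 / 100 * v) :
    d * (n ^ (3 / 2 : ℝ) * Real.exp t ^ 4 * Real.exp (2 / 3 * ((1 / 6 + 1 / 200) * v - t)) ^ 3 *
      Real.exp (-(v / 2)) + Real.exp (5 / 6 * v) /
        (Real.exp t * Real.exp (2 / 3 * ((1 / 6 + 1 / 200) * v - t)) * n)) ≤
      d * Real.exp ((5 / 6 - 1 / 50) * v - ρ) + d / n * Real.exp ((5 / 6 - 1 / 50) * v) := by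
  rw [mul_add]
  refine add_le_add (mul_le_mul_of_nonneg_left ?_ hd) ?_
  · have : n ^ (3 / 2 : ℝ) ≤ Real.exp (ρ * (3 / 2)) := by
      rw [Real.exp_mul]
      exact Real.rpow_le_rpow hn.le hρ (by norm_num)
    calc _ ≤ Real.exp (ρ * (3 / 2)) * Real.exp t ^ 4 *
          Real.exp (2 / 3 * ((1 / 6 + 1 / 200) * v - t)) ^ 3 * Real.exp (-(v / 2)) := by gcongr
      _ ≤ _ := by
        rw [← Real.exp_nat_mul, ← Real.exp_nat_mul, ← Real.exp_add, ← Real.exp_add, ← Real.exp_add]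
        push_cast
        exact Real.exp_le_exp.2 (by linarith)
  · rw [← Real.exp_add, ← div_div, ← Real.exp_sub, mul_div_assoc', div_mul_eq_mul_div d]
    refine div_le_div_of_nonneg_right (mul_le_mul_of_nonneg_left (Real.exp_le_exp.2 ?_) hd) hn.le
    linarith

theorem ti2_num2 {v t ρ n d : ℝ} (hv : 0 ≤ v) (ht : 0 ≤ t) (hn : 1 ≤ n) (hρ : n ≤ Real.exp ρ) (hd : 1 ≤ d)
    (h1 : t ≤ (1 / 6 + 1 / 1000) * v) (h2 : ρ ≤ 36 / 100 * v) :
    (Real.exp (v / 5) * Real.exp t + d * Real.exp (v - Real.log n) / (Real.exp t * Real.exp (v / 5)) +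
      d * Real.exp ((v - Real.log n) / 2) * (1 + (v - Real.log n))) * Real.exp (-(1 / 6 * v)) ≤
      11 * (d * Real.exp ((5 / 6 - 1 / 50) * v - ρ) + d / n * Real.exp ((5 / 6 - 1 / 50) * v)) := by
  have l0 := Real.log_nonneg hn
  have l1 : Real.log n ≤ ρ := (Real.log_le_iff_le_exp (by linarith)).2 hρ
  have a1 : Real.exp (v / 5) * Real.exp t * Real.exp (-(1 / 6 * v)) ≤
      d * Real.exp ((5 / 6 - 1 / 50) * v - ρ) := by
    rw [← Real.exp_add, ← Real.exp_add]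
    exact (Real.exp_le_exp.2 (by linarith)).trans (le_mul_of_one_le_left (Real.exp_pos _).le hd)
  have a2 : d * Real.exp (v - Real.log n) / (Real.exp t * Real.exp (v / 5)) * Real.exp (-(1 / 6 * v)) ≤
      d / n * Real.exp ((5 / 6 - 1 / 50) * v) := by
    have e : d / n = d * Real.exp (-Real.log n) := by
      rw [Real.exp_neg, Real.exp_log (by linarith), div_eq_mul_inv]
    rw [e, ← Real.exp_add, mul_div_assoc, ← Real.exp_sub, mul_assoc, mul_assoc, ← Real.exp_add,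
      ← Real.exp_add]
    exact mul_le_mul_of_nonneg_left (Real.exp_le_exp.2 (by linarith)) (by linarith)
  have a3 : d * Real.exp ((v - Real.log n) / 2) * (1 + (v - Real.log n)) * Real.exp (-(1 / 6 * v)) ≤
      10 * (d * Real.exp ((5 / 6 - 1 / 50) * v - ρ)) := by
    have : 1 + (v - Real.log n) ≤ 10 * Real.exp (v / 10) := by linarith [Real.add_one_le_exp (v / 10)]
    calc _ ≤ d * Real.exp ((v - Real.log n) / 2) * (10 * Real.exp (v / 10)) * Real.exp (-(1 / 6 * v)) := by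
          gcongr
      _ = 10 * (d * Real.exp ((v - Real.log n) / 2 + v / 10 + -(1 / 6 * v))) := by
          rw [Real.exp_add, Real.exp_add]; ring
      _ ≤ _ := by
          gcongr
          linarith
  have a4 : 0 ≤ d / n * Real.exp ((5 / 6 - 1 / 50) * v) := by positivity
  rw [add_mul, add_mul]
  linarith

/-- **type I.**  `conj_ff`, `conj_winS`: `conj (win (dvR r (ff ℓ))) = winS (dvR r (h3 (-ℓ) (phr λ))) v T 0
- cP N r^{-1/6} winS (k ↦ [SF (rk)] ang(rk)^{-ℓ}) (v - lg r) T (1/6)` (`winS_dvR`, `winS_shift`).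
The main terms cancel (`ser_phr_lam`; `N r^{-1/6} mainW 1 (1/6) (v - lg r) T = mainW (5/6) 0 v T / N r`).
`TI_pt` (`Q₀ = 9`) and `TI_tail` (`ε = 1/1000`) with `Δ^{3/2} = e^{(1/6 + 1/200) v}/T ≥ 1`;
`mu2_win` with `Δ = e^{v/5}`; `sum_dv`, `sum_dv_inv`. -/
theorem TI_f (ℓ : ℤ) : ∃ κ C : ℝ, 0 < κ ∧ 0 ≤ C ∧ ∀ v T R : ℝ, 0 ≤ v → 1 ≤ T →
    T ≤ Real.exp ((1 / 6 + 1 / 1000) * v) → R ≤ Real.exp (36 / 100 * v) →
    R ^ (5 / 2 : ℝ) * T ^ 2 ≤ Real.exp (97 / 100 * v) →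
    ∑ r ∈ sfb R, ‖win (dvR r (ff ℓ)) v T‖ ≤ C * Real.exp ((5 / 6 - κ) * v) := by
  obtain ⟨C1, B0, p1, h1⟩ := TI_pt (-ℓ)
  obtain ⟨C2, p2, h2⟩ := mu2_win (-ℓ)
  obtain ⟨C3, p3, h3'⟩ := TI_tail (1 / 1000) (by norm_num)
  obtain ⟨C4, B4, p4, h4⟩ := sum_dv 1
  obtain ⟨C5, B5, p5, h5⟩ := sum_dv_inv 1
  obtain ⟨K4, q4, k4⟩ := ti2_log B4
  obtain ⟨K5, q5, k5⟩ := ti2_log B5
  have n9 := N_nonneg 9
  have cp := cP_pos
  set K := C1 * N 9 ^ B0 + cP * C2 * 11 with hK
  have K0 : 0 ≤ K := by positivity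
  refine ⟨1 / 250, 2 * C3 + K * (C4 * K4 + C5 * K5), by norm_num, by positivity,
    fun v T R hv hT hTv hR hRT => ?_⟩
  by_cases hR1 : R < 1
  · rw [sfb, ball_eq_empty hR1, Finset.filter_empty, Finset.sum_empty]
    positivity
  push Not at hR1
  obtain ⟨ρ, rfl⟩ : ∃ ρ, R = Real.exp ρ := ⟨Real.log R, (Real.exp_log (by linarith)).symm⟩
  obtain ⟨t, rfl⟩ : ∃ t, T = Real.exp t := ⟨Real.log T, (Real.exp_log (by linarith)).symm⟩
  have hρ0 : 0 ≤ ρ := Real.one_le_exp_iff.1 hR1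
  have ht0 : 0 ≤ t := Real.one_le_exp_iff.1 hT
  rw [Real.exp_le_exp] at hTv hR
  rw [← Real.exp_mul, ← Real.exp_nat_mul, ← Real.exp_add, Real.exp_le_exp] at hRT
  push_cast at hRT
  set Δ := Real.exp (2 / 3 * ((1 / 6 + 1 / 200) * v - t)) with hΔ
  have hΔ1 : 1 ≤ Δ := Real.one_le_exp (by linarith)
  set X := (5 / 6 - 1 / 50) * v with hX
  have key : ∀ r ∈ sfb (Real.exp ρ), ‖win (dvR r (ff ℓ)) v (Real.exp t)‖ ≤
      ‖winS (dvR r (h3tail (-ℓ) (phr lam) Δ)) v (Real.exp t) 0‖ +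
        K * (dv r * Real.exp (X - ρ) + dv r / N r * Real.exp X) := by
    intro r hr
    obtain ⟨hr, hN⟩ := mem_sfb.1 hr
    have hr0 := hr.1.ne_zero
    have hl : lg r ≤ ρ := (Real.log_le_iff_le_exp (N_pos hr0)).2 hN
    have a1 := h1 9 (by decide) ⟨3, by decide⟩ _ phr_lam_per (norm_phr_le _) r hr
      (by rw [show (9 : O) = 3 ^ 2 by decide]; exact hr.1.isCoprime_three.pow_right) Δ v _ 0 hΔ1 hT (by simp)
    have a2 := h2 r hr (Real.exp (v / 5)) (v - lg r) _ (1 / 6) (Real.one_le_exp (by linarith))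
      (by linarith) hT (by norm_num [abs_le])
    have a3 := ti2_norm_cpow hr0 (1 / 6) v
    have re6 : (1 / 6 : ℂ).re = 1 / 6 := by norm_num
    have im6 : (1 / 6 : ℂ).im = 0 := by norm_num
    rw [im6, abs_zero, add_zero] at a2
    rw [Complex.zero_im, Complex.zero_re, abs_zero, add_zero, zero_mul, neg_zero, Real.exp_zero, mul_one,
      mul_assoc] at a1
    have b1 := ti2_num1 hv ht0 (N_pos hr0) hN (bb_dv_nonneg r) (by linarith)
    have b2 := ti2_num2 hv ht0 (one_le_N hr0) hN (one_le_dv hr0) hTv hR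
    rw [← Complex.norm_conj, ti2_conj ℓ hr0 v hT]
    rw [ti2_cancel (-ℓ) hr] at a1
    refine (ti2_tri _ (winS (dvR r (h3tail (-ℓ) (phr lam) Δ)) v (Real.exp t) 0) _
      ((if -ℓ = 0 then (c0 : ℂ) / 9 * ser2 r else 0) * mainW 1 (1 / 6) (v - lg r) (Real.exp t)) _
      cp.le).trans (add_le_add le_rfl ?_)
    rw [hK, add_mul]
    refine add_le_add (a1.trans (mul_le_mul_of_nonneg_left b1 (by positivity))) ?_
    rw [mul_assoc, mul_assoc]
    refine mul_le_mul_of_nonneg_left ((mul_le_mul_of_nonneg_left a2 (norm_nonneg _)).trans ?_) cp.le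
    rw [mul_left_comm, a3, re6, mul_assoc]
    exact mul_le_mul_of_nonneg_left b2 p2
  have t1 := h3' (-ℓ) _ (norm_phr_le lam) (Real.exp ρ) Δ v _ 0 hΔ1 hv hT (by simp)
  have t2 : C3 * Real.exp (1 / 1000 * v) * (Real.exp v * Δ ^ (-(3 / 2 : ℝ)) / Real.exp t + Real.exp (v / 2)) *
      Real.exp (-((0 : ℂ).re * v)) ≤ 2 * C3 * Real.exp ((5 / 6 - 1 / 250) * v) := by
    rw [Complex.zero_re, zero_mul, neg_zero, Real.exp_zero, mul_one, hΔ, ← Real.exp_mul, ← Real.exp_add,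
      ← Real.exp_sub, mul_assoc, mul_add, ← Real.exp_add, ← Real.exp_add, mul_comm 2, mul_assoc C3, two_mul]
    gcongr <;> linarith
  have sub : sfb (Real.exp ρ) ⊆ ball (Real.exp ρ) := Finset.filter_subset _ _
  have s4 : ∑ r ∈ sfb (Real.exp ρ), dv r ≤ C4 * Real.exp ρ * (K4 * Real.exp (v / 100)) := by
    have := h4 _ hR1
    simp only [pow_one, Real.log_exp] at this
    refine (Finset.sum_le_sum_of_subset_of_nonneg sub fun r _ _ => bb_dv_nonneg r).trans (this.trans ?_)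
    refine mul_le_mul_of_nonneg_left (le_trans ?_ (k4 v hv)) (by positivity)
    gcongr
    linarith
  have s5 : ∑ r ∈ sfb (Real.exp ρ), dv r / N r ≤ C5 * (K5 * Real.exp (v / 100)) := by
    have := h5 _ hR1
    simp only [pow_one, Real.log_exp] at this
    refine (Finset.sum_le_sum_of_subset_of_nonneg sub fun r _ _ =>
      div_nonneg (bb_dv_nonneg r) (N_nonneg r)).trans (this.trans ?_)
    refine mul_le_mul_of_nonneg_left (le_trans ?_ (k5 v hv)) (by positivity)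
    gcongr
    linarith
  have s6 : Real.exp (v / 100) * Real.exp X ≤ Real.exp ((5 / 6 - 1 / 250) * v) := by
    rw [← Real.exp_add]
    exact Real.exp_le_exp.2 (by linarith)
  refine (Finset.sum_le_sum key).trans ?_
  rw [Finset.sum_add_distrib, add_mul, ← Finset.mul_sum, Finset.sum_add_distrib, ← Finset.sum_mul,
    ← Finset.sum_mul, mul_assoc K]
  refine add_le_add (t1.trans t2) (mul_le_mul_of_nonneg_left ?_ K0)
  calc _ ≤ C4 * Real.exp ρ * (K4 * Real.exp (v / 100)) * Real.exp (X - ρ) +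
        C5 * (K5 * Real.exp (v / 100)) * Real.exp X := by gcongr
    _ = (C4 * K4 + C5 * K5) * (Real.exp (v / 100) * Real.exp X) := by
        rw [Real.exp_sub]; field_simp
    _ ≤ _ := by gcongr

end Crest.Agent.R12
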