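import Crest.Agent.R12.IIgen
import Crest.Agent.R12.Mod2
import Crest.Agent.R12.Mod3
import Crest.Agent.R12.H2b

/-!
# R12 / TypeIIa : type II bounds, small `T` and rare coefficients
-/

set_option autoImplicit false

noncomputable section

open scoped Classical ComplexConjugate Topology
open MeasureTheory Filter

namespace Crest.Agent.R12

open Crest.Agent.R17

theorem t2a_ang (ℓ : ℤ) (a : O) : ‖ang a ^ ℓ‖ ≤ 1 := by
  by_cases h : a = 0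
  · subst h
    have : ang 0 = 0 := by simp [ang]
    rw [this]
    rcases eq_or_ne ℓ 0 with h | h
    · simp [h]
    · simp [zero_zpow ℓ h]
  · exact (lw_norm_ang1 ℓ h).le

theorem t2a_div {y E : ℝ} (hE : 0 ≤ E) {c : ℝ} (hy : 0 < y) (hc : c ≤ y) (A : ℕ) :
    c * (E / y ^ (A + 1)) ≤ E / y ^ A := by
  calc _ ≤ y * (E / y ^ (A + 1)) := by gcongr
    _ = _ := by rw [pow_succ]; field_simp

/-- `BG_gen` and `BM_gen` together -/
theorem t2a_gen (A A1 C0 : ℕ) {κ : ℝ} (hκ : 0 < κ) : ∃ (C1 A' A2 : ℕ) (y0 : ℝ), ∀ y : ℝ, y0 ≤ y →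
    ∀ (B v T : ℝ) (α γ : O → ℂ), Real.exp (y / 3) * y ^ A2 ≤ B → B ≤ Real.exp (y / 2 + 80) → 1 ≤ T →
    T ≤ y ^ A1 → (∀ a, ‖α a‖ ≤ 1) → nt (sfI (B / 2) (4 * B)) γ ≤ B * y ^ C0 →
    (∀ (h k : O) (s : ℂ), SF h → N h ≤ y ^ C1 → k ≠ 0 → N k ≤ y ^ C1 → |s.re| ≤ 3 →
      |s.im| ≤ y ^ C1 → ‖fam1 (sfI (B / 2) (4 * B)) γ (B / 2) h k s‖ ≤ B / y ^ A') →
    (Real.exp (2 / 5 * y) < B → ∀ (q a : O) (s : ℂ), q ≠ 0 → N q ≤ B ^ κ → |s.re| ≤ 3 →
      |s.im| ≤ B ^ κ → ‖fam2 (sfI (B / 2) (4 * B)) γ (B / 2) q a s‖ ≤ B ^ (1 - κ)) →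
    ‖BG (SA y B) (sfI (B / 2) (4 * B)) α γ v T - cP * BM (SA y B) (sfI (B / 2) (4 * B)) α γ v T‖ ≤
      Real.exp (5 / 6 * y) / y ^ A := by
  obtain ⟨C1, A', A2, y1, h1⟩ := BG_gen (A + 1) A1 C0 hκ
  obtain ⟨C1', A'', y2, h2⟩ := BM_gen (A + 1) A1 C0
  have hc := cP_pos
  refine ⟨max C1 C1', max A' A'', A2, max (max y1 y2) (1 + cP),
    fun y hy B v T α γ b1 b2 b3 b4 b5 b6 b7 b8 => ?_⟩
  rw [max_le_iff, max_le_iff] at hy
  have hy1 : 1 ≤ y := by linarith [hy.2]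
  have b9 : Real.exp (y / 4) ≤ B := ((Real.exp_le_exp.2 (by linarith)).trans
    (le_mul_of_one_le_right (Real.exp_pos _).le (one_le_pow₀ hy1))).trans b1
  have hB : 0 ≤ B := (Real.exp_pos _).le.trans b9
  have key : ∀ c a : ℕ, c ≤ max C1 C1' → a ≤ max A' A'' → ∀ (h k : O) (s : ℂ), SF h → N h ≤ y ^ c →
      k ≠ 0 → N k ≤ y ^ c → |s.re| ≤ 3 → |s.im| ≤ y ^ c →
      ‖fam1 (sfI (B / 2) (4 * B)) γ (B / 2) h k s‖ ≤ B / y ^ a := fun c a hc ha h k s c1 c2 c3 c4 c5 c6 => by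
    have := pow_le_pow_right₀ hy1 hc
    exact (b7 h k s c1 (c2.trans this) c3 (c4.trans this) c5 (c6.trans this)).trans
      (div_le_div_of_nonneg_left hB (by positivity) (pow_le_pow_right₀ hy1 ha))
  have a1 := h1 y hy.1.1 B v T α γ b1 b2 b3 b4 b5 b6 (key _ _ (le_max_left _ _) (le_max_left _ _)) b8
  have a2 := h2 y hy.1.2 B v T α γ b9 b2 b3 b4 b5 b6 (key _ _ (le_max_right _ _) (le_max_right _ _))
  refine (norm_sub_le _ _).trans (le_trans ?_ (t2a_div (Real.exp_pos _).le (by linarith) hy.2 A))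
  rw [norm_mul, Complex.norm_real, Real.norm_of_nonneg hc.le, add_mul, one_mul]
  gcongr

/-- extension by zero -/
def t2aE (B : ℝ) (β : O → ℂ) (b : O) : ℂ := if b ∈ sfI B (2 * B) then β b else 0

theorem t2a_sum {B : ℝ} (hB : 0 < B) (β f : O → ℂ) (p : O → Prop) :
    ∑ b ∈ (sfI (B / 2) (4 * B)).filter p, t2aE B β b * f b =
      ∑ b ∈ (sfI B (2 * B)).filter p, β b * f b := by
  unfold t2aE
  simp only [ite_mul, zero_mul]
  rw [← Finset.sum_filter]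
  refine Finset.sum_congr ?_ fun _ _ => rfl
  ext b
  simp only [Finset.mem_filter, mem_sfI]
  exact ⟨fun h => ⟨h.2, h.1.2⟩, fun h => ⟨⟨⟨h.1.1, by linarith [h.1.2.1], by linarith [h.1.2.2]⟩, h.2⟩, h.1⟩⟩

theorem t2a_BF (ℓ : ℤ) {B : ℝ} (hB : 0 < B) (SA : Finset O) (α β : O → ℂ) (v T : ℝ) :
    BF ℓ SA (sfI B (2 * B)) α β v T = BF ℓ SA (sfI (B / 2) (4 * B)) α (t2aE B β) v T := by
  refine Finset.sum_congr rfl fun a _ => ?_
  have := t2a_sum hB β (fun b => α a * ff ℓ (a * b) * (gw (T * (lg (a * b) - v)) : ℂ)) fun _ => True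
  rw [Finset.filter_true, Finset.filter_true] at this
  refine Eq.trans ?_ (this.symm.trans ?_) <;> exact Finset.sum_congr rfl fun _ _ => by ring

theorem t2a_pw {B : ℝ} (hB : 0 < B) (b : O) (s : ℂ) : pw (B / 2) b s = 2 ^ s * pw B b s := by
  rw [pw, pw, show N b / (B / 2) = 2 * (N b / B) by field_simp, Complex.ofReal_mul,
    Complex.mul_cpow_ofReal_nonneg (by norm_num) (div_nonneg (N_nonneg b) hB.le), Complex.ofReal_ofNat]

theorem t2a_two {s : ℂ} (hs : |s.re| ≤ 3) : ‖(2 : ℂ) ^ s‖ ≤ 8 := by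
  rw [← Complex.ofReal_ofNat, Complex.norm_cpow_eq_rpow_re_of_pos two_pos]
  exact (Real.rpow_le_rpow_of_exponent_le one_le_two (le_of_abs_le hs)).trans_eq (by norm_num)

theorem t2a_fam2 {B : ℝ} (hB : 0 < B) (β u : O → ℂ) (q a : O) {s : ℂ} (hs : |s.re| ≤ 3) :
    ‖fam2 (sfI (B / 2) (4 * B)) (fun b => t2aE B β b * u b) (B / 2) q a s‖ ≤
      8 * ‖fam2 (sfI B (2 * B)) (fun b => β b * u b) B q a s‖ := by
  have e : fam2 (sfI (B / 2) (4 * B)) (fun b => t2aE B β b * u b) (B / 2) q a s =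
      2 ^ s * fam2 (sfI B (2 * B)) (fun b => β b * u b) B q a s := by
    unfold fam2
    simp only [mul_assoc, t2a_pw hB]
    rw [t2a_sum hB, Finset.mul_sum]
    exact Finset.sum_congr rfl fun _ _ => by ring
  rw [e, norm_mul]
  exact mul_le_mul_of_nonneg_right (t2a_two hs) (norm_nonneg _)

/-- `h2` in the range of the statement -/
theorem t2a_h2 (ℓ : ℤ) {κ1 : ℝ} (hκ1 : 0 < κ1) : ∃ κ y0 : ℝ, 0 < κ ∧ 2 * κ ≤ κ1 ∧ ∀ y, y0 ≤ y →
    ∀ (B w : ℝ) (j : ℕ) (F : Multiset ℕ → ℂ) (q a : O) (s : ℂ), Real.exp (y / 4) ≤ B →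
    B ≤ Real.exp (y / 2 + 80) → Real.exp (y / 100 - 1) ≤ 2 ^ j → (∀ M, ‖F M‖ ≤ 1) → ZR j F → q ≠ 0 →
    N q ≤ B ^ κ → |s.re| ≤ 3 → |s.im| ≤ B ^ κ →
    ‖fam2 (sfI (B / 2) (4 * B)) (fun b => t2aE B (bet w F) b * ang b ^ ℓ) (B / 2) q a s‖ +
      B ^ (1 - κ1) ≤ B ^ (1 - κ) := by
  obtain ⟨κ2, C, hκ2, hC, h⟩ := h2 ℓ
  obtain ⟨κ, hκ⟩ : ∃ κ, κ = min κ1 κ2 / 2 := ⟨_, rfl⟩
  have k0 : 0 < κ := by rw [hκ]; positivity
  have k1 : 2 * κ ≤ κ1 := by rw [hκ]; linarith [min_le_left κ1 κ2]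
  have k2 : 2 * κ ≤ κ2 := by rw [hκ]; linarith [min_le_right κ1 κ2]
  refine ⟨κ, max 1400 (4 * (8 * C) / κ), k0, k1, fun y hy B w j F q a s b1 b2 b3 b4 b5 b6 b7 b8 b9 => ?_⟩
  rw [max_le_iff, div_le_iff₀ k0] at hy
  have hB : 1 ≤ B := (Real.one_le_exp (by linarith [hy.1])).trans b1
  have hB0 : 0 < B := by linarith
  have a1 : B ^ κ ≤ B ^ κ2 := Real.rpow_le_rpow_of_exponent_le hB (by linarith)
  have a2 := h B w j F q a s hB b4 b5 (((Real.rpow_le_rpow hB0.le b2 (by norm_num)).trans (by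
    rw [← Real.exp_mul]
    exact Real.exp_le_exp.2 (by linarith [hy.1]))).trans b3) b6 (b7.trans a1) (by linarith) (b9.trans a1)
  have a3 : 8 * C + 1 ≤ B ^ κ := by
    have := Real.rpow_le_rpow (Real.exp_pos _).le b1 k0.le
    rw [← Real.exp_mul] at this
    linarith [Real.add_one_le_exp (y / 4 * κ), hy.2]
  have a4 : B ^ (1 - κ1) ≤ B ^ (1 - 2 * κ) := Real.rpow_le_rpow_of_exponent_le hB (by linarith)
  have a5 : B ^ (1 - κ2) ≤ B ^ (1 - 2 * κ) := Real.rpow_le_rpow_of_exponent_le hB (by linarith)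
  have a6 := t2a_fam2 hB0 (bet w F) (fun b => ang b ^ ℓ) q a b8
  calc _ ≤ 8 * (C * B ^ (1 - 2 * κ)) + B ^ (1 - 2 * κ) :=
        add_le_add (a6.trans (mul_le_mul_of_nonneg_left (a2.trans (by gcongr)) (by norm_num))) a4
    _ = (8 * C + 1) * B ^ (1 - 2 * κ) := by ring
    _ ≤ B ^ κ * B ^ (1 - 2 * κ) := by gcongr
    _ = _ := by rw [← Real.rpow_add hB0]; congr 1; ring

theorem t2a_zero (A A1 : ℕ) : ∃ (Cw A2 : ℕ) (y0 : ℝ), ∀ y : ℝ, y0 ≤ y →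
    ∀ (B w v T : ℝ) (j0 : ℕ) (α : O → ℂ) (F : Multiset ℕ → ℂ), Real.exp (y / 3) * y ^ A2 ≤ B →
    B ≤ Real.exp (y / 2 + 80) → y ^ Cw ≤ w → w ≤ Real.exp (Real.sqrt y) → 1 ≤ T → T ≤ y ^ A1 →
    Real.exp (y / 100 - 1) ≤ 2 ^ j0 → (∀ a, ‖α a‖ ≤ 1) → (∀ M, ‖F M‖ ≤ 1) →
    (Real.exp (2 / 5 * y) < B → ZR j0 F) →
    ‖BF 0 (SA y B) (sfI B (2 * B)) α (bet w F) v T‖ ≤ Real.exp (5 / 6 * y) / y ^ A := by
  obtain ⟨C0, h1⟩ := mdl_nt
  obtain ⟨κ1, hκ1, h2⟩ := mdl_fam2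
  obtain ⟨κ, y1, hκ, k1, h3⟩ := t2a_h2 0 hκ1
  obtain ⟨C1, A', A2, y2, h4⟩ := t2a_gen (A + 1) A1 C0 hκ
  obtain ⟨C2, h5⟩ := mdl_fam1 A' C1
  obtain ⟨y3, h5⟩ := h5 (C2 + 1) (Nat.le_succ _)
  obtain ⟨y4, h1⟩ := h1 (C2 + 1)
  obtain ⟨y5, h2⟩ := h2 (C2 + 1) (Nat.le_add_left _ _)
  obtain ⟨A2', y6, h6⟩ := mdl_BF (A + 1) A1 (C2 + 1) (Nat.le_add_left _ _)
  refine ⟨C1, max A2 A2', max (max (max y1 y2) (max y3 y4)) (max (max y5 y6) 160),
    fun y hy B w v T j0 α F b1 b2 b3 b4 b5 b6 b7 b8 b9 b10 => ?_⟩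
  simp only [max_le_iff] at hy
  obtain ⟨⟨⟨p1, p2⟩, p3, p4⟩, ⟨p5, p6⟩, p7⟩ := hy
  have hy1 : 1 ≤ y := by linarith
  have c1 : ∀ a ≤ max A2 A2', Real.exp (y / 3) * y ^ a ≤ B := fun a ha =>
    (mul_le_mul_of_nonneg_left (pow_le_pow_right₀ hy1 ha) (Real.exp_pos _).le).trans b1
  have c2 : Real.exp (y / 4) ≤ B := by
    have := c1 0 (Nat.zero_le _)
    rw [pow_zero, mul_one] at this
    exact (Real.exp_le_exp.2 (by linarith)).trans this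
  have c3 : B ≤ Real.exp y := b2.trans (Real.exp_le_exp.2 (by linarith))
  have hB : 1 ≤ B := (Real.one_le_exp (by linarith)).trans c2
  have hB0 : 0 < B := by linarith
  have hβ := h2b_bet (w := w) b9
  have a1 := h6 y p6 B v T α (bet w F) (c1 _ (le_max_right _ _)) b2 b5 b6 b8 hβ
  have a2 := h4 y p2 B v T α (gam0 B (bet w F) (y ^ (C2 + 1))) (c1 _ (le_max_left _ _)) b2 b5 b6 b8
    (h1 y p4 B _ c2 c3 hβ).2
    (fun h k s d1 d2 d3 d4 d5 d6 => h5 y p3 B w F h k s c2 c3 b9 b3 b4 d1 d2 d3 d4 d5 d6)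
    fun hb q a s d1 d2 d3 d4 => by
      have e1 : B ^ κ ≤ B ^ κ1 := Real.rpow_le_rpow_of_exponent_le hB (by linarith)
      have e2 := h2 y p5 B (bet w F) q a s c2 c3 hβ d1 (d2.trans e1) d3 (d4.trans e1)
      have e3 := h3 y p1 B w j0 F q a s c2 b2 b7 b9 (b10 hb) d1 d2 d3 d4
      refine le_trans (le_trans (le_of_eq ?_) (norm_sub_le _ _)) ((add_le_add le_rfl e2).trans e3)
      congr 1
      unfold fam2
      rw [← Finset.sum_sub_distrib]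
      refine Finset.sum_congr rfl fun b _ => ?_
      simp only [gam0, t2aE, zpow_zero]
      ring
  have e : BF 0 (SA y B) (sfI (B / 2) (4 * B)) α (t2aE B (bet w F)) v T =
      BF 0 (SA y B) (sfI (B / 2) (4 * B)) α
        (mdl (sfI B (2 * B)) (bet w F) (y ^ (C2 + 1)) (y ^ (C2 + 1))) v T +
      BF 0 (SA y B) (sfI (B / 2) (4 * B)) α (gam0 B (bet w F) (y ^ (C2 + 1))) v T := by
    unfold BF
    simp only [← Finset.sum_add_distrib]
    refine Finset.sum_congr rfl fun a _ => Finset.sum_congr rfl fun b _ => ?_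
    rw [gam0, t2aE]
    ring
  rw [t2a_BF 0 hB0, e, BF_eq 0 (β := gam0 B (bet w F) (y ^ (C2 + 1))) (fun a ha => (bf_mem_SA hB0 ha).1)
    fun b hb => (mem_sfI.1 hb).1]
  simp only [zpow_zero, mul_one]
  refine (norm_add_le _ _).trans ((add_le_add a1 a2).trans ?_)
  rw [← two_mul]
  exact t2a_div (Real.exp_pos _).le (by linarith) (by linarith) A

theorem t2a_rough {h b : O} (hh : SF h) (h1 : h ≠ 1) (hb : b ≠ 0) (hd : h ∣ b) {w : ℝ} (hw : N h ≤ w)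
    (F : Multiset ℕ → ℂ) : bet w F b = 0 := by
  obtain ⟨p, hp⟩ : (pf h).Nonempty := Finset.nonempty_iff_ne_empty.2 fun e => h1 (by
    rw [← hh.prod_pf, e, Finset.prod_empty])
  obtain ⟨p1, p2, p3⟩ := (mem_pf hh.1.ne_zero).1 hp
  refine if_neg fun hr => ?_
  linarith [hr p ((mem_pf hb).2 ⟨p1, p2, p3.trans hd⟩), N_le_of_dvd hh.1.ne_zero p3]

/-- Extend `β` by zero to `S' = sfI (B/2) (4B)`; `pw (B/2) b s = 2^s pw B b s`; `BF_eq`.
`ℓ ≠ 0`: `γ = 1_{(B,2B]} β ang^ℓ`, `swB` (`h = 1`; `h ≠ 1` gives `0` by roughness), `h2`, `sum_dv 3`.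
`ℓ = 0`: `β = β♯ + gam0`; `mdl_BF`; `mdl_nt`, `mdl_fam1`, `mdl_fam2` and `h2 0`
(`2^{j₀} ≥ e^{y/100-1} ≥ B^{1/60}`).  Order of choices: `C₀, κ`, then `C₁, A', A₂`, then `C₂`. -/
theorem typeII_small (ℓ : ℤ) (A A1 : ℕ) : ∃ (Cw A2 : ℕ) (y0 : ℝ), ∀ y : ℝ, y0 ≤ y →
    ∀ (B w v T : ℝ) (j0 : ℕ) (α : O → ℂ) (F : Multiset ℕ → ℂ), Real.exp (y / 3) * y ^ A2 ≤ B →
    B ≤ Real.exp (y / 2 + 80) → y ^ Cw ≤ w → w ≤ Real.exp (Real.sqrt y) → 1 ≤ T → T ≤ y ^ A1 →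
    Real.exp (y / 100 - 1) ≤ 2 ^ j0 → (∀ a, ‖α a‖ ≤ 1) → (∀ M, ‖F M‖ ≤ 1) →
    (Real.exp (2 / 5 * y) < B → ZR j0 F) →
    ‖BF ℓ (SA y B) (sfI B (2 * B)) α (bet w F) v T‖ ≤ Real.exp (5 / 6 * y) / y ^ A := by
  rcases eq_or_ne ℓ 0 with rfl | hℓ
  · exact t2a_zero A A1
  obtain ⟨C, B1, hC, h1⟩ := sum_dv 3
  obtain ⟨κ, y1, hκ, -, h3⟩ := t2a_h2 ℓ one_pos
  obtain ⟨C1, A', A2, y2, h4⟩ := t2a_gen A A1 (B1 + 1) hκ
  obtain ⟨y3, h5⟩ := swB ℓ (A' + 1) C1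
  refine ⟨C1, A2, max (max (max y1 y2) y3) (max (C * 4 * 2 ^ B1) 160),
    fun y hy B w v T j0 α F b1 b2 b3 b4 b5 b6 b7 b8 b9 b10 => ?_⟩
  simp only [max_le_iff] at hy
  obtain ⟨⟨⟨p1, p2⟩, p3⟩, p4, p7⟩ := hy
  have hy1 : 1 ≤ y := by linarith
  have c2 : Real.exp (y / 4) ≤ B := ((Real.exp_le_exp.2 (by linarith)).trans
    (le_mul_of_one_le_right (Real.exp_pos _).le (one_le_pow₀ hy1))).trans b1
  have c3 : B ≤ Real.exp y := b2.trans (Real.exp_le_exp.2 (by linarith))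
  have hB : 1 ≤ B := (Real.one_le_exp (by linarith)).trans c2
  have hB0 : 0 < B := by linarith
  rw [t2a_BF ℓ hB0, BF_eq ℓ (fun a ha => (bf_mem_SA hB0 ha).1) fun b hb => (mem_sfI.1 hb).1]
  refine h4 y p2 B v T _ _ b1 b2 b5 b6 (fun a => ?_) ?_ (fun h k s d1 d2 d3 d4 d5 d6 => ?_)
    fun hb q a s d1 d2 d3 d4 => ?_
  · rw [norm_mul]
    exact mul_le_one₀ (b8 a) (norm_nonneg _) (t2a_ang ℓ a)
  · have a1 : 1 + Real.log (4 * B) ≤ 2 * y := by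
      have := (Real.log_le_iff_le_exp hB0).2 c3
      rw [Real.log_mul (by norm_num) hB0.ne']
      linarith [Real.log_le_sub_one_of_pos (show (0 : ℝ) < 4 by norm_num)]
    have a2 := Real.log_nonneg (show 1 ≤ 4 * B by linarith)
    calc _ ≤ ∑ n ∈ sfI (B / 2) (4 * B), dv n ^ 3 := Finset.sum_le_sum fun n _ => by
          refine mul_le_of_le_one_left (pow_nonneg (bb_dv_nonneg n) 3)
            (pow_le_one₀ (norm_nonneg _) ?_)
          rw [norm_mul]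
          refine mul_le_one₀ ?_ (norm_nonneg _) (t2a_ang ℓ n)
          unfold t2aE
          split_ifs
          exacts [h2b_bet b9 n, by simp]
      _ ≤ ∑ n ∈ ball (4 * B), dv n ^ 3 := Finset.sum_le_sum_of_subset_of_nonneg
          (Finset.filter_subset _ _) fun n _ _ => pow_nonneg (bb_dv_nonneg n) 3
      _ ≤ C * (4 * B) * (2 * y) ^ B1 := (h1 _ (by linarith)).trans (by gcongr)
      _ = B * (y ^ B1 * (C * 4 * 2 ^ B1)) := by ring
      _ ≤ _ := by rw [pow_succ]; gcongr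
  · unfold fam1
    simp only [mul_assoc]
    rw [t2a_sum hB0]
    rcases eq_or_ne h 1 with rfl | h1
    · have a1 := h5 y p3 F w B k s b9 b4 c2 c3 d3 d4 (Or.inl hℓ) (by linarith) d6
      rw [Finset.filter_true_of_mem fun b _ => one_dvd b]
      refine le_trans (le_of_eq ?_) ((mul_le_mul (t2a_two d5) a1 (norm_nonneg _) (by norm_num)).trans
        (t2a_div hB0.le (by linarith) (by linarith) A'))
      rw [← norm_mul, Finset.mul_sum]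
      congr 1
      refine Finset.sum_congr rfl fun b _ => ?_
      rw [t2a_pw hB0, EuclideanDomain.div_one]
      ring
    · rw [Finset.sum_eq_zero fun b hb => by
        rw [t2a_rough d1 h1 (mem_sfI.1 (Finset.mem_filter.1 hb).1).1.1.ne_zero (Finset.mem_filter.1 hb).2
          (d2.trans b3), zero_mul], norm_zero]
      positivity
  · exact (le_add_of_nonneg_right (by positivity)).trans
      (h3 y p1 B w j0 F q a s c2 b2 b7 b9 (b10 hb) d1 d2 d3 d4)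

/-- `II_ann` with `T₁ = min T e^{y/10}` (all four terms are `≤ C e^{2y/3}`), `rare_small` -/
theorem typeII_rare (A Cw : ℕ) {η : ℝ} (hη : 0 < η) : ∃ y0 : ℝ, ∀ y : ℝ, y0 ≤ y →
    ∀ (ℓ : ℤ) (B w v T : ℝ) (α β : O → ℂ), 1 ≤ T → w ≤ y ^ Cw →
    Real.exp (y / 3) / min T (Real.exp (y / 10)) ≤ B →
    B ≤ Real.exp (36 / 100 * y) / min T (Real.exp (y / 10)) → (∀ a, ‖α a‖ ≤ 1) → (∀ b, ‖β b‖ ≤ 1) →
    (∀ b, β b ≠ 0 → Rare w (Real.exp (η * y)) b) →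
    ‖BF ℓ (SA y B) (sfI B (2 * B)) α β v T‖ ≤ Real.exp (5 / 6 * y) / y ^ A := by
  obtain ⟨C, hC, h1⟩ := II_ann
  obtain ⟨y1, h2⟩ := rare_small (2 * A + 1) Cw hη
  refine ⟨max y1 (max 10 (C * 5 * (18 * Real.exp 1))), fun y hy ℓ B w v T α β b1 b2 b3 b4 b5 b6 b7 => ?_⟩
  simp only [max_le_iff] at hy
  obtain ⟨p1, p2, p3⟩ := hy
  obtain ⟨t, ht⟩ : ∃ t, min T (Real.exp (y / 10)) = Real.exp t :=
    ⟨_, (Real.exp_log (lt_min (by linarith) (Real.exp_pos _))).symm⟩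
  have t1 : 1 ≤ Real.exp t := ht ▸ le_min b1 (Real.one_le_exp (by linarith))
  have t2 : Real.exp t ≤ T := ht ▸ min_le_left _ _
  have t3 : t ≤ y / 10 := Real.exp_le_exp.1 (ht ▸ min_le_right _ _)
  have t0 : 0 ≤ t := Real.one_le_exp_iff.1 t1
  rw [ht, ← Real.exp_sub] at b3 b4
  obtain ⟨b, rfl⟩ : ∃ b, B = Real.exp b :=
    ⟨_, (Real.exp_log ((Real.exp_pos _).trans_le b3)).symm⟩
  rw [Real.exp_le_exp] at b3 b4
  have hB : 1 ≤ Real.exp b := Real.one_le_exp (by linarith)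
  have a1 := h1 ℓ (sfI (Real.exp b) (2 * Real.exp b)) α β y (Real.exp b) v T (Real.exp t) hB
    (in_sfI (by linarith)) t1 t2 (by
      rw [← Real.exp_nat_mul, ← Real.exp_sub]
      exact Real.exp_le_exp.2 (by push_cast; linarith))
  have a2 : Real.exp y / Real.exp b / Real.exp t + Real.sqrt (Real.exp y / Real.exp b) +
      Real.exp t ^ 3 * Real.exp b ^ 4 / Real.exp y + Real.exp (2 / 3 * y) *
      (Real.exp t ^ (-(1 / 42 : ℝ)) + Real.exp b ^ (-(1 / 84 : ℝ))) ≤ 5 * Real.exp (2 / 3 * y) := by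
    have c1 : Real.exp y / Real.exp b / Real.exp t ≤ Real.exp (2 / 3 * y) := by
      rw [← Real.exp_sub, ← Real.exp_sub]
      exact Real.exp_le_exp.2 (by linarith)
    have c2 : Real.sqrt (Real.exp y / Real.exp b) ≤ Real.exp (2 / 3 * y) := by
      rw [← Real.exp_sub, ← Real.exp_half]
      exact Real.exp_le_exp.2 (by linarith)
    have c3 : Real.exp t ^ 3 * Real.exp b ^ 4 / Real.exp y ≤ Real.exp (2 / 3 * y) := by
      rw [← Real.exp_nat_mul, ← Real.exp_nat_mul, ← Real.exp_add, ← Real.exp_sub]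
      exact Real.exp_le_exp.2 (by push_cast; linarith)
    have c4 := Real.rpow_le_one_of_one_le_of_nonpos t1 (show -(1 / 42 : ℝ) ≤ 0 by norm_num)
    have c5 := Real.rpow_le_one_of_one_le_of_nonpos hB (show -(1 / 84 : ℝ) ≤ 0 by norm_num)
    nlinarith [Real.exp_pos (2 / 3 * y)]
  have a3 : n2 (SA y (Real.exp b)) α ≤ 18 * (Real.exp (y + 1) / Real.exp b) := by
    refine (Finset.sum_le_card_nsmul _ _ 1 fun a _ => pow_le_one₀ (norm_nonneg _) (b5 a)).trans ?_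
    rw [nsmul_eq_mul, mul_one]
    exact le_trans (Nat.cast_le.2 (Finset.card_filter_le _ _)) (card_ball_le (by positivity))
  have a4 : nt (sfI (Real.exp b) (2 * Real.exp b)) β ≤ Real.exp b / y ^ (2 * A + 1) := by
    refine le_trans ?_ (h2 y p1 w _ b2 hB (Real.exp_le_exp.2 (by linarith)))
    rw [Finset.sum_filter]
    refine Finset.sum_le_sum fun n _ => ?_
    split_ifs with hc
    · exact mul_le_of_le_one_left (pow_nonneg (bb_dv_nonneg n) 3) (pow_le_one₀ (norm_nonneg _) (b6 n))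
    · rw [by_contra fun h => hc (b7 n h)]
      simp
  have a5 := bf_n2_nonneg (SA y (Real.exp b)) α
  have a6 := bf_nt_nonneg (sfI (Real.exp b) (2 * Real.exp b)) β
  have hy0 : 0 < y := by linarith
  have e : Real.exp (5 / 6 * y) ^ 2 = Real.exp (2 / 3 * y) * Real.exp y := by
    rw [← Real.exp_nat_mul, ← Real.exp_add]
    congr 1
    push_cast
    ring
  refine le_of_sq_le_sq (a1.trans ?_) (by positivity)
  calc _ ≤ C * (5 * Real.exp (2 / 3 * y)) * (18 * (Real.exp (y + 1) / Real.exp b)) *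
        (Real.exp b / y ^ (2 * A + 1)) := by gcongr
    _ = C * 5 * (18 * Real.exp 1) * (Real.exp (2 / 3 * y) * Real.exp y / y ^ (2 * A + 1)) := by
        rw [Real.exp_add]; field_simp
    _ ≤ _ := by
        rw [div_pow, e, ← pow_mul, mul_comm A 2]
        exact t2a_div (by positivity) hy0 p3 _

end Crest.Agent.R12
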