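import Crest.Agent.R12.Disp2
import Crest.Agent.R12.H2b

/-!
# R12 / TypeIIb : type II bounds, large `T`
-/

set_option autoImplicit false

noncomputable section

open scoped Classical ComplexConjugate Topology
open MeasureTheory Filter

namespace Crest.Agent.R12

open Crest.Agent.R17

theorem tb_pwI {B : ℝ} (hB : 0 < B) {b : O} (hb : b ≠ 0) (t : ℝ) :
    ‖pw B b (t * Complex.I)‖ = 1 := by
  rw [bf_pw hB hb, bf_norm_exp]

theorem tb_cont {B : ℝ} (hB : 0 < B) {b : O} (hb : b ≠ 0) :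
    Continuous fun t : ℝ => pw B b (t * Complex.I) := by
  simp_rw [bf_pw hB hb]
  fun_prop

theorem tb_core : ∃ C : ℝ, 0 ≤ C ∧ ∀ (B T : ℝ) (S : Finset O) (c : O → ℂ), 1 ≤ B → 1 ≤ T →
    (∀ b ∈ S, B ≤ N b ∧ N b ≤ 16 * B) →
    Integrable (fun t : ℝ => gh T t * ∫ τ : ℝ, mT 1 τ *
      ‖∑ b ∈ S, c b * pw B b (t * Complex.I) * pw B b (τ * Complex.I)‖ ^ 2) ∧
    ∫ t : ℝ, gh T t * ∫ τ : ℝ, mT 1 τ *
      ‖∑ b ∈ S, c b * pw B b (t * Complex.I) * pw B b (τ * Complex.I)‖ ^ 2 ≤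
      C * (B / T + Real.sqrt B) * n2 S c := by
  obtain ⟨C, hC, h⟩ := tavg
  refine ⟨2 * C, by positivity, fun B T S c hB hT hS => ?_⟩
  have hB0 : 0 < B := by linarith
  have hT0 : 0 < T := by linarith
  have hS0 : ∀ b ∈ S, b ≠ 0 := fun b hb e => by
    have := (hS b hb).1
    rw [e, N_zero] at this
    linarith
  obtain ⟨G, hG⟩ : ∃ G : ℝ → ℝ → ℝ, G = fun t τ : ℝ =>
    ‖∑ b ∈ S, c b * pw B b (t * Complex.I) * pw B b (τ * Complex.I)‖ ^ 2 := ⟨_, rfl⟩
  have hG' : ∀ t τ : ℝ, ‖∑ b ∈ S, c b * pw B b (t * Complex.I) * pw B b (τ * Complex.I)‖ ^ 2 = G t τ :=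
    fun t τ => by rw [hG]
  have hG0 : ∀ t τ, 0 ≤ G t τ := fun t τ => hG' t τ ▸ sq_nonneg _
  have hGc : Continuous fun z : ℝ × ℝ => G z.1 z.2 := by
    rw [hG]
    refine (continuous_finsetSum _ fun b hb => ?_).norm.pow 2
    exact (continuous_const.mul ((tb_cont hB0 (hS0 b hb)).comp continuous_fst)).mul
      ((tb_cont hB0 (hS0 b hb)).comp continuous_snd)
  have hGb : ∀ t τ, ‖G t τ‖ ≤ (∑ b ∈ S, ‖c b‖) ^ 2 := fun t τ => by
    rw [← hG', norm_pow, norm_norm]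
    refine pow_le_pow_left₀ (norm_nonneg _) ((norm_sum_le _ _).trans_eq
      (Finset.sum_congr rfl fun b hb => ?_)) 2
    rw [norm_mul, norm_mul, tb_pwI hB0 (hS0 b hb), tb_pwI hB0 (hS0 b hb), mul_one, mul_one]
  have hi : Integrable (fun z : ℝ × ℝ => gh T z.1 * mT 1 z.2 * G z.1 z.2) (volume.prod volume) :=
    ((integrable_gh hT0).mul_prod (integrable_mT one_pos)).mul_bdd hGc.aestronglyMeasurable
      (ae_of_all _ fun z => hGb _ _)
  have e : ∀ t, gh T t * ∫ τ, mT 1 τ * G t τ = ∫ τ, gh T t * mT 1 τ * G t τ := fun t => by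
    rw [← integral_const_mul]
    simp only [mul_assoc]
  simp only [hG', e]
  refine ⟨hi.integral_prod_left, ?_⟩
  rw [integral_integral_swap (f := fun t τ => gh T t * mT 1 τ * G t τ) hi]
  have hτ : ∀ τ, ∫ t, gh T t * mT 1 τ * G t τ ≤ mT 1 τ * (C * (B / T + Real.sqrt B) * n2 S c) := by
    intro τ
    have a1 := h B T S (fun b => c b * pw B b (τ * Complex.I)) hB hT hS
    have a2 : n2 S (fun b => c b * pw B b (τ * Complex.I)) = n2 S c :=
      Finset.sum_congr rfl fun b hb => by rw [norm_mul, tb_pwI hB0 (hS0 b hb), mul_one]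
    have a3 : ∀ t : ℝ, ‖∑ b ∈ S, c b * pw B b (τ * Complex.I) * pw B b (t * Complex.I)‖ ^ 2 = G t τ :=
      fun t => by
        rw [← hG']
        simp only [mul_right_comm]
    simp only [a2, a3] at a1
    have a4 : Integrable fun t => mT T t * G t τ :=
      (integrable_mT hT0).mul_bdd (hGc.comp (Continuous.prodMk_left τ)).aestronglyMeasurable
        (ae_of_all _ fun t => hGb t τ)
    have a5 : ∫ t, gh T t * G t τ ≤ ∫ t, mT T t * G t τ :=
      integral_mono_of_nonneg (ae_of_all _ fun t => mul_nonneg (gh_nonneg T t hT0) (hG0 t τ)) a4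
        (ae_of_all _ fun t => mul_le_mul_of_nonneg_right (gh_le_mT hT0 t) (hG0 t τ))
    simp only [show ∀ t, gh T t * mT 1 τ * G t τ = mT 1 τ * (gh T t * G t τ) from fun t => by ring]
    rw [integral_const_mul]
    exact mul_le_mul_of_nonneg_left (a5.trans a1) (ps_mT_nonneg one_pos τ)
  calc _ ≤ ∫ τ, mT 1 τ * (C * (B / T + Real.sqrt B) * n2 S c) :=
        integral_mono_of_nonneg (ae_of_all _ fun τ => integral_nonneg fun t =>
          mul_nonneg (mul_nonneg (gh_nonneg T t hT0) (ps_mT_nonneg one_pos τ)) (hG0 t τ))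
          ((integrable_mT one_pos).mul_const _) (ae_of_all _ hτ)
    _ = _ := by
        rw [integral_mul_const, integral_mT one_pos]
        ring

theorem tb_card_Sg : (Sg.card : ℝ) ≤ 6 := by
  have : Sg.card ≤ 6 := by
    unfold Sg
    repeat (refine (Finset.card_insert_le _ _).trans (Nat.succ_le_succ ?_))
    simp
  exact_mod_cast this

theorem tb_gen : ∃ C : ℝ, 0 ≤ C ∧ ∀ (S : Finset O) (γ : O → ℂ) (B T : ℝ) (I : Finset O)
    (J : O → Finset O) (P : O → O → Finset O) (w : O → O → O → ℂ), 1 ≤ B → In S B → 1 ≤ T →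
    (∀ i j, P i j ⊆ S) → (∀ i ∈ I, ∀ j, ∀ b ∈ P i j, ‖w i j b‖ ≤ 1) →
    Integrable (fun t : ℝ => gh T t * ∑ i ∈ I, ∑ j ∈ J i, ∑ σ ∈ Sg, ∫ τ : ℝ, mT 1 τ *
      ‖∑ b ∈ P i j, γ b * pw B b (t * Complex.I) * w i j b * pw B b (σ + τ * Complex.I)‖ ^ 2) ∧
    ∫ t : ℝ, gh T t * ∑ i ∈ I, ∑ j ∈ J i, ∑ σ ∈ Sg, ∫ τ : ℝ, mT 1 τ *
      ‖∑ b ∈ P i j, γ b * pw B b (t * Complex.I) * w i j b * pw B b (σ + τ * Complex.I)‖ ^ 2 ≤
      C * (B / T + Real.sqrt B) * ∑ i ∈ I, ∑ j ∈ J i, n2 (P i j) γ := by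
  obtain ⟨C, hC, h⟩ := tb_core
  refine ⟨6 * 256 ^ 2 * C, by positivity, fun S γ B T I J P w hB hS hT hP hw => ?_⟩
  have hB0 : 0 < B := by linarith
  have hT0 : 0 < T := by linarith
  have hX : 0 ≤ B / T + Real.sqrt B := by positivity
  have e : ∀ (i j : O) (σ t τ : ℝ),
      ∑ b ∈ P i j, γ b * pw B b (t * Complex.I) * w i j b * pw B b (σ + τ * Complex.I) =
      ∑ b ∈ P i j, γ b * w i j b * pw B b σ * pw B b (t * Complex.I) * pw B b (τ * Complex.I) :=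
    fun i j σ t τ => Finset.sum_congr rfl fun b hb => by
      rw [d2_pw_add hB0 (hS b (hP i j hb)).1.1.ne_zero]
      ring
  have h1 := fun (i j : O) (σ : ℝ) => h B T (P i j) (fun b => γ b * w i j b * pw B b σ) hB hT
    fun b hb => (hS b (hP i j hb)).2
  simp only [e, Finset.mul_sum I, Finset.mul_sum (J _), Finset.mul_sum Sg]
  refine ⟨integrable_finsetSum _ fun i _ => integrable_finsetSum _ fun j _ =>
    integrable_finsetSum _ fun σ _ => (h1 i j σ).1, ?_⟩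
  rw [integral_finsetSum _ fun i _ => integrable_finsetSum _ fun j _ =>
    integrable_finsetSum _ fun σ _ => (h1 i j σ).1]
  refine Finset.sum_le_sum fun i hi => ?_
  rw [integral_finsetSum _ fun j _ => integrable_finsetSum _ fun σ _ => (h1 i j σ).1]
  refine Finset.sum_le_sum fun j _ => ?_
  rw [integral_finsetSum _ fun σ _ => (h1 i j σ).1]
  have h2 := cl_n2 (P i j) γ
  refine (Finset.sum_le_card_nsmul _ _ (C * (B / T + Real.sqrt B) * (256 ^ 2 * n2 (P i j) γ))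
    fun σ hσ => (h1 i j σ).2.trans (mul_le_mul_of_nonneg_left ?_ (mul_nonneg hC hX))).trans ?_
  · rw [n2, n2, Finset.mul_sum]
    refine Finset.sum_le_sum fun b hb => ?_
    have a1 := d1_norm_pw hS (hP i j hb) (s := σ) (by simpa using d1_Sg_le hσ)
    have a2 := hw i hi j b hb
    rw [norm_mul, norm_mul]
    calc _ ≤ (‖γ b‖ * 1 * 256) ^ 2 := by gcongr
      _ = _ := by ring
  · rw [nsmul_eq_mul]
    exact (mul_le_mul_of_nonneg_right tb_card_Sg (by positivity)).trans_eq (by ring)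

theorem tb_n2_mono {P S : Finset O} (h : P ⊆ S) (γ : O → ℂ) : n2 P γ ≤ n2 S γ :=
  Finset.sum_le_sum_of_subset_of_nonneg h fun _ _ _ => sq_nonneg _

/-- external `t`-average: Fubini, `gh_le_mT`, `tavg` for each `τ` -/
theorem ext_N1 : ∃ C : ℝ, 0 ≤ C ∧ ∀ (S : Finset O) (γ : O → ℂ) (B T H : ℝ), 1 ≤ B → In S B → 1 ≤ T →
    0 ≤ H → Integrable (fun t : ℝ => gh T t * N1 S (fun b => γ b * pw B b (t * Complex.I)) B H 1) ∧
    ∫ t : ℝ, gh T t * N1 S (fun b => γ b * pw B b (t * Complex.I)) B H 1 ≤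
      C * H ^ 2 * (B / T + Real.sqrt B) * n2 S γ := by
  obtain ⟨C, hC, h⟩ := tb_gen
  refine ⟨C * 18 ^ 2, by positivity, fun S γ B T H hB hS hT hH => ?_⟩
  obtain ⟨h1, h2⟩ := h S γ B T (sfb H) (fun _ => ball H) (fun h _ => S.filter (fun b => h ∣ b))
    (fun h k b => cub (b / h) k) hB hS hT (fun _ _ => Finset.filter_subset _ _) fun i hi k b hb => by
      obtain ⟨a1, a2⟩ := Finset.mem_filter.1 hb
      exact cl_cub_le ((hS b a1).1.1.div (mem_sfb.1 hi).1.1 a2) k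
  refine ⟨h1, h2.trans ?_⟩
  have hX : 0 ≤ B / T + Real.sqrt B := by positivity
  have hn := cl_n2 S γ
  have c1 := card_ball_le hH
  have c2 : ((sfb H).card : ℝ) ≤ 18 * H :=
    (Nat.cast_le.2 (Finset.card_le_card (cl_sub H))).trans c1
  have h3 : ∑ i ∈ sfb H, ∑ _j ∈ ball H, n2 (S.filter (fun b => i ∣ b)) γ ≤
      18 * H * (18 * H * n2 S γ) := by
    refine (Finset.sum_le_card_nsmul _ _ (18 * H * n2 S γ) fun i _ => ?_).trans ?_
    · rw [Finset.sum_const, nsmul_eq_mul]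
      exact mul_le_mul c1 (tb_n2_mono (Finset.filter_subset _ _) γ) (cl_n2 _ _) (by positivity)
    · rw [nsmul_eq_mul]
      exact mul_le_mul_of_nonneg_right c2 (by positivity)
  exact (mul_le_mul_of_nonneg_left h3 (mul_nonneg hC hX)).trans_eq (by ring)

theorem tb_part {q : O} (hq : q ≠ 0) (S : Finset O) (γ : O → ℂ) :
    ∑ a ∈ res q, n2 (S.filter (fun b => q ∣ b - a)) γ ≤ n2 S γ := by
  simp only [n2, Finset.sum_filter]
  rw [Finset.sum_comm]
  refine Finset.sum_le_sum fun b _ => ?_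
  rw [← Finset.sum_filter, Finset.sum_const, nsmul_eq_mul]
  refine mul_le_of_le_one_left (sq_nonneg _) ?_
  have : ((res q).filter (fun a => q ∣ b - a)).card ≤ 1 := Finset.card_le_one.2 fun x hx y hy => by
    obtain ⟨a1, a2⟩ := Finset.mem_filter.1 hx
    obtain ⟨a3, a4⟩ := Finset.mem_filter.1 hy
    refine res_inj hq a1 a3 ?_
    have := dvd_sub a4 a2
    rwa [show b - y - (b - x) = x - y by ring] at this
  exact_mod_cast this

/-- the classes mod `q` partition `S` -/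
theorem ext_N2 : ∃ C : ℝ, 0 ≤ C ∧ ∀ (S : Finset O) (γ : O → ℂ) (B T Q : ℝ), 1 ≤ B → In S B → 1 ≤ T →
    0 ≤ Q → Integrable (fun t : ℝ => gh T t * N2 S (fun b => γ b * pw B b (t * Complex.I)) B Q) ∧
    ∫ t : ℝ, gh T t * N2 S (fun b => γ b * pw B b (t * Complex.I)) B Q ≤
      C * Q * (B / T + Real.sqrt B) * n2 S γ := by
  obtain ⟨C, hC, h⟩ := tb_gen
  refine ⟨C * 18, by positivity, fun S γ B T Q hB hS hT hQ => ?_⟩
  obtain ⟨h1, h2⟩ := h S γ B T (ball Q) res (fun q a => S.filter (fun b => q ∣ b - a))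
    (fun _ _ b => GG b) hB hS hT (fun _ _ => Finset.filter_subset _ _) fun i _ k b hb =>
      norm_GG_le (hS b (Finset.mem_filter.1 hb).1).1.1
  refine ⟨h1, h2.trans ?_⟩
  have hX : 0 ≤ B / T + Real.sqrt B := by positivity
  have hn := cl_n2 S γ
  have h3 : ∑ q ∈ ball Q, ∑ a ∈ res q, n2 (S.filter (fun b => q ∣ b - a)) γ ≤ 18 * Q * n2 S γ := by
    refine (Finset.sum_le_card_nsmul _ _ (n2 S γ) fun q hq => tb_part (mem_ball.1 hq).1 S γ).trans ?_
    rw [nsmul_eq_mul]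
    exact mul_le_mul_of_nonneg_right (card_ball_le hQ) hn
  exact (mul_le_mul_of_nonneg_left h3 (mul_nonneg hC hX)).trans_eq (by ring)

/-! ### sizes and numerics -/

theorem tb_card {X Y : ℝ} (hY : 0 ≤ Y) : ((sfI X Y).card : ℝ) ≤ 18 * Y :=
  (Nat.cast_le.2 (Finset.card_filter_le _ _)).trans (card_ball_le hY)

theorem tb_n2 {X Y : ℝ} (hY : 0 ≤ Y) {α : O → ℂ} (h : ∀ a ∈ sfI X Y, ‖α a‖ ≤ 1) :
    n2 (sfI X Y) α ≤ 18 * Y := by
  refine (Finset.sum_le_card_nsmul _ _ 1 fun a ha => pow_le_one₀ (norm_nonneg _) (h a ha)).trans ?_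
  rw [nsmul_eq_mul, mul_one]
  exact tb_card hY

theorem tb_nt : ∃ (K : ℝ) (c : ℕ), 0 ≤ K ∧ ∀ (y B : ℝ) (β : O → ℂ), 1 ≤ B →
    B ≤ Real.exp (y / 2 + 80) → 200 ≤ y → (∀ b ∈ sfI B (2 * B), ‖β b‖ ≤ 1) →
    nt (sfI B (2 * B)) β ≤ K * B * y ^ c := by
  obtain ⟨C, c, hC, h⟩ := sum_dv 3
  refine ⟨2 * C, c, by positivity, fun y B β hB hB2 hy hβ => ?_⟩
  have h1 : nt (sfI B (2 * B)) β ≤ ∑ n ∈ ball (2 * B), dv n ^ 3 := by
    refine le_trans (Finset.sum_le_sum fun n hn => ?_) (Finset.sum_le_sum_of_subset_of_nonneg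
      (Finset.filter_subset _ _) fun n _ _ => pow_nonneg (bb_dv_nonneg n) 3)
    exact mul_le_of_le_one_left (pow_nonneg (bb_dv_nonneg n) 3) (pow_le_one₀ (norm_nonneg _) (hβ n hn))
  have h2 : 1 + Real.log (2 * B) ≤ y := by
    rw [Real.log_mul (by norm_num) (by linarith)]
    have := (Real.log_le_iff_le_exp (by linarith : 0 < B)).2 hB2
    linarith [Real.log_two_lt_d9]
  have h3 : 0 ≤ 1 + Real.log (2 * B) := by linarith [Real.log_nonneg (by linarith : 1 ≤ 2 * B)]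
  calc _ ≤ C * (2 * B) * (1 + Real.log (2 * B)) ^ c := h1.trans (h _ (by linarith))
    _ ≤ C * (2 * B) * y ^ c := by gcongr
    _ = _ := by ring

theorem tb_numA {y b t z : ℝ} (h1 : y / 3 + z ≤ b + t) (h2 : (y - b) / 2 ≤ 2 / 3 * y - z)
    (h3 : 3 * t + 4 * b - y ≤ 2 / 3 * y - z) (h4 : 42 * z ≤ t) (h5 : 84 * z ≤ b) :
    Real.exp y / Real.exp b / Real.exp t + Real.sqrt (Real.exp y / Real.exp b) +
      Real.exp t ^ 3 * Real.exp b ^ 4 / Real.exp y + Real.exp (2 / 3 * y) *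
        (Real.exp t ^ (-(1 / 42 : ℝ)) + Real.exp b ^ (-(1 / 84 : ℝ))) ≤
      5 * Real.exp (2 / 3 * y - z) := by
  rw [show ∀ x : ℝ, 5 * x = x + x + x + (x + x) from fun x => by ring, mul_add, Real.sqrt_eq_rpow]
  simp only [← Real.exp_mul, ← Real.exp_add, ← Real.exp_sub, ← Real.exp_nat_mul]
  push_cast
  refine add_le_add (add_le_add_three ?_ ?_ ?_) (add_le_add ?_ ?_) <;>
    exact Real.exp_le_exp.2 (by linarith)

theorem tb_numB {b t z a : ℝ} (h1 : a + z ≤ t) (h2 : a + z ≤ b / 2) :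
    Real.exp a * (Real.exp b / Real.exp t + Real.sqrt (Real.exp b)) ≤
      2 * (Real.exp b * Real.exp (-z)) := by
  rw [two_mul, mul_add, Real.sqrt_eq_rpow]
  simp only [← Real.exp_mul, ← Real.exp_add, ← Real.exp_sub]
  refine add_le_add ?_ ?_ <;> exact Real.exp_le_exp.2 (by linarith)

theorem tb_ev {ε : ℝ} (hε : 0 < ε) (K : ℝ) (m : ℕ) : ∃ y0 : ℝ, ∀ y, y0 ≤ y →
    K ≤ y ∧ K ≤ ε * y ∧ m * Real.log y ≤ ε * y ∧ 8 * y ≤ Real.exp (ε * y) := by
  have h1 := (Real.isLittleO_log_id_atTop.bound (c := ε / (m + 1)) (by positivity))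
  have h2 := (isLittleO_pow_exp_pos_mul_atTop 1 hε).bound (c := 1 / 8) (by norm_num)
  have h3 : ∀ᶠ y : ℝ in atTop, K ≤ ε * y := (tendsto_id.const_mul_atTop hε).eventually_ge_atTop K
  obtain ⟨y0, hy0⟩ := eventually_atTop.1 (h1.and (h2.and (h3.and ((eventually_ge_atTop K).and
    (eventually_ge_atTop 1)))))
  refine ⟨y0, fun y hy => ?_⟩
  obtain ⟨a1, a2, a3, a4, a5⟩ := hy0 y hy
  have l0 : 0 ≤ Real.log y := Real.log_nonneg a5
  rw [Real.norm_of_nonneg l0, id, Real.norm_of_nonneg (by linarith)] at a1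
  rw [pow_one, Real.norm_of_nonneg (by linarith), Real.norm_of_nonneg (Real.exp_pos _).le] at a2
  refine ⟨a4, a3, ?_, by linarith⟩
  rw [div_mul_eq_mul_div, le_div_iff₀ (by positivity)] at a1
  nlinarith

/-- the range of annihilation -/
theorem tb_small : ∃ (K : ℝ) (c : ℕ), 0 ≤ K ∧ ∀ (ℓ : ℤ) (y z b t t1 v : ℝ) (α β : O → ℂ), 200 ≤ y →
    0 ≤ z → b ≤ y / 2 + 80 → t1 ≤ t → 2 * t1 ≤ y - 3 - b → y / 3 + z ≤ b + t1 →
    (y - b) / 2 ≤ 2 / 3 * y - z → 3 * t1 + 4 * b - y ≤ 2 / 3 * y - z → 42 * z ≤ t1 → 84 * z ≤ b →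
    (∀ a, ‖α a‖ ≤ 1) → (∀ a, ‖β a‖ ≤ 1) →
    ‖BF ℓ (SA y (Real.exp b)) (sfI (Real.exp b) (2 * Real.exp b)) α β v (Real.exp t)‖ ^ 2 ≤
      K * y ^ c * Real.exp (5 / 3 * y - z) := by
  obtain ⟨C, hC, h⟩ := II_ann
  obtain ⟨K, c, hK, hnt⟩ := tb_nt
  refine ⟨C * 5 * (18 * Real.exp 1) * K, c, by positivity,
    fun ℓ y z b t t1 v α β hy hz h0 h1 h2 h3 h4 h5 h6 h7 hα hβ => ?_⟩
  have hB : 1 ≤ Real.exp b := Real.one_le_exp (by linarith)
  have a1 := h ℓ (sfI (Real.exp b) (2 * Real.exp b)) α β y (Real.exp b) v (Real.exp t) (Real.exp t1) hB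
    (in_sfI (by linarith)) (Real.one_le_exp (by linarith)) (Real.exp_le_exp.2 h1) (by
      rw [← Real.exp_nat_mul, ← Real.exp_sub, Real.exp_le_exp]
      push_cast
      linarith)
  have a2 := tb_numA h3 h4 h5 h6 h7
  have a3 : n2 (SA y (Real.exp b)) α ≤ 18 * (Real.exp (y + 1) / Real.exp b) :=
    tb_n2 (by positivity) fun a _ => hα a
  have a4 := hnt y (Real.exp b) β hB (Real.exp_le_exp.2 h0) hy fun a _ => hβ a
  have a5 := bf_n2_nonneg (SA y (Real.exp b)) α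
  have a6 := bf_nt_nonneg (sfI (Real.exp b) (2 * Real.exp b)) β
  have e : Real.exp (5 / 3 * y - z) = Real.exp (2 / 3 * y - z) * Real.exp y := by
    rw [← Real.exp_add]
    congr 1
    ring
  calc _ ≤ _ := a1
    _ ≤ C * (5 * Real.exp (2 / 3 * y - z)) * (18 * (Real.exp (y + 1) / Real.exp b)) *
        (K * Real.exp b * y ^ c) := by gcongr
    _ = _ := by
        rw [e, Real.exp_add y 1]
        field_simp

theorem tb_h2 (ℓ : ℤ) : ∃ κ C : ℝ, 0 < κ ∧ κ ≤ 1 ∧ 0 ≤ C ∧ ∀ (B w : ℝ) (j : ℕ) (F : Multiset ℕ → ℂ)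
    (q a : O) (s : ℂ), 1 ≤ B → (∀ M, ‖F M‖ ≤ 1) → ZR j F → B ^ (1 / 60 : ℝ) ≤ 2 ^ j → q ≠ 0 →
    N q ≤ B ^ κ → |s.re| ≤ 4 → |s.im| ≤ B ^ κ →
    ‖fam2 (sfI B (2 * B)) (fun b => bet w F b * ang b ^ ℓ) B q a s‖ ≤ C * B ^ (1 - κ) := by
  obtain ⟨κ, C, hκ, hC, h⟩ := h2 ℓ
  refine ⟨min κ 1, C, by positivity, min_le_right _ _, hC,
    fun B w j F q a s hB hF hZ hj hq h1 h3 h4 => ?_⟩
  have e : B ^ min κ 1 ≤ B ^ κ := Real.rpow_le_rpow_of_exponent_le hB (min_le_left _ _)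
  exact (h B w j F q a s hB hF hZ hj hq (h1.trans e) h3 (h4.trans e)).trans
    (mul_le_mul_of_nonneg_left (Real.rpow_le_rpow_of_exponent_le hB (by linarith [min_le_left κ 1])) hC)

theorem tb_shift {S : Finset O} {B : ℝ} (hB : 0 < B) (hS : ∀ b ∈ S, b ≠ 0) (γ : O → ℂ) (q a : O)
    (z s : ℂ) : fam2 S (fun b => γ b * pw B b z) B q a s = fam2 S γ B q a (s + z) :=
  Finset.sum_congr rfl fun b hb => by
    rw [d2_pw_add hB (hS b (Finset.mem_filter.1 hb).1)]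
    ring

theorem tb_fam2_triv {B : ℝ} (hB : 0 < B) {γ : O → ℂ} (hγ : ∀ b ∈ sfI B (2 * B), ‖γ b‖ ≤ 1) (q a : O)
    {s : ℂ} (hs : s.re ≤ 2) : ‖fam2 (sfI B (2 * B)) γ B q a s‖ ≤ 9216 * B := by
  have hS : In (sfI B (2 * B)) B := in_sfI (by linarith)
  refine (norm_sum_le _ _).trans ((Finset.sum_le_card_nsmul _ _ 256 fun b hb => ?_).trans ?_)
  · have a1 := (Finset.mem_filter.1 hb).1
    have a2 := d1_norm_pw hS a1 hs
    have a3 := norm_GG_le (hS b a1).1.1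
    have a4 := hγ b a1
    rw [norm_mul, norm_mul]
    calc _ ≤ 1 * 1 * (256 : ℝ) := by gcongr
      _ = _ := by ring
  · have := (Nat.cast_le (α := ℝ).2 (Finset.card_filter_le (sfI B (2 * B))
      (fun b => q ∣ b - a))).trans (tb_card (X := B) (Y := 2 * B) (by linarith))
    rw [nsmul_eq_mul]
    linarith

theorem tb_N2_le {S : Finset O} {γ : O → ℂ} {B Q M : ℝ} (hQ : 0 ≤ Q) (hM : 0 ≤ M)
    (h : ∀ q ∈ ball Q, ∀ a, ∀ σ ∈ Sg,
      ∫ τ : ℝ, mT 1 τ * ‖fam2 S γ B q a (σ + τ * Complex.I)‖ ^ 2 ≤ M) :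
    N2 S γ B Q ≤ 108 * Q ^ 2 * M := by
  refine (Finset.sum_le_card_nsmul _ _ (Q * (6 * M)) fun q hq => ?_).trans ?_
  · refine (Finset.sum_le_card_nsmul _ _ (6 * M) fun a _ => ?_).trans ?_
    · refine (Finset.sum_le_card_nsmul _ _ M fun σ hσ => h q hq a σ hσ).trans ?_
      rw [nsmul_eq_mul]
      exact mul_le_mul_of_nonneg_right tb_card_Sg hM
    · rw [nsmul_eq_mul, card_res (mem_ball.1 hq).1]
      exact mul_le_mul_of_nonneg_right (mem_ball.1 hq).2 (by positivity)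
  · rw [nsmul_eq_mul]
    exact (mul_le_mul_of_nonneg_right (card_ball_le hQ) (by positivity)).trans_eq (by ring)

theorem tb_N2_nonneg (S : Finset O) (γ : O → ℂ) (B Q : ℝ) : 0 ≤ N2 S γ B Q :=
  Finset.sum_nonneg fun _ _ => Finset.sum_nonneg fun _ _ => Finset.sum_nonneg fun _ _ =>
    integral_nonneg fun τ => mul_nonneg (ps_mT_nonneg one_pos τ) (sq_nonneg _)

theorem tb_Sg_abs {σ : ℝ} (h : σ ∈ Sg) : |σ| ≤ 4 := by
  simp only [Sg, Finset.mem_insert, Finset.mem_singleton] at h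
  rcases h with h | h | h | h | h | h <;> rw [h, abs_le] <;> norm_num

theorem tb_ang (ℓ : ℤ) {X Y : ℝ} {β : O → ℂ} (hβ : ∀ b, ‖β b‖ ≤ 1) :
    ∀ b ∈ sfI X Y, ‖β b * ang b ^ ℓ‖ ≤ 1 := fun b hb => by
  rw [norm_mul, norm_zpow, norm_ang (mem_sfI.1 hb).1.1.ne_zero, one_zpow, mul_one]
  exact hβ b

/-- the `N2` term -/
theorem tb_N2 (ℓ : ℤ) : ∃ κ C : ℝ, 0 < κ ∧ κ ≤ 1 ∧ 0 ≤ C ∧ ∀ (y z b t w : ℝ) (j : ℕ)
    (F : Multiset ℕ → ℂ), 1 ≤ y → 0 ≤ b → b ≤ y → 0 ≤ t → z ≤ y → 8 * y ≤ Real.exp (κ / 2 * b) →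
    z ≤ κ / 4 * b → (∀ M, ‖F M‖ ≤ 1) → ZR j F → Real.exp b ^ (1 / 60 : ℝ) ≤ 2 ^ j →
    Real.exp b ^ (κ / 8) * (∫ u : ℝ, gh (Real.exp t) u * N2 (sfI (Real.exp b) (2 * Real.exp b))
      (fun n => bet w F n * ang n ^ ℓ * pw (Real.exp b) n (u * Complex.I)) (Real.exp b)
      (Real.exp b ^ (κ / 8))) / Real.exp b ≤ C * (Real.exp b * Real.exp (-z)) := by
  obtain ⟨κ, C, hκ, hκ1, hC, h⟩ := tb_h2 ℓ
  obtain ⟨C2, hC2, he⟩ := ext_N2
  refine ⟨κ, 72 * C2 + 108 * (2 * C ^ 2 + 8 * 9216 ^ 2), hκ, hκ1, by positivity,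
    fun y z b t w j F hy hb hby ht hz h8 hzb hF hZ hj => ?_⟩
  have hB : 1 ≤ Real.exp b := Real.one_le_exp hb
  have hB0 := Real.exp_pos b
  have hT0 := Real.exp_pos t
  have hS : In (sfI (Real.exp b) (2 * Real.exp b)) (Real.exp b) := in_sfI (by linarith)
  have hγ := tb_ang ℓ (X := Real.exp b) (Y := 2 * Real.exp b) (h2b_bet (w := w) hF)
  have hQ : Real.exp b ^ (κ / 8) = Real.exp (κ / 8 * b) := by rw [← Real.exp_mul, mul_comm]
  have hκb : 0 ≤ κ * b := by positivity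
  have hκb1 : κ * b ≤ b := by nlinarith
  have hE : 0 ≤ Real.exp b * Real.exp (-z) := by positivity
  rw [hQ]
  rcases le_total (κ / 2 * b) t with hc | hc
  · have a1 := (he _ (fun n => bet w F n * ang n ^ ℓ) _ _ (Real.exp (κ / 8 * b)) hB hS
      (Real.one_le_exp ht) (Real.exp_pos _).le).2
    have a2 := tb_n2 (by positivity) hγ
    have a3 := tb_numB (b := b) (t := t) (z := z) (a := κ / 8 * b + κ / 8 * b) (by linarith) (by linarith)
    rw [Real.exp_add] at a3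
    calc _ ≤ Real.exp (κ / 8 * b) * (C2 * Real.exp (κ / 8 * b) *
          (Real.exp b / Real.exp t + Real.sqrt (Real.exp b)) * (18 * (2 * Real.exp b))) / Real.exp b := by
          gcongr
          exact a1.trans (by gcongr)
      _ = 36 * C2 * (Real.exp (κ / 8 * b) * Real.exp (κ / 8 * b) *
          (Real.exp b / Real.exp t + Real.sqrt (Real.exp b))) := by field_simp; ring
      _ ≤ 36 * C2 * (2 * (Real.exp b * Real.exp (-z))) := by gcongr
      _ ≤ _ := by nlinarith [mul_nonneg (show 0 ≤ 108 * (2 * C ^ 2 + 8 * 9216 ^ 2) by positivity) hE]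
  · have hS0 : ∀ n ∈ sfI (Real.exp b) (2 * Real.exp b), n ≠ 0 := fun n hn => (hS n hn).1.1.ne_zero
    obtain ⟨M, hM⟩ : ∃ M, M = (9216 * Real.exp b) ^ 2 := ⟨_, rfl⟩
    obtain ⟨L, hL⟩ : ∃ L, L = (C * Real.exp b ^ (1 - κ)) ^ 2 := ⟨_, rfl⟩
    have M0 : 0 ≤ M := hM ▸ sq_nonneg _
    have L0 : 0 ≤ L := hL ▸ sq_nonneg _
    have triv : ∀ (u : ℝ) (q a : O), ∀ σ ∈ Sg, ∀ τ : ℝ, ‖fam2 (sfI (Real.exp b) (2 * Real.exp b))
        (fun n => bet w F n * ang n ^ ℓ * pw (Real.exp b) n (u * Complex.I)) (Real.exp b) q a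
        (σ + τ * Complex.I)‖ ^ 2 ≤ M := fun u q a σ hσ τ => by
      rw [tb_shift hB0 hS0, hM]
      exact pow_le_pow_left₀ (norm_nonneg _) (tb_fam2_triv hB0 hγ q a (by simpa using d1_Sg_le hσ)) 2
    have hR : 4 * (Real.exp t * y) + 4 * y ≤ Real.exp b ^ κ := by
      have a1 : Real.exp b ^ κ = Real.exp (κ / 2 * b) * Real.exp (κ / 2 * b) := by
        rw [← Real.exp_mul, ← Real.exp_add]
        congr 1
        ring
      have a2 := mul_le_mul (Real.exp_le_exp.2 hc) h8 (by linarith) (Real.exp_pos _).le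
      have a3 := mul_le_mul_of_nonneg_right (Real.one_le_exp ht) (show 0 ≤ y by linarith)
      linarith
    have a1 := integral_gh_le (T := Real.exp t) (R := 4 * (Real.exp t * y))
      (a := 108 * Real.exp (κ / 8 * b) ^ 2 * (2 * L + 4 * M * Real.exp (-(4 * y / (2 * 1)))))
      (b := 108 * Real.exp (κ / 8 * b) ^ 2 * (M * 2)) hT0 (by positivity) (by positivity)
      (f := fun u : ℝ => N2 (sfI (Real.exp b) (2 * Real.exp b))
        (fun n => bet w F n * ang n ^ ℓ * pw (Real.exp b) n (u * Complex.I)) (Real.exp b)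
        (Real.exp (κ / 8 * b))) (fun u => tb_N2_nonneg _ _ _ _)
      (fun u hu => tb_N2_le (Real.exp_pos _).le (by positivity) fun q hq a σ hσ =>
        integral_mT_le one_pos (by linarith) L0 (fun τ => sq_nonneg _) (fun τ hτ => by
          rw [tb_shift hB0 hS0, hL]
          refine pow_le_pow_left₀ (norm_nonneg _) (h _ w j F q a _ hB hF hZ hj (mem_ball.1 hq).1
            ((mem_ball.1 hq).2.trans ?_) (by simpa using tb_Sg_abs hσ) ?_) 2
          · rw [← Real.exp_mul]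
            exact Real.exp_le_exp.2 (by linarith)
          · have : (σ + τ * Complex.I + u * Complex.I : ℂ).im = τ + u := by simp
            rw [this]
            linarith [abs_add_le τ u]) (triv u q a σ hσ))
      (fun u => tb_N2_le (Real.exp_pos _).le (by positivity) fun q _ a σ hσ => by
        refine (integral_mono_of_nonneg
          (ae_of_all _ fun τ => mul_nonneg (ps_mT_nonneg one_pos τ) (sq_nonneg _))
          ((integrable_mT one_pos).const_mul M) (ae_of_all _ fun τ =>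
            (mul_le_mul_of_nonneg_left (triv u q a σ hσ τ) (ps_mT_nonneg one_pos τ)).trans_eq
              (mul_comm _ _))).trans_eq ?_
        rw [integral_const_mul, integral_mT one_pos])
    have a2 : Real.exp (-((4 * (Real.exp t * y)) ^ 2 / (8 * Real.exp t ^ 2))) ≤ Real.exp (-(2 * y)) := by
      rw [show (4 * (Real.exp t * y)) ^ 2 / (8 * Real.exp t ^ 2) = 2 * y ^ 2 by field_simp; ring]
      exact Real.exp_le_exp.2 (by nlinarith)
    rw [show 4 * y / (2 * 1) = 2 * y by ring] at a1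
    have a3 : Real.exp (κ / 8 * b) ^ 3 * (Real.exp b ^ (1 - κ)) ^ 2 / Real.exp b ≤
        Real.exp b * Real.exp (-z) := by
      simp only [← Real.exp_mul, ← Real.exp_add, ← Real.exp_sub, ← Real.exp_nat_mul]
      push_cast
      exact Real.exp_le_exp.2 (by linarith)
    have a4 : Real.exp (κ / 8 * b) ^ 3 * Real.exp b * Real.exp (-(2 * y)) ≤
        Real.exp b * Real.exp (-z) := by
      simp only [← Real.exp_add, ← Real.exp_nat_mul]
      push_cast
      exact Real.exp_le_exp.2 (by linarith)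
    calc _ ≤ Real.exp (κ / 8 * b) * (108 * Real.exp (κ / 8 * b) ^ 2 * (2 * L + 4 * M * Real.exp (-(2 * y))) +
          2 * (108 * Real.exp (κ / 8 * b) ^ 2 * (M * 2)) * Real.exp (-(2 * y))) / Real.exp b := by
          gcongr
          exact a1.trans (by gcongr)
      _ = 108 * (2 * C ^ 2 * (Real.exp (κ / 8 * b) ^ 3 * (Real.exp b ^ (1 - κ)) ^ 2 / Real.exp b) +
          8 * 9216 ^ 2 * (Real.exp (κ / 8 * b) ^ 3 * Real.exp b * Real.exp (-(2 * y)))) := by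
          rw [hM, hL]
          field_simp
          ring
      _ ≤ 108 * (2 * C ^ 2 * (Real.exp b * Real.exp (-z)) +
          8 * 9216 ^ 2 * (Real.exp b * Real.exp (-z))) := by gcongr
      _ ≤ _ := by nlinarith [mul_nonneg hC2 hE]

set_option maxHeartbeats 1000000 in
/-- the range of dispersion -/
theorem tb_big (ℓ : ℤ) : ∃ (K ε : ℝ) (c : ℕ), 0 ≤ K ∧ 0 < ε ∧ ∀ (y z b t w v : ℝ) (j : ℕ) (α : O → ℂ)
    (F : Multiset ℕ → ℂ), 1400 ≤ y → 100 ≤ ε * y → 0 ≤ z → z ≤ ε * y → 8 * y ≤ Real.exp (ε * y) →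
    2 / 5 * y ≤ b → b ≤ y / 2 + 80 → 42 * z ≤ t → Real.exp (y / 100 - 1) ≤ 2 ^ j →
    (∀ a, ‖α a‖ ≤ 1) → (∀ M, ‖F M‖ ≤ 1) → ZR j F →
    ‖BF ℓ (SA y (Real.exp b)) (sfI (Real.exp b) (2 * Real.exp b)) α (bet w F) v (Real.exp t)‖ ^ 2 ≤
      K * y ^ c * Real.exp (5 / 3 * y - z) := by
  obtain ⟨κ, C2, hκ, hκ1, hC2, hN2⟩ := tb_N2 ℓ
  obtain ⟨κ0, Cd, hκ0, hCd, hd⟩ := disp1 (κ / 8) (by positivity)
  obtain ⟨C1, hC1, hN1⟩ := ext_N1
  obtain ⟨C3, -, hI2⟩ := ext_N2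
  obtain ⟨Cg, hCg, hg⟩ := bg_fourier
  obtain ⟨Cm, hCm, hm⟩ := bm_triv
  obtain ⟨K, c, hK, hnt⟩ := tb_nt
  obtain ⟨ε, hε, e1, e2, e3⟩ : ∃ ε : ℝ, 0 < ε ∧ 10 * ε ≤ κ ∧ 10 * ε ≤ κ0 ∧ 1000 * ε ≤ 1 := by
    refine ⟨min (min κ κ0) (1 / 100) / 10, by positivity, ?_, ?_, ?_⟩
    · linarith [min_le_left (min κ κ0) (1 / 100), min_le_left κ κ0]
    · linarith [min_le_left (min κ κ0) (1 / 100), min_le_right κ κ0]
    · linarith [min_le_right (min κ κ0) (1 / 100)]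
  refine ⟨2 * (Cg * (18 * Real.exp 1) * (Cd * (2 * K + 81 * 72 * C1 + C2))) +
    2 * (cP ^ 2 * (Cm * 4 * (18 * Real.exp 1) * 36)), ε, c, by positivity, hε,
    fun y z b t w v j α F hy hεy hz hzy h8 hb1 hb2 ht hj hα hF hZ => ?_⟩
  have hy0 : 0 ≤ y := by linarith
  have hb : 0 ≤ b := by linarith
  have f1 : 4 * (ε * y) ≤ κ * b := by nlinarith
  have f2 : 4 * (ε * y) ≤ κ0 * b := by nlinarith
  have f3 : 1000 * (ε * y) ≤ y := by nlinarith
  have hB : 1 ≤ Real.exp b := Real.one_le_exp hb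
  have hT : 1 ≤ Real.exp t := Real.one_le_exp (by linarith)
  have hB0 := Real.exp_pos b
  have hT0 := Real.exp_pos t
  have hyc : 1 ≤ y ^ c := one_le_pow₀ (by linarith)
  obtain ⟨S, eS⟩ : ∃ S, S = sfI (Real.exp b) (2 * Real.exp b) := ⟨_, rfl⟩
  have hS : In S (Real.exp b) := eS ▸ in_sfI (by linarith)
  have hS0 : ∀ n ∈ S, n ≠ 0 := fun n hn => (hS n hn).1.1.ne_zero
  have hγ := tb_ang ℓ (X := Real.exp b) (Y := 2 * Real.exp b) (h2b_bet (w := w) hF)
  have b1 := hN2 y z b t w j F (by linarith) hb (by linarith) (by linarith) (by linarith)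
    (h8.trans (Real.exp_le_exp.2 (by linarith))) (by linarith) hF hZ (le_trans (by
      rw [← Real.exp_mul]
      exact Real.exp_le_exp.2 (by linarith)) hj)
  have b2 := tb_n2 (by positivity) hγ
  have b3 := hnt y (Real.exp b) _ hB (Real.exp_le_exp.2 hb2) (by linarith) hγ
  have b4 : n2 (SA y (Real.exp b)) (fun a => α a * ang a ^ ℓ) ≤ 18 * (Real.exp (y + 1) / Real.exp b) :=
    tb_n2 (by positivity) (tb_ang ℓ hα)
  rw [← eS] at b1 b2 b3 ⊢
  rw [BF_eq ℓ (fun a ha => (bf_mem_SA hB0 ha).1) fun n hn => (hS n hn).1]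
  obtain ⟨γ, eγ⟩ : ∃ γ : O → ℂ, γ = fun n => bet w F n * ang n ^ ℓ := ⟨_, rfl⟩
  replace b1 : Real.exp b ^ (κ / 8) * (∫ u : ℝ, gh (Real.exp t) u * N2 S
      (fun n => γ n * pw (Real.exp b) n (u * Complex.I)) (Real.exp b) (Real.exp b ^ (κ / 8))) /
      Real.exp b ≤ C2 * (Real.exp b * Real.exp (-z)) := by rw [eγ]; exact b1
  rw [← eγ] at b2 b3 ⊢
  generalize (fun a => α a * ang a ^ ℓ) = α' at b4 ⊢
  have n0 := bf_n2_nonneg (SA y (Real.exp b)) α'
  have n1 := bf_n2_nonneg S γ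
  have n3 := bf_nt_nonneg S γ
  have hE : 0 ≤ Real.exp b * Real.exp (-z) := by positivity
  have e5 : Real.exp (5 / 3 * y - z) = Real.exp (2 / 3 * y) * Real.exp y * Real.exp (-z) := by
    rw [← Real.exp_add, ← Real.exp_add]
    congr 1
    ring
  -- the main-term form
  have g1 : ‖BM (SA y (Real.exp b)) S α' γ v (Real.exp t)‖ ^ 2 ≤
      Cm * 4 * (18 * Real.exp 1) * 36 * (y ^ c * Real.exp (5 / 3 * y - z)) := by
    have a1 := tb_numB (b := y - b) (t := t) (z := 0) (a := 0) (by linarith) (by linarith)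
    have a2 := tb_numB (b := b) (t := t) (z := z) (a := 0) (by linarith) (by linarith)
    rw [Real.exp_zero, one_mul] at a2
    rw [neg_zero, Real.exp_zero, one_mul, mul_one, Real.exp_sub] at a1
    have a3 : Real.exp (2 / 3 * y) = Real.exp (-(y / 3)) * Real.exp y := by
      rw [← Real.exp_add]
      congr 1
      ring
    calc _ ≤ _ := hm S α' γ y _ v _ hB hS hT
      _ ≤ Cm * Real.exp (-(y / 3)) * (2 * (Real.exp y / Real.exp b)) * (2 * (Real.exp b * Real.exp (-z))) *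
          (18 * (Real.exp (y + 1) / Real.exp b)) * (18 * (2 * Real.exp b)) := by gcongr
      _ = Cm * 4 * (18 * Real.exp 1) * 36 * (1 * Real.exp (5 / 3 * y - z)) := by
          rw [e5, a3, Real.exp_add y 1]
          field_simp
          ring
      _ ≤ _ := by gcongr
  -- the Gauss sum form
  obtain ⟨i1, j1⟩ := hN1 S γ _ _ (9 * Real.exp (3 * z) ^ 3) hB hS hT (by positivity)
  obtain ⟨i2, -⟩ := hI2 S γ _ _ (Real.exp b ^ (κ / 8)) hB hS hT (by positivity)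
  obtain ⟨X1, eX1⟩ : ∃ X : ℝ → ℝ, X = fun u : ℝ => N1 S (fun n => γ n * pw (Real.exp b) n (u * Complex.I))
    (Real.exp b) (9 * Real.exp (3 * z) ^ 3) 1 := ⟨_, rfl⟩
  obtain ⟨X2, eX2⟩ : ∃ X : ℝ → ℝ, X = fun u : ℝ => N2 S (fun n => γ n * pw (Real.exp b) n (u * Complex.I))
    (Real.exp b) (Real.exp b ^ (κ / 8)) := ⟨_, rfl⟩
  replace i1 : Integrable fun u => gh (Real.exp t) u * X1 u := by rw [eX1]; exact i1
  replace i2 : Integrable fun u => gh (Real.exp t) u * X2 u := by rw [eX2]; exact i2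
  replace j1 : ∫ u, gh (Real.exp t) u * X1 u ≤ C1 * (9 * Real.exp (3 * z) ^ 3) ^ 2 *
      (Real.exp b / Real.exp t + Real.sqrt (Real.exp b)) * n2 S γ := by rw [eX1]; exact j1
  replace b1 : Real.exp b ^ (κ / 8) * (∫ u, gh (Real.exp t) u * X2 u) / Real.exp b ≤
      C2 * (Real.exp b * Real.exp (-z)) := by rw [eX2]; exact b1
  have g2 : Real.exp (3 * z) ^ 4 * (∫ u, gh (Real.exp t) u * X1 u) / Real.exp b ≤
      81 * 72 * C1 * (Real.exp b * Real.exp (-z)) := by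
    have a1 := tb_numB (b := b) (t := t) (z := z) (a := (10 : ℕ) * (3 * z))
      (by push_cast; linarith) (by push_cast; linarith)
    rw [Real.exp_nat_mul] at a1
    calc _ ≤ Real.exp (3 * z) ^ 4 * (C1 * (9 * Real.exp (3 * z) ^ 3) ^ 2 *
          (Real.exp b / Real.exp t + Real.sqrt (Real.exp b)) * (18 * (2 * Real.exp b))) / Real.exp b := by
          gcongr
          exact j1.trans (by gcongr)
      _ = 81 * 36 * C1 * (Real.exp (3 * z) ^ 10 * (Real.exp b / Real.exp t + Real.sqrt (Real.exp b))) := by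
          field_simp
          ring
      _ ≤ 81 * 36 * C1 * (2 * (Real.exp b * Real.exp (-z))) := by gcongr
      _ = _ := by ring
  obtain ⟨U, eU⟩ : ∃ U, U = Cd * Real.exp (2 / 3 * y) := ⟨_, rfl⟩
  have hU : 0 ≤ U := by rw [eU]; positivity
  obtain ⟨P, eP⟩ : ∃ P, P = 2 * K * (y ^ c * (Real.exp b * Real.exp (-z))) := ⟨_, rfl⟩
  have g3 : ∀ u : ℝ, Disp S (fun n => γ n * pw (Real.exp b) n (u * Complex.I))
      (Real.exp (y - 1) / Real.exp b) 1 ≤ U * (P + Real.exp (3 * z) ^ 4 * X1 u / Real.exp b +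
        Real.exp b ^ (κ / 8) * X2 u / Real.exp b) := fun u => by
    have a1 := hd S (fun n => γ n * pw (Real.exp b) n (u * Complex.I)) (Real.exp b)
      (Real.exp (y - 1) / Real.exp b) (Real.exp (3 * z)) hB hS
      (by rw [← Real.exp_mul, ← Real.exp_sub]; exact Real.exp_le_exp.2 (by linarith))
      (by rw [← Real.exp_mul, ← Real.exp_sub]; exact Real.exp_le_exp.2 (by linarith))
      (Real.one_le_exp (by linarith))
      (by rw [← Real.exp_mul]; exact Real.exp_le_exp.2 (by linarith))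
    have a2 : nt S (fun n => γ n * pw (Real.exp b) n (u * Complex.I)) = nt S γ :=
      Finset.sum_congr rfl fun n hn => by rw [norm_mul, tb_pwI hB0 (hS0 n hn), mul_one]
    have a3 : (Real.exp (y - 1) / Real.exp b * Real.exp b) ^ (2 / 3 : ℝ) ≤ Real.exp (2 / 3 * y) := by
      rw [div_mul_cancel₀ _ hB0.ne', ← Real.exp_mul]
      exact Real.exp_le_exp.2 (by linarith)
    have a4 : Real.exp (3 * z) ^ (-(1 / 3 : ℝ)) + Real.exp b ^ (-κ0) ≤ 2 * Real.exp (-z) := by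
      rw [← Real.exp_mul, ← Real.exp_mul, two_mul]
      refine add_le_add ?_ ?_ <;> exact Real.exp_le_exp.2 (by linarith)
    have a5 : (Real.exp (3 * z) ^ (-(1 / 3 : ℝ)) + Real.exp b ^ (-κ0)) * nt S γ ≤ P :=
      (mul_le_mul a4 b3 n3 (by positivity)).trans_eq (by rw [eP]; ring)
    have a6 := d1_N1_nonneg S (fun n => γ n * pw (Real.exp b) n (u * Complex.I)) (Real.exp b)
      (9 * Real.exp (3 * z) ^ 3) one_pos
    have a7 := tb_N2_nonneg S (fun n => γ n * pw (Real.exp b) n (u * Complex.I)) (Real.exp b)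
      (Real.exp b ^ (κ / 8))
    rw [a2] at a1
    rw [eU, eX1, eX2]
    refine a1.trans (mul_le_mul (mul_le_mul_of_nonneg_left a3 hCd) (add_le_add_three a5 le_rfl le_rfl)
      (by positivity) (by positivity))
  have g4 : ∫ u : ℝ, gh (Real.exp t) u * Disp S (fun n => γ n * pw (Real.exp b) n (u * Complex.I))
      (Real.exp (y - 1) / Real.exp b) 1 ≤
      U * (2 * K + 81 * 72 * C1 + C2) * (y ^ c * (Real.exp b * Real.exp (-z))) := by
    have k0 := (integrable_gh hT0).const_mul (U * P)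
    have k1 := i1.const_mul (U * (Real.exp (3 * z) ^ 4 / Real.exp b))
    have k2 := i2.const_mul (U * (Real.exp b ^ (κ / 8) / Real.exp b))
    have k3 : Integrable fun u => U * P * gh (Real.exp t) u +
      U * (Real.exp (3 * z) ^ 4 / Real.exp b) * (gh (Real.exp t) u * X1 u) := k0.add k1
    have a1 : Real.exp b * Real.exp (-z) ≤ y ^ c * (Real.exp b * Real.exp (-z)) :=
      le_mul_of_one_le_left hE hyc
    calc _ ≤ ∫ u, (U * P * gh (Real.exp t) u +
          U * (Real.exp (3 * z) ^ 4 / Real.exp b) * (gh (Real.exp t) u * X1 u) +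
          U * (Real.exp b ^ (κ / 8) / Real.exp b) * (gh (Real.exp t) u * X2 u)) :=
          integral_mono_of_nonneg (ae_of_all _ fun u => mul_nonneg (gh_nonneg _ u hT0)
            (disp_nonneg _ _ _ _)) (k3.add k2) (ae_of_all _ fun u =>
              (mul_le_mul_of_nonneg_left (g3 u) (gh_nonneg _ u hT0)).trans_eq (by ring))
      _ = U * (P + Real.exp (3 * z) ^ 4 * (∫ u, gh (Real.exp t) u * X1 u) / Real.exp b +
          Real.exp b ^ (κ / 8) * (∫ u, gh (Real.exp t) u * X2 u) / Real.exp b) := by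
          rw [integral_add k3 k2, integral_add k0 k1, integral_const_mul, integral_const_mul,
            integral_const_mul, integral_gh hT0]
          ring
      _ ≤ U * (P + 81 * 72 * C1 * (y ^ c * (Real.exp b * Real.exp (-z))) +
          C2 * (y ^ c * (Real.exp b * Real.exp (-z)))) :=
          mul_le_mul_of_nonneg_left (add_le_add_three le_rfl
            (g2.trans (mul_le_mul_of_nonneg_left a1 (by positivity)))
            (b1.trans (mul_le_mul_of_nonneg_left a1 hC2))) hU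
      _ = _ := by rw [eP]; ring
  have g5 : ‖BG (SA y (Real.exp b)) S α' γ v (Real.exp t)‖ ^ 2 ≤
      Cg * (18 * Real.exp 1) * (Cd * (2 * K + 81 * 72 * C1 + C2)) *
        (y ^ c * Real.exp (5 / 3 * y - z)) := by
    calc _ ≤ _ := hg S α' γ y _ v _ hB hS hT
      _ ≤ Cg * (18 * (Real.exp (y + 1) / Real.exp b)) *
          (U * (2 * K + 81 * 72 * C1 + C2) * (y ^ c * (Real.exp b * Real.exp (-z)))) :=
          (mul_le_mul_of_nonneg_left g4 (mul_nonneg hCg n0)).trans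
            (mul_le_mul_of_nonneg_right (mul_le_mul_of_nonneg_left b4 hCg) (by positivity))
      _ = _ := by
          rw [e5, eU, Real.exp_add y 1]
          field_simp
  generalize BG (SA y (Real.exp b)) S α' γ v (Real.exp t) = X at g5 ⊢
  generalize BM (SA y (Real.exp b)) S α' γ v (Real.exp t) = Y at g1 ⊢
  have h1 : ‖X - cP * Y‖ ≤ ‖X‖ + cP * ‖Y‖ := by
    refine (norm_sub_le _ _).trans (le_of_eq ?_)
    rw [norm_mul, Complex.norm_real, Real.norm_of_nonneg cP_pos.le]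
  have h2 : ‖X - cP * Y‖ ^ 2 ≤ 2 * ‖X‖ ^ 2 + 2 * (cP ^ 2 * ‖Y‖ ^ 2) := by
    refine (pow_le_pow_left₀ (norm_nonneg _) h1 2).trans ?_
    nlinarith [sq_nonneg (‖X‖ - cP * ‖Y‖)]
  have h3 := mul_le_mul_of_nonneg_left g1 (sq_nonneg cP)
  refine h2.trans ?_
  calc _ ≤ 2 * (Cg * (18 * Real.exp 1) * (Cd * (2 * K + 81 * 72 * C1 + C2)) *
        (y ^ c * Real.exp (5 / 3 * y - z))) + 2 * (cP ^ 2 * (Cm * 4 * (18 * Real.exp 1) * 36 *
        (y ^ c * Real.exp (5 / 3 * y - z)))) := by linarith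
    _ = _ := by ring

/-- `nt ≤ B y^c` (`sum_dv 3`).  `B ≤ e^{0.34y}`: `II_ann`, `T₁ = min T e^{y/10}`.  `B ≤ e^{2y/5}`: `II_ann`,
`T₁ = min T e^{y/100}`.  `B > e^{2y/5}`: `BF_eq`, `bm_triv`, `bg_fourier`, `disp1 (κ/8)` (`κ` from `h2`),
`H = y^{c'}`, `ext_N1`; `N2`: if `T > B^{κ/2}` use `ext_N2`, otherwise `h2` for `|t| ≤ T y`, `|τ| ≤ y²`
(`integral_gh_le`, `integral_mT_le`). -/
theorem typeII_large (ℓ : ℤ) (A : ℕ) : ∃ (A1 : ℕ) (y0 : ℝ), 1 ≤ A1 ∧ ∀ y : ℝ, y0 ≤ y →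
    ∀ (B w v T : ℝ) (j0 : ℕ) (α : O → ℂ) (F : Multiset ℕ → ℂ),
    Real.exp (y / 3) * y ^ A1 / min T (Real.exp (y / 10)) ≤ B → B ≤ Real.exp (y / 2 + 80) →
    y ^ (2 * A1) ≤ T → Real.exp (y / 100 - 1) ≤ 2 ^ j0 → (∀ a, ‖α a‖ ≤ 1) → (∀ M, ‖F M‖ ≤ 1) →
    (Real.exp (2 / 5 * y) < B → ZR j0 F) →
    ‖BF ℓ (SA y B) (sfI B (2 * B)) α (bet w F) v T‖ ≤ Real.exp (5 / 6 * y) / y ^ A := by
  obtain ⟨K1, c1, hK1, hs⟩ := tb_small
  obtain ⟨K2, ε, c2, hK2, hε, hl⟩ := tb_big ℓ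
  obtain ⟨m, hm⟩ : ∃ m : ℕ, m = 2 * A + c1 + c2 + 1 := ⟨_, rfl⟩
  obtain ⟨y1, hy1⟩ := tb_ev hε (K1 + K2 + 1400) m
  obtain ⟨y2, hy2⟩ := tb_ev (ε := 1 / 10000) (by norm_num) 0 m
  refine ⟨21 * m, max y1 y2, by omega, fun y hy B w v T j0 α F h1 h2 h3 h4 hα hF hZ => ?_⟩
  obtain ⟨a1, a2, a3, a4⟩ := hy1 y ((le_max_left _ _).trans hy)
  obtain ⟨-, -, a5, -⟩ := hy2 y ((le_max_right _ _).trans hy)
  have hy0 : 0 < y := by linarith
  have hyy : 1 ≤ y := by linarith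
  obtain ⟨z, hz⟩ : ∃ z, z = m * Real.log y := ⟨_, rfl⟩
  have z0 : 0 ≤ z := hz ▸ mul_nonneg (Nat.cast_nonneg _) (Real.log_nonneg hyy)
  have ez : Real.exp z = y ^ m := by rw [hz, Real.exp_nat_mul, Real.exp_log hy0]
  rw [← hz] at a3 a5
  have hT0 : 0 < T := lt_of_lt_of_le (by positivity) h3
  obtain ⟨t, rfl⟩ := d2_exp hT0
  have hB0 : 0 < B := lt_of_lt_of_le (by positivity) h1
  obtain ⟨b, rfl⟩ := d2_exp hB0
  rw [show 2 * (21 * m) = m * 42 by ring, pow_mul, ← ez, ← Real.exp_nat_mul, Real.exp_le_exp] at h3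
  rw [← Real.exp_strictMono.monotone.map_min, mul_comm 21 m, pow_mul, ← ez, ← Real.exp_nat_mul,
    ← Real.exp_add, ← Real.exp_sub, Real.exp_le_exp] at h1
  rw [Real.exp_le_exp] at h2
  rw [Real.exp_lt_exp] at hZ
  push_cast at h1 h3
  have m1 := min_le_left t (y / 10)
  have m2 := min_le_right t (y / 10)
  have key : ∀ (K : ℝ) (c : ℕ) (X : ℝ), K ≤ y → c ≤ c1 + c2 → 0 ≤ X →
      X ^ 2 ≤ K * y ^ c * Real.exp (5 / 3 * y - z) → X ≤ Real.exp (5 / 6 * y) / y ^ A := by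
    intro K c X k1 k2 k3 k4
    refine abs_le_of_sq_le_sq' (k4.trans ?_) (by positivity) |>.2
    have e : Real.exp (5 / 6 * y) ^ 2 = Real.exp (5 / 3 * y) := by
      rw [← Real.exp_nat_mul]
      congr 1
      push_cast
      ring
    calc _ ≤ y * y ^ (c1 + c2) * Real.exp (5 / 3 * y - z) := by gcongr
      _ = _ := by
          rw [Real.exp_sub, ez, div_pow, e, hm]
          field_simp
          ring
  rcases le_total b (34 / 100 * y) with hc | hc
  · refine key K1 c1 _ (by linarith) (by omega) (norm_nonneg _)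
      (hs ℓ y z b t (min t (y / 10)) v α _ (by linarith) z0 h2 m1 (by linarith) (by linarith)
        (by linarith) (by linarith) (le_min h3 (by linarith)) (by linarith) hα (h2b_bet hF))
  rcases le_or_gt b (2 / 5 * y) with hc' | hc'
  · have m3 := min_le_right t (y / 100)
    have m4 : 42 * z ≤ min t (y / 100) := le_min h3 (by linarith)
    refine key K1 c1 _ (by linarith) (by omega) (norm_nonneg _)
      (hs ℓ y z b t (min t (y / 100)) v α _ (by linarith) z0 h2 (min_le_left _ _) (by linarith)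
        (by linarith) (by linarith) (by linarith) m4 (by linarith) hα (h2b_bet hF))
  · exact key K2 c2 _ (by linarith) (by omega) (norm_nonneg _)
      (hl y z b t w v j0 α F (by linarith) (by linarith) z0 a3 a4 hc'.le h2 h3 h4 hα hF (hZ hc'))

end Crest.Agent.R12
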