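import Crest.Agent.R12.Dec3
import Crest.Agent.R12.TypeIIa
import Crest.Agent.R12.TypeIIb
import Crest.Agent.R12.Narrow
import Crest.Agent.R12.TI2

/-!
# R12 / Props : the two propositions on windows of primes, and the main theorem over `O`
-/

set_option autoImplicit false

noncomputable section

open scoped Classical ComplexConjugate Topology
open MeasureTheory Filter

namespace Crest.Agent.R12

open Crest.Agent.R17

theorem prp_exp (K : ℝ) (n : ℕ) {c : ℝ} (hc : 0 < c) :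
    ∀ᶠ y : ℝ in atTop, K * y ^ n ≤ Real.exp (c * y) := by
  filter_upwards [((isLittleO_pow_exp_pos_mul_atTop n hc).const_mul_left K).bound one_pos] with y hy
  rw [one_mul, Real.norm_of_nonneg (Real.exp_pos _).le] at hy
  exact (le_abs_self _).trans hy

theorem prp_log (K : ℝ) {c : ℝ} (hc : 0 < c) : ∀ᶠ y : ℝ in atTop, K * Real.log y ≤ c * y := by
  filter_upwards [(Real.isLittleO_log_id_atTop.const_mul_left K).bound hc, eventually_ge_atTop 0]
    with y hy h0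
  rw [id, Real.norm_of_nonneg h0] at hy
  exact (le_abs_self _).trans hy

theorem prp_two (n : ℕ) : (2 : ℝ) ^ n = Real.exp (n * Real.log 2) := by
  rw [Real.exp_nat_mul, Real.exp_log two_pos]

/-- the common part of both propositions -/
theorem prp_core (ℓ : ℤ) : ∃ Cd : ℕ, ∀ A Cw : ℕ, ∀ᶠ y : ℝ in atTop, ∀ X w : ℝ, y / 5 ≤ X →
    X ≤ y / 3 + y / 2000 → 2 ^ 1000 ≤ w → w ≤ y ^ Cw → w ≤ Real.exp (Real.sqrt y) ∧
    ∃ F0 : Multiset ℕ → ℂ, (∀ M, ‖F0 M‖ ≤ 8) ∧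
      (∀ M, F0 M ≠ 0 → Multiset.card M = 3 ∧
        (∀ i ∈ M, y - 7 - 2 * X ≤ i * Real.log 2 ∧ i * Real.log 2 ≤ X) ∧
        |(M.sum : ℝ) * Real.log 2 - y| ≤ 5) ∧
      ∀ v t : ℝ, y - 1 ≤ v → v ≤ y → y ≤ Real.exp t → t ≤ (1 / 6 + 1 / 1000) * v →
        y / 3 ≤ X + min t (y / 10) → X + min t (y / 10) ≤ y / 3 + y / 2000 →
        (∀ (B : ℝ) (j0 : ℕ) (α : O → ℂ) (F : Multiset ℕ → ℂ), Real.exp X / 2 ≤ B →
          B ≤ Real.exp (y / 2 + 80) → Real.exp (y / 100 - 1) ≤ 2 ^ j0 → (∀ a, ‖α a‖ ≤ 1) →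
          (∀ M, ‖F M‖ ≤ 1) → (Real.exp (2 / 5 * y) < B → ZR j0 F) →
          ‖BF ℓ (SA y B) (sfI B (2 * B)) α (bet w F) v (Real.exp t)‖ ≤
            Real.exp (5 / 6 * y) / y ^ (Cd + A)) →
        ‖win (fun n => fP ℓ n + ff ℓ n * F0 (bx n)) v (Real.exp t)‖ ≤
          4 * (Real.exp (5 / 6 * y) / y ^ A) := by
  obtain ⟨Cd, yd, hd⟩ := decomp
  obtain ⟨κ, C, hκ, hC, hTI⟩ := TI_f ℓ
  refine ⟨Cd, fun A Cw => ?_⟩
  obtain ⟨yr, hr⟩ := typeII_rare (Cd + A + Cw) Cw (η := 1 / 500) (by norm_num)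
  filter_upwards [eventually_ge_atTop yd, eventually_ge_atTop yr, eventually_ge_atTop 40000,
    Real.tendsto_sqrt_atTop.eventually (prp_exp 1 (2 * Cw) one_pos),
    prp_exp (C * Real.exp κ) A hκ, prp_exp 1 A (c := 5 / 6) (by norm_num)]
    with y hyd hyr hy e1 e2 e3 X w hX1 hX2 hw1 hw2
  have hy0 : 0 < y := by linarith
  have l0 : 0 < Real.log 2 := Real.log_pos one_lt_two
  have l1 : Real.log 2 < 1 := by linarith [Real.log_two_lt_d9]
  rw [one_mul, one_mul, pow_mul, Real.sq_sqrt hy0.le] at e1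
  have hws : w ≤ Real.exp (Real.sqrt y) := hw2.trans e1
  have hw0 : 0 < w := lt_of_lt_of_le (by positivity) hw1
  refine ⟨hws, ?_⟩
  obtain ⟨ρ, hρ1, hρ2⟩ : ∃ ρ : ℕ, X ≤ ρ * Real.log 2 ∧ (ρ - 1) * Real.log 2 ≤ X := by
    refine ⟨⌈X / Real.log 2⌉₊, (div_le_iff₀ l0).1 (Nat.le_ceil _), (le_div_iff₀ l0).1 ?_⟩
    linarith [Nat.ceil_lt_add_one (div_nonneg (by linarith : 0 ≤ X) l0.le)]
  obtain ⟨j, hj1, hj2⟩ : ∃ j : ℕ, y / 100 - 1 ≤ j * Real.log 2 ∧ j * Real.log 2 ≤ y / 100 := by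
    refine ⟨⌊y / 100 / Real.log 2⌋₊, ?_, (le_div_iff₀ l0).1 (Nat.floor_le (by positivity))⟩
    have := (div_lt_iff₀ l0).1 (Nat.lt_floor_add_one (y / 100 / Real.log 2))
    linarith
  obtain ⟨F0, h1, h2, h3⟩ := hd y hyd ρ j w (by linarith) (by linarith) hj1 hj2 hw1 hws
  refine ⟨F0, h1, fun M hM => ⟨(h2 M hM).1, fun i hi => ?_, (h2 M hM).2.2⟩,
    fun v t hv1 hv2 hyt ht hb1 hb2 hE => ?_⟩
  · obtain ⟨a, b⟩ := (h2 M hM).2.1 i hi
    have a' : (M.sum : ℝ) ≤ i + 2 * ρ := by exact_mod_cast a.le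
    have b' : (i : ℝ) ≤ ρ - 1 := by
      have : (i : ℝ) + 1 ≤ ρ := by exact_mod_cast b
      linarith
    have := (abs_le.1 (h2 M hM).2.2).1
    constructor <;> nlinarith
  have hR : (2 : ℝ) ^ (ρ + j) * Real.exp (y / 200) =
      Real.exp (ρ * Real.log 2 + j * Real.log 2 + y / 200) := by
    rw [prp_two, ← Real.exp_add]
    push_cast
    ring_nf
  have hT1 : 1 ≤ Real.exp t := by linarith
  have ht0 : 0 ≤ t := Real.one_le_exp_iff.1 hT1
  have hmin : min (Real.exp t) (Real.exp (y / 10)) = Real.exp (min t (y / 10)) :=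
    (Real.exp_monotone.map_min).symm
  have hm0 : 0 ≤ min t (y / 10) := le_min ht0 (by linarith)
  have hE0 : ∀ n : ℕ, 0 ≤ Real.exp (5 / 6 * y) / y ^ n := fun n => by positivity
  have key := h3 ℓ v (Real.exp t) (C * Real.exp ((5 / 6 - κ) * v)) _ _ hv1 hv2 hyt (hE0 (Cd + A))
    (hE0 (Cd + A + Cw)) (hTI v _ _ (by linarith) hT1 (Real.exp_le_exp.2 ht) ?_ ?_)
    (fun B α F a b => hE B j α F (le_trans ?_ a) b ?_)
    (fun B α β a b => hr y hyr ℓ B w v _ α β hT1 hw2 (le_trans ?_ a) (b.trans ?_))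
  · refine key.trans ?_
    have hA : 0 < y ^ A := by positivity
    have k1 : C * Real.exp ((5 / 6 - κ) * v) ≤ Real.exp (5 / 6 * y) / y ^ A := by
      rw [le_div_iff₀ hA]
      calc C * Real.exp ((5 / 6 - κ) * v) * y ^ A
          ≤ C * Real.exp (κ + (5 / 6 * y - κ * y)) * y ^ A := by gcongr; nlinarith
        _ = C * Real.exp κ * y ^ A * Real.exp (5 / 6 * y - κ * y) := by rw [Real.exp_add]; ring
        _ ≤ Real.exp (κ * y) * Real.exp (5 / 6 * y - κ * y) := by gcongr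
        _ = _ := by rw [← Real.exp_add]; ring_nf
    have k2 : 1 ≤ Real.exp (5 / 6 * y) / y ^ A := by rwa [le_div_iff₀ hA]
    have k3 : y ^ Cd * (Real.exp (5 / 6 * y) / y ^ (Cd + A) +
        w * (Real.exp (5 / 6 * y) / y ^ (Cd + A + Cw))) ≤ 2 * (Real.exp (5 / 6 * y) / y ^ A) := by
      calc _ ≤ y ^ Cd * (Real.exp (5 / 6 * y) / y ^ (Cd + A) +
          y ^ Cw * (Real.exp (5 / 6 * y) / y ^ (Cd + A + Cw))) := by gcongr
        _ = _ := by field_simp; ring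
    linarith
  · rw [hR]
    exact Real.exp_le_exp.2 (by linarith)
  · rw [hR, ← Real.exp_mul, ← Real.exp_nat_mul, ← Real.exp_add]
    refine Real.exp_le_exp.2 ?_
    push_cast
    rcases le_total t (y / 10) with h | h
    · rw [min_eq_left h] at hb2
      linarith
    · rw [min_eq_right h] at hb2
      linarith
  · rw [prp_two]
    gcongr
  · rw [prp_two]
    exact Real.exp_le_exp.2 hj1
  · have hs : Real.sqrt y ≤ y / 200 := Real.sqrt_le_iff.2 ⟨by linarith, by nlinarith⟩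
    rw [hR, hmin, ← Real.exp_sub, le_div_iff₀ hw0]
    calc _ ≤ Real.exp (y / 3 - min t (y / 10)) * Real.exp (Real.sqrt y) := by gcongr
      _ ≤ _ := by
        rw [← Real.exp_add]
        exact Real.exp_le_exp.2 (by linarith)
  · rw [hR, hmin, ← Real.exp_sub]
    exact Real.exp_le_exp.2 (by linarith)

/-- **large `T`.**  `decomp` with `y = v`, `w = 2^{1000}`, `j₀ = ⌊y/(100 log 2)⌋`, `T₁ = min T e^{y/10}`,
`ρ₁` least with `2^{ρ₁} ≥ 2 e^{y/3} y^{A₁}/T₁`, `A₁` from `typeII_large ℓ (Cd + 4)`.  The narrow set is empty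
(`M.sum < 3ρ₁`, `3ρ₁ log 2 ≤ y + 3 log 4 - 3A₁ log y`).  `TI_f`, `typeII_rare (Cd + 5) 1`. -/
theorem propB (ℓ : ℤ) : ∃ (A1 : ℕ) (y0 : ℝ), 1 ≤ A1 ∧ ∀ v T : ℝ, y0 ≤ v → v ^ A1 ≤ T →
    T ≤ Real.exp ((1 / 6 + 1 / 1000) * v) → ‖win (fP ℓ) v T‖ ≤ Real.exp (5 / 6 * v) / v ^ 3 := by
  obtain ⟨Cd, hc⟩ := prp_core ℓ
  obtain ⟨a, y1, ha, h1⟩ := typeII_large ℓ (Cd + 4)
  have ha' : (1 : ℝ) ≤ a := by exact_mod_cast ha
  obtain ⟨y0, h0⟩ := eventually_atTop.1 ((hc 4 1).and ((eventually_ge_atTop y1).and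
    ((eventually_mem_set.2 (Ici_mem_atTop (2 ^ 1000))).and ((prp_log a (c := 1 / 4000) (by norm_num)).and
      ((eventually_ge_atTop 4000).and (Real.tendsto_log_atTop.eventually_ge_atTop 4))))))
  refine ⟨2 * a, y0, by omega, fun y T hy hT1 hT2 => ?_⟩
  obtain ⟨hc, hy1, hw, hl, hy4, hL⟩ := h0 y hy
  have hy0 : 0 < y := by linarith
  have l0 : 0 < Real.log 2 := Real.log_pos one_lt_two
  have l1 : Real.log 2 < 1 := by linarith [Real.log_two_lt_d9]
  have hyT : y ≤ T := (le_self_pow₀ (by linarith) (by omega)).trans hT1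
  obtain ⟨t, rfl⟩ : ∃ t, T = Real.exp t := ⟨Real.log T, (Real.exp_log (by linarith)).symm⟩
  have hpow : ∀ n : ℕ, y ^ n = Real.exp (n * Real.log y) := fun n => by
    rw [Real.exp_nat_mul, Real.exp_log hy0]
  have ht : 2 * (a * Real.log y) ≤ t := by
    have := hT1
    rw [hpow, Real.exp_le_exp] at this
    push_cast at this
    linarith
  have haL : 4 ≤ a * Real.log y := by nlinarith
  have hm1 : 2 * (a * Real.log y) ≤ min t (y / 10) := le_min ht (by linarith)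
  have hm2 : min t (y / 10) ≤ y / 10 := min_le_right _ _
  obtain ⟨-, F0, -, h2, h3⟩ := hc (Real.log 2 + y / 3 + a * Real.log y - min t (y / 10)) (2 ^ 1000)
    (by linarith) (by linarith) le_rfl (by rwa [pow_one])
  have hF : ∀ M, F0 M = 0 := fun M => by
    by_contra hM
    obtain ⟨c, b, -⟩ := h2 M hM
    obtain ⟨i, hi⟩ := Multiset.card_pos_iff_exists_mem.1 (by omega : 0 < Multiset.card M)
    linarith [(b i hi).1, (b i hi).2]
  have key := h3 y t (by linarith) le_rfl hyT (Real.exp_le_exp.1 hT2) (by linarith) (by linarith)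
    fun B j0 α F b1 b2 => h1 y hy1 B _ y _ j0 α F (le_trans (le_of_eq ?_) b1) b2 hT1
  · simp only [hF, mul_zero, add_zero] at key
    refine key.trans ?_
    rw [← mul_div_assoc, div_le_div_iff₀ (by positivity) (by positivity)]
    have : 0 < Real.exp (5 / 6 * y) * y ^ 3 := by positivity
    nlinarith
  · rw [← Real.exp_monotone.map_min, hpow, Real.exp_sub, Real.exp_add, Real.exp_add,
      Real.exp_log two_pos]
    field_simp

/-- **small `T`.**  `S = y^{A₁}`; `typeII_small ℓ (Cd + A₁ + 3) A₁` gives `Cw, A₂`; `w = y^{Cw+1}`, `ρ₁` least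
with `2^{ρ₁} ≥ 2 e^{y/3} y^{A₂}`; `decomp`, `TI_f`, `typeII_rare`; `norm_plS_le` for
`fP + ff · F₀ ∘ bx`, `plS_le_all` with `narrow` for `ff · F₀ ∘ bx` (`Nar y (2A₂+1) F₀`); `plS_add`. -/
theorem propA (ℓ : ℤ) {A1 : ℕ} (hA : 1 ≤ A1) : ∃ C y0 : ℝ, ∀ y : ℝ, y0 ≤ y →
    ‖plS (fP ℓ) (y ^ A1) (y - 1) y‖ ≤ C * Real.exp (5 / 6 * y) / y ^ (5 / 4 : ℝ) := by
  obtain ⟨Cd, hc⟩ := prp_core ℓ
  obtain ⟨Cw, A2, y1, h1⟩ := typeII_small ℓ (Cd + (A1 + 2)) A1
  obtain ⟨C2, y2, hC2, h2⟩ := narrow (2 * A2 + 1)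
  obtain ⟨C3, hC3, h3⟩ := plS_le_all
  obtain ⟨y0, h0⟩ := eventually_atTop.1 ((hc (A1 + 2) (Cw + 1)).and ((eventually_ge_atTop y1).and
    ((eventually_ge_atTop y2).and ((eventually_mem_set.2 (Ici_mem_atTop (2 ^ 1000))).and
    ((prp_log (A1 + A2) (c := 1 / 4000) (by norm_num)).and ((eventually_ge_atTop 4000).and
    ((Real.tendsto_log_atTop.eventually_ge_atTop 9).and
      ((isLittleO_log_rpow_rpow_atTop 3 (s := 1 / 4) (by norm_num)).bound one_pos))))))))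
  refine ⟨4 + C3 * (1 + A1) * C2, y0, fun y hy => ?_⟩
  obtain ⟨hc, hy1, hy2, hw, hl, hy4, hL, hL3⟩ := h0 y hy
  have hy0 : 0 < y := by linarith
  have hy1' : 1 ≤ y := by linarith
  have l0 : 0 < Real.log 2 := Real.log_pos one_lt_two
  have l1 : Real.log 2 < 1 := by linarith [Real.log_two_lt_d9]
  have hL0 : 0 ≤ Real.log y := by linarith
  rw [one_mul, Real.norm_of_nonneg (by positivity), Real.norm_of_nonneg (by positivity),
    Real.rpow_ofNat] at hL3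
  have hpow : ∀ n : ℕ, y ^ n = Real.exp (n * Real.log y) := fun n => by
    rw [Real.exp_nat_mul, Real.exp_log hy0]
  have a1 : 0 ≤ A1 * Real.log y := by positivity
  have a2 : 0 ≤ A2 * Real.log y := by positivity
  have hS : 1 ≤ y ^ A1 := one_le_pow₀ hy1'
  obtain ⟨hws, F0, b1, b2, b3⟩ := hc (Real.log 2 + y / 3 + A2 * Real.log y) (y ^ (Cw + 1))
    (by linarith) (by linarith) (le_trans hw (le_self_pow₀ hy1' (by omega))) le_rfl
  have p1 : PolyBd (fP ℓ) := polyBd_of_le (norm_fP_le ℓ)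
  have n2 : ∀ n, ‖ff ℓ n * F0 (bx n)‖ ≤ (1 + cP) * 8 := fun n => by
    rw [norm_mul]
    exact mul_le_mul (norm_ff_le ℓ n) (b1 _) (norm_nonneg _) (by linarith [cP_pos])
  have p2 : PolyBd fun n => ff ℓ n * F0 (bx n) := polyBd_of_le n2
  have p3 : PolyBd fun n => fP ℓ n + ff ℓ n * F0 (bx n) :=
    polyBd_of_le fun n => (norm_add_le _ _).trans (add_le_add (norm_fP_le ℓ n) (n2 n))
  have hm : min (A1 * Real.log y) (y / 10) = A1 * Real.log y := min_eq_left (by linarith)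
  have k1 := norm_plS_le p3 hS (by linarith : y - 1 ≤ y)
    (W := 4 * (Real.exp (5 / 6 * y) / y ^ (A1 + 2))) fun v hv1 hv2 => by
      rw [hpow A1]
      refine b3 v _ hv1 hv2 (hpow A1 ▸ le_self_pow₀ hy1' (by omega)) (by linarith) (by linarith)
        (by linarith) fun B j0 α F c1 c2 => h1 y hy1 B _ v _ j0 α F (le_trans (le_of_eq ?_) c1) c2
          (pow_le_pow_right₀ hy1' (by omega)) hws (hpow A1 ▸ hS) (hpow A1).ge
      rw [hpow, Real.exp_add, Real.exp_add, Real.exp_log two_pos]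
      ring
  have hN : Nar y (2 * A2 + 1) F0 := fun M hM => by
    obtain ⟨c1, c2, c3⟩ := b2 M hM
    refine ⟨c1, fun i hi => abs_le.2 ⟨?_, ?_⟩, c3⟩ <;> linarith [(c2 i hi).1, (c2 i hi).2]
  have k2 := h3 _ _ y _ p2 hS fun v T hT => h2 ℓ y hy2 F0 b1 hN v T hT
  have e : plS (fP ℓ) (y ^ A1) (y - 1) y =
      plS (fun n => fP ℓ n + ff ℓ n * F0 (bx n)) (y ^ A1) (y - 1) y -
        plS (fun n => ff ℓ n * F0 (bx n)) (y ^ A1) (y - 1) y := by
    rw [plS_add p1 p2 hS, add_sub_cancel_right]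
  rw [e]
  refine (norm_sub_le _ _).trans ((add_le_add k1 k2).trans ?_)
  have hE := Real.exp_pos (5 / 6 * y)
  have h54 : 0 < y ^ (5 / 4 : ℝ) := by positivity
  have h14 : 0 < y ^ (1 / 4 : ℝ) := by positivity
  have r1 : y ^ (5 / 4 : ℝ) ≤ y ^ 2 := by
    rw [← Real.rpow_ofNat]
    exact Real.rpow_le_rpow_of_exponent_le hy1' (by norm_num)
  have r2 : y ^ (3 / 2 : ℝ) = y ^ (1 / 4 : ℝ) * y ^ (5 / 4 : ℝ) := by
    rw [← Real.rpow_add hy0]
    norm_num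
  rw [add_mul, add_div]
  refine add_le_add ?_ ?_
  · calc _ = 4 * Real.exp (5 / 6 * y) / y ^ 2 := by field_simp; ring
      _ ≤ _ := by gcongr
  · rw [Real.log_pow, r2]
    have : 1 + A1 * Real.log y ≤ (1 + A1) * Real.log y := by linarith
    calc _ ≤ C3 * ((1 + A1) * Real.log y) * (C2 * Real.log y ^ 2 * Real.exp (5 / 6 * y) /
          (y ^ (1 / 4 : ℝ) * y ^ (5 / 4 : ℝ))) := by gcongr
      _ = C3 * (1 + A1) * C2 * Real.exp (5 / 6 * y) / y ^ (5 / 4 : ℝ) *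
          (Real.log y ^ 3 / y ^ (1 / 4 : ℝ)) := by field_simp
      _ ≤ _ := mul_le_of_le_one_right (by positivity) ((div_le_one h14).2 hL3)

end Crest.Agent.R12
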