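import Crest.Agent.R12.SW1

/-!
# R12 / SW2 : the classical zero-free region (Landau's form)
-/

set_option autoImplicit false

noncomputable section

open scoped Classical ComplexConjugate Topology
open MeasureTheory Filter

namespace Crest.Agent.R12

open Crest.Agent.R17

/-- bounded, supported on and multiplicative on primary elements -/
structure SW2M (ψ : O → ℂ) : Prop where
  bd : ∀ n, ‖ψ n‖ ≤ 1
  zero : ∀ n, ¬ Prim n → ψ n = 0
  mul : ∀ a b, Prim a → Prim b → ψ (a * b) = ψ a * ψ b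
  one : ψ 1 = 1

theorem sw2_xk (ℓ : ℤ) (k : O) : SW2M (xk ℓ k) where
  bd := norm_xk_le ℓ k
  zero n hn := if_neg hn
  mul a b ha hb := by
    simp only [xk, if_pos ha, if_pos hb, if_pos (ha.mul hb), cub,
      sym_mul_left 3 ha.ne_zero hb.ne_zero, ang_mul, mul_zpow]
    ring
  one := by simp [xk, Prim.one, cub, sym_one, ang]

theorem sw2_one : SW2M (prim fun _ => 1) where
  bd := loc_norm_prim_le fun _ => norm_one.le
  zero n hn := if_neg hn
  mul a b ha hb := by simp only [prim, if_pos ha, if_pos hb, if_pos (ha.mul hb), mul_one]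
  one := if_pos Prim.one

theorem sw2_summ {ψ : O → ℂ} (hb : ∀ n, ‖ψ n‖ ≤ 1) {σ : ℝ} (hσ : 1 < σ) :
    Summable fun n => ‖(vm n : ℂ) * ψ n‖ * N n ^ (-σ) := by
  refine Summable.of_nonneg_of_le
    (fun n => mul_nonneg (norm_nonneg _) (Real.rpow_nonneg (N_nonneg n) _)) (fun n => ?_)
    ((summable_N_rpow (σ := (1 + σ) / 2) (by linarith)).div_const ((σ - 1) / 2))
  by_cases hn : n = 0
  · have : N n = 0 := by simp [hn, N]
    rw [this, Real.zero_rpow (by linarith), Real.zero_rpow (by linarith), mul_zero, zero_div]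
  · have hN := N_pos hn
    rw [norm_mul, Complex.norm_real, Real.norm_of_nonneg (vm_nonneg n),
      show -((1 + σ) / 2) = (σ - 1) / 2 + -σ by ring, Real.rpow_add hN, mul_div_right_comm]
    exact mul_le_mul_of_nonneg_right ((mul_le_of_le_one_right (vm_nonneg n) (hb n)).trans
      (vm_le_rpow n (by linarith))) (by positivity)

theorem sw2_hasSum {ψ : O → ℂ} (h : SW2M ψ) {s : ℂ} (hs : 1 < s.re) :
    Summable (fun n : O => ‖if Prim n then ((vm n : ℂ) * ψ n) * (N n : ℂ) ^ (-s) else 0‖) ∧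
    dser (fun n => (vm n : ℂ) * ψ n) s =
      ∑' n : O, if Prim n then ((vm n : ℂ) * ψ n) * (N n : ℂ) ^ (-s) else 0 := by
  refine ⟨Summable.of_nonneg_of_le (fun _ => norm_nonneg _) (fun n => ?_) (sw2_summ h.bd hs), ?_⟩
  · split_ifs with hn
    · rw [norm_mul, loc_norm_cpow hn.ne_zero, Complex.neg_re]
    · rw [norm_zero]
      exact mul_nonneg (norm_nonneg _) (Real.rpow_nonneg (N_nonneg n) _)
  · rw [← LM.dser_prim]
    congr 1
    funext n
    by_cases hn : Prim n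
    · exact (if_pos hn).symm
    · rw [prim, if_neg hn, h.zero n hn, mul_zero]

theorem sw2_prim {ψ : O → ℂ} (h : SW2M ψ) : prim ψ = ψ := funext fun n => by
  by_cases hn : Prim n
  · exact if_pos hn
  · rw [prim, if_neg hn, h.zero n hn]

theorem sw2_vm {ψ : O → ℂ} (h : SW2M ψ) {s : ℂ} (hs : 1 < s.re) :
    dser (fun n => (vm n : ℂ) * ψ n) s * dser ψ s = -deriv (dser ψ) s := by
  obtain ⟨s1, e1⟩ := sw2_hasSum h hs
  have s2 : Summable fun n : O => ‖if Prim n then ψ n * (N n : ℂ) ^ (-s) else 0‖ :=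
    (LM.summable_term h.bd hs Prim fun n hn => hn.ne_zero).norm
  have e2 := LM.dser_prim ψ s
  rw [sw2_prim h] at e2
  rw [loc_dser_deriv h.bd hs, neg_neg, e1, e2, tsum_mul_tsum_of_summable_norm s1 s2]
  have s3 := (summable_mul_of_summable_norm s1 s2).hasSum
  have e : ∀ x : O × O, (if Prim x.1 then ((vm x.1 : ℂ) * ψ x.1) * (N x.1 : ℂ) ^ (-s) else 0) *
      (if Prim x.2 then ψ x.2 * (N x.2 : ℂ) ^ (-s) else 0) =
      if Prim x.1 ∧ Prim x.2 then
        (fun a m => (vm a : ℂ) * (ψ (a * m) * (N (a * m) : ℂ) ^ (-s))) x.1 x.2 else 0 := fun x => by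
    by_cases h1 : Prim x.1
    · by_cases h2 : Prim x.2
      · rw [if_pos h1, if_pos h2, if_pos ⟨h1, h2⟩]
        beta_reduce
        rw [h.mul _ _ h1 h2, LM.N_cpow_mul]
        ring
      · rw [if_neg h2, if_neg (c := Prim x.1 ∧ Prim x.2) (fun h => h2 h.2), mul_zero]
    · rw [if_neg h1, if_neg (c := Prim x.1 ∧ Prim x.2) (fun h => h1 h.1), zero_mul]
  have s4 := loc_hasSum_conv (F := fun a m => (vm a : ℂ) * (ψ (a * m) * (N (a * m) : ℂ) ^ (-s)))
    (s3.congr_fun fun x => (e x).symm)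
  rw [← s4.tsum_eq]
  unfold dser
  refine tsum_congr fun n => ?_
  by_cases hn : Prim n
  · rw [if_pos hn, if_neg hn.ne_zero]
    beta_reduce
    rw [← sum_vm hn]
    push_cast
    rw [Finset.mul_sum, Finset.sum_mul]
    refine Finset.sum_congr rfl fun e he => ?_
    rw [mem_pdiv hn.ne_zero] at he
    rw [EuclideanDomain.mul_div_cancel' he.1.ne_zero he.2]
    ring
  · simp [hn, h.zero n hn]

theorem sw2_diff {a : O → ℂ} (hb : ∀ n, ‖a n‖ ≤ 1) {s : ℂ} (hs : 1 < s.re) :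
    DifferentiableAt ℂ (dser a) s := by
  have hU : IsOpen {w : ℂ | (1 + s.re) / 2 < w.re} := isOpen_lt continuous_const Complex.continuous_re
  refine (Complex.differentiableOn_tsum_of_summable_norm
    (summable_N_rpow (σ := (1 + s.re) / 2) (by linarith)) (fun n => ?_) hU
    fun n w hw => ?_).differentiableAt (hU.mem_nhds (show (1 + s.re) / 2 < s.re by linarith))
  · split_ifs with hn
    · exact differentiableOn_const _
    · exact (differentiableOn_const _).mul (differentiableOn_id.neg.const_cpow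
        (Or.inl (Complex.ofReal_ne_zero.2 (N_pos hn).ne')))
  · split_ifs with hn
    · rw [norm_zero]
      exact Real.rpow_nonneg (N_nonneg n) _
    · exact (LM.norm_term_le hb w hn).trans
        (Real.rpow_le_rpow_of_exponent_le (one_le_N hn) (neg_le_neg (le_of_lt hw)))

theorem sw2_deriv {ψ : O → ℂ} (h : SW2M ψ) {z : ℂ} (c : ℂ) (hs : 1 < (z + c).re) :
    HasDerivAt (fun w => dser ψ (w + c))
      (-(dser (fun n => (vm n : ℂ) * ψ n) (z + c) * dser ψ (z + c))) z := by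
  rw [sw2_vm h hs, neg_neg]
  exact (sw2_diff h.bd hs).hasDerivAt.comp_add_const z c

theorem sw2_lim {ψ : O → ℂ} (h : SW2M ψ) {c : ℂ} (hc : c.re = 0) :
    Tendsto (fun σ : ℝ => dser ψ (σ + c)) atTop (𝓝 1) := by
  have h1 : (1 : ℂ) = ∑' n : O, if n = 1 then 1 else 0 := (tsum_ite_eq 1 fun _ => 1).symm
  rw [h1]
  refine tendsto_tsum_of_dominated_convergence (summable_N_rpow (σ := 2) one_lt_two) (fun n => ?_)
    ((eventually_ge_atTop 2).mono fun σ hσ n => ?_)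
  · by_cases hn : Prim n
    · simp only [if_neg hn.ne_zero]
      split_ifs with h1
      · simp [h1, h.one]
      · have h2 : 1 < N n := lt_of_le_of_ne (one_le_N hn.ne_zero) fun e =>
          h1 (hn.eq_one_of_isUnit (isUnit_iff_nm.2 (by unfold N at e; exact_mod_cast e.symm)))
        refine squeeze_zero_norm (fun σ => LM.norm_term_le h.bd _ hn.ne_zero) ?_
        simp only [Complex.add_re, Complex.ofReal_re, hc, add_zero]
        exact (tendsto_rpow_atBot_of_base_gt_one _ h2).comp tendsto_neg_atTop_atBot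
    · have : n ≠ 1 := fun e => hn (e ▸ Prim.one)
      simp [h.zero n hn, this]
  · split_ifs with hn
    · rw [norm_zero]
      exact Real.rpow_nonneg (N_nonneg n) _
    · refine (LM.norm_term_le h.bd _ hn).trans (Real.rpow_le_rpow_of_exponent_le (one_le_N hn) ?_)
      simp only [Complex.add_re, Complex.ofReal_re, hc, add_zero]
      linarith

theorem sw2_pos {ψ ψ2 : O → ℂ} (h : SW2M ψ) (h2 : SW2M ψ2) (e : ∀ n, ψ n ^ 2 = ψ2 n) {σ : ℝ}
    (hσ : 1 < σ) (t : ℝ) :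
    0 ≤ (3 * dser (fun n => (vm n : ℂ) * prim (fun _ => 1) n) (σ + 0) +
      4 * dser (fun n => (vm n : ℂ) * ψ n) (σ + t * Complex.I) +
      dser (fun n => (vm n : ℂ) * ψ2 n) (σ + 2 * t * Complex.I)).re := by
  obtain ⟨s0, e0⟩ := sw2_hasSum sw2_one (s := σ + 0) (by simpa using hσ)
  obtain ⟨s1, e1⟩ := sw2_hasSum h (s := σ + t * Complex.I) (by simpa using hσ)
  obtain ⟨s2, e2⟩ := sw2_hasSum h2 (s := σ + 2 * t * Complex.I) (by simpa using hσ)
  rw [e0, e1, e2]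
  refine (Complex.hasSum_re (((s0.of_norm.hasSum.mul_left 3).add
    (s1.of_norm.hasSum.mul_left 4)).add s2.of_norm.hasSum)).nonneg fun n => ?_
  by_cases hn : Prim n
  · have hN := N_pos hn.ne_zero
    have h0 : (N n : ℂ) ≠ 0 := Complex.ofReal_ne_zero.2 hN.ne'
    obtain ⟨z, hz⟩ : ∃ z, z = ψ n * (N n : ℂ) ^ (-(t * Complex.I)) := ⟨_, rfl⟩
    have hz1 : ‖z‖ ≤ 1 := by simpa [hz] using LM.norm_term_le h.bd (t * Complex.I) hn.ne_zero
    have a1 : 3 * ((vm n : ℂ) * prim (fun _ => 1) n * (N n : ℂ) ^ (-((σ : ℂ) + 0))) +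
        4 * ((vm n : ℂ) * ψ n * (N n : ℂ) ^ (-(σ + t * Complex.I))) +
        (vm n : ℂ) * ψ2 n * (N n : ℂ) ^ (-(σ + 2 * t * Complex.I)) =
        ((vm n * N n ^ (-σ) : ℝ) : ℂ) * (3 + 4 * z + z ^ 2) := by
      rw [prim, if_pos hn, add_zero, neg_add, show -((σ : ℂ) + 2 * t * Complex.I) =
        -σ + (-(t * Complex.I) + -(t * Complex.I)) by ring, Complex.cpow_add _ _ h0,
        Complex.cpow_add _ _ h0, Complex.cpow_add _ _ h0, ← e, hz, Complex.ofReal_mul,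
        Complex.ofReal_cpow hN.le, Complex.ofReal_neg]
      ring
    simp only [if_pos hn]
    rw [a1, Complex.re_ofReal_mul]
    refine mul_nonneg (mul_nonneg (vm_nonneg n) (by positivity)) ?_
    have a2 := pow_le_one₀ (norm_nonneg z) hz1 (n := 2)
    rw [Complex.sq_norm, Complex.normSq_apply] at a2
    simp only [sq, Complex.add_re, Complex.mul_re, Complex.re_ofNat, Complex.im_ofNat]
    nlinarith [sq_nonneg (1 + z.re)]
  · simp [hn]

theorem sw2_341 {ψ ψ2 : O → ℂ} (h : SW2M ψ) (h2 : SW2M ψ2) (e : ∀ n, ψ n ^ 2 = ψ2 n) {σ : ℝ}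
    (hσ : 1 < σ) (t : ℝ) : 1 ≤ ‖dser (prim fun _ => 1) (σ + 0) ^ 3 *
      dser ψ (σ + t * Complex.I) ^ 4 * dser ψ2 (σ + 2 * t * Complex.I)‖ := by
  let P : ℂ → ℂ := fun z => dser (prim fun _ => 1) (z + 0) ^ 3 * dser ψ (z + t * Complex.I) ^ 4 *
    dser ψ2 (z + 2 * t * Complex.I)
  have hd : ∀ x : ℝ, 1 < x → ∃ D : ℂ, 0 ≤ D.re ∧
      HasDerivAt (fun y : ℝ => ‖P y‖ ^ 2) (2 * inner ℝ (P x) (-(D * P x))) x := fun x hx => by
    refine ⟨_, sw2_pos h h2 e hx t, HasDerivAt.norm_sq (HasDerivAt.comp_ofReal ?_)⟩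
    refine (((((sw2_deriv sw2_one 0 (by simpa using hx)).fun_pow 3).fun_mul
      ((sw2_deriv h (t * Complex.I) (by simpa using hx)).fun_pow 4))).fun_mul
      (sw2_deriv h2 (2 * t * Complex.I) (by simpa using hx))).congr_deriv ?_
    simp only [P]
    push_cast
    ring
  have ha : AntitoneOn (fun y : ℝ => ‖P y‖ ^ 2) (Set.Ioi 1) := by
    refine antitoneOn_of_deriv_nonpos (convex_Ioi 1)
      (fun x hx => (hd x hx).choose_spec.2.continuousAt.continuousWithinAt)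
      (fun x hx => (hd x (interior_subset hx)).choose_spec.2.differentiableAt.differentiableWithinAt)
      fun x hx => ?_
    obtain ⟨D, h0, hD⟩ := hd x (interior_subset hx)
    rw [hD.deriv, Complex.inner, neg_mul, mul_assoc, Complex.mul_conj, Complex.neg_re,
      Complex.re_mul_ofReal]
    have := mul_nonneg h0 (Complex.normSq_nonneg (P x))
    linarith
  have hl : Tendsto (fun y : ℝ => ‖P y‖ ^ 2) atTop (𝓝 (‖(1 : ℂ) ^ 3 * 1 ^ 4 * 1‖ ^ 2)) :=
    ((((sw2_lim sw2_one rfl).pow 3).mul ((sw2_lim h (by simp)).pow 4)).mul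
      (sw2_lim h2 (by simp))).norm.pow 2
  have := le_of_tendsto hl ((eventually_ge_atTop σ).mono fun y hy => ha hσ (hσ.trans_le hy) hy)
  rw [one_pow, one_pow, one_mul, one_mul, norm_one, one_pow] at this
  exact (one_le_sq_iff₀ (norm_nonneg _)).1 this

theorem sw2_LL {k : O} (hk : k ≠ 0) {t H : ℝ} (h : |t| ≤ |H|) :
    1 ≤ LL k t ∧ LL k t ≤ LL k H ∧ LL (k ^ 2) (2 * t) ≤ 2 * LL k t := by
  have h1 := one_le_N hk
  have h2 := abs_nonneg t
  unfold LL
  refine ⟨?_, Real.log_le_log (by positivity) (by gcongr), ?_⟩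
  · rw [Real.le_log_iff_exp_le (by positivity)]
    nlinarith [Real.exp_one_lt_d9]
  · rw [show 2 * Real.log (N k * (|t| + 3)) = Real.log ((N k * (|t| + 3)) ^ 2) by
      rw [Real.log_pow]; norm_num, N_pow, abs_mul, abs_two, mul_pow]
    exact Real.log_le_log (by positivity) (by gcongr; nlinarith)

/-- `-L' = (∑ Λχ N^{-s}) L` on `Re s > 1` (`loc_dser_vm` is the case `Re s = 2`; same proof, or the
identity theorem; `loc_dser_deriv`).  `χ = xk ℓ k = prim (cub · k · ang^ℓ)` is completely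
multiplicative on primary elements (use `ψ n = if n = 0 then 0 else cub n k * ang n ^ ℓ`). -/
theorem dser_vm_xk (ℓ : ℤ) (k : O) {s : ℂ} (hs : 1 < s.re) :
    Summable (fun n => ‖(vm n : ℂ) * xk ℓ k n‖ * N n ^ (-s.re)) ∧
    dser (fun n => (vm n : ℂ) * xk ℓ k n) s * dser (xk ℓ k) s = -deriv (dser (xk ℓ k)) s :=
  ⟨sw2_summ (norm_xk_le ℓ k) hs, sw2_vm (sw2_xk ℓ k) hs⟩

/-- **3-4-1.**  `G(σ) = |ζ(σ)|⁶ |L(σ+it)|⁸ |L₂(σ+2it)|²` (`ζ = dser (xk 0 1)`) satisfies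
`G' = -2 G ∑ vm(n) N n^{-σ} (3 + 4 Re z_n + Re z_n²) ≤ 0`, `z_n = χ(n) N n^{-it}`, `|z_n| ∈ {0,1}`,
and `G(σ) → 1` as `σ → ∞`. -/
theorem three_four_one (ℓ : ℤ) (k : O) {σ : ℝ} (hσ : 1 < σ) (t : ℝ) :
    1 ≤ ‖dser (prim (fun _ => 1)) σ‖ ^ 3 * ‖dser (xk ℓ k) (σ + t * Complex.I)‖ ^ 4 *
      ‖dser (xk (2 * ℓ) (k ^ 2)) (σ + 2 * t * Complex.I)‖ := by
  simpa using sw2_341 (sw2_xk ℓ k) (sw2_xk (2 * ℓ) (k ^ 2)) (xk_sq ℓ k) hσ t

/-- `δ = c₁ LL^{-9}`: `|L(1+δ+it)| ≥ c δ^{3/4} LL^{-1/4}` (`three_four_one`, `zeta_le`, `L_cont` for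
`(2ℓ, k²)`, `LL (k²) (2t) ≤ 3 LL k t`), mean value inequality with `|L'| ≤ C LL²` on
`[1-δ, 1+δ]`; on `[1+δ, 2]` use `three_four_one` directly.  `F = -L'/L`. -/
theorem zfr (ℓ : ℤ) : ∃ c C : ℝ, 0 < c ∧ c ≤ 1 / 4 ∧ 0 ≤ C ∧ ∀ k : O, k ≠ 0 → NPl ℓ k →
    ∀ H : ℝ, 0 ≤ H → ∃ F : ℂ → ℂ,
      DifferentiableOn ℂ F {s | 1 - c / LL k H ^ 9 ≤ s.re ∧ s.re ≤ 2 ∧ |s.im| ≤ H} ∧
      (∀ s : ℂ, 1 < s.re → s.re ≤ 2 → |s.im| ≤ H → F s = dser (fun n => (vm n : ℂ) * xk ℓ k n) s) ∧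
      ∀ s : ℂ, 1 - c / LL k H ^ 9 ≤ s.re → s.re ≤ 2 → |s.im| ≤ H → ‖F s‖ ≤ C * LL k H ^ 9 := by
  obtain ⟨C0, hC0, h0⟩ := zeta_le
  obtain ⟨C1, hC1, h1⟩ := L_cont ℓ
  obtain ⟨C2, hC2, h2⟩ := L_cont (2 * ℓ)
  obtain ⟨A, hA⟩ : ∃ A, A = 2 * C0 ^ 3 * C2 + 1 := ⟨_, rfl⟩
  obtain ⟨B, hB⟩ : ∃ B, B = C1 + 1 := ⟨_, rfl⟩
  have hA1 : 1 ≤ A := by rw [hA]; exact le_add_of_nonneg_left (by positivity)
  have hB1 : 1 ≤ B := by linarith
  obtain ⟨c, hc⟩ : ∃ c, c = 1 / (256 * A * B ^ 4) := ⟨_, rfl⟩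
  have hc0 : 0 < c := by rw [hc]; positivity
  have hc4 : c ≤ 1 / 4 := by
    rw [hc]
    refine one_div_le_one_div_of_le (by norm_num) ?_
    nlinarith [one_le_pow₀ hB1 (n := 4)]
  refine ⟨c, 1 / (2 * c), hc0, hc4, by positivity, fun k hk hN H hH => ?_⟩
  obtain ⟨L, hL, eL, bL⟩ := h1 k hk hN
  obtain ⟨L2, -, eL2, bL2⟩ := h2 (k ^ 2) (pow_ne_zero 2 hk) hN.sq
  have hΛ := (sw2_LL hk (le_refl |H|)).1
  obtain ⟨Λ, eΛ⟩ : ∃ Λ, Λ = LL k H := ⟨_, rfl⟩
  rw [← eΛ] at hΛ ⊢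
  have hLL : ∀ t : ℝ, |t| ≤ H → 1 ≤ LL k t ∧ LL k t ≤ Λ ∧ LL (k ^ 2) (2 * t) ≤ 2 * LL k t :=
    fun t ht => eΛ ▸ sw2_LL hk (ht.trans (le_abs_self H))
  obtain ⟨δ, hδ⟩ : ∃ δ, δ = c / Λ ^ 9 := ⟨_, rfl⟩
  rw [← hδ]
  have hδ0 : 0 < δ := by rw [hδ]; positivity
  have hδ1 : δ ≤ 1 / (2 * Λ) := by
    rw [hδ, div_le_div_iff₀ (by positivity) (by positivity)]
    nlinarith [le_self_pow₀ hΛ (n := 9) (by norm_num)]
  have hδ2 : δ ≤ 1 / 4 := by
    rw [hδ]
    exact (div_le_self hc0.le (one_le_pow₀ hΛ)).trans hc4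
  have hU : IsOpen {s : ℂ | 1 / 4 < s.re ∧ s.re < 4} :=
    (isOpen_lt continuous_const Complex.continuous_re).inter
      (isOpen_lt Complex.continuous_re continuous_const)
  have hder : ∀ s : ℂ, 1 - δ ≤ s.re → s.re ≤ 2 → |s.im| ≤ H → ‖deriv L s‖ ≤ B * Λ ^ 2 :=
    fun s a1 a2 a3 => by
      obtain ⟨b1, b2, -⟩ := hLL _ a3
      have : 1 / (2 * Λ) ≤ 1 / (2 * LL k s.im) := one_div_le_one_div_of_le (by linarith) (by linarith)
      refine (bL s (by linarith) (by linarith)).2.trans ?_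
      gcongr
      linarith
  have hlow : ∀ σ t : ℝ, 1 + δ ≤ σ → σ ≤ 2 → |t| ≤ H →
      4 * c * B / Λ ^ 7 ≤ ‖L (σ + t * Complex.I)‖ := fun σ t a1 a2 a3 => by
    obtain ⟨b1, b2, b3⟩ := hLL _ a3
    have c1 := three_four_one ℓ k (σ := σ) (by linarith) t
    have c2 : ‖dser (prim fun _ => 1) σ‖ ≤ C0 / δ := (h0 σ (by linarith) a2).trans
      (div_le_div_of_nonneg_left hC0 hδ0 (by linarith))
    have c3 : ‖L2 (σ + 2 * t * Complex.I)‖ ≤ C2 * (2 * Λ) := by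
      have c4 : 0 < LL (k ^ 2) (2 * t) := (sw2_LL (pow_ne_zero 2 hk) le_rfl).1.trans_lt' one_pos
      have c5 : 0 < 1 / (2 * LL (k ^ 2) (2 * t)) := by positivity
      have r1 : ((σ : ℂ) + 2 * t * Complex.I).re = σ := by simp
      have r2 : ((σ : ℂ) + 2 * t * Complex.I).im = 2 * t := by simp
      have c6 := bL2 (σ + 2 * t * Complex.I)
      rw [r1, r2] at c6
      exact (c6 (by linarith) (by linarith)).1.trans (mul_le_mul_of_nonneg_left (by linarith) hC2)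
    rw [← eL _ (by simp; linarith) (by simp; linarith),
      ← eL2 _ (by simp; linarith) (by simp; linarith)] at c1
    have c7 : 1 ≤ (C0 / δ) ^ 3 * ‖L (σ + t * Complex.I)‖ ^ 4 * (C2 * (2 * Λ)) :=
      c1.trans (by gcongr)
    refine (pow_le_pow_iff_left₀ (by positivity) (norm_nonneg _) four_ne_zero).1 ?_
    have c8 : (4 * c * B / Λ ^ 7) ^ 4 = δ ^ 3 / (A * Λ) := by
      rw [hδ, hc]
      field_simp
      norm_num
    rw [c8, div_le_iff₀ (by positivity)]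
    rw [div_pow, div_mul_eq_mul_div, div_mul_eq_mul_div, le_div_iff₀ (by positivity), one_mul] at c7
    refine c7.trans ?_
    rw [hA]
    nlinarith [mul_nonneg (pow_nonneg (norm_nonneg (L (σ + t * Complex.I))) 4) (zero_le_one.trans hΛ)]
  have hlow' : ∀ s : ℂ, 1 - δ ≤ s.re → s.re ≤ 2 → |s.im| ≤ H → 2 * c * B / Λ ^ 7 ≤ ‖L s‖ :=
    fun s a1 a2 a3 => by
      have e7 : 4 * c * B / Λ ^ 7 = 2 * (2 * c * B / Λ ^ 7) := by ring
      have p7 : 0 < 2 * c * B / Λ ^ 7 := by positivity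
      rcases le_total (1 + δ) s.re with a4 | a4
      · have := hlow s.re s.im a4 a2 a3
        rw [Complex.re_add_im] at this
        linarith
      · have b1 := hlow (1 + δ) s.im le_rfl (by linarith) a3
        have b2 := Convex.norm_image_sub_le_of_norm_deriv_le (f := L) (C := B * Λ ^ 2)
          (s := {z : ℂ | 1 - δ ≤ z.re} ∩ ({z : ℂ | z.re ≤ 2} ∩
            ({z : ℂ | z.im ≤ s.im} ∩ {z : ℂ | s.im ≤ z.im})))
          (fun z hz => hL.differentiableAt (hU.mem_nhds ⟨lt_of_lt_of_le (by linarith) hz.1,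
            lt_of_le_of_lt hz.2.1 (by norm_num)⟩))
          (fun z hz => hder z hz.1 hz.2.1
            (by rwa [show z.im = s.im from le_antisymm hz.2.2.1 hz.2.2.2]))
          ((convex_halfSpace_re_ge _).inter ((convex_halfSpace_re_le _).inter
            ((convex_halfSpace_im_le _).inter (convex_halfSpace_im_ge _))))
          (x := s) (y := ((1 + δ : ℝ) : ℂ) + s.im * Complex.I) ⟨a1, a2, le_refl s.im, le_refl s.im⟩
          ⟨by simp; linarith, by simp; linarith, by simp, by simp⟩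
        have b3 : ‖((1 + δ : ℝ) : ℂ) + s.im * Complex.I - s‖ ≤ 2 * δ := by
          rw [show ((1 + δ : ℝ) : ℂ) + s.im * Complex.I - s = ((1 + δ - s.re : ℝ) : ℂ) from
            Complex.ext (by simp) (by simp), Complex.norm_real, Real.norm_of_nonneg (by linarith)]
          linarith
        have b4 : B * Λ ^ 2 * (2 * δ) = 2 * c * B / Λ ^ 7 := by
          rw [hδ]
          field_simp
        have b5 := norm_sub_norm_le (L (((1 + δ : ℝ) : ℂ) + s.im * Complex.I)) (L s)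
        have b6 := mul_le_mul_of_nonneg_left b3 (show 0 ≤ B * Λ ^ 2 by positivity)
        linarith
  have hne : ∀ s : ℂ, 1 - δ ≤ s.re → s.re ≤ 2 → |s.im| ≤ H → L s ≠ 0 := fun s a1 a2 a3 =>
    norm_pos_iff.1 (lt_of_lt_of_le (by positivity) (hlow' s a1 a2 a3))
  have hsub : {s : ℂ | 1 - δ ≤ s.re ∧ s.re ≤ 2 ∧ |s.im| ≤ H} ⊆ {s : ℂ | 1 / 4 < s.re ∧ s.re < 4} :=
    fun s hs => ⟨lt_of_lt_of_le (by linarith) hs.1, lt_of_le_of_lt hs.2.1 (by norm_num)⟩
  refine ⟨fun s => -deriv L s / L s, (((hL.deriv hU).mono hsub).neg).div (hL.mono hsub)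
    fun s hs => hne s hs.1 hs.2.1 hs.2.2, fun s a1 a2 a3 => ?_, fun s a1 a2 a3 => ?_⟩
  · have e : L =ᶠ[𝓝 s] dser (xk ℓ k) := by
      filter_upwards [((isOpen_lt continuous_const Complex.continuous_re).inter
        (isOpen_lt Complex.continuous_re continuous_const)).mem_nhds
        (⟨a1, lt_of_le_of_lt a2 (by norm_num)⟩ : 1 < s.re ∧ s.re < 4)] with w hw
      exact eL w hw.1 hw.2
    beta_reduce
    rw [e.deriv_eq, ← (dser_vm_xk ℓ k a1).2, ← eL s a1 (by linarith),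
      mul_div_cancel_right₀ _ (hne s (by linarith) a2 a3)]
  · beta_reduce
    rw [norm_div, norm_neg]
    refine (div_le_div₀ (by positivity) (hder s a1 a2 a3) (by positivity)
      (hlow' s a1 a2 a3)).trans (le_of_eq ?_)
    field_simp

end Crest.Agent.R12
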