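import Crest.Agent.R12.SW2
import Crest.Agent.R12.SM

/-!
# R12 / SW3 : Siegel–Walfisz for cubic × angular characters of small conductor
-/

set_option autoImplicit false

noncomputable section

open scoped Classical ComplexConjugate Topology
open MeasureTheory Filter

namespace Crest.Agent.R12

open Crest.Agent.R17

theorem sw3_ker {T x τ v : ℝ} (hT : 1 ≤ T) (h0 : 0 ≤ x) (h2 : x ≤ 2) :
    ‖wf_K T v (x + τ * Complex.I)‖ ≤ 6 / T * Real.exp (x * v - τ ^ 2 / (4 * T ^ 2)) := by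
  have hT0 : 0 < T := by linarith
  have h3 : Real.sqrt Real.pi ≤ 2 := by
    rw [Real.sqrt_le_left (by norm_num)]
    linarith [Real.pi_le_four]
  have h4 : x ^ 2 / (4 * T ^ 2) ≤ 1 := by
    rw [div_le_one (by positivity)]
    nlinarith
  rw [wf_K_norm hT0, add_sub_assoc, Real.exp_add]
  calc _ ≤ 2 / T * (3 * Real.exp (x * v - τ ^ 2 / (4 * T ^ 2))) := by
        gcongr
        exact (Real.exp_le_exp.2 h4).trans Real.exp_one_lt_three.le
    _ = _ := by ring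

theorem sw3_cont_line {a : O → ℂ} {σ : ℝ} (ha : Summable (fun n => ‖a n‖ * N n ^ (-σ))) (t : ℝ) :
    Continuous fun τ : ℝ => dser a (t * Complex.I + (σ + τ * Complex.I)) := by
  unfold dser
  refine continuous_tsum (fun n => ?_) ha (fun n τ => ?_)
  · split_ifs with hn
    · exact continuous_const
    · refine continuous_const.mul (Continuous.const_cpow (by fun_prop) (Or.inl ?_))
      exact_mod_cast (N_pos hn).ne'
  · refine (loc_norm_term a _ n).trans (le_of_eq ?_)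
    simp

theorem sw3_gauss {T B : ℝ} (hT : 1 ≤ T) (hB : 0 ≤ B) {f : ℝ → ℂ} {s : Set ℝ} (hs : MeasurableSet s)
    (h : ∀ τ ∈ s, ‖f τ‖ ≤ B / T * Real.exp (-(τ ^ 2 / (8 * T ^ 2)))) : ‖∫ τ in s, f τ‖ ≤ 6 * B := by
  have hT0 : 0 < T := by linarith
  have hb : 0 < (8 * T ^ 2)⁻¹ := by positivity
  have hg := (integrable_exp_neg_mul_sq hb).const_mul (B / T)
  refine (norm_integral_le_of_norm_le hg.integrableOn ?_).trans
    ((setIntegral_le_integral hg (Eventually.of_forall fun τ => by positivity)).trans ?_)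
  · rw [ae_restrict_iff' hs]
    refine Eventually.of_forall fun τ hτ => (h τ hτ).trans (le_of_eq ?_)
    congr 2
    ring
  · rw [integral_const_mul, integral_gaussian]
    have : Real.sqrt (Real.pi / (8 * T ^ 2)⁻¹) ≤ 6 * T := by
      rw [Real.sqrt_le_left (by positivity), div_inv_eq_mul]
      nlinarith [Real.pi_le_four, sq_nonneg T]
    calc _ ≤ B / T * (6 * T) := by gcongr
      _ = _ := by field_simp

/-- `blks_le_rect` for width `1/T`: `winS_mellin` on the line `Re = σ₂`, move the part `|τ| ≤ H` to the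
line `σ₁` (Cauchy on a rectangle, cf. the proof of `blks_le_rect`); the horizontal sides and the tails
carry the factor `e^{-H²/4T²}` (`wf_K_norm`). -/
theorem win_le_rect : ∃ C : ℝ, 0 ≤ C ∧ ∀ (a : O → ℂ) (F : ℂ → ℂ) (σ1 σ2 t H M v T : ℝ),
    Summable (fun n => ‖a n‖ * N n ^ (-σ2)) → 0 ≤ σ1 → σ1 ≤ σ2 → σ2 ≤ 2 → 0 ≤ H → 0 ≤ v → 1 ≤ T →
    DifferentiableOn ℂ F {s | σ1 ≤ s.re ∧ s.re ≤ σ2 ∧ |s.im - t| ≤ H} →
    (∀ s : ℂ, s.re = σ2 → |s.im - t| ≤ H → F s = dser a s) →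
    (∀ s : ℂ, σ1 ≤ s.re → s.re ≤ σ2 → |s.im - t| ≤ H → ‖F s‖ ≤ M) →
    (∀ s : ℂ, s.re = σ2 → ‖dser a s‖ ≤ M) →
    ‖winS a v T (t * Complex.I)‖ ≤
      C * M * (Real.exp (σ1 * v) + Real.exp (σ2 * v - H ^ 2 / (8 * T ^ 2))) := by
  refine ⟨60, by norm_num, ?_⟩
  intro a F σ1 σ2 t H M v T hs h0 h12 h2 hH hv hT hF hFd hFM hM
  have hT0 : 0 < T := by linarith
  have hM0 : 0 ≤ M := (norm_nonneg _).trans (hM σ2 (by simp))
  have key := winS_mellin (a := a) v σ2 hT0 (t * Complex.I) (by simpa using hs)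
  rw [wf_kern] at key
  set Φ : ℝ → ℂ := fun τ => dser a (t * Complex.I + (σ2 + τ * Complex.I)) *
    wf_K T v (σ2 + τ * Complex.I) with hΦ
  have hΦb : ∀ τ, ‖Φ τ‖ ≤ M * (6 / T * Real.exp (σ2 * v - τ ^ 2 / (4 * T ^ 2))) := fun τ => by
    simp only [hΦ]
    rw [norm_mul]
    exact mul_le_mul (hM _ (by simp)) (sw3_ker hT (h0.trans h12) h2) (norm_nonneg _) hM0
  have hΦi : Integrable Φ :=
    (wf_K_int hT0 σ2 v).bdd_mul (c := M) (sw3_cont_line hs t).aestronglyMeasurable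
      (Eventually.of_forall fun τ => hM _ (by simp))
  have hsplit := integral_add_compl (s := Set.Ioc (-H) H) measurableSet_Ioc hΦi
  have h48 : ∀ τ : ℝ, τ ^ 2 / (4 * T ^ 2) = τ ^ 2 / (8 * T ^ 2) + τ ^ 2 / (8 * T ^ 2) := fun τ => by
    field_simp
    ring
  have htail : ‖∫ τ in (Set.Ioc (-H) H)ᶜ, Φ τ‖ ≤ 6 * (6 * M * Real.exp (σ2 * v - H ^ 2 / (8 * T ^ 2))) := by
    refine sw3_gauss hT (by positivity) measurableSet_Ioc.compl fun τ hτ => (hΦb τ).trans ?_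
    have h1 : H ^ 2 ≤ τ ^ 2 := by
      simp only [Set.mem_compl_iff, Set.mem_Ioc, not_and_or, not_lt, not_le] at hτ
      rcases hτ with h | h <;> nlinarith
    have h3 : H ^ 2 / (8 * T ^ 2) ≤ τ ^ 2 / (8 * T ^ 2) := by gcongr
    calc _ ≤ M * (6 / T * Real.exp (σ2 * v - H ^ 2 / (8 * T ^ 2) + -(τ ^ 2 / (8 * T ^ 2)))) := by
          gcongr
          linarith [h48 τ]
      _ = _ := by rw [Real.exp_add]; ring
  set G : ℂ → ℂ := fun w => F (t * Complex.I + w) * wf_K T v w with hG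
  have hHH : -H ≤ H := by linarith
  have hGb : ∀ x τ : ℝ, σ1 ≤ x → x ≤ σ2 → |τ| ≤ H →
      ‖G (x + τ * Complex.I)‖ ≤ M * (6 / T * Real.exp (x * v - τ ^ 2 / (4 * T ^ 2))) := fun x τ h1 h3 h4 => by
    simp only [hG]
    rw [norm_mul]
    exact mul_le_mul (hFM _ (by simpa using h1) (by simpa using h3) (by simpa using h4))
      (sw3_ker hT (h0.trans h1) (h3.trans h2)) (norm_nonneg _) hM0
  have hrect := Complex.integral_boundary_rect_eq_zero_of_differentiableOn G ⟨σ1, -H⟩ ⟨σ2, H⟩ (by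
      refine DifferentiableOn.mul (hF.comp (by fun_prop) fun w hw => ?_) (wf_K_diff T v).differentiableOn
      rw [Complex.mem_reProdIm, Set.uIcc_of_le h12, Set.uIcc_of_le hHH] at hw
      exact ⟨by simpa using hw.1.1, by simpa using hw.1.2, by simpa using abs_le.2 hw.2⟩)
  simp only [] at hrect
  have hhor : ∀ τ : ℝ, |τ| = H → ‖∫ x in σ1..σ2, G (x + τ * Complex.I)‖ ≤
      M * (6 * Real.exp (σ2 * v - H ^ 2 / (8 * T ^ 2))) * 2 := fun τ hτ => by
    refine (intervalIntegral.norm_integral_le_of_norm_le_const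
      (C := M * (6 * Real.exp (σ2 * v - H ^ 2 / (8 * T ^ 2)))) fun x hx => ?_).trans ?_
    · rw [Set.uIoc_of_le h12] at hx
      refine (hGb x τ hx.1.le hx.2 hτ.le).trans ?_
      have e : τ ^ 2 = H ^ 2 := by rw [← hτ, sq_abs]
      have h1 : 0 ≤ H ^ 2 / (8 * T ^ 2) := by positivity
      have h3 : x * v ≤ σ2 * v := mul_le_mul_of_nonneg_right hx.2 hv
      refine mul_le_mul_of_nonneg_left (mul_le_mul (div_le_self (by norm_num) hT)
        (Real.exp_le_exp.2 ?_) (Real.exp_pos _).le (by norm_num)) hM0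
      rw [e]
      linarith [h48 H]
    · refine mul_le_mul_of_nonneg_left ?_ (by positivity)
      rw [abs_le]; constructor <;> linarith
  have hleft : ‖∫ τ in (-H)..H, G (σ1 + τ * Complex.I)‖ ≤ 6 * (6 * M * Real.exp (σ1 * v)) := by
    rw [intervalIntegral.integral_of_le hHH]
    refine sw3_gauss hT (by positivity) measurableSet_Ioc fun τ hτ =>
      (hGb _ τ le_rfl h12 (abs_le.2 ⟨hτ.1.le, hτ.2⟩)).trans ?_
    have h1 : 0 ≤ τ ^ 2 / (8 * T ^ 2) := by positivity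
    calc _ ≤ M * (6 / T * Real.exp (σ1 * v + -(τ ^ 2 / (8 * T ^ 2)))) := by
          gcongr
          linarith [h48 τ]
      _ = _ := by rw [Real.exp_add]; ring
  have hmid : ∫ τ in Set.Ioc (-H) H, Φ τ = ∫ τ in (-H)..H, G (σ2 + τ * Complex.I) := by
    rw [intervalIntegral.integral_of_le hHH]
    refine setIntegral_congr_fun measurableSet_Ioc fun τ hτ => ?_
    simp only [hΦ, hG]
    rw [hFd _ (by simp) (by simpa using abs_le.2 ⟨hτ.1.le, hτ.2⟩)]
  have hright : ‖∫ τ in (-H)..H, G (σ2 + τ * Complex.I)‖ ≤ 6 * (6 * M * Real.exp (σ1 * v)) +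
      M * (6 * Real.exp (σ2 * v - H ^ 2 / (8 * T ^ 2))) * 4 := by
    have e : Complex.I • ∫ τ in (-H)..H, G (σ2 + τ * Complex.I) =
        Complex.I • (∫ τ in (-H)..H, G (σ1 + τ * Complex.I)) +
        ((∫ x in σ1..σ2, G (x + (H : ℝ) * Complex.I)) -
          ∫ x in σ1..σ2, G (x + ((-H : ℝ) : ℂ) * Complex.I)) := by
      linear_combination hrect
    have e' := congrArg norm e
    rw [norm_smul, Complex.norm_I, one_mul] at e'
    rw [e']
    refine (norm_add_le _ _).trans (add_le_add ?_ ((norm_sub_le _ _).trans ?_))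
    · rwa [norm_smul, Complex.norm_I, one_mul]
    · linarith [hhor H (abs_of_nonneg hH), hhor (-H) (by rw [abs_neg, abs_of_nonneg hH])]
  have htot : ‖∫ τ, Φ τ‖ ≤ 60 * M * (Real.exp (σ1 * v) + Real.exp (σ2 * v - H ^ 2 / (8 * T ^ 2))) := by
    rw [← hsplit, hmid]
    refine (norm_add_le _ _).trans ((add_le_add hright htail).trans ?_)
    have : 0 ≤ M * Real.exp (σ1 * v) := by positivity
    nlinarith
  rw [key, norm_mul]
  refine (mul_le_mul ?_ htot (norm_nonneg _) zero_le_one).trans (le_of_eq (one_mul _))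
  rw [norm_div, norm_one, norm_mul, Complex.norm_real, Real.norm_of_nonneg Real.pi_pos.le,
    Complex.norm_ofNat, div_le_one (by positivity)]
  linarith [Real.pi_gt_three]

/-- `sharp_sub_plS` for coefficients of slow growth -/
theorem sw3_sharp : ∃ C : ℝ, 0 ≤ C ∧ ∀ (a : O → ℂ) (M δ T y1 y2 : ℝ), 0 ≤ M → 0 ≤ δ → δ ≤ 1 →
    (∀ n, ‖a n‖ ≤ M * N n ^ δ) → 1 ≤ T → y1 ≤ y2 →
    ‖∑ n ∈ (ball (Real.exp y2)).filter (fun n => Real.exp y1 < N n), a n - plS a T y1 y2‖ ≤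
      C * M * Real.exp (δ * y2) * (Real.exp y2 / T + Real.exp (y2 / 2)) := by
  obtain ⟨C, hC, han⟩ := an_pow
  refine ⟨2 * C, by positivity, fun a M δ T y1 y2 hM hδ hδ1 ha hT h => ?_⟩
  have hT0 : 0 < T := by linarith
  have hpb : PolyBd a := ⟨M, 1, fun n hn => (ha n).trans (mul_le_mul_of_nonneg_left (by
    rw [← Real.rpow_natCast]
    exact Real.rpow_le_rpow_of_exponent_le (one_le_N hn) (by simpa using hδ1)) hM)⟩
  have hmem : ∀ n : O, n ∈ (ball (Real.exp y2)).filter (fun n => Real.exp y1 < N n) ↔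
      n ≠ 0 ∧ y1 < lg n ∧ lg n ≤ y2 := by
    intro n
    rw [Finset.mem_filter, mem_ball, and_assoc]
    refine and_congr_right fun hn => ?_
    rw [lg, Real.lt_log_iff_exp_lt (N_pos hn), Real.log_le_iff_le_exp (N_pos hn), and_comm]
  have h1 : HasSum (fun n : O => if n = 0 then 0 else a n * ((if y1 < lg n ∧ lg n ≤ y2 then 1 else 0 : ℝ) : ℂ))
      (∑ n ∈ (ball (Real.exp y2)).filter (fun n => Real.exp y1 < N n), a n) := by
    have e : ∑ n ∈ (ball (Real.exp y2)).filter (fun n => Real.exp y1 < N n), a n =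
        ∑ n ∈ (ball (Real.exp y2)).filter (fun n => Real.exp y1 < N n),
          if n = 0 then 0 else a n * ((if y1 < lg n ∧ lg n ≤ y2 then 1 else 0 : ℝ) : ℂ) := by
      refine Finset.sum_congr rfl fun n hn => ?_
      rw [if_neg ((hmem n).1 hn).1, if_pos ((hmem n).1 hn).2, Complex.ofReal_one, mul_one]
    rw [e]
    refine hasSum_sum_of_ne_finset_zero fun n hn => ?_
    split_ifs with h0 h2
    · rfl
    · exact absurd ((hmem n).2 ⟨h0, h2⟩) hn
    · rw [Complex.ofReal_zero, mul_zero]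
  have h2 := (sm_hasSum_plS hpb hT y1 y2).summable.hasSum
  refine le_of_tendsto' (h1.sub h2).norm fun S => (norm_sum_le _ _).trans ?_
  have hS : ∀ n ∈ S.filter (fun n => n ≠ 0), n ≠ 0 := fun n hn => (Finset.mem_filter.1 hn).2
  have hδ' : |δ| ≤ 12 := by rw [abs_of_nonneg hδ]; linarith
  have h3 := (han δ y1 T hδ' hT _ hS).1
  have h4 := (han δ y2 T hδ' hT _ hS).1
  have h5 : C * Real.exp (δ * y1) * (Real.exp y1 / T + Real.exp (y1 / 2)) ≤
      C * Real.exp (δ * y2) * (Real.exp y2 / T + Real.exp (y2 / 2)) := by gcongr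
  calc _ ≤ ∑ n ∈ S, if n ≠ 0 then M * (N n ^ δ * gw (T * (lg n - y1)) + N n ^ δ * gw (T * (lg n - y2)))
        else 0 := by
        refine Finset.sum_le_sum fun n _ => ?_
        by_cases hn : n = 0
        · simp [hn]
        · rw [if_neg hn, if_neg hn, if_pos hn]
          rw [← mul_sub, ← Complex.ofReal_sub, norm_mul, Complex.norm_real, Real.norm_eq_abs, ← mul_add,
            ← mul_assoc]
          exact mul_le_mul (ha n) (Pl_sub_le hT0 h _) (abs_nonneg _) ((norm_nonneg _).trans (ha n))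
    _ ≤ M * (C * Real.exp (δ * y2) * (Real.exp y2 / T + Real.exp (y2 / 2)) +
          C * Real.exp (δ * y2) * (Real.exp y2 / T + Real.exp (y2 / 2))) := by
        rw [← Finset.sum_filter, ← Finset.mul_sum, Finset.sum_add_distrib]
        exact mul_le_mul_of_nonneg_left (add_le_add (h3.trans h5) h4) hM
    _ = _ := by ring

theorem sw3_norm_b (ℓ : ℤ) (k n : O) : ‖(vm n : ℂ) * xk ℓ k n‖ ≤ vm n := by
  rw [norm_mul, Complex.norm_real, Real.norm_of_nonneg (vm_nonneg n)]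
  exact mul_le_of_le_one_right (vm_nonneg n) (norm_xk_le ℓ k n)

theorem sw3_Z : ∃ Z : ℝ, 0 ≤ Z ∧ ∀ (ℓ : ℤ) (k : O) (s : ℂ), s.re = 2 →
    ‖dser (fun n => (vm n : ℂ) * xk ℓ k n) s‖ ≤ Z := by
  have hs := (summable_N_rpow (σ := 3 / 2) (by norm_num)).mul_left 2
  refine ⟨∑' n : O, 2 * N n ^ (-(3 / 2 : ℝ)), tsum_nonneg fun n => mul_nonneg (by norm_num : (0 : ℝ) ≤ 2)
    (Real.rpow_nonneg (N_nonneg n) (-(3 / 2))), fun ℓ k s h => ?_⟩
  refine tsum_of_norm_bounded hs.hasSum fun n => ?_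
  split_ifs with hn
  · rw [norm_zero]
    exact mul_nonneg (by norm_num) (Real.rpow_nonneg (N_nonneg n) _)
  · rw [norm_mul, loc_norm_cpow hn, Complex.neg_re, h]
    calc _ ≤ N n ^ (1 / 2 : ℝ) / (1 / 2) * N n ^ (-2 : ℝ) :=
          mul_le_mul_of_nonneg_right ((sw3_norm_b ℓ k n).trans (vm_le_rpow n (by norm_num)))
            (Real.rpow_nonneg (N_nonneg n) _)
      _ = 2 * (N n ^ (1 / 2 : ℝ) * N n ^ (-2 : ℝ)) := by ring
      _ = _ := by rw [← Real.rpow_add (N_pos hn)]; norm_num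

theorem sw3_norm_pw {x : ℝ} (hx : 0 < x) (n : O) (t : ℝ) : ‖pw x n (t * Complex.I)‖ ≤ 1 := by
  by_cases hn : n = 0
  · by_cases ht : (t : ℂ) * Complex.I = 0
    · simp [pw, ht]
    · simp [pw, hn, N, Complex.zero_cpow ht]
  · rw [pw, Complex.norm_cpow_eq_rpow_re_of_pos (div_pos (N_pos hn) hx)]
    simp

theorem sw3_win {x : ℝ} (hx : 0 < x) (b : O → ℂ) (t v T : ℝ) :
    ‖win (fun n => b n * pw x n (t * Complex.I)) v T‖ = ‖winS b v T ((-t : ℝ) * Complex.I)‖ := by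
  have e : win (fun n => b n * pw x n (t * Complex.I)) v T =
      ((x⁻¹ : ℝ) : ℂ) ^ (t * Complex.I) * winS b v T ((-t : ℝ) * Complex.I) := by
    unfold win winS
    rw [← tsum_mul_left]
    refine tsum_congr fun n => ?_
    split_ifs
    · simp
    · simp only [pw]
      rw [div_eq_mul_inv, Complex.ofReal_mul,
        Complex.mul_cpow_ofReal_nonneg (N_nonneg n) (inv_nonneg.2 hx.le), Complex.ofReal_neg, neg_mul, neg_neg]
      ring
  rw [e, norm_mul, Complex.norm_cpow_eq_rpow_re_of_pos (inv_pos.2 hx)]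
  simp

/-- prime powers -/
theorem sw3_pp : ∃ Z : ℝ, 0 ≤ Z ∧ ∀ (ℓ : ℤ) (k : O) (c : O → ℂ) (x1 x2 : ℝ), (∀ n, ‖c n‖ ≤ 1) → 0 ≤ x2 →
    ‖∑ p ∈ (sfI x1 x2).filter Prime, (lg p : ℂ) * xk ℓ k p * c p -
      ∑ n ∈ (ball x2).filter (fun n => x1 < N n), (vm n : ℂ) * xk ℓ k n * c n‖ ≤ Z * x2 ^ (3 / 4 : ℝ) := by
  have sv := summable_vm2 (δ := 1 / 4) (by norm_num)
  have hv0 : ∀ n : O, 0 ≤ (if Prime n then 0 else vm n * N n ^ (-(1 / 2 + 1 / 4 : ℝ))) := fun n => by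
    split_ifs
    · exact le_rfl
    · exact mul_nonneg (vm_nonneg n) (Real.rpow_nonneg (N_nonneg n) _)
  refine ⟨∑' n : O, if Prime n then 0 else vm n * N n ^ (-(1 / 2 + 1 / 4 : ℝ)), tsum_nonneg hv0,
    fun ℓ k c x1 x2 hc hx => ?_⟩
  have e : ∑ p ∈ (sfI x1 x2).filter Prime, (lg p : ℂ) * xk ℓ k p * c p =
      ∑ n ∈ (ball x2).filter (fun n => x1 < N n), if Prime n then (vm n : ℂ) * xk ℓ k n * c n else 0 := by
    rw [← Finset.sum_filter]
    refine (Finset.sum_congr rfl fun p hp => ?_).trans (Finset.sum_subset (fun p hp => ?_) fun p hp hp' => ?_)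
    · obtain ⟨h1, h2⟩ := Finset.mem_filter.1 hp
      rw [vm_prime h2 (mem_sfI.1 h1).1.1, lg]
    · obtain ⟨h1, h2⟩ := Finset.mem_filter.1 hp
      obtain ⟨-, h3, h4⟩ := mem_sfI.1 h1
      exact Finset.mem_filter.2 ⟨Finset.mem_filter.2 ⟨mem_ball.2 ⟨h2.ne_zero, h4⟩, h3⟩, h2⟩
    · obtain ⟨h1, h2⟩ := Finset.mem_filter.1 hp
      obtain ⟨h3, h4⟩ := Finset.mem_filter.1 h1
      rw [xk, if_neg fun h => hp' (Finset.mem_filter.2
        ⟨mem_sfI.2 ⟨⟨h, h2.squarefree⟩, h4, (mem_ball.1 h3).2⟩, h2⟩), mul_zero, zero_mul]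
  rw [e, ← Finset.sum_sub_distrib]
  refine (norm_sum_le _ _).trans (le_trans ?_ (mul_le_mul_of_nonneg_right
    (sv.sum_le_tsum ((ball x2).filter fun n => x1 < N n) fun n _ => hv0 n) (Real.rpow_nonneg hx _)))
  rw [Finset.sum_mul]
  refine Finset.sum_le_sum fun n hn => ?_
  obtain ⟨hn0, hn2⟩ := mem_ball.1 (Finset.mem_filter.1 hn).1
  split_ifs
  · simp
  · rw [zero_sub, norm_neg, norm_mul]
    calc _ ≤ vm n * 1 := mul_le_mul (sw3_norm_b ℓ k n) (hc n) (norm_nonneg _) (vm_nonneg n)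
      _ = vm n * N n ^ (-(1 / 2 + 1 / 4 : ℝ)) * N n ^ (3 / 4 : ℝ) := by
          rw [mul_assoc, ← Real.rpow_add (N_pos hn0)]
          norm_num
      _ ≤ _ := mul_le_mul_of_nonneg_left (Real.rpow_le_rpow (N_nonneg n) hn2 (by norm_num))
          (mul_nonneg (vm_nonneg n) (Real.rpow_nonneg (N_nonneg n) _))

theorem sw3_ev {κ : ℝ} (hκ : 0 < κ) (c : ℝ) (m : ℕ) : ∃ y0 : ℝ, ∀ y : ℝ, y0 ≤ y →
    c * y ^ m * Real.exp (-(κ * Real.sqrt (Real.sqrt y))) ≤ 1 := by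
  obtain ⟨z0, hz0, h⟩ := bb_exp_sqrt hκ c (2 * m)
  refine ⟨z0 ^ 2, fun y hy => ?_⟩
  have hy0 : 0 ≤ y := (sq_nonneg _).trans hy
  have := h (Real.sqrt y) (Real.le_sqrt_of_sq_le hy)
  rwa [pow_mul, Real.sq_sqrt hy0] at this

theorem sw3_LL (A C0 : ℕ) : ∃ K : ℝ, 1 ≤ K ∧ ∀ (y : ℝ) (k : O), 2 ≤ y → k ≠ 0 → N k ≤ y ^ C0 →
    1 ≤ LL k (y ^ C0 + y ^ A) ∧ LL k (y ^ C0 + y ^ A) ^ 9 ≤ K * Real.sqrt (Real.sqrt y) := by
  refine ⟨(36 * (2 * C0 + A + 3)) ^ 9, one_le_pow₀ (by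
    have := Nat.cast_nonneg (α := ℝ) C0
    have := Nat.cast_nonneg (α := ℝ) A
    linarith), fun y k hy hk hN => ?_⟩
  have hy0 : 0 < y := by linarith
  have hy1 : 1 ≤ y := by linarith
  have hH : 0 ≤ y ^ C0 + y ^ A := by positivity
  have h1 : 1 ≤ LL k (y ^ C0 + y ^ A) := by
    rw [LL, Real.le_log_iff_exp_le (mul_pos (N_pos hk) (by positivity)), abs_of_nonneg hH]
    nlinarith [Real.exp_one_lt_three, one_le_N hk]
  refine ⟨h1, ?_⟩
  have h2 : LL k (y ^ C0 + y ^ A) ≤ (2 * C0 + A + 3) * Real.log y := by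
    have a1 : y ^ C0 ≤ y ^ (C0 + A) := pow_le_pow_right₀ hy1 (by omega)
    have a2 : y ^ A ≤ y ^ (C0 + A) := pow_le_pow_right₀ hy1 (by omega)
    have a3 : 1 ≤ y ^ (C0 + A) := one_le_pow₀ hy1
    have a4 : (2 : ℝ) ^ 3 ≤ y ^ 3 := pow_le_pow_left₀ (by norm_num) hy 3
    have a5 : y ^ C0 + y ^ A + 3 ≤ y ^ (C0 + A) * y ^ 3 := by nlinarith
    rw [LL, abs_of_nonneg hH]
    calc _ ≤ Real.log (y ^ (2 * C0 + A + 3)) := by
          refine Real.log_le_log (mul_pos (N_pos hk) (by positivity)) ?_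
          calc _ ≤ y ^ C0 * (y ^ (C0 + A) * y ^ 3) := by gcongr
            _ = _ := by ring
      _ = _ := by rw [Real.log_pow]; push_cast; ring
  have h3 : Real.log y ≤ y ^ (1 / 36 : ℝ) / (1 / 36) := Real.log_le_rpow_div hy0.le (by norm_num)
  calc _ ≤ ((2 * C0 + A + 3) * (y ^ (1 / 36 : ℝ) / (1 / 36))) ^ 9 :=
        pow_le_pow_left₀ (by linarith) (h2.trans (by gcongr)) 9
    _ = (36 * (2 * C0 + A + 3)) ^ 9 * (y ^ (1 / 36 : ℝ)) ^ 9 := by ring
    _ = _ := by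
        rw [← Real.rpow_natCast (y ^ (1 / 36 : ℝ)), ← Real.rpow_mul hy0.le, Real.sqrt_eq_rpow,
          Real.sqrt_eq_rpow, ← Real.rpow_mul hy0.le]
        norm_num

/-- the smooth sum -/
theorem sw3_winb (ℓ : ℤ) (A C0 : ℕ) : ∃ C κ : ℝ, 0 ≤ C ∧ 0 < κ ∧ κ ≤ 1 / 8 ∧ ∀ (y : ℝ) (k : O) (t v : ℝ),
    32 ≤ y → k ≠ 0 → N k ≤ y ^ C0 → NPl ℓ k → |t| ≤ y ^ C0 → Real.sqrt y / 2 ≤ v → v ≤ 2 * y + 1 →
    ‖winS (fun n => (vm n : ℂ) * xk ℓ k n) v (y ^ A) (t * Complex.I)‖ ≤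
      C * y * Real.exp v * Real.exp (-(κ * Real.sqrt (Real.sqrt y))) := by
  obtain ⟨C1, hC1, h1⟩ := win_le_rect
  obtain ⟨c, C2, hc, hc4, hC2, h2⟩ := zfr ℓ
  obtain ⟨Z, hZ, h3⟩ := sw3_Z
  obtain ⟨K, hK, h4⟩ := sw3_LL (A + 1) C0
  have hκ : c / (2 * K) ≤ 1 / 8 := by
    rw [div_le_iff₀ (by positivity)]
    linarith
  refine ⟨2 * C1 * (C2 * K + Z), c / (2 * K), by positivity, by positivity, hκ,
    fun y k t v hy hk hN hP ht hv1 hv2 => ?_⟩
  have hy0 : 0 < y := by linarith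
  have hy1 : 1 ≤ y := by linarith
  obtain ⟨hL1, hL2⟩ := h4 y k (by linarith) hk hN
  obtain ⟨F, hF, hFd, hFM⟩ := h2 k hk hP (y ^ C0 + y ^ (A + 1)) (by positivity)
  generalize LL k (y ^ C0 + y ^ (A + 1)) = L at hL1 hL2 hF hFd hFM
  have hL9 : 1 ≤ L ^ 9 := one_le_pow₀ hL1
  have hs1 : 1 ≤ Real.sqrt y := Real.one_le_sqrt.2 hy1
  obtain ⟨r, hr⟩ : ∃ r, r = Real.sqrt (Real.sqrt y) := ⟨_, rfl⟩
  have hr1 : 1 ≤ r := hr ▸ Real.one_le_sqrt.2 hs1
  have hr2 : r * r = Real.sqrt y := hr ▸ Real.mul_self_sqrt (by linarith)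
  have hr3 : r ≤ y := by nlinarith [Real.mul_self_sqrt hy0.le]
  rw [← hr] at hL2 ⊢
  have hcL : c / L ^ 9 ≤ 1 / 4 := (div_le_self hc.le hL9).trans hc4
  have hcL0 : 0 < c / L ^ 9 := by positivity
  have him : ∀ s : ℂ, |s.im - t| ≤ y ^ (A + 1) → |s.im| ≤ y ^ C0 + y ^ (A + 1) := fun s hs => by
    linarith [abs_sub_abs_le_abs_sub s.im t]
  have hv0 : 0 ≤ v := by linarith
  have h5 := h1 (fun n => (vm n : ℂ) * xk ℓ k n) F (1 - c / L ^ 9) 2 t (y ^ (A + 1)) (C2 * L ^ 9 + Z) v (y ^ A)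
    (by simpa using (dser_vm_xk ℓ k (s := 2) (by simp)).1) (by linarith) (by linarith) le_rfl (by positivity)
    hv0 (one_le_pow₀ hy1) (hF.mono fun s hs => ⟨hs.1, hs.2.1, him s hs.2.2⟩)
    (fun s hs hs' => hFd s (by linarith) hs.le (him s hs'))
    (fun s a1 a2 a3 => (hFM s a1 a2 (him s a3)).trans (by linarith))
    (fun s hs => (h3 ℓ k s hs).trans (le_add_of_nonneg_left (by positivity)))
  have h6 : Real.exp ((1 - c / L ^ 9) * v) ≤ Real.exp v * Real.exp (-(c / (2 * K) * r)) := by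
    rw [← Real.exp_add, Real.exp_le_exp]
    have : c / (2 * K) * r ≤ c / L ^ 9 * v := by
      calc c / (2 * K) * r = c / (K * r) * (r * r / 2) := by field_simp
        _ ≤ _ := by rw [hr2]; gcongr
    linarith
  have h7 : Real.exp (2 * v - (y ^ (A + 1)) ^ 2 / (8 * (y ^ A) ^ 2)) ≤
      Real.exp v * Real.exp (-(c / (2 * K) * r)) := by
    have e : (y ^ (A + 1)) ^ 2 / (8 * (y ^ A) ^ 2) = y ^ 2 / 8 := by field_simp; ring
    have : c / (2 * K) * r ≤ 1 / 8 * y := by gcongr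
    rw [← Real.exp_add, Real.exp_le_exp, e]
    nlinarith
  have h8 : C2 * L ^ 9 + Z ≤ (C2 * K + Z) * y := by
    have a1 : C2 * L ^ 9 ≤ C2 * (K * y) := mul_le_mul_of_nonneg_left (hL2.trans (by gcongr)) hC2
    nlinarith
  calc _ ≤ _ := h5
    _ ≤ C1 * ((C2 * K + Z) * y) * (Real.exp v * Real.exp (-(c / (2 * K) * r)) +
          Real.exp v * Real.exp (-(c / (2 * K) * r))) := by gcongr
    _ = _ := by ring

/-- `zfr` with height `y^{C₀} + H`, `H = T y`, `T = y^{A+3}`, `σ₂ = 2`, `win_le_rect`; the saving is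
`exp (-c √y / (C log y)⁹)`.  Then `sharp_sub_plS`-type smoothing (coefficients `≤ 3y` in the range;
use `Pl_sub_le`, `an_pow`, `vm_le_log`), and prime powers contribute `O(√x · y²)`. -/
theorem sw_log (ℓ : ℤ) (A C0 : ℕ) : ∃ y0 : ℝ, ∀ y : ℝ, y0 ≤ y → ∀ (k : O) (t x x1 x2 : ℝ), k ≠ 0 →
    N k ≤ y ^ C0 → NPl ℓ k → |t| ≤ y ^ C0 → Real.exp (Real.sqrt y) / 2 ≤ x → x ≤ Real.exp (2 * y) →
    x ≤ x1 → x2 ≤ 2 * x →
    ‖∑ p ∈ (sfI x1 x2).filter Prime, (lg p : ℂ) * xk ℓ k p * pw x p (t * Complex.I)‖ ≤ x / y ^ A := by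
  obtain ⟨C1, κ, hC1, hκ, hκ8, h1⟩ := sw3_winb ℓ (A + 2) C0
  obtain ⟨C2, hC2, h2⟩ := sw3_sharp
  obtain ⟨Z, hZ, h3⟩ := sw3_pp
  obtain ⟨y0, h4⟩ := sw3_ev hκ (2 * (2 * C1 + 2 * (C2 * Real.exp 3) + 2 * Z)) (2 * A + 3)
  refine ⟨max (max y0 32) (4 * (C2 * Real.exp 3)), fun y hy k t x x1 x2 hk hN hP ht hx1 hx2 h5 h6 => ?_⟩
  have hy32 : 32 ≤ y := ((le_max_right _ _).trans (le_max_left _ _)).trans hy
  have hyC : 4 * (C2 * Real.exp 3) ≤ y := (le_max_right _ _).trans hy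
  have h4 := h4 y (((le_max_left _ _).trans (le_max_left _ _)).trans hy)
  have hy0 : 0 < y := by linarith
  have hy1 : 1 ≤ y := by linarith
  have hx0 : 0 < x := lt_of_lt_of_le (by positivity) hx1
  rcases lt_or_ge x2 x1 with h21 | h12
  · rw [Finset.sum_eq_zero fun p hp => absurd ((mem_sfI.1 (Finset.mem_filter.1 hp).1).2.1.trans_le
      (mem_sfI.1 (Finset.mem_filter.1 hp).1).2.2) (not_lt.2 h21.le), norm_zero]
    positivity
  have hx10 : 0 < x1 := by linarith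
  have hx20 : 0 < x2 := by linarith
  have hs1 : 2 ≤ Real.sqrt y := Real.le_sqrt_of_sq_le (by linarith)
  obtain ⟨r, hr⟩ : ∃ r, r = Real.sqrt (Real.sqrt y) := ⟨_, rfl⟩
  have hr1 : 1 ≤ r := hr ▸ Real.one_le_sqrt.2 (by linarith)
  have hr2 : r * r = Real.sqrt y := hr ▸ Real.mul_self_sqrt (by linarith)
  obtain ⟨E, hE⟩ : ∃ E, E = Real.exp (-(κ * r)) := ⟨_, rfl⟩
  have hE0 : 0 < E := hE ▸ Real.exp_pos _
  rw [← hr, ← hE] at h4
  have hl2 : Real.log 2 ≤ 1 := by linarith [Real.log_two_lt_d9]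
  have hlx : Real.sqrt y - 1 ≤ Real.log x := by
    have := Real.log_le_log (by positivity) hx1
    rw [Real.log_div (Real.exp_pos _).ne' two_ne_zero, Real.log_exp] at this
    linarith
  have hlx' : Real.log x ≤ 2 * y := (Real.log_le_iff_le_exp hx0).2 hx2
  have hl1 : Real.log x ≤ Real.log x1 := Real.log_le_log hx0 h5
  have hl3 : Real.log x1 ≤ Real.log x2 := Real.log_le_log hx10 h12
  have hl4 : Real.log x2 ≤ Real.log x + 1 := by
    have := Real.log_le_log hx20 h6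
    rw [Real.log_mul two_ne_zero hx0.ne'] at this
    linarith
  have hT : 1 ≤ y ^ (A + 2) := one_le_pow₀ hy1
  have ha : ∀ n, ‖(vm n : ℂ) * xk ℓ k n * pw x n (t * Complex.I)‖ ≤ y * N n ^ y⁻¹ := fun n => by
    rw [norm_mul]
    refine (mul_le_of_le_one_right (norm_nonneg _) (sw3_norm_pw hx0 n t)).trans
      ((sw3_norm_b ℓ k n).trans ((vm_le_rpow n (inv_pos.2 hy0)).trans (le_of_eq ?_)))
    rw [div_inv_eq_mul, mul_comm]
  have hyi : y⁻¹ ≤ 1 := inv_le_one_of_one_le₀ hy1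
  have a1 := h3 ℓ k (fun n => pw x n (t * Complex.I)) x1 x2 (fun n => sw3_norm_pw hx0 n t) hx20.le
  have a2 := h2 _ y y⁻¹ (y ^ (A + 2)) _ _ hy0.le (by positivity) hyi ha hT hl3
  rw [Real.exp_log hx10, Real.exp_log hx20] at a2
  have a3 := norm_plS_le (a := fun n => (vm n : ℂ) * xk ℓ k n * pw x n (t * Complex.I))
    (W := C1 * y * (2 * x) * E) ⟨y, 1, fun n hn => (ha n).trans (mul_le_mul_of_nonneg_left (by
      rw [← Real.rpow_natCast]
      exact Real.rpow_le_rpow_of_exponent_le (one_le_N hn) (by simpa using hyi)) hy0.le)⟩ hT hl3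
    fun v hv hv' => by
      rw [sw3_win hx0]
      refine (h1 y k (-t) v hy32 hk hN hP (by rwa [abs_neg]) (by linarith) (by linarith)).trans ?_
      rw [← hr, ← hE]
      have : Real.exp v ≤ 2 * x := ((Real.le_log_iff_exp_le hx20).1 hv').trans h6
      gcongr
  -- the small terms
  have b0 : ∀ θ : ℝ, 0 ≤ θ → θ ≤ 3 / 4 → x2 ^ θ ≤ 2 * x * E := fun θ h0 hθ => by
    have c1 : 1 ≤ x2 := by
      rw [← Real.log_nonneg_iff hx20]
      linarith
    calc x2 ^ θ ≤ x2 ^ (3 / 4 : ℝ) := Real.rpow_le_rpow_of_exponent_le c1 hθ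
      _ = x2 * Real.exp (-(Real.log x2 / 4)) := by
          rw [Real.rpow_def_of_pos hx20]
          nth_rewrite 2 [← Real.exp_log hx20]
          rw [← Real.exp_add]
          congr 1
          ring
      _ ≤ _ := by
          rw [hE]
          gcongr
          nlinarith
  have b1 : Real.exp (Real.log x2 / 2) ≤ 2 * x * E := by
    refine le_trans (le_of_eq ?_) (b0 (1 / 2) (by norm_num) (by norm_num))
    rw [Real.rpow_def_of_pos hx20]
    congr 1
    ring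
  have b2 : Real.exp (y⁻¹ * Real.log x2) ≤ Real.exp 3 := by
    rw [Real.exp_le_exp, inv_mul_le_iff₀ hy0]
    linarith
  have b3 : y ≤ y ^ (A + 3) := le_self_pow₀ hy1 (by omega)
  have b4 : 1 ≤ y ^ (A + 3) := hy1.trans b3
  have c1 : ‖plS (fun n => (vm n : ℂ) * xk ℓ k n * pw x n (t * Complex.I)) (y ^ (A + 2)) (Real.log x1)
      (Real.log x2)‖ ≤ 2 * C1 * y ^ (A + 3) * (x * E) := by
    calc _ ≤ _ := a3
      _ ≤ y ^ (A + 2) * 1 * (C1 * y * (2 * x) * E) := by gcongr; linarith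
      _ = _ := by ring
  have c2 : C2 * y * Real.exp (y⁻¹ * Real.log x2) * (x2 / y ^ (A + 2) + Real.exp (Real.log x2 / 2)) ≤
      x / y ^ A / 2 + 2 * (C2 * Real.exp 3) * y ^ (A + 3) * (x * E) := by
    calc _ ≤ C2 * y * Real.exp 3 * (2 * x / y ^ (A + 2) + 2 * x * E) := by gcongr
      _ = 4 * (C2 * Real.exp 3) / y * (x / y ^ A / 2) + 2 * (C2 * Real.exp 3) * y * (x * E) := by
          field_simp
          ring
      _ ≤ 1 * (x / y ^ A / 2) + 2 * (C2 * Real.exp 3) * y ^ (A + 3) * (x * E) := by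
          gcongr
          exact (div_le_one hy0).2 hyC
      _ = _ := by rw [one_mul]
  have c3 : Z * x2 ^ (3 / 4 : ℝ) ≤ 2 * Z * y ^ (A + 3) * (x * E) := by
    calc _ ≤ Z * (2 * x * E) := mul_le_mul_of_nonneg_left (b0 _ (by norm_num) le_rfl) hZ
      _ = 2 * Z * 1 * (x * E) := by ring
      _ ≤ _ := by gcongr
  have c4 : (2 * C1 + 2 * (C2 * Real.exp 3) + 2 * Z) * y ^ (A + 3) * (x * E) ≤ x / y ^ A / 2 := by
    calc _ = 2 * (2 * C1 + 2 * (C2 * Real.exp 3) + 2 * Z) * y ^ (2 * A + 3) * E * (x / y ^ A / 2) := by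
          field_simp
          ring
      _ ≤ 1 * (x / y ^ A / 2) := by gcongr
      _ = _ := one_mul _
  refine (norm_le_norm_sub_add _ _).trans ((add_le_add a1
    ((norm_le_norm_sub_add _ _).trans (add_le_add (a2.trans c2) c1))).trans ?_)
  linarith

theorem sw3_abel0 (S : Finset O) (c : O → ℂ) {W : ℝ} (h : ∀ m : ℕ, ‖∑ p ∈ S.filter (fun p => nm p ≤ m), c p‖ ≤ W)
    {f : ℕ → ℝ} (hf : Antitone f) (m : ℕ) :
    ‖∑ p ∈ S.filter (fun p => nm p ≤ m), (f (nm p) - f m : ℂ) * c p‖ ≤ (f 0 - f m) * W := by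
  induction m with
  | zero =>
    rw [Finset.sum_eq_zero fun p hp => by rw [Nat.le_zero.1 (Finset.mem_filter.1 hp).2, sub_self, zero_mul]]
    simp
  | succ m ih =>
    have e : ∑ p ∈ S.filter (fun p => nm p ≤ m + 1), (f (nm p) - f (m + 1) : ℂ) * c p =
        ∑ p ∈ S.filter (fun p => nm p ≤ m), (f (nm p) - f m : ℂ) * c p +
          ((f m - f (m + 1) : ℝ) : ℂ) * ∑ p ∈ S.filter (fun p => nm p ≤ m), c p := by
      rw [Finset.mul_sum, ← Finset.sum_add_distrib, Finset.sum_filter, Finset.sum_filter]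
      refine Finset.sum_congr rfl fun p _ => ?_
      rcases lt_trichotomy (nm p) (m + 1) with h1 | h1 | h1
      · rw [if_pos h1.le, if_pos (by omega)]
        push_cast
        ring
      · rw [if_pos h1.le, if_neg (by omega), h1, sub_self, zero_mul]
      · rw [if_neg (by omega), if_neg (by omega)]
    have h1 : 0 ≤ f m - f (m + 1) := sub_nonneg.2 (hf (Nat.le_succ m))
    rw [e]
    refine (norm_add_le _ _).trans ((add_le_add ih ?_).trans (le_of_eq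
      (show (f 0 - f m) * W + (f m - f (m + 1)) * W = _ by ring)))
    rw [norm_mul, Complex.norm_real, Real.norm_of_nonneg h1]
    exact mul_le_mul_of_nonneg_left (h m) h1

theorem sw3_abel1 (S : Finset O) (c : O → ℂ) {W B : ℝ}
    (h : ∀ m : ℕ, ‖∑ p ∈ S.filter (fun p => nm p ≤ m), c p‖ ≤ W)
    {f : ℕ → ℝ} (hf : Antitone f) (hB : ∀ m, |f m| ≤ B) : ‖∑ p ∈ S, (f (nm p) : ℂ) * c p‖ ≤ 3 * B * W := by
  have h1 := sw3_abel0 S c h hf (S.sup nm)
  have h2 := h (S.sup nm)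
  have hW : 0 ≤ W := (norm_nonneg _).trans h2
  rw [Finset.filter_true_of_mem fun p hp => Finset.le_sup (f := nm) hp] at h1 h2
  have e : ∑ p ∈ S, (f (nm p) : ℂ) * c p =
      ∑ p ∈ S, (f (nm p) - f (S.sup nm) : ℂ) * c p + (f (S.sup nm) : ℂ) * ∑ p ∈ S, c p := by
    rw [Finset.mul_sum, ← Finset.sum_add_distrib]
    exact Finset.sum_congr rfl fun p _ => by ring
  have h3 := abs_le.1 (hB 0)
  have h4 := abs_le.1 (hB (S.sup nm))
  rw [e]
  refine (norm_add_le _ _).trans ((add_le_add h1 (?_ : _ ≤ B * W)).trans (by nlinarith))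
  rw [norm_mul, Complex.norm_real, Real.norm_eq_abs]
  exact mul_le_mul (hB _) h2 (norm_nonneg _) ((abs_nonneg _).trans (hB 0))

theorem sw3_abel (c : O → ℂ) {x W B : ℝ} (hx : 0 ≤ x) {g : ℝ → ℝ}
    (hg : MonotoneOn g (Set.Icc x (2 * x)) ∨ AntitoneOn g (Set.Icc x (2 * x)))
    (hB : ∀ u ∈ Set.Icc x (2 * x), |g u| ≤ B)
    (h : ∀ x1 x2, x ≤ x1 → x2 ≤ 2 * x → ‖∑ p ∈ (sfI x1 x2).filter Prime, c p‖ ≤ W)
    (x1 x2 : ℝ) (h1 : x ≤ x1) (h2 : x2 ≤ 2 * x) :
    ‖∑ p ∈ (sfI x1 x2).filter Prime, (g (N p) : ℂ) * c p‖ ≤ 3 * B * W := by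
  have hcl : ∀ m : ℕ, max x (min (2 * x) m) ∈ Set.Icc x (2 * x) := fun m =>
    ⟨le_max_left _ _, max_le (by linarith) (min_le_left _ _)⟩
  have hmono : ∀ m m' : ℕ, m ≤ m' → max x (min (2 * x) m) ≤ max x (min (2 * x) m') := fun m m' hm =>
    max_le_max le_rfl (min_le_min le_rfl (Nat.cast_le.2 hm))
  have hp : ∀ m : ℕ, ‖∑ p ∈ ((sfI x1 x2).filter Prime).filter (fun p => nm p ≤ m), c p‖ ≤ W := fun m => by
    refine le_trans (le_of_eq ?_) (h x1 (min x2 m) h1 ((min_le_left _ _).trans h2))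
    congr 2
    ext p
    simp only [Finset.mem_filter, mem_sfI, le_min_iff, N, Nat.cast_le]
    tauto
  have e : ∀ p ∈ (sfI x1 x2).filter Prime, N p = max x (min (2 * x) (nm p)) := fun p hp => by
    obtain ⟨-, a1, a2⟩ := mem_sfI.1 (Finset.mem_filter.1 hp).1
    rw [← N, min_eq_right (a2.trans h2), max_eq_right (h1.trans a1.le)]
  rw [Finset.sum_congr rfl fun p hp => by rw [e p hp]]
  rcases hg with hg | hg
  · have := sw3_abel1 _ c hp (f := fun m => -g (max x (min (2 * x) m)))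
      (fun m m' hm => neg_le_neg (hg (hcl m) (hcl m') (hmono m m' hm))) fun m => by
        rw [abs_neg]; exact hB _ (hcl m)
    simpa only [Complex.ofReal_neg, neg_mul, Finset.sum_neg_distrib, norm_neg] using this
  · exact sw3_abel1 _ c hp (f := fun m => g (max x (min (2 * x) m)))
      (fun m m' hm => hg (hcl m) (hcl m') (hmono m m' hm)) fun m => hB _ (hcl m)

/-- remove the weight: `u ↦ (u/x)^σ / log u` is bounded with bounded variation on `[x, 2x]`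
(Abel summation, or cut `(x₁,x₂]` into `y^{A+1}` pieces) -/
theorem sw_prime (ℓ : ℤ) (A C0 : ℕ) : ∃ y0 : ℝ, ∀ y : ℝ, y0 ≤ y → ∀ (k : O) (s : ℂ) (x x1 x2 : ℝ),
    k ≠ 0 → N k ≤ y ^ C0 → NPl ℓ k → |s.re| ≤ 4 → |s.im| ≤ y ^ C0 →
    Real.exp (Real.sqrt y) / 2 ≤ x → x ≤ Real.exp (2 * y) → x ≤ x1 → x2 ≤ 2 * x →
    ‖∑ p ∈ (sfI x1 x2).filter Prime, xk ℓ k p * pw x p s‖ ≤ x / y ^ A := by
  obtain ⟨y0, h⟩ := sw_log ℓ (A + 1) C0
  refine ⟨max y0 144, fun y hy k s x x1 x2 hk hN hP hs ht hx1 hx2 h1 h2 => ?_⟩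
  have hy1 : 144 ≤ y := (le_max_right _ _).trans hy
  have hy0 : 0 < y := by linarith
  have hx3 : Real.exp 1 ≤ x := by
    have a1 : 2 ≤ Real.sqrt y := Real.le_sqrt_of_sq_le (by linarith)
    have a2 : Real.exp (1 + 1) ≤ Real.exp (Real.sqrt y) := Real.exp_le_exp.2 (by linarith)
    rw [Real.exp_add] at a2
    nlinarith [Real.add_one_le_exp (1 : ℝ), Real.exp_pos 1]
  have hx0 : 0 < x := (Real.exp_pos 1).trans_le hx3
  have hl : ∀ u ∈ Set.Icc x (2 * x), 1 ≤ Real.log u := fun u hu =>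
    (Real.le_log_iff_exp_le (hx0.trans_le hu.1)).2 (hx3.trans hu.1)
  have h3 := sw3_abel _ (B := 1) hx0.le (g := fun u => (Real.log u)⁻¹)
    (Or.inr fun u hu u' hu' huu => inv_anti₀ (by linarith [hl u hu]) (Real.log_le_log (hx0.trans_le hu.1) huu))
    (fun u hu => by
      rw [abs_of_nonneg (inv_nonneg.2 (by linarith [hl u hu]))]
      exact inv_le_one_of_one_le₀ (hl u hu))
    fun x1 x2 h1 h2 => h y ((le_max_left _ _).trans hy) k s.im x x1 x2 hk hN hP ht hx1 hx2 h1 h2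
  have hs' := abs_le.1 hs
  have h4 := sw3_abel _ (B := 16) hx0.le (g := fun u => (u / x) ^ s.re) (by
      rcases le_total 0 s.re with h0 | h0
      · exact Or.inl fun u hu u' _ huu =>
          Real.rpow_le_rpow (div_nonneg (hx0.le.trans hu.1) hx0.le) (by gcongr) h0
      · exact Or.inr fun u hu u' _ huu =>
          Real.rpow_le_rpow_of_nonpos (div_pos (hx0.trans_le hu.1) hx0) (by gcongr) h0)
    (fun u hu => by
      have a1 : 1 ≤ u / x := (one_le_div hx0).2 hu.1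
      have a2 : u / x ≤ 2 := (div_le_iff₀ hx0).2 hu.2
      rw [abs_of_nonneg (Real.rpow_nonneg (by linarith) _)]
      calc (u / x) ^ s.re ≤ (u / x) ^ ((4 : ℕ) : ℝ) := Real.rpow_le_rpow_of_exponent_le a1 (by simpa using hs'.2)
        _ ≤ 2 ^ 4 := by rw [Real.rpow_natCast]; gcongr
        _ = 16 := by norm_num) h3 x1 x2 h1 h2
  refine le_trans (le_of_eq ?_) (h4.trans ?_)
  · congr 1
    refine Finset.sum_congr rfl fun p hp => ?_
    obtain ⟨-, a1, a2⟩ := mem_sfI.1 (Finset.mem_filter.1 hp).1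
    have a3 := hl (N p) ⟨h1.trans a1.le, a2.trans h2⟩
    have a4 : 0 < N p / x := div_pos (by linarith) hx0
    have a5 : (Real.log (N p) : ℂ) ≠ 0 := Complex.ofReal_ne_zero.2 (by linarith)
    rw [pw, pw, lg, Complex.ofReal_cpow a4.le, Complex.ofReal_inv]
    nth_rewrite 1 [← Complex.re_add_im s]
    rw [Complex.cpow_add _ _ (Complex.ofReal_ne_zero.2 a4.ne')]
    field_simp
  · calc 3 * 16 * (3 * 1 * (x / y ^ (A + 1))) = 144 / y * (x / y ^ A) := by field_simp; ring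
      _ ≤ 1 * (x / y ^ A) := by gcongr; exact (div_le_one hy0).2 hy1
      _ = _ := one_mul _

end Crest.Agent.R12
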