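import Crest.Agent.R12.VoDiv
import Crest.Agent.R12.LW
import Crest.Agent.R12.Basic1
import Crest.Agent.R12.Basic2

/-!
# R12 / TI1 : type I bounds for the conjugate Gauss sums `h3`
-/

set_option autoImplicit false

noncomputable section

open scoped Classical ComplexConjugate Topology
open MeasureTheory Filter

namespace Crest.Agent.R12

open Crest.Agent.R17

theorem ti1_N_exp {n : O} (hn : n ≠ 0) : N n = Real.exp (lg n) := (Real.exp_log (N_pos hn)).symm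

theorem ti1_rpow {n : O} (hn : n ≠ 0) (a : ℝ) : N n ^ a = Real.exp (a * lg n) := by
  rw [Real.rpow_def_of_pos (N_pos hn), mul_comm]; rfl

theorem ti1_cpow {x : ℝ} (hx : 0 < x) (z : ℂ) : (x : ℂ) ^ z = Complex.exp (Real.log x * z) := by
  rw [Complex.cpow_def_of_ne_zero (by exact_mod_cast hx.ne'), ← Complex.ofReal_log hx.le]

theorem ti1_norm_cpow {x : ℝ} (hx : 0 < x) (z : ℂ) : ‖(x : ℂ) ^ z‖ = Real.exp (z.re * Real.log x) := by
  rw [Complex.norm_cpow_eq_rpow_re_of_pos hx, Real.rpow_def_of_pos hx, mul_comm]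

theorem ti1_sqrt {n : O} (hn : n ≠ 0) : Real.sqrt (N n) = Real.exp (lg n / 2) := by
  rw [Real.sqrt_eq_rpow, ti1_rpow hn]; congr 1; ring

theorem ti1_tsum {f : O → ℂ} {c : ℝ} (h : ∀ S : Finset O, ∑ n ∈ S, ‖f n‖ ≤ c) :
    Summable f ∧ ‖∑' n, f n‖ ≤ c := by
  have hs : Summable fun n => ‖f n‖ := summable_of_sum_le (fun _ => norm_nonneg _) h
  exact ⟨hs.of_norm, (norm_tsum_le_tsum_norm hs).trans (hs.tsum_le_of_sum_le h)⟩

theorem ti1_tsum2 {ι : Type*} (I : Finset ι) {f : ι → O → ℂ} {c : ℝ}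
    (h : ∀ S : Finset O, ∑ n ∈ S, ∑ i ∈ I, ‖f i n‖ ≤ c) : ∑ i ∈ I, ‖∑' n, f i n‖ ≤ c := by
  have hs : ∀ i ∈ I, Summable fun n => ‖f i n‖ := fun i hi =>
    summable_of_sum_le (fun _ => norm_nonneg _) fun S => (Finset.sum_le_sum fun n _ =>
      Finset.single_le_sum (f := fun i => ‖f i n‖) (fun _ _ => norm_nonneg _) hi).trans (h S)
  refine (Finset.sum_le_sum fun i hi => norm_tsum_le_tsum_norm (hs i hi)).trans ?_
  rw [← Summable.tsum_finsetSum hs]
  exact (summable_sum hs).tsum_le_of_sum_le h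

theorem ti1_poly {κ : ℝ} (hκ : 0 < κ) (B : ℕ) : ∃ C : ℝ, 0 ≤ C ∧ ∀ v : ℝ, 0 ≤ v →
    (1 + v) ^ B ≤ C * Real.exp (κ * v) := by
  refine ⟨κ⁻¹ ^ B * (B.factorial * Real.exp κ), by positivity, fun v hv => ?_⟩
  have h := Real.pow_div_factorial_le_exp (κ * (1 + v)) (by positivity) B
  rw [div_le_iff₀ (by positivity), mul_add, mul_one, Real.exp_add] at h
  calc (1 + v) ^ B = κ⁻¹ ^ B * (κ + κ * v) ^ B := by
        rw [← mul_pow]; congr 1; field_simp
    _ ≤ κ⁻¹ ^ B * (Real.exp κ * Real.exp (κ * v) * B.factorial) := by gcongr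
    _ = _ := by ring

theorem ti1_per {Q0 : O} {φ : O → ℂ} (h : Per Q0 φ) (c : O) : Per Q0 fun m => φ (c * m) := fun x t => by
  have := h (c * x) (c * t)
  dsimp only
  rw [← this]
  congr 1
  ring

/-- complete the square: `N^a gw(T(u-v)) = e^{av + a²/4T²} gw(T(u - v - a/2T²))`, then `an` -/
theorem an_pow : ∃ C : ℝ, 0 ≤ C ∧ ∀ a v T : ℝ, |a| ≤ 12 → 1 ≤ T → ∀ S : Finset O, (∀ n ∈ S, n ≠ 0) →
    ∑ n ∈ S, N n ^ a * gw (T * (lg n - v)) ≤
        C * Real.exp (a * v) * (Real.exp v / T + Real.exp (v / 2)) ∧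
      ∑ n ∈ S, N n ^ a * gw (T * (lg n - v)) ≤ C * Real.exp (a * v) * Real.exp v := by
  obtain ⟨C, hC, h⟩ := an
  refine ⟨Real.exp 36 * C * Real.exp 6, by positivity, fun a v T ha hT S hS => ?_⟩
  have hT0 : 0 < T := by linarith
  have hT2 : 1 ≤ T ^ 2 := one_le_pow₀ hT
  set v' := v + a / (2 * T ^ 2) with hv'
  have ha2 : a ^ 2 ≤ 144 := by
    have := sq_abs a
    nlinarith [abs_nonneg a]
  have h1 : a ^ 2 / (4 * T ^ 2) ≤ 36 := by
    rw [div_le_iff₀ (by positivity)]; nlinarith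
  have h2 : v' ≤ v + 6 := by
    have : a / (2 * T ^ 2) ≤ 6 := by
      rw [div_le_iff₀ (by positivity)]; nlinarith [le_abs_self a]
    linarith
  have key : ∑ n ∈ S, N n ^ a * gw (T * (lg n - v)) ≤
      Real.exp 36 * Real.exp (a * v) * ∑' n : O, if n = 0 then 0 else gw (T * (lg n - v')) := by
    refine le_trans ?_ (mul_le_mul_of_nonneg_left
      ((summable_an v' hT).sum_le_tsum S fun n _ => lw_nonneg v' T n) (by positivity))
    rw [Finset.mul_sum]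
    refine Finset.sum_le_sum fun n hn => ?_
    rw [if_neg (hS n hn), ti1_rpow (hS n hn), gw, gw, ← Real.exp_add, ← Real.exp_add, ← Real.exp_add]
    refine Real.exp_le_exp.2 ?_
    have : a * lg n + -(T * (lg n - v)) ^ 2 = a ^ 2 / (4 * T ^ 2) + a * v + -(T * (lg n - v')) ^ 2 := by
      rw [hv']; field_simp; ring
    linarith
  have e1 : Real.exp v' ≤ Real.exp 6 * Real.exp v := by
    rw [← Real.exp_add]; exact Real.exp_le_exp.2 (by linarith)
  have e2 : Real.exp (v' / 2) ≤ Real.exp 6 * Real.exp (v / 2) := by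
    rw [← Real.exp_add]; exact Real.exp_le_exp.2 (by linarith)
  constructor
  · refine key.trans ?_
    calc _ ≤ Real.exp 36 * Real.exp (a * v) * (C * (Real.exp v' / T + Real.exp (v' / 2))) :=
          mul_le_mul_of_nonneg_left (h v' T hT).1 (by positivity)
      _ ≤ Real.exp 36 * Real.exp (a * v) * (C * (Real.exp 6 * Real.exp v / T + Real.exp 6 * Real.exp (v / 2))) := by
          gcongr
      _ = _ := by ring
  · refine key.trans ?_
    calc _ ≤ Real.exp 36 * Real.exp (a * v) * (C * Real.exp v') :=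
          mul_le_mul_of_nonneg_left (h v' T hT).2 (by positivity)
      _ ≤ Real.exp 36 * Real.exp (a * v) * (C * (Real.exp 6 * Real.exp v)) := by gcongr
      _ = _ := by ring

/-- the singular series is small: `‖resid‖ ≤ N Q₀^{B₀}` (`vor_div` for `φ(d³ ·)`, which is again
periodic mod `Q₀`), `sum_gcd_tail` (with `Δ = 1` plus the term `d = 1`). The second part is the tail
`N d > Δ`. -/
theorem ser_bound : ∃ (C : ℝ) (B0 : ℕ), 0 ≤ C ∧ ∀ (ℓ : ℤ) (Q0 : O), Q0 ≠ 0 → (3 : O) ∣ Q0 →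
    ∀ φ : O → ℂ, Per Q0 φ → (∀ m, ‖φ m‖ ≤ 1) → ∀ r : O, SF r →
    ‖ser ℓ φ r‖ ≤ C * N Q0 ^ B0 * dv r / N r ∧ (ℓ ≠ 0 → ser ℓ φ r = 0) ∧ ∀ Δ : ℝ, 1 ≤ Δ →
    ‖ser ℓ φ r - ∑ d ∈ (ball Δ).filter Prim,
        mu d * ((N (EuclideanDomain.gcd r d) / (N d ^ 2 * N r) : ℝ) : ℂ) *
          resid ℓ (fun m => φ (d ^ 3 * m))‖ ≤ C * N Q0 ^ B0 * dv r / (N r * Δ) := by
  obtain ⟨B0, hV⟩ := vor_div
  obtain ⟨C, hC, hg⟩ := sum_gcd_tail
  refine ⟨C + 18, B0, by positivity, fun ℓ Q0 hQ h3 φ hφ hb r hr => ?_⟩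
  have hr0 := N_pos hr.1.ne_zero
  have hQ0 := N_pos hQ
  have hdv := one_le_dv hr.1.ne_zero
  set a : O → ℂ := fun d => mu d * ((N (EuclideanDomain.gcd r d) / (N d ^ 2 * N r) : ℝ) : ℂ) *
    resid ℓ (fun m => φ (d ^ 3 * m)) with ha
  have hres := fun d : O => hV ℓ Q0 hQ h3 _ (ti1_per hφ (d ^ 3)) fun m => hb _
  have hna : ∀ d, ‖a d‖ ≤ N (EuclideanDomain.gcd r d) / N d ^ 2 * (N Q0 ^ B0 / N r) := by
    intro d
    have h0 : 0 ≤ N (EuclideanDomain.gcd r d) / (N d ^ 2 * N r) := div_nonneg (N_nonneg _) (by positivity)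
    rw [ha]
    dsimp only
    rw [norm_mul, norm_mul, Complex.norm_real, Real.norm_of_nonneg h0]
    calc _ ≤ 1 * (N (EuclideanDomain.gcd r d) / (N d ^ 2 * N r)) * N Q0 ^ B0 := by
          gcongr
          · exact norm_mu_le d
          · exact (hres d).1
      _ = _ := by ring
  have tail : ∀ Δ : ℝ, 1 ≤ Δ → ‖ser ℓ φ r - ∑ d ∈ (ball Δ).filter Prim, a d‖ ≤
      C * N Q0 ^ B0 * dv r / (N r * Δ) := by
    intro Δ hΔ
    have h1 := ti1_tsum (f := fun d => if Prim d ∧ Δ < N d then a d else 0)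
      (c := C * N Q0 ^ B0 * dv r / (N r * Δ)) fun S => by
        calc _ ≤ ∑ d ∈ S.filter (fun d => Prim d ∧ Δ < N d),
              N (EuclideanDomain.gcd r d) / N d ^ 2 * (N Q0 ^ B0 / N r) := by
              rw [Finset.sum_filter]
              refine Finset.sum_le_sum fun d _ => ?_
              split_ifs
              · exact hna d
              · simp
          _ ≤ C * dv r / Δ * (N Q0 ^ B0 / N r) := by
              rw [← Finset.sum_mul]
              exact mul_le_mul_of_nonneg_right (hg r hr.1 Δ hΔ _ fun d hd => (Finset.mem_filter.1 hd).2)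
                (by positivity)
          _ = _ := by field_simp
    have h2 : HasSum (fun d => if d ∈ (ball Δ).filter Prim then a d else 0)
        (∑ d ∈ (ball Δ).filter Prim, a d) := by
      have := hasSum_sum_of_ne_finset_zero (L := SummationFilter.unconditional O) (s := (ball Δ).filter Prim)
        (f := fun d => if d ∈ (ball Δ).filter Prim then a d else 0) fun d hd => if_neg hd
      rwa [Finset.sum_congr rfl fun d hd => if_pos hd] at this
    have h3' : ser ℓ φ r = (∑' d, if Prim d ∧ Δ < N d then a d else 0) + ∑ d ∈ (ball Δ).filter Prim, a d := by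
      rw [← (h1.1.hasSum.add h2).tsum_eq, ser]
      refine tsum_congr fun d => ?_
      by_cases hd : Prim d
      · by_cases hd' : Δ < N d
        · simp [hd, hd', mem_ball, ha]
        · simp [hd, hd', mem_ball, hd.ne_zero, not_lt.1 hd', ha]
      · simp [hd]
    rw [h3', add_sub_cancel_right]
    exact h1.2
  refine ⟨?_, fun hℓ => ?_, fun Δ hΔ => (tail Δ hΔ).trans ?_⟩
  · have h1 := tail 1 le_rfl
    have h2 : ‖∑ d ∈ (ball 1).filter Prim, a d‖ ≤ 18 * (N Q0 ^ B0 / N r) := by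
      refine (norm_sum_le _ _).trans ?_
      refine (Finset.sum_le_card_nsmul _ _ (N Q0 ^ B0 / N r) fun d hd => (hna d).trans ?_).trans ?_
      · obtain ⟨hd0, hd1⟩ := mem_ball.1 (Finset.mem_filter.1 hd).1
        refine mul_le_of_le_one_left (by positivity) ?_
        have := one_le_N hd0
        rw [div_le_one (by positivity)]
        have := N_le_of_dvd hd0 (EuclideanDomain.gcd_dvd_right r d)
        nlinarith
      · rw [nsmul_eq_mul]
        refine mul_le_mul_of_nonneg_right ?_ (by positivity)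
        have := card_ball_le (X := 1) zero_le_one
        have h' : (((ball 1).filter Prim).card : ℝ) ≤ (ball 1).card := by
          exact_mod_cast Finset.card_filter_le _ _
        linarith
    calc ‖ser ℓ φ r‖ ≤ ‖ser ℓ φ r - ∑ d ∈ (ball 1).filter Prim, a d‖ + ‖∑ d ∈ (ball 1).filter Prim, a d‖ :=
          norm_le_norm_sub_add _ _
      _ ≤ C * N Q0 ^ B0 * dv r / (N r * 1) + 18 * (N Q0 ^ B0 * dv r / N r) := by
          refine add_le_add h1 (h2.trans ?_)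
          gcongr
          exact le_mul_of_one_le_right (by positivity) hdv
      _ = _ := by ring
  · unfold ser
    simp [fun d => (hres d).2.1 hℓ]
  · gcongr
    linarith

theorem ti1_norm_cub {e : O} (he : Prim e) (n : O) : ‖cub e n‖ ≤ 1 := by
  have := norm_phr_le n e
  rwa [phr, if_pos he] at this

/-- the dual side of `vor_div` -/
theorem ti1_dual (ℓ : ℤ) : ∃ (C : ℝ) (B0 : ℕ), 0 ≤ C ∧ ∀ (Q0 : O), Q0 ≠ 0 → (3 : O) ∣ Q0 →
    ∀ φ : O → ℂ, Per Q0 φ → (∀ m, ‖φ m‖ ≤ 1) → (ℓ ≠ 0 → resid ℓ φ = 0) ∧ ∀ r : O, SF r → IsCoprime r Q0 →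
    ∀ (v T : ℝ) (s : ℂ), 1 ≤ T → |s.re| ≤ 4 →
    ‖winS (dvR r (prim (th3 ℓ φ))) v T s - resid ℓ φ / (N r : ℂ) * mainW (5 / 6) s v T‖ ≤
      C * N Q0 ^ B0 * dv r * N r ^ (3 / 2 : ℝ) * (T + |s.im|) ^ 4 * Real.exp (-(1 / 2 + s.re) * v) := by
  obtain ⟨B0, hV⟩ := vor_div
  obtain ⟨C1, hC1, hk⟩ := kern_vor ℓ 1
  obtain ⟨C2, hC2, hsh⟩ := tsum_shape
  refine ⟨2 * C1 * C2, 2 * B0 + 2, by positivity, fun Q0 hQ h3 φ hφ hb => ?_⟩
  obtain ⟨-, hz, -, τ', η, ρ0, hρ1, hρ2, hη, -, hτ, -, hf⟩ := hV ℓ Q0 hQ h3 φ hφ hb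
  refine ⟨hz, fun r hr hc v T s hT hs => ?_⟩
  obtain ⟨κ, -, hκ, hker⟩ := hk T s hT hs
  have hr0 := N_pos hr.1.ne_zero
  have hQ0 := N_pos hQ
  have hσ : s.re + -s.re < 5 / 6 := by norm_num
  rw [hf r hr hc v T (-s.re) s hT hσ, add_sub_cancel_left]
  set K := C1 * (T + |s.im|) ^ 4 with hK
  have hK0 : 0 ≤ K := by positivity
  have hterm : ∀ e ∈ pdiv r, ‖η e * (Real.sqrt (N e) : ℂ) * ((N e ^ 2 * ρ0 : ℝ) : ℂ) ^ (1 / 2 - s) *
      ∑' n : O, if n = 0 then 0 else τ' e n * cub e n * (N n : ℂ) ^ (s - 1) *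
        kernT (Vor.gamL ℓ) T (-s.re) s (lg n + v - Real.log (N e ^ 2 * ρ0))‖ ≤
      N r ^ (5 / 2 : ℝ) * N Q0 ^ B0 * (2 * K * (C2 * N Q0 ^ B0 * N Q0 ^ 2)) * Real.exp (-(1 / 2 + s.re) * v) := by
    intro e he
    obtain ⟨he1, he2⟩ := (mem_pdiv hr.1.ne_zero).1 he
    have he0 := N_pos he1.ne_zero
    have her := N_le_of_dvd hr.1.ne_zero he2
    set ρ := N e ^ 2 * ρ0 with hρ
    have hρ0 : 0 < ρ := by positivity
    have h1 := (ti1_tsum (f := fun n : O => if n = 0 then 0 else τ' e n * cub e n * (N n : ℂ) ^ (s - 1) *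
        kernT (Vor.gamL ℓ) T (-s.re) s (lg n + v - Real.log ρ))
      (c := 2 * K * Real.exp (-(1 / 2 + s.re) * (v - Real.log ρ)) * (C2 * N Q0 ^ B0 * N Q0 ^ 2)) fun S => by
        refine le_trans ?_ (mul_le_mul_of_nonneg_left (hsh Q0 (τ' e) _ hQ (by positivity) (hτ e) S)
          (by positivity))
        rw [Finset.mul_sum]
        refine Finset.sum_le_sum fun n _ => ?_
        split_ifs with hn
        · rw [norm_zero]
          have := N_nonneg n
          positivity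
        · have h2 := lw_kern (x := 1 / 2 - (1 : ℕ)) hT hκ (hker (-s.re) (lg n + v - Real.log ρ) hσ)
          rw [norm_mul, norm_mul, norm_mul, ti1_norm_cpow (N_pos hn), ti1_rpow hn]
          calc _ ≤ ‖τ' e n‖ * 1 * Real.exp ((s - 1).re * Real.log (N n)) *
                (2 * K * Real.exp ((1 / 2 - (1 : ℕ) - s.re) * (lg n + v - Real.log ρ))) := by
                gcongr
                exact ti1_norm_cub he1 n
            _ = 2 * K * ‖τ' e n‖ * (Real.exp ((s - 1).re * Real.log (N n)) *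
                Real.exp ((1 / 2 - (1 : ℕ) - s.re) * (lg n + v - Real.log ρ))) := by ring
            _ = 2 * K * ‖τ' e n‖ * (Real.exp (-(1 / 2 + s.re) * (v - Real.log ρ)) *
                Real.exp (-(3 / 2) * lg n)) := by
                rw [← Real.exp_add, ← Real.exp_add]
                congr 2
                simp only [Complex.sub_re, Complex.one_re, lg]
                push_cast
                ring
            _ = _ := by ring).2
    have h3' : ‖((ρ : ℝ) : ℂ) ^ (1 / 2 - s)‖ * Real.exp (-(1 / 2 + s.re) * (v - Real.log ρ)) =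
        ρ * Real.exp (-(1 / 2 + s.re) * v) := by
      rw [ti1_norm_cpow hρ0, ← Real.exp_add]
      conv_rhs => rw [← Real.exp_log hρ0, ← Real.exp_add]
      congr 1
      simp only [Complex.sub_re, Complex.div_ofNat_re, Complex.one_re]
      ring
    have h4 : Real.sqrt (N e) * ρ ≤ N r ^ (5 / 2 : ℝ) * N Q0 ^ B0 := by
      rw [hρ, ← mul_assoc]
      refine mul_le_mul ?_ hρ2 (by linarith) (by positivity)
      rw [Real.sqrt_eq_rpow, ← Real.rpow_two, ← Real.rpow_add he0]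
      norm_num
      exact Real.rpow_le_rpow he0.le her (by norm_num)
    rw [norm_mul, norm_mul, norm_mul, Complex.norm_real, Real.norm_of_nonneg (Real.sqrt_nonneg _)]
    calc _ ≤ 1 * Real.sqrt (N e) * ‖((ρ : ℝ) : ℂ) ^ (1 / 2 - s)‖ *
          (2 * K * Real.exp (-(1 / 2 + s.re) * (v - Real.log ρ)) * (C2 * N Q0 ^ B0 * N Q0 ^ 2)) := by
          gcongr
          exact hη e (hr.of_dvd he1 he2)
      _ = Real.sqrt (N e) * (‖((ρ : ℝ) : ℂ) ^ (1 / 2 - s)‖ * Real.exp (-(1 / 2 + s.re) * (v - Real.log ρ))) *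
          (2 * K * (C2 * N Q0 ^ B0 * N Q0 ^ 2)) := by ring
      _ = Real.sqrt (N e) * ρ * (2 * K * (C2 * N Q0 ^ B0 * N Q0 ^ 2)) * Real.exp (-(1 / 2 + s.re) * v) := by
          rw [h3']; ring
      _ ≤ _ := by gcongr
  rw [norm_mul, norm_inv, Complex.norm_real, Real.norm_of_nonneg hr0.le]
  have h5 := (norm_sum_le _ _).trans (Finset.sum_le_card_nsmul _ _ _ hterm)
  refine (mul_le_mul_of_nonneg_left h5 (by positivity)).trans (le_of_eq ?_)
  have h6 : N r ^ (5 / 2 : ℝ) = N r * N r ^ (3 / 2 : ℝ) := by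
    rw [← Real.rpow_one_add' hr0.le (by norm_num)]; norm_num
  rw [nsmul_eq_mul, h6, hK, dv]
  field_simp
  ring

theorem ti1_main {r d : O} (hr : SF r) (hd : Prim d) (s : ℂ) (v T : ℝ) (R : ℂ) :
    mu d * (Real.sqrt (N d) : ℂ) * (N d : ℂ) ^ (-(3 * s)) *
        (R / (N (r / gp r d) : ℂ) * mainW (5 / 6) s (v - 3 * lg d) T) =
      mu d * ((N (EuclideanDomain.gcd r d) / (N d ^ 2 * N r) : ℝ) : ℂ) * R * mainW (5 / 6) s v T := by
  obtain ⟨g1, g2, -, g4, -⟩ := gp_spec hr d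
  obtain ⟨e1, e2, e3⟩ := bb_mul_div hr.1.ne_zero g2
  have hN : N r = N (gp r d) * N (r / gp r d) := by rw [← N_mul, ← e1]
  have p1 : (N (gp r d) : ℂ) ≠ 0 := by exact_mod_cast (N_pos e2).ne'
  have p2 : (N (r / gp r d) : ℂ) ≠ 0 := by exact_mod_cast (N_pos e3).ne'
  have h1 : (Real.sqrt (N d) : ℂ) * (N d : ℂ) ^ (-(3 * s)) * mainW (5 / 6) s (v - 3 * lg d) T =
      ((N d : ℂ) ^ 2)⁻¹ * mainW (5 / 6) s v T := by
    rw [ti1_cpow (N_pos hd.ne_zero), ti1_sqrt hd.ne_zero]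
    have : (N d : ℂ) = Complex.exp (lg d) := by rw [ti1_N_exp hd.ne_zero]; simp
    rw [this, ← Complex.exp_nat_mul, ← Complex.exp_neg, mainW, mainW, Complex.ofReal_exp, ← Complex.exp_add,
      mul_left_comm, mul_left_comm (Complex.exp _), ← Complex.exp_add, ← Complex.exp_add]
    congr 2
    simp only [lg]
    push_cast
    ring
  rw [← g4, hN]
  push_cast
  calc _ = mu d * R / (N (r / gp r d) : ℂ) *
        ((Real.sqrt (N d) : ℂ) * (N d : ℂ) ^ (-(3 * s)) * mainW (5 / 6) s (v - 3 * lg d) T) := by ring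
    _ = _ := by rw [h1]; field_simp

/-- `win_h3_split`, `vor_div` for `r / gp r d` and `φ(d³ ·)`.  Main terms:
`μ(d) √N d · N d^{-3s} · resid/(N r/N gp) · mainW (5/6) s (v - 3 lg d) T =
μ(d) N(r,d)/(N d² N r) resid · mainW (5/6) s v T` (`resid = 0` if `ℓ ≠ 0`), `ser_bound`,
`norm_mainW_le`.  Dual terms: `kern_vor` with `j = 1` (line `-1/2`), `tsum_shape`; the `e`-term is
`≤ C N e^{5/2} ρ₀ (T+|t|)⁴ e^{-v'/2 - v' Re s}`, `v' = v - 3 lg d`; `∑_{N d ≤ Δ} N d² ≤ 18 Δ³`. -/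
theorem TI_pt (ℓ : ℤ) : ∃ (C : ℝ) (B0 : ℕ), 0 ≤ C ∧ ∀ (Q0 : O), Q0 ≠ 0 → (3 : O) ∣ Q0 →
    ∀ φ : O → ℂ, Per Q0 φ → (∀ m, ‖φ m‖ ≤ 1) → ∀ r : O, SF r → IsCoprime r Q0 →
    ∀ (Δ v T : ℝ) (s : ℂ), 1 ≤ Δ → 1 ≤ T → |s.re| ≤ 4 →
    ‖winS (dvR r (h3 ℓ φ)) v T s - winS (dvR r (h3tail ℓ φ Δ)) v T s -
        ser ℓ φ r * mainW (5 / 6) s v T‖ ≤
      C * N Q0 ^ B0 * dv r * (N r ^ (3 / 2 : ℝ) * (T + |s.im|) ^ 4 * Δ ^ 3 * Real.exp (-(v / 2)) +
        Real.exp (5 / 6 * v) / (T * Δ * N r)) * Real.exp (-(s.re * v)) := by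
  obtain ⟨C1, B1, hC1, hd⟩ := ti1_dual ℓ
  obtain ⟨C2, B2, hC2, hser⟩ := ser_bound
  refine ⟨18 * C1 + C2 * (2 * Real.exp 7), B1 + B2, by positivity,
    fun Q0 hQ hQ3 φ hφ hb r hr hc Δ v T s hΔ hT hs => ?_⟩
  have hr0 := N_pos hr.1.ne_zero
  have hQ1 := one_le_N hQ
  have hdv := bb_dv_nonneg r
  set F := (ball Δ).filter Prim with hF
  set a : O → ℂ := fun d => mu d * ((N (EuclideanDomain.gcd r d) / (N d ^ 2 * N r) : ℝ) : ℂ) *
    resid ℓ (fun m => φ (d ^ 3 * m)) with ha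
  set b : O → ℂ := fun d => mu d * (Real.sqrt (N d) : ℂ) * ang d ^ (3 * ℓ) * (N d : ℂ) ^ (-(3 * s)) *
    (winS (dvR (r / gp r d) (prim (th3 ℓ (fun m => φ (d ^ 3 * m))))) (v - 3 * lg d) T s -
      resid ℓ (fun m => φ (d ^ 3 * m)) / (N (r / gp r d) : ℂ) * mainW (5 / 6) s (v - 3 * lg d) T) with hb'
  have hdd := fun d : O => hd Q0 hQ hQ3 _ (ti1_per hφ (d ^ 3)) fun m => hb _
  have e1 : winS (dvR r (h3 ℓ φ)) v T s - winS (dvR r (h3tail ℓ φ Δ)) v T s -
      ser ℓ φ r * mainW (5 / 6) s v T = ∑ d ∈ F, b d - (ser ℓ φ r - ∑ d ∈ F, a d) * mainW (5 / 6) s v T := by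
    rw [win_h3_split ℓ hb hr Δ v hT s, add_sub_cancel_left, sub_mul, Finset.sum_mul, ← sub_add,
      sub_add_eq_add_sub, ← Finset.sum_add_distrib]
    congr 1
    refine Finset.sum_congr rfl fun d hd' => ?_
    have hp := (Finset.mem_filter.1 hd').2
    rw [hb', ha]
    dsimp only
    rw [← ti1_main hr hp]
    by_cases hℓ : ℓ = 0
    · subst hℓ
      simp only [mul_zero, zpow_zero]
      ring
    · rw [(hdd d).1 hℓ]
      ring
  have e2 : ∀ d ∈ F, ‖b d‖ ≤ Δ ^ 2 * (C1 * N Q0 ^ B1 * dv r * N r ^ (3 / 2 : ℝ) * (T + |s.im|) ^ 4 *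
      (Real.exp (-(v / 2)) * Real.exp (-(s.re * v)))) := by
    intro d hd'
    obtain ⟨hd1, hp⟩ := Finset.mem_filter.1 hd'
    obtain ⟨hd0, hdΔ⟩ := mem_ball.1 hd1
    obtain ⟨g1, g2, -, -, -⟩ := gp_spec hr d
    obtain ⟨q1, q2, q3⟩ := bb_mul_div hr.1.ne_zero g2
    have hdvd : r / gp r d ∣ r := Dvd.intro_left _ q1.symm
    have h1 := (hdd d).2 (r / gp r d) (hr.div g1.1 g2).1 (hc.of_isCoprime_of_dvd_left hdvd) (v - 3 * lg d) T s hT hs
    have h2 := dv_le_of_dvd hr.1.ne_zero hdvd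
    have h3' := N_le_of_dvd hr.1.ne_zero hdvd
    have h4 := N_nonneg (r / gp r d)
    have h5 : Real.exp (lg d / 2) * Real.exp ((-(3 * s)).re * Real.log (N d)) *
        Real.exp (-(1 / 2 + s.re) * (v - 3 * lg d)) = N d ^ 2 * (Real.exp (-(v / 2)) * Real.exp (-(s.re * v))) := by
      conv_rhs => rw [ti1_N_exp hd0, ← Real.exp_nat_mul]
      rw [← Real.exp_add, ← Real.exp_add, ← Real.exp_add, ← Real.exp_add]
      congr 1
      simp only [lg, Complex.neg_re, Complex.mul_re, Complex.re_ofNat, Complex.im_ofNat]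
      push_cast
      ring
    rw [hb']
    dsimp only
    rw [norm_mul, norm_mul, norm_mul, norm_mul, lw_norm_ang1 _ hd0, Complex.norm_real,
      Real.norm_of_nonneg (Real.sqrt_nonneg _), ti1_norm_cpow (N_pos hd0), ti1_sqrt hd0]
    calc _ ≤ 1 * Real.exp (lg d / 2) * 1 * Real.exp ((-(3 * s)).re * Real.log (N d)) *
          (C1 * N Q0 ^ B1 * dv r * N r ^ (3 / 2 : ℝ) * (T + |s.im|) ^ 4 *
            Real.exp (-(1 / 2 + s.re) * (v - 3 * lg d))) := by
          gcongr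
          · exact norm_mu_le d
          · refine h1.trans ?_
            gcongr
      _ = (Real.exp (lg d / 2) * Real.exp ((-(3 * s)).re * Real.log (N d)) *
          Real.exp (-(1 / 2 + s.re) * (v - 3 * lg d))) *
          (C1 * N Q0 ^ B1 * dv r * N r ^ (3 / 2 : ℝ) * (T + |s.im|) ^ 4) := by ring
      _ = N d ^ 2 * (C1 * N Q0 ^ B1 * dv r * N r ^ (3 / 2 : ℝ) * (T + |s.im|) ^ 4 *
          (Real.exp (-(v / 2)) * Real.exp (-(s.re * v)))) := by rw [h5]; ring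
      _ ≤ _ := by
          have := N_nonneg d
          gcongr
  have e3 : (F.card : ℝ) ≤ 18 * Δ := by
    have h' : (F.card : ℝ) ≤ (ball Δ).card := by exact_mod_cast Finset.card_filter_le _ _
    exact h'.trans (card_ball_le (by linarith))
  have e4 : ‖∑ d ∈ F, b d‖ ≤ 18 * C1 * N Q0 ^ (B1 + B2) * dv r *
      (N r ^ (3 / 2 : ℝ) * (T + |s.im|) ^ 4 * Δ ^ 3 * Real.exp (-(v / 2))) * Real.exp (-(s.re * v)) := by
    refine ((norm_sum_le _ _).trans (Finset.sum_le_card_nsmul _ _ _ e2)).trans ?_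
    rw [nsmul_eq_mul]
    calc _ ≤ 18 * Δ * (Δ ^ 2 * (C1 * N Q0 ^ (B1 + B2) * dv r * N r ^ (3 / 2 : ℝ) * (T + |s.im|) ^ 4 *
          (Real.exp (-(v / 2)) * Real.exp (-(s.re * v))))) := by
          gcongr
          omega
      _ = _ := by ring
  have e5 : ‖(ser ℓ φ r - ∑ d ∈ F, a d) * mainW (5 / 6) s v T‖ ≤ C2 * (2 * Real.exp 7) * N Q0 ^ (B1 + B2) * dv r *
      (Real.exp (5 / 6 * v) / (T * Δ * N r)) * Real.exp (-(s.re * v)) := by
    have h1 := (hser ℓ Q0 hQ hQ3 φ hφ hb r hr).2.2 Δ hΔ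
    have hre : ((5 / 6 : ℂ)).re = 5 / 6 := by norm_num
    have h2 := norm_mainW_le (p := 5 / 6) (s := s) v hT (by
      rw [hre, abs_le]; have := abs_le.1 hs; constructor <;> linarith)
    rw [hre, sub_mul, sub_eq_add_neg, Real.exp_add] at h2
    rw [norm_mul]
    calc _ ≤ C2 * N Q0 ^ (B1 + B2) * dv r / (N r * Δ) *
          (2 * Real.exp 7 / T * (Real.exp (5 / 6 * v) * Real.exp (-(s.re * v)))) := by
          refine mul_le_mul (h1.trans ?_) h2 (norm_nonneg _) (by positivity)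
          gcongr
          omega
      _ = _ := by field_simp
  rw [e1]
  refine (norm_sub_le _ _).trans ((add_le_add e4 e5).trans ?_)
  have p1 : 0 ≤ N r ^ (3 / 2 : ℝ) * (T + |s.im|) ^ 4 * Δ ^ 3 * Real.exp (-(v / 2)) := by positivity
  have p2 : 0 ≤ Real.exp (5 / 6 * v) / (T * Δ * N r) := by positivity
  generalize N r ^ (3 / 2 : ℝ) * (T + |s.im|) ^ 4 * Δ ^ 3 * Real.exp (-(v / 2)) = X at p1
  generalize Real.exp (5 / 6 * v) / (T * Δ * N r) = Y at p2
  have p3 : 0 ≤ N Q0 ^ (B1 + B2) * dv r * Real.exp (-(s.re * v)) := by positivity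
  have p4 : 0 ≤ C2 * (2 * Real.exp 7) := by positivity
  nlinarith [mul_nonneg p3 (mul_nonneg hC1 p2), mul_nonneg p3 (mul_nonneg p4 p1)]

theorem ti1_tail_le (ℓ : ℤ) {φ : O → ℂ} (hφ : ∀ m, ‖φ m‖ ≤ 1) (Δ : ℝ) {m0 c : O} (hm : SF m0) (hc : Prim c) :
    ‖h3tail ℓ φ Δ (m0 * c ^ 3)‖ ≤ Real.sqrt (N c) * dv c := by
  have h1 : ‖∑ d ∈ (pdiv c).filter (fun d => Δ < N d), mu d‖ ≤ dv c := by
    refine ((norm_sum_le _ _).trans (Finset.sum_le_card_nsmul _ _ 1 fun d _ => norm_mu_le d)).trans ?_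
    rw [nsmul_eq_mul, mul_one, dv]
    exact_mod_cast Finset.card_filter_le _ _
  rw [h3tail_eq ℓ φ Δ hm hc, norm_mul, norm_mul, norm_mul, norm_mul, RCLike.norm_conj, Complex.norm_real,
    Real.norm_of_nonneg (Real.sqrt_nonneg _), lw_norm_ang1 _ (hm.1.mul (hc.pow 3)).ne_zero]
  calc _ ≤ 1 * Real.sqrt (N c) * dv c * 1 * 1 := by
        have := bb_dv_nonneg c
        gcongr
        · exact norm_g3_le hm.1
        · exact hφ _
    _ = _ := by ring

/-- the sum over the cube part -/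
theorem ti1_cube : ∃ C : ℝ, 0 ≤ C ∧ ∀ a Δ v T : ℝ, |a| ≤ 12 → 1 ≤ Δ → 0 ≤ v → 1 ≤ T → ∀ A B : Finset O,
    (∀ c ∈ A, Δ < N c) → (∀ m ∈ B, m ≠ 0) →
    ∑ c ∈ A, ∑ m ∈ B, Real.sqrt (N c) * (N (m * c ^ 3) ^ a * gw (T * (lg (m * c ^ 3) - v))) ≤
      C * Real.exp (a * v) * ((1 + v) * (Real.exp v * Δ ^ (-(3 / 2 : ℝ)) / T + Real.exp (v / 2))) := by
  obtain ⟨C1, hC1, h1⟩ := an_pow
  obtain ⟨C2, hC2, h2⟩ := b2_tail (σ := 5 / 2) (by norm_num)
  obtain ⟨C3, h3'⟩ := sum_ball_inv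
  have hC3 : 0 ≤ C3 := by
    have := h3' 1 le_rfl
    rw [Real.log_one, add_zero, mul_one] at this
    exact (Finset.sum_nonneg fun n _ => inv_nonneg.2 (N_nonneg n)).trans this
  refine ⟨C1 * (C2 + C3), by positivity, fun a Δ v T ha hΔ hv hT A B hA hB => ?_⟩
  set X := Real.exp (v / 3) with hX
  have hX1 : 1 ≤ X := Real.one_le_exp (by linarith)
  have key : ∀ c ∈ A, ∑ m ∈ B, Real.sqrt (N c) * (N (m * c ^ 3) ^ a * gw (T * (lg (m * c ^ 3) - v))) ≤
      C1 * Real.exp (a * v) * (Real.exp v / T * (if Δ < N c then N c ^ (-(5 / 2 : ℝ)) else 0) +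
        Real.exp (v / 2) * (if c ∈ ball X then (N c)⁻¹ else 0) +
        Real.exp v * (if X < N c then N c ^ (-(5 / 2 : ℝ)) else 0)) := by
    intro c hc
    have hc0 : c ≠ 0 := by
      rintro rfl
      have := hA 0 hc
      simp [N, nm] at this
      linarith
    have e1 : ∑ m ∈ B, Real.sqrt (N c) * (N (m * c ^ 3) ^ a * gw (T * (lg (m * c ^ 3) - v))) =
        Real.exp (lg c / 2 + a * (3 * lg c)) * ∑ m ∈ B, N m ^ a * gw (T * (lg m - (v - 3 * lg c))) := by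
      rw [Finset.mul_sum]
      refine Finset.sum_congr rfl fun m hm => ?_
      have hl : lg (m * c ^ 3) = lg m + 3 * lg c := by
        simp only [lg]
        rw [N_mul, N_pow, Real.log_mul (N_pos (hB m hm)).ne' (pow_pos (N_pos hc0) 3).ne', Real.log_pow]
        norm_num
      rw [ti1_rpow (mul_ne_zero (hB m hm) (pow_ne_zero 3 hc0)), ti1_rpow (hB m hm), ti1_sqrt hc0, hl,
        show lg m + 3 * lg c - v = lg m - (v - 3 * lg c) by ring, mul_add a, Real.exp_add, Real.exp_add]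
      ring
    obtain ⟨b1, b2⟩ := h1 a (v - 3 * lg c) T ha hT B hB
    have e2 : Real.exp (lg c / 2 + a * (3 * lg c)) * Real.exp (a * (v - 3 * lg c)) * Real.exp (v - 3 * lg c) =
        Real.exp (a * v) * (Real.exp v * N c ^ (-(5 / 2 : ℝ))) := by
      rw [ti1_rpow hc0, ← Real.exp_add, ← Real.exp_add, ← Real.exp_add, ← Real.exp_add]
      congr 1; ring
    have e3 : Real.exp (lg c / 2 + a * (3 * lg c)) * Real.exp (a * (v - 3 * lg c)) *
        Real.exp ((v - 3 * lg c) / 2) = Real.exp (a * v) * (Real.exp (v / 2) * (N c)⁻¹) := by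
      conv_rhs => rw [ti1_N_exp hc0, ← Real.exp_neg]
      rw [← Real.exp_add, ← Real.exp_add, ← Real.exp_add, ← Real.exp_add]
      congr 1; ring
    rw [e1, if_pos (hA c hc)]
    have p0 : 0 ≤ N c ^ (-(5 / 2 : ℝ)) := Real.rpow_nonneg (N_nonneg c) _
    by_cases hcX : X < N c
    · rw [if_pos hcX, if_neg (fun h => absurd (mem_ball.1 h).2 (not_le.2 hcX))]
      refine (mul_le_mul_of_nonneg_left b2 (by positivity)).trans ?_
      calc _ = C1 * (Real.exp (lg c / 2 + a * (3 * lg c)) * Real.exp (a * (v - 3 * lg c)) *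
            Real.exp (v - 3 * lg c)) := by ring
        _ = C1 * Real.exp (a * v) * (0 + Real.exp (v / 2) * 0 + Real.exp v * N c ^ (-(5 / 2 : ℝ))) := by
            rw [e2]; ring
        _ ≤ _ := by
            gcongr
            positivity
    · rw [if_neg hcX, if_pos (mem_ball.2 ⟨hc0, not_lt.1 hcX⟩)]
      refine (mul_le_mul_of_nonneg_left b1 (by positivity)).trans (le_of_eq ?_)
      calc _ = C1 * (Real.exp (lg c / 2 + a * (3 * lg c)) * Real.exp (a * (v - 3 * lg c)) *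
            Real.exp (v - 3 * lg c) / T + Real.exp (lg c / 2 + a * (3 * lg c)) * Real.exp (a * (v - 3 * lg c)) *
            Real.exp ((v - 3 * lg c) / 2)) := by ring
        _ = _ := by rw [e2, e3]; ring
  refine (Finset.sum_le_sum key).trans ?_
  rw [← Finset.mul_sum, Finset.sum_add_distrib, Finset.sum_add_distrib, ← Finset.mul_sum, ← Finset.mul_sum,
    ← Finset.mul_sum, mul_right_comm C1 (C2 + C3), mul_assoc _ (C2 + C3)]
  refine mul_le_mul_of_nonneg_left ?_ (by positivity)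
  have s1 := h2 Δ (by linarith) A
  have s2 : ∑ c ∈ A, (if c ∈ ball X then (N c)⁻¹ else 0) ≤ C3 * (1 + v) := by
    rw [← Finset.sum_filter]
    refine (Finset.sum_le_sum_of_subset_of_nonneg (fun c hc => (Finset.mem_filter.1 hc).2)
      fun c _ _ => inv_nonneg.2 (N_nonneg c)).trans ((h3' X hX1).trans ?_)
    rw [hX, Real.log_exp]
    gcongr
    linarith
  have s3 := h2 X (by linarith) A
  have s4 : Real.exp v * X ^ (1 - 5 / 2 : ℝ) = Real.exp (v / 2) := by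
    rw [hX, ← Real.exp_mul, ← Real.exp_add]
    congr 1; ring
  rw [show (1 - 5 / 2 : ℝ) = -(3 / 2) by norm_num] at s1
  have p1 : 0 ≤ Real.exp v * Δ ^ (-(3 / 2 : ℝ)) / T := by positivity
  have p2 := (Real.exp_pos (v / 2)).le
  calc _ ≤ Real.exp v / T * (C2 * Δ ^ (-(3 / 2 : ℝ))) + Real.exp (v / 2) * (C3 * (1 + v)) +
        Real.exp v * (C2 * X ^ (1 - 5 / 2 : ℝ)) := by gcongr
    _ = C2 * (Real.exp v * Δ ^ (-(3 / 2 : ℝ)) / T + Real.exp v * X ^ (1 - 5 / 2 : ℝ)) +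
        C3 * ((1 + v) * Real.exp (v / 2)) := by ring
    _ ≤ C2 * ((1 + v) * (Real.exp v * Δ ^ (-(3 / 2 : ℝ)) / T + Real.exp (v / 2))) +
        C3 * ((1 + v) * (Real.exp v * Δ ^ (-(3 / 2 : ℝ)) / T + Real.exp (v / 2))) := by
        rw [s4]
        gcongr
        · exact le_mul_of_one_le_left (by positivity) (by linarith)
        · linarith
    _ = _ := by ring

/-- `h3tail_ne/eq`: `m = m₀c³`, `N c > Δ`, `‖h3tail m‖ ≤ √N c · dv c`; the number of `r ∣ m` is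
`≤ dv m ≤ C N m^{ε'}` (`card_pdiv_le`); `an_pow` for `m₀` at `v - 3 lg c` (first bound if
`N c³ ≤ e^v`, second bound otherwise). -/
theorem TI_tail (ε : ℝ) (hε : 0 < ε) : ∃ C : ℝ, 0 ≤ C ∧ ∀ (ℓ : ℤ) (φ : O → ℂ), (∀ m, ‖φ m‖ ≤ 1) →
    ∀ (R Δ v T : ℝ) (s : ℂ), 1 ≤ Δ → 0 ≤ v → 1 ≤ T → |s.re| ≤ 4 →
    ∑ r ∈ sfb R, ‖winS (dvR r (h3tail ℓ φ Δ)) v T s‖ ≤
      C * Real.exp (ε * v) * (Real.exp v * Δ ^ (-(3 / 2 : ℝ)) / T + Real.exp (v / 2)) *
        Real.exp (-(s.re * v)) := by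
  set δ := min (ε / 2) 1 with hδ
  have hδ0 : 0 < δ := lt_min (by linarith) one_pos
  have hδ1 : δ ≤ 1 := min_le_right _ _
  have hδ2 : δ ≤ ε / 2 := min_le_left _ _
  obtain ⟨C1, h1⟩ := card_pdiv_le (ε := δ / 2) (by linarith)
  obtain ⟨C2, hC2, h2⟩ := ti1_cube
  obtain ⟨C3, hC3, h3'⟩ := ti1_poly (κ := ε / 2) (by linarith) 1
  refine ⟨C1 ^ 2 * C2 * C3, by positivity, fun ℓ φ hφ R Δ v T s hΔ hv hT hs => ?_⟩
  have hex : ∀ m, ∃ p : O × O, h3tail ℓ φ Δ m ≠ 0 → SF p.2 ∧ Prim p.1 ∧ Δ < N p.1 ∧ m = p.2 * p.1 ^ 3 := by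
    intro m
    by_cases hm : h3tail ℓ φ Δ m = 0
    · exact ⟨0, fun h => absurd hm h⟩
    · obtain ⟨m0, c, h⟩ := h3tail_ne ℓ φ Δ hm
      exact ⟨(c, m0), fun _ => h⟩
  choose π hπ using hex
  set G : O × O → ℝ := fun p => Real.sqrt (N p.1) *
    (N (p.2 * p.1 ^ 3) ^ (δ - s.re) * gw (T * (lg (p.2 * p.1 ^ 3) - v))) with hG
  have hG0 : ∀ p, 0 ≤ G p := fun p => mul_nonneg (Real.sqrt_nonneg _)
    (mul_nonneg (Real.rpow_nonneg (N_nonneg _) _) (gw_pos _).le)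
  refine ti1_tsum2 _ fun S => ?_
  set S' := S.filter fun m => h3tail ℓ φ Δ m ≠ 0 with hS'
  have k1 : ∀ m ∈ S, ∑ r ∈ sfb R, ‖if m = 0 then 0 else dvR r (h3tail ℓ φ Δ) m * (N m : ℂ) ^ (-s) *
      (gw (T * (lg m - v)) : ℂ)‖ ≤ if h3tail ℓ φ Δ m ≠ 0 then C1 ^ 2 * G (π m) else 0 := by
    intro m _
    split_ifs with hm0 hm hm
    · simp only [norm_zero, Finset.sum_const_zero]
      exact mul_nonneg (sq_nonneg _) (hG0 _)
    · simp
    · obtain ⟨q1, q2, -, q4⟩ := hπ m hm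
      have t1 := ti1_tail_le ℓ hφ Δ q1 q2
      rw [← q4] at t1
      have t2 : dv (π m).1 ≤ dv m := dv_le_of_dvd hm0 (by
        conv_rhs => rw [q4]
        exact Dvd.dvd.mul_left (dvd_pow_self _ (by norm_num)) _)
      have t3 : dv m ≤ C1 * N m ^ (δ / 2) := h1 m hm0
      have t0 := bb_dv_nonneg m
      have t4 : ∑ r ∈ sfb R, ‖dvR r (h3tail ℓ φ Δ) m‖ ≤ dv m * ‖h3tail ℓ φ Δ m‖ := by
        calc _ = ∑ r ∈ (sfb R).filter (fun r => r ∣ m), ‖h3tail ℓ φ Δ m‖ := by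
              rw [Finset.sum_filter]
              refine Finset.sum_congr rfl fun r _ => ?_
              unfold dvR
              split_ifs <;> simp
          _ ≤ ∑ r ∈ pdiv m, ‖h3tail ℓ φ Δ m‖ := by
              refine Finset.sum_le_sum_of_subset_of_nonneg (fun r hr => ?_) fun _ _ _ => norm_nonneg _
              obtain ⟨r1, r2⟩ := Finset.mem_filter.1 hr
              exact (mem_pdiv hm0).2 ⟨(mem_sfb.1 r1).1.1, r2⟩
          _ = _ := by rw [Finset.sum_const, nsmul_eq_mul, dv]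
      have t5 : N m ^ (δ - s.re) = N m ^ (δ / 2) * N m ^ (δ / 2) * N m ^ (-s.re) := by
        rw [← Real.rpow_add (N_pos hm0), ← Real.rpow_add (N_pos hm0)]
        congr 1; ring
      have t6 := (gw_pos (T * (lg m - v))).le
      have t7 : 0 ≤ N m ^ (-s.re) := Real.rpow_nonneg (N_nonneg _) _
      simp only [norm_mul, Complex.norm_cpow_eq_rpow_re_of_pos (N_pos hm0), Complex.norm_real,
        Real.norm_of_nonneg t6, Complex.neg_re]
      rw [← Finset.sum_mul, ← Finset.sum_mul, hG]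
      dsimp only
      rw [← q4, t5]
      calc _ ≤ (C1 * N m ^ (δ / 2)) * (Real.sqrt (N (π m).1) * (C1 * N m ^ (δ / 2))) * N m ^ (-s.re) *
            gw (T * (lg m - v)) := by
            gcongr
            refine t4.trans (mul_le_mul t3 (t1.trans ?_) (norm_nonneg _) (t0.trans t3))
            exact mul_le_mul_of_nonneg_left (t2.trans t3) (Real.sqrt_nonneg _)
        _ = _ := by ring
    · rw [not_not] at hm
      simp [dvR, hm]
  have k2 : ∑ m ∈ S', G (π m) ≤ ∑ c ∈ S'.image (fun m => (π m).1), ∑ m0 ∈ S'.image (fun m => (π m).2), G (c, m0) := by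
    rw [← Finset.sum_product', ← Finset.sum_image (s := S') (g := π) (f := G) fun m hm m' hm' h => by
      rw [(hπ m (Finset.mem_filter.1 hm).2).2.2.2, (hπ m' (Finset.mem_filter.1 hm').2).2.2.2, h]]
    refine Finset.sum_le_sum_of_subset_of_nonneg (fun p hp => ?_) fun p _ _ => hG0 p
    obtain ⟨m, hm, rfl⟩ := Finset.mem_image.1 hp
    exact Finset.mem_product.2 ⟨Finset.mem_image_of_mem _ hm, Finset.mem_image_of_mem _ hm⟩
  have k3 := h2 (δ - s.re) Δ v T (by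
      rw [abs_le]; have := abs_le.1 hs; constructor <;> linarith) hΔ hv hT
    (S'.image fun m => (π m).1) (S'.image fun m => (π m).2)
    (fun c hc => by
      obtain ⟨m, hm, rfl⟩ := Finset.mem_image.1 hc
      exact (hπ m (Finset.mem_filter.1 hm).2).2.2.1)
    (fun c hc => by
      obtain ⟨m, hm, rfl⟩ := Finset.mem_image.1 hc
      exact (hπ m (Finset.mem_filter.1 hm).2).1.1.ne_zero)
  have k4 := h3' v hv
  rw [pow_one] at k4
  have k5 : Real.exp ((δ - s.re) * v) * Real.exp (ε / 2 * v) ≤ Real.exp (ε * v) * Real.exp (-(s.re * v)) := by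
    rw [← Real.exp_add, ← Real.exp_add]
    exact Real.exp_le_exp.2 (by nlinarith)
  refine (Finset.sum_le_sum k1).trans ?_
  rw [← Finset.sum_filter, ← Finset.mul_sum]
  have p1 : 0 ≤ Real.exp v * Δ ^ (-(3 / 2 : ℝ)) / T + Real.exp (v / 2) := by positivity
  refine (mul_le_mul_of_nonneg_left (k2.trans k3) (sq_nonneg _)).trans ?_
  generalize Real.exp v * Δ ^ (-(3 / 2 : ℝ)) / T + Real.exp (v / 2) = Y at p1
  calc _ ≤ C1 ^ 2 * (C2 * Real.exp ((δ - s.re) * v) * (C3 * Real.exp (ε / 2 * v) * Y)) := by gcongr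
    _ = C1 ^ 2 * C2 * C3 * Y * (Real.exp ((δ - s.re) * v) * Real.exp (ε / 2 * v)) := by ring
    _ ≤ C1 ^ 2 * C2 * C3 * Y * (Real.exp (ε * v) * Real.exp (-(s.re * v))) := by gcongr
    _ = _ := by ring

theorem ti1_split {r Q0 : O} (hr : SF r) (m : O) : r ∣ m ↔ r / gp r Q0 ∣ m ∧ gp r Q0 ∣ m := by
  obtain ⟨g1, g2, -, -, -⟩ := gp_spec hr Q0
  obtain ⟨q1, -, -⟩ := bb_mul_div hr.1.ne_zero g2
  constructor
  · intro h
    exact ⟨(Dvd.intro_left _ q1.symm).trans h, g2.trans h⟩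
  · rintro ⟨h1, h2⟩
    rw [q1]
    exact (hr.div g1.1 g2).2.mul_dvd h2 h1

/-- **power saving on residue classes**, all squarefree `r` (not only coprime to `Q₀`):
`r = r₁ r₂`, `r₁ = gp r Q₀ ∣ Q₀`, `r₂` coprime to `Q₀`; `φ · 1_{r₁ ∣ ·}` is periodic mod `Q₀` and
`dvR r (h3 ℓ φ) = dvR r₂ (h3 ℓ (φ 1_{r₁ ∣ ·}))` (same for `h3tail`).  `Δ = e^{v/10}`, `TI_pt`,
`TI_tail` (`ε = 1/20`), `ser_bound`, `sum_dv`, `sum_dv_inv`;  `N r₂ ≥ N r / N Q₀`. -/
theorem HP1 (ℓ : ℤ) : ∃ (C : ℝ) (B0 : ℕ), 0 ≤ C ∧ ∀ (Q0 : O), Q0 ≠ 0 → (3 : O) ∣ Q0 →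
    ∀ φ : O → ℂ, Per Q0 φ → (∀ m, ‖φ m‖ ≤ 1) → ∀ (v T : ℝ) (s : ℂ), 0 ≤ v → 1 ≤ T → |s.re| ≤ 4 →
    ∑ r ∈ sfb (Real.exp (v / 4)), ‖winS (dvR r (h3 ℓ φ)) v T s‖ ≤
      C * N Q0 ^ B0 * (T + |s.im|) ^ 4 * Real.exp ((9 / 10 - s.re) * v) := by
  obtain ⟨C1, B1, hC1, hpt⟩ := TI_pt ℓ
  obtain ⟨C2, B2, hC2, hser⟩ := ser_bound
  obtain ⟨C3, hC3, htl⟩ := TI_tail (1 / 20) (by norm_num)
  obtain ⟨C4, B4, hC4, hdv⟩ := sum_dv_inv 1
  obtain ⟨C5, hC5, hpoly⟩ := ti1_poly (κ := 1 / 15) (by norm_num) B4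
  set K := 2 * C1 + C2 * (2 * Real.exp 7) with hK
  have hK0 : 0 ≤ K := by positivity
  refine ⟨2 * C3 + K * (C4 * C5), B1 + B2 + 1, by positivity, fun Q0 hQ hQ3 φ hφ hb v T s hv hT hs => ?_⟩
  have hQ1 := one_le_N hQ
  set Δ := Real.exp (v / 10) with hΔ
  have hΔ1 : 1 ≤ Δ := Real.one_le_exp (by linarith)
  set U := (T + |s.im|) ^ 4 with hU
  have hU1 : 1 ≤ U := one_le_pow₀ (by linarith [abs_nonneg s.im])
  set E := Real.exp (5 / 6 * v) * Real.exp (-(s.re * v)) with hE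
  have hE0 : 0 ≤ E := by positivity
  have key : ∀ r ∈ sfb (Real.exp (v / 4)), ‖winS (dvR r (h3 ℓ φ)) v T s‖ ≤
      ‖winS (dvR r (h3tail ℓ φ Δ)) v T s‖ + K * N Q0 ^ (B1 + B2 + 1) * U * E * (dv r ^ 1 / N r) := by
    intro r hr'
    obtain ⟨hr, hrv⟩ := mem_sfb.1 hr'
    obtain ⟨g1, g2, g3', -, g5⟩ := gp_spec hr Q0
    obtain ⟨q1, q2, q3⟩ := bb_mul_div hr.1.ne_zero g2
    set φ' : O → ℂ := fun m => if gp r Q0 ∣ m then φ m else 0 with hφ'
    have hper : Per Q0 φ' := fun x t => by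
      simp only [hφ', hφ x t, dvd_add_left (g3'.mul_right t)]
    have hb' : ∀ m, ‖φ' m‖ ≤ 1 := fun m => by
      simp only [hφ']
      split_ifs
      · exact hb m
      · simp
    have e1 : dvR r (h3 ℓ φ) = dvR (r / gp r Q0) (h3 ℓ φ') := by
      funext m
      simp only [dvR, h3, hφ', ti1_split (Q0 := Q0) hr m]
      by_cases a1 : r / gp r Q0 ∣ m <;> by_cases a2 : gp r Q0 ∣ m <;> simp [a1, a2]
    have e2 : dvR r (h3tail ℓ φ Δ) = dvR (r / gp r Q0) (h3tail ℓ φ' Δ) := by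
      funext m
      simp only [dvR, h3tail, hφ', ti1_split (Q0 := Q0) hr m]
      by_cases a1 : r / gp r Q0 ∣ m <;> by_cases a2 : gp r Q0 ∣ m <;> simp [a1, a2]
    rw [e1, e2]
    have hr2 := (hr.div g1.1 g2).1
    have hdvd : r / gp r Q0 ∣ r := Dvd.intro_left _ q1.symm
    have hN : N r ≤ N Q0 * N (r / gp r Q0) := by
      conv_lhs => rw [q1, N_mul]
      exact mul_le_mul_of_nonneg_right (N_le_of_dvd hQ g3') (N_nonneg _)
    have b1 := hpt Q0 hQ hQ3 φ' hper hb' _ hr2 g5 Δ v T s hΔ1 hT hs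
    have b2 := (hser ℓ Q0 hQ hQ3 φ' hper hb' _ hr2).1
    have hre : ((5 / 6 : ℂ)).re = 5 / 6 := by norm_num
    have b3 := norm_mainW_le (p := 5 / 6) (s := s) v hT (by
      rw [hre, abs_le]; have := abs_le.1 hs; constructor <;> linarith)
    rw [hre, sub_mul, sub_eq_add_neg, Real.exp_add, ← hE] at b3
    have d1 := dv_le_of_dvd hr.1.ne_zero hdvd
    have d2 := N_le_of_dvd hr.1.ne_zero hdvd
    have d0 := bb_dv_nonneg (r / gp r Q0)
    have n2 := N_pos q3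
    have n0 := N_pos hr.1.ne_zero
    generalize r / gp r Q0 = r2 at *
    have i1 : (N r2)⁻¹ ≤ N Q0 / N r := by
      rw [inv_eq_one_div, div_le_div_iff₀ n2 n0]; linarith
    have c1 : N r2 ^ (3 / 2 : ℝ) * U * Δ ^ 3 * Real.exp (-(v / 2)) ≤ U * Real.exp (5 / 6 * v) * (N Q0 / N r) := by
      have a1 : N r2 ^ (3 / 2 : ℝ) ≤ Real.exp (v / 4 * (3 / 2)) := by
        rw [Real.exp_mul]
        exact Real.rpow_le_rpow n2.le (d2.trans hrv) (by norm_num)
      have a2 : Real.exp (-(v / 4)) ≤ N Q0 / N r := by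
        rw [Real.exp_neg, le_div_iff₀ n0, inv_mul_le_iff₀ (Real.exp_pos _)]
        exact hrv.trans (le_mul_of_one_le_right (Real.exp_pos _).le hQ1)
      calc _ ≤ Real.exp (v / 4 * (3 / 2)) * U * Δ ^ 3 * Real.exp (-(v / 2)) := by gcongr
        _ = U * (Real.exp (v / 4 * (3 / 2)) * Δ ^ 3 * Real.exp (-(v / 2))) := by ring
        _ ≤ U * (Real.exp (5 / 6 * v) * Real.exp (-(v / 4))) := by
            refine mul_le_mul_of_nonneg_left ?_ (by positivity)
            rw [hΔ, ← Real.exp_nat_mul, ← Real.exp_add, ← Real.exp_add, ← Real.exp_add]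
            exact Real.exp_le_exp.2 (by push_cast; linarith)
        _ ≤ U * (Real.exp (5 / 6 * v) * (N Q0 / N r)) := by gcongr
        _ = _ := by ring
    have c2 : Real.exp (5 / 6 * v) / (T * Δ * N r2) ≤ U * Real.exp (5 / 6 * v) * (N Q0 / N r) := by
      calc _ ≤ Real.exp (5 / 6 * v) / (1 * 1 * N r2) := by gcongr
        _ = 1 * Real.exp (5 / 6 * v) * (N r2)⁻¹ := by ring
        _ ≤ _ := by gcongr
    have c3 : ‖ser ℓ φ' r2 * mainW (5 / 6) s v T‖ ≤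
        C2 * (2 * Real.exp 7) * N Q0 ^ (B1 + B2 + 1) * U * E * (dv r ^ 1 / N r) := by
      rw [norm_mul]
      calc _ ≤ C2 * N Q0 ^ B2 * dv r2 / N r2 * (2 * Real.exp 7 / T * E) :=
            mul_le_mul b2 b3 (norm_nonneg _) (by positivity)
        _ = C2 * N Q0 ^ B2 * dv r2 * (N r2)⁻¹ * (2 * Real.exp 7 / T * E) * 1 := by ring
        _ ≤ C2 * N Q0 ^ (B1 + B2) * dv r * (N Q0 / N r) * (2 * Real.exp 7 / 1 * E) * U := by
            have := d0.trans d1
            gcongr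
            omega
        _ = _ := by ring
    have c4 : C1 * N Q0 ^ B1 * dv r2 * (N r2 ^ (3 / 2 : ℝ) * U * Δ ^ 3 * Real.exp (-(v / 2)) +
        Real.exp (5 / 6 * v) / (T * Δ * N r2)) * Real.exp (-(s.re * v)) ≤
        2 * C1 * N Q0 ^ (B1 + B2 + 1) * U * E * (dv r ^ 1 / N r) := by
      calc _ ≤ C1 * N Q0 ^ (B1 + B2) * dv r * (U * Real.exp (5 / 6 * v) * (N Q0 / N r) +
            U * Real.exp (5 / 6 * v) * (N Q0 / N r)) * Real.exp (-(s.re * v)) := by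
            have := d0.trans d1
            gcongr
            omega
        _ = _ := by rw [hE]; ring
    have c5 := norm_add₃_le (a := winS (dvR r2 (h3tail ℓ φ' Δ)) v T s) (b := ser ℓ φ' r2 * mainW (5 / 6) s v T)
      (c := winS (dvR r2 (h3 ℓ φ')) v T s - winS (dvR r2 (h3tail ℓ φ' Δ)) v T s -
        ser ℓ φ' r2 * mainW (5 / 6) s v T)
    rw [show ∀ a b c : ℂ, a + b + (c - a - b) = c by intros; ring] at c5
    rw [hK]
    linarith [b1.trans c4]
  refine (Finset.sum_le_sum key).trans ?_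
  rw [Finset.sum_add_distrib, ← Finset.mul_sum]
  have s1 := htl ℓ φ hb (Real.exp (v / 4)) Δ v T s hΔ1 hv hT hs
  have s2 : ∑ r ∈ sfb (Real.exp (v / 4)), dv r ^ 1 / N r ≤ C4 * (C5 * Real.exp (1 / 15 * v)) := by
    refine (Finset.sum_le_sum_of_subset_of_nonneg (Finset.filter_subset _ _) fun r _ _ =>
      div_nonneg (pow_nonneg (bb_dv_nonneg r) _) (N_nonneg r)).trans
      ((hdv _ (Real.one_le_exp (by linarith))).trans ?_)
    rw [Real.log_exp]
    refine mul_le_mul_of_nonneg_left (le_trans ?_ (hpoly v hv)) hC4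
    gcongr
    linarith
  have s3 : Real.exp ((9 / 10 - s.re) * v) = Real.exp (9 / 10 * v) * Real.exp (-(s.re * v)) := by
    rw [← Real.exp_add]; congr 1; ring
  have s4 : E * Real.exp (1 / 15 * v) = Real.exp (9 / 10 * v) * Real.exp (-(s.re * v)) := by
    rw [hE, ← Real.exp_add, ← Real.exp_add, ← Real.exp_add]; congr 1; ring
  have s5 : Real.exp (1 / 20 * v) * (Real.exp v * Δ ^ (-(3 / 2 : ℝ)) / T + Real.exp (v / 2)) ≤
      2 * Real.exp (9 / 10 * v) := by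
    have a1 : Real.exp (1 / 20 * v) * (Real.exp v * Δ ^ (-(3 / 2 : ℝ))) = Real.exp (9 / 10 * v) := by
      rw [hΔ, ← Real.exp_mul, ← Real.exp_add, ← Real.exp_add]; congr 1; ring
    have a2 : Real.exp (1 / 20 * v) * Real.exp (v / 2) ≤ Real.exp (9 / 10 * v) := by
      rw [← Real.exp_add]; exact Real.exp_le_exp.2 (by linarith)
    have a3 : Real.exp v * Δ ^ (-(3 / 2 : ℝ)) / T ≤ Real.exp v * Δ ^ (-(3 / 2 : ℝ)) :=
      div_le_self (by positivity) hT
    have a4 := mul_le_mul_of_nonneg_left a3 (Real.exp_pos (1 / 20 * v)).le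
    rw [mul_add]
    linarith
  have hQB : 1 ≤ N Q0 ^ (B1 + B2 + 1) := one_le_pow₀ hQ1
  rw [s3]
  calc _ ≤ C3 * (Real.exp (1 / 20 * v) * (Real.exp v * Δ ^ (-(3 / 2 : ℝ)) / T + Real.exp (v / 2))) *
        Real.exp (-(s.re * v)) * 1 * 1 + K * N Q0 ^ (B1 + B2 + 1) * U * E * (C4 * (C5 * Real.exp (1 / 15 * v))) := by
        refine add_le_add (s1.trans (le_of_eq (by ring))) ?_
        gcongr
    _ ≤ C3 * (2 * Real.exp (9 / 10 * v)) * Real.exp (-(s.re * v)) * N Q0 ^ (B1 + B2 + 1) * U +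
        K * (C4 * C5) * N Q0 ^ (B1 + B2 + 1) * U * (E * Real.exp (1 / 15 * v)) := by
        refine add_le_add ?_ (le_of_eq (by ring))
        gcongr
    _ = _ := by rw [s4]; ring

end Crest.Agent.R12
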