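import Crest.Agent.R12.TI1
import Crest.Agent.R12.LS0

/-!
# R12 / VA1 : Voronoi on average, part 1: weighted large sieve and the tail
-/

set_option autoImplicit false

noncomputable section

open scoped Classical ComplexConjugate Topology
open MeasureTheory Filter

namespace Crest.Agent.R12

open Crest.Agent.R17

theorem va_cover {α ι : Type*} (A : Finset α) (T : Finset ι) (g : ι → α) (F : α → ℝ) (H : ι → ℝ)
    (hH : ∀ t ∈ T, 0 ≤ H t) (h : ∀ k ∈ A, F k ≠ 0 → ∃ t ∈ T, g t = k ∧ F k ≤ H t) :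
    ∑ k ∈ A, F k ≤ ∑ t ∈ T, H t := by
  rw [← Finset.sum_filter_ne_zero]
  set A' := A.filter (fun k => F k ≠ 0)
  have h' : ∀ k : A', ∃ t ∈ T, g t = k ∧ F k ≤ H t := fun k =>
    h k (Finset.mem_filter.1 k.2).1 (Finset.mem_filter.1 k.2).2
  choose t h1 h2 h3 using h'
  have hinj : Function.Injective t := fun a b hab => Subtype.ext (by rw [← h2 a, ← h2 b, hab])
  rw [← Finset.sum_coe_sort A']
  refine (Finset.sum_le_sum fun k _ => h3 k).trans ?_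
  rw [← Finset.sum_image (f := H) (hinj.injOn)]
  refine Finset.sum_le_sum_of_subset_of_nonneg (fun x hx => ?_) fun i hi _ => hH i hi
  obtain ⟨k, -, rfl⟩ := Finset.mem_image.1 hx
  exact h1 k

theorem va_dyad (R : Finset O) (hR : ∀ m ∈ R, m ≠ 0) (F : O → ℝ) (g : ℝ → ℝ)
    (hg : ∀ K, 1 ≤ K → 0 ≤ g K)
    (h : ∀ K : ℝ, 1 ≤ K → ∀ R' ⊆ R, (∀ m ∈ R', K ≤ N m ∧ N m ≤ 2 * K) →
      ∑ m ∈ R', F m ≤ g K - g (2 * K)) : ∑ m ∈ R, F m ≤ g 1 := by
  set J := R.sup box + 1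
  have hJ : ∀ m ∈ R, box m ∈ Finset.range J := fun m hm =>
    Finset.mem_range.2 (Nat.lt_succ_of_le (Finset.le_sup hm))
  rw [← Finset.sum_fiberwise_of_maps_to hJ]
  have h1 : ∀ j ∈ Finset.range J, ∑ m ∈ R with box m = j, F m ≤ g (2 ^ j) - g (2 ^ (j + 1)) := by
    intro j _
    rw [pow_succ']
    refine h _ (one_le_pow₀ (by norm_num)) _ (Finset.filter_subset _ _) fun m hm => ?_
    obtain ⟨h1, rfl⟩ := Finset.mem_filter.1 hm
    have h2 := Nat.pow_log_le_self 2 (nm_pos (hR m h1)).ne'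
    have h3 := Nat.lt_pow_succ_log_self (b := 2) (by norm_num) (nm m)
    unfold N box
    rw [← pow_succ']
    exact ⟨by exact_mod_cast h2, by exact_mod_cast h3.le⟩
  refine (Finset.sum_le_sum h1).trans ?_
  rw [Finset.sum_range_sub' (fun j => g (2 ^ j)), pow_zero]
  have := hg (2 ^ J) (one_le_pow₀ (by norm_num))
  linarith

theorem va_tel1 {x : ℝ} (hx : 0 < x) :
    min 1 (x ^ 2) ≤ 6 * Real.log (1 + x) - 6 * Real.log (1 + x / 2) := by
  have h1 := Real.one_sub_inv_le_log_of_pos (x := (1 + x) / (1 + x / 2)) (by positivity)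
  rw [Real.log_div (by positivity) (by positivity), inv_div] at h1
  have h2 : 1 - (1 + x / 2) / (1 + x) = x / 2 / (1 + x) := by field_simp; ring
  have h3 : min 1 (x ^ 2) ≤ 6 * (x / 2 / (1 + x)) := by
    rw [← mul_div_assoc, le_div_iff₀ (by positivity)]
    rcases le_total x 1 with h | h
    · have := min_le_right 1 (x ^ 2)
      nlinarith
    · have := min_le_left 1 (x ^ 2)
      nlinarith
  linarith

theorem va_tel2 {x : ℝ} (hx : 0 < x) :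
    min 1 (x ^ 2) * x⁻¹ ≤ 6 * (x / (1 + x)) - 6 * (x / 2 / (1 + x / 2)) := by
  have h2 : 6 * (x / (1 + x)) - 6 * (x / 2 / (1 + x / 2)) = 6 * x ^ 2 / ((1 + x) * (2 + x)) * x⁻¹ := by
    field_simp; ring
  rw [h2]
  refine mul_le_mul_of_nonneg_right ?_ (by positivity)
  rw [le_div_iff₀ (by positivity)]
  rcases le_total x 1 with h | h
  · have h3 : (1 + x) * (2 + x) ≤ 6 := by nlinarith
    calc _ ≤ x ^ 2 * 6 := mul_le_mul (min_le_right _ _) h3 (by positivity) (by positivity)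
      _ = _ := by ring
  · have h3 : (1 + x) * (2 + x) ≤ 6 * x ^ 2 := by nlinarith
    calc _ ≤ 1 * (6 * x ^ 2) := mul_le_mul (min_le_left _ _) h3 (by positivity) (by positivity)
      _ = _ := by ring

theorem va_Z : ∃ Z : ℝ, 0 ≤ Z ∧ ∀ A : Finset O, ∑ c ∈ A, (N c)⁻¹ ^ 2 ≤ Z := by
  have hZ := summable_N_rpow (σ := 2) (by norm_num)
  refine ⟨∑' n : O, N n ^ (-(2 : ℝ)), tsum_nonneg fun n => Real.rpow_nonneg (N_nonneg n) (-2), fun A => ?_⟩
  refine le_trans (le_of_eq (Finset.sum_congr rfl fun c _ => ?_))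
    (hZ.sum_le_tsum A fun n _ => Real.rpow_nonneg (N_nonneg n) _)
  rw [Real.rpow_neg (N_nonneg c), Real.rpow_two, inv_pow]

theorem va_csum : ∃ C : ℝ, 0 ≤ C ∧ ∀ Y : ℝ, 0 < Y → ∀ A : Finset O, (∀ c ∈ A, c ≠ 0) →
    ∑ c ∈ A, (N c)⁻¹ * min 1 (Y / N c ^ 2) ≤ C * (1 + Real.log (1 + Y)) := by
  obtain ⟨C, hC⟩ := sum_ball_inv
  obtain ⟨Z, hZ, h⟩ := va_Z
  refine ⟨|C| + Z, by positivity, fun Y hY A hA => ?_⟩
  have hl : 0 ≤ Real.log (1 + Y) := Real.log_nonneg (by linarith)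
  rw [← Finset.sum_filter_add_sum_filter_not A (fun c => N c ≤ 1 + Y)]
  have h1 : ∑ c ∈ A with N c ≤ 1 + Y, (N c)⁻¹ * min 1 (Y / N c ^ 2) ≤
      |C| * (1 + Real.log (1 + Y)) := by
    refine le_trans ?_ ((hC (1 + Y) (by linarith)).trans (by gcongr; exact le_abs_self C))
    refine (Finset.sum_le_sum fun c _ => mul_le_of_le_one_right (inv_nonneg.2 (N_nonneg c))
      (min_le_left _ _)).trans (Finset.sum_le_sum_of_subset_of_nonneg (fun c hc => ?_)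
      fun c _ _ => inv_nonneg.2 (N_nonneg c))
    exact mem_ball.2 ⟨hA c (Finset.mem_filter.1 hc).1, (Finset.mem_filter.1 hc).2⟩
  have h2 : ∑ c ∈ A with ¬ N c ≤ 1 + Y, (N c)⁻¹ * min 1 (Y / N c ^ 2) ≤ Z := by
    refine (Finset.sum_le_sum fun c hc => ?_).trans (h _)
    have h3 := not_le.1 (Finset.mem_filter.1 hc).2
    have h4 : 0 < N c := by linarith
    rw [sq (N c)⁻¹]
    refine mul_le_mul_of_nonneg_left ((min_le_right _ _).trans ?_) (by positivity)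
    rw [div_le_iff₀ (by positivity)]
    have : (N c)⁻¹ * N c ^ 2 = N c := by field_simp
    linarith
  nlinarith

/-- dual of `ls1` (`ls_dual`) -/
theorem ls1_dual : ∃ C : ℝ, 0 ≤ C ∧ ∀ (K E : ℝ) (R S : Finset O) (x : O → ℂ), 1 ≤ K → 0 ≤ E →
    R ⊆ sfb K → S ⊆ ball E → ∑ m ∈ R, ‖∑ e ∈ S, x e * cub m e‖ ^ 2 ≤ C * (E + K ^ 2) * n2 S x := by
  obtain ⟨C, hC, h⟩ := ls1
  refine ⟨C, hC, fun K E R S x hK hE hR hS => ?_⟩
  refine ls_dual S R (fun e m => cub m e) (by positivity) (fun y => ?_) x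
  exact (Finset.sum_le_sum_of_subset_of_nonneg hS fun _ _ _ => by positivity).trans
    (h K E R y hK hE hR)

/-- dyadic blocks `2^j ≤ N m < 2^{j+1}`: Cauchy–Schwarz (`∑ 1/N m ≤ 36` on a block) and `ls1_dual`
give `≤ C min(1, (Y/2^j)²) (√E + 2^j) √n2`; sum over `j`. -/
theorem ls_wt : ∃ C : ℝ, 0 ≤ C ∧ ∀ (Y E : ℝ) (R S : Finset O) (x : O → ℂ), 0 < Y → 1 ≤ E →
    (∀ m ∈ R, SF m) → S ⊆ ball E →
    ∑ m ∈ R, N m ^ (-(1 / 2 : ℝ)) * min 1 ((Y / N m) ^ 2) * ‖∑ e ∈ S, x e * cub m e‖ ≤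
      C * (1 + Real.log (1 + Y)) * (Real.sqrt E + Y) * min 1 Y * Real.sqrt (n2 S x) := by
  obtain ⟨C, hC, h⟩ := ls1_dual
  refine ⟨6 * Real.sqrt C * 12, by positivity, fun Y E R S x hY hE hR hS => ?_⟩
  set U := Real.sqrt (n2 S x) with hU
  have hU0 : 0 ≤ U := Real.sqrt_nonneg _
  have hE0 := Real.sqrt_nonneg E
  have hC0 := Real.sqrt_nonneg C
  have key := va_dyad R (fun m hm => (hR m hm).1.ne_zero)
    (fun m => N m ^ (-(1 / 2 : ℝ)) * min 1 ((Y / N m) ^ 2) * ‖∑ e ∈ S, x e * cub m e‖)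
    (fun K => 6 * Real.sqrt C * U * (Real.sqrt E * (6 * Real.log (1 + Y / K)) +
      2 * (6 * (Y * (Y / K / (1 + Y / K))))))
    (fun K hK => by
      have : 0 ≤ Real.log (1 + Y / K) := Real.log_nonneg (by
        have : 0 ≤ Y / K := by positivity
        linarith)
      positivity)
    (fun K hK R' hR' hm => by
      have hK0 : 0 < K := by linarith
      have h1 : ∀ m ∈ R', N m ^ (-(1 / 2 : ℝ)) * min 1 ((Y / N m) ^ 2) *
          ‖∑ e ∈ S, x e * cub m e‖ ≤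
          min 1 ((Y / K) ^ 2) * ((Real.sqrt K)⁻¹ * ‖∑ e ∈ S, x e * cub m e‖) := fun m hm' => by
        have h1 := (hm m hm').1
        have h2 : N m ^ (-(1 / 2 : ℝ)) ≤ (Real.sqrt K)⁻¹ := by
          rw [Real.rpow_neg (N_nonneg m), ← Real.sqrt_eq_rpow]
          exact inv_anti₀ (Real.sqrt_pos.2 hK0) (Real.sqrt_le_sqrt h1)
        have h3 : min 1 ((Y / N m) ^ 2) ≤ min 1 ((Y / K) ^ 2) := by
          have : 0 < N m := by linarith
          refine min_le_min le_rfl ?_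
          gcongr
        calc _ ≤ (Real.sqrt K)⁻¹ * min 1 ((Y / K) ^ 2) * ‖∑ e ∈ S, x e * cub m e‖ := by
              gcongr
          _ = _ := by ring
      have hsub : R' ⊆ sfb (2 * K) := fun m hm' => mem_sfb.2 ⟨hR m (hR' hm'), (hm m hm').2⟩
      have h2 : Real.sqrt (∑ _m ∈ R', (Real.sqrt K)⁻¹ ^ 2) ≤ 6 := by
        rw [Real.sqrt_le_left (by norm_num), Finset.sum_const, nsmul_eq_mul, inv_pow,
          Real.sq_sqrt hK0.le, ← div_eq_mul_inv, div_le_iff₀ hK0]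
        have := ls0_card_sfb (by positivity) hsub
        linarith
      have h3 : Real.sqrt (∑ m ∈ R', ‖∑ e ∈ S, x e * cub m e‖ ^ 2) ≤
          Real.sqrt C * (Real.sqrt E + 2 * K) * U := by
        refine (Real.sqrt_le_sqrt (h (2 * K) E R' S x (by linarith) (by linarith) hsub hS)).trans ?_
        rw [Real.sqrt_mul (by positivity), Real.sqrt_mul hC]
        gcongr
        rw [Real.sqrt_le_left (by positivity)]
        nlinarith [Real.sq_sqrt (by linarith : 0 ≤ E)]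
      have h4 := Real.sum_mul_le_sqrt_mul_sqrt R' (fun _ => (Real.sqrt K)⁻¹)
        (fun m => ‖∑ e ∈ S, x e * cub m e‖)
      have h5 : ∑ m ∈ R', (Real.sqrt K)⁻¹ * ‖∑ e ∈ S, x e * cub m e‖ ≤
          6 * (Real.sqrt C * (Real.sqrt E + 2 * K) * U) :=
        h4.trans (mul_le_mul h2 h3 (Real.sqrt_nonneg _) (by norm_num))
      have hx : 0 < Y / K := by positivity
      have e2 : Y / (2 * K) = Y / K / 2 := by field_simp
      have h6 := va_tel1 hx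
      have h7 := va_tel2 hx
      have h8 : min 1 ((Y / K) ^ 2) * K ≤ 6 * (Y * (Y / K / (1 + Y / K))) -
          6 * (Y * (Y / K / 2 / (1 + Y / K / 2))) := by
        calc _ = Y * (min 1 ((Y / K) ^ 2) * (Y / K)⁻¹) := by field_simp
          _ ≤ Y * (6 * (Y / K / (1 + Y / K)) - 6 * (Y / K / 2 / (1 + Y / K / 2))) := by gcongr
          _ = _ := by ring
      have h9 : 0 ≤ min 1 ((Y / K) ^ 2) := by positivity
      rw [e2]
      calc _ ≤ min 1 ((Y / K) ^ 2) * (6 * (Real.sqrt C * (Real.sqrt E + 2 * K) * U)) := by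
            refine (Finset.sum_le_sum h1).trans ?_
            rw [← Finset.mul_sum]
            gcongr
        _ = 6 * Real.sqrt C * U * (Real.sqrt E * min 1 ((Y / K) ^ 2) +
              2 * (min 1 ((Y / K) ^ 2) * K)) := by ring
        _ ≤ 6 * Real.sqrt C * U * (Real.sqrt E *
              (6 * Real.log (1 + Y / K) - 6 * Real.log (1 + Y / K / 2)) +
              2 * (6 * (Y * (Y / K / (1 + Y / K))) - 6 * (Y * (Y / K / 2 / (1 + Y / K / 2))))) := by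
            gcongr
        _ = _ := by ring)
  refine key.trans ?_
  simp only [div_one]
  have hl : 0 ≤ Real.log (1 + Y) := Real.log_nonneg (by linarith)
  have h1 : Real.log (1 + Y) ≤ (1 + Real.log (1 + Y)) * min 1 Y := by
    rcases le_total 1 Y with h | h
    · rw [min_eq_left h]; linarith
    · rw [min_eq_right h]
      have := Real.log_le_sub_one_of_pos (by linarith : 0 < 1 + Y)
      nlinarith
  have h2 : Y / (1 + Y) ≤ (1 + Real.log (1 + Y)) * min 1 Y := by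
    have h3 : Y / (1 + Y) ≤ min 1 Y :=
      le_min ((div_le_one (by linarith)).2 (by linarith)) (div_le_self hY.le (by linarith))
    have h4 : 0 ≤ min 1 Y := by positivity
    nlinarith
  set L := (1 + Real.log (1 + Y)) * min 1 Y with hL
  have hL0 : 0 ≤ L := hl.trans h1
  calc _ ≤ 6 * Real.sqrt C * U * (Real.sqrt E * (12 * L) + 2 * (6 * (Y * L))) := by
        gcongr
        linarith
    _ = _ := by rw [hL]; ring

/-- `m = n₂ m₀ c³` (`n₂ ∣ Q₀²`, at most `18 N Q₀²` values).  For fixed `n₂, c`: reciprocity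
`cub e m = cub e (n₂c³) · cub m₀ e`, `ls_wt` with `Y' = Y/(N n₂ N c³)`; the sum over `c` is
`∑_c (N c)⁻¹ min(1, Y/N c³) ≤ C (1 + log(1+Y))`. -/
theorem ls_shape : ∃ C : ℝ, 0 ≤ C ∧ ∀ (Q0 : O) (b : O → ℂ) (G Y E : ℝ) (R S : Finset O) (x : O → ℂ),
    Q0 ≠ 0 → 0 ≤ G → (∀ n, b n ≠ 0 → ∃ c, CubeShape Q0 n c ∧ ‖b n‖ ≤ G * Real.sqrt (N c)) →
    0 < Y → 1 ≤ E → (∀ m ∈ R, m ≠ 0) → S ⊆ sfb E →
    ∑ m ∈ R, ‖b m‖ * N m ^ (-(1 / 2 : ℝ)) * min 1 ((Y / N m) ^ 2) * ‖∑ e ∈ S, x e * cub e m‖ ≤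
      C * G * N Q0 ^ 2 * (1 + Real.log (1 + Y)) ^ 2 * (Real.sqrt E + Y) * Real.sqrt (n2 S x) := by
  obtain ⟨C, hC, h⟩ := ls_wt
  obtain ⟨C1, hC1, h1⟩ := va_csum
  refine ⟨C * C1 * 18, by positivity, fun Q0 b G Y E R S x hQ hG hb hY hE hR hS => ?_⟩
  obtain ⟨X, hX'⟩ : ∃ X : ℝ, ∀ m ∈ R, N m ≤ X :=
    ⟨∑ m ∈ R, N m, fun m hm => Finset.single_le_sum (fun i _ => N_nonneg i) hm⟩
  obtain ⟨L, hL⟩ : ∃ L, L = 1 + Real.log (1 + Y) := ⟨_, rfl⟩
  have hL0 : 0 ≤ L := by have := Real.log_nonneg (by linarith : 1 ≤ 1 + Y); linarith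
  obtain ⟨U, hU⟩ : ∃ U, U = Real.sqrt (n2 S x) := ⟨_, rfl⟩
  have hU0 : 0 ≤ U := hU ▸ Real.sqrt_nonneg _
  rw [← hL, ← hU]
  have hS' : ∀ e ∈ S, SF e := fun e he => (mem_sfb.1 (hS he)).1
  have key := va_cover R ((ball (N Q0 ^ 2) ×ˢ ball X) ×ˢ sfb X) (fun t => t.1.1 * t.2 * t.1.2 ^ 3)
    (fun m => ‖b m‖ * N m ^ (-(1 / 2 : ℝ)) * min 1 ((Y / N m) ^ 2) * ‖∑ e ∈ S, x e * cub e m‖)
    (fun t => G * (N t.1.2)⁻¹ * (N t.2 ^ (-(1 / 2 : ℝ)) *
      min 1 ((Y / N (t.1.1 * t.1.2 ^ 3) / N t.2) ^ 2) *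
      ‖∑ e ∈ S, (x e * cub e (t.1.1 * t.1.2 ^ 3)) * cub t.2 e‖))
    (fun t _ => by have := N_nonneg t.1.2; have := N_nonneg t.2; positivity)
    (fun m hm hne => by
      have hb0 : b m ≠ 0 := fun h0 => hne (by simp [h0])
      obtain ⟨c, ⟨a, m0, e, h2, h3, h4, -⟩, h5⟩ := hb m hb0
      have hm0 := hR m hm
      have ha : a ≠ 0 := by rintro rfl; exact hm0 (by simp [e])
      have hc : c ≠ 0 := by rintro rfl; exact hm0 (by simp [e])
      have hcm : N c ≤ N m := N_le_of_dvd hm0 ⟨a * m0 * c ^ 2, by rw [e]; ring⟩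
      have hmm : N m0 ≤ N m := N_le_of_dvd hm0 ⟨a * c ^ 3, by rw [e]; ring⟩
      refine ⟨((a, c), m0), Finset.mem_product.2 ⟨Finset.mem_product.2
        ⟨mem_ball.2 ⟨ha, by rw [← N_pow]; exact N_le_of_dvd (pow_ne_zero 2 hQ) h2⟩,
          mem_ball.2 ⟨hc, hcm.trans (hX' m hm)⟩⟩,
        mem_sfb.2 ⟨⟨h3, h4⟩, hmm.trans (hX' m hm)⟩⟩, e.symm, ?_⟩
      have e1 : N m = N (a * c ^ 3) * N m0 := by rw [e, ← N_mul]; congr 1; ring
      have e2 : ∑ e ∈ S, x e * cub e m = ∑ e ∈ S, (x e * cub e (a * c ^ 3)) * cub m0 e := by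
        refine Finset.sum_congr rfl fun y hy => ?_
        rw [e, show a * m0 * c ^ 3 = a * c ^ 3 * m0 by ring, (rcub_isChar (hS' y hy).1).mul,
          cub_rec (hS' y hy).1 h3, mul_assoc]
      have hNc := one_le_N hc
      have hNa := one_le_N ha
      have h6 : Real.sqrt (N c) * N (a * c ^ 3) ^ (-(1 / 2 : ℝ)) ≤ (N c)⁻¹ := by
        rw [Real.rpow_neg (N_nonneg _), ← Real.sqrt_eq_rpow, ← div_eq_mul_inv,
          ← Real.sqrt_div (N_nonneg _), Real.sqrt_le_left (by positivity), N_mul, N_pow,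
          div_le_iff₀ (by positivity)]
        have : (N c)⁻¹ ^ 2 * (N a * N c ^ 3) = N a * N c := by field_simp
        rw [this]
        nlinarith
      simp only
      rw [e2, div_div, ← e1]
      have e3 : N m ^ (-(1 / 2 : ℝ)) = N (a * c ^ 3) ^ (-(1 / 2 : ℝ)) * N m0 ^ (-(1 / 2 : ℝ)) := by
        rw [e1, Real.mul_rpow (N_nonneg _) (N_nonneg _)]
      have h7 := Real.rpow_nonneg (N_nonneg m0) (-(1 / 2 : ℝ))
      have h8 := Real.rpow_nonneg (N_nonneg (a * c ^ 3)) (-(1 / 2 : ℝ))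
      rw [e3]
      calc _ ≤ G * Real.sqrt (N c) * (N (a * c ^ 3) ^ (-(1 / 2 : ℝ)) * N m0 ^ (-(1 / 2 : ℝ))) *
            min 1 ((Y / N m) ^ 2) * ‖∑ e ∈ S, (x e * cub e (a * c ^ 3)) * cub m0 e‖ := by gcongr
        _ = G * (Real.sqrt (N c) * N (a * c ^ 3) ^ (-(1 / 2 : ℝ))) * (N m0 ^ (-(1 / 2 : ℝ)) *
            min 1 ((Y / N m) ^ 2) * ‖∑ e ∈ S, (x e * cub e (a * c ^ 3)) * cub m0 e‖) := by ring
        _ ≤ _ := by gcongr)
  refine key.trans ?_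
  rw [Finset.sum_product]
  have h2 : ∀ t ∈ ball (N Q0 ^ 2) ×ˢ ball X, ∑ m0 ∈ sfb X, G * (N t.2)⁻¹ * (N m0 ^ (-(1 / 2 : ℝ)) *
      min 1 ((Y / N (t.1 * t.2 ^ 3) / N m0) ^ 2) *
      ‖∑ e ∈ S, (x e * cub e (t.1 * t.2 ^ 3)) * cub m0 e‖) ≤
      G * C * L * (Real.sqrt E + Y) * U * ((N t.2)⁻¹ * min 1 (Y / N t.2 ^ 2)) := by
    rintro ⟨a, c⟩ ht
    obtain ⟨ha, hc⟩ := Finset.mem_product.1 ht
    have hNa := one_le_N (mem_ball.1 ha).1
    have hNc := one_le_N (mem_ball.1 hc).1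
    have h3 : N c ^ 2 ≤ N (a * c ^ 3) := by
      rw [N_mul, N_pow]
      calc N c ^ 2 ≤ N c ^ 3 := pow_le_pow_right₀ hNc (by norm_num)
        _ ≤ _ := le_mul_of_one_le_left (by positivity) hNa
    have h4 : 1 ≤ N c ^ 2 := one_le_pow₀ hNc
    have h5 : Y / N (a * c ^ 3) ≤ Y / N c ^ 2 := by gcongr
    have h6 : Y / N c ^ 2 ≤ Y := div_le_self hY.le h4
    have h7 : 0 < Y / N (a * c ^ 3) := div_pos hY (by linarith)
    have h8 := h (Y / N (a * c ^ 3)) E (sfb X) S (fun e => x e * cub e (a * c ^ 3)) h7 hE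
      (fun m hm => (mem_sfb.1 hm).1) (hS.trans (Finset.filter_subset _ _))
    have h9 : Real.sqrt (n2 S fun e => x e * cub e (a * c ^ 3)) ≤ U :=
      hU ▸ Real.sqrt_le_sqrt (Finset.sum_le_sum fun e he => by
        rw [norm_mul]
        gcongr
        exact mul_le_of_le_one_right (norm_nonneg _) (ls0_norm_cub (hS' e he).1 _))
    simp only
    rw [← Finset.mul_sum]
    calc _ ≤ G * (N c)⁻¹ * (C * L * (Real.sqrt E + Y) * min 1 (Y / N c ^ 2) * U) := by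
          refine mul_le_mul_of_nonneg_left (h8.trans ?_) (by positivity)
          have h11 := h5.trans h6
          have h10 : 1 + Real.log (1 + Y / N (a * c ^ 3)) ≤ L := by
            rw [hL]; gcongr
          gcongr
      _ = _ := by ring
  refine (Finset.sum_le_sum h2).trans ?_
  rw [← Finset.mul_sum, Finset.sum_product]
  simp only [Finset.sum_const, nsmul_eq_mul]
  have h3 := card_ball_le (X := N Q0 ^ 2) (by positivity)
  have h4 := h1 Y hY (ball X) (fun c hc => (mem_ball.1 hc).1)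
  have h5 : 0 ≤ ∑ c ∈ ball X, (N c)⁻¹ * min 1 (Y / N c ^ 2) :=
    Finset.sum_nonneg fun c _ => mul_nonneg (inv_nonneg.2 (N_nonneg c))
      (le_min zero_le_one (div_nonneg hY.le (sq_nonneg _)))
  rw [← hL] at h4
  calc _ ≤ G * C * L * (Real.sqrt E + Y) * U * (18 * N Q0 ^ 2 * (C1 * L)) :=
        mul_le_mul_of_nonneg_left (mul_le_mul h3 h4 h5 (by positivity)) (by positivity)
    _ = _ := by ring

/-- `∑_{d ∣ c, N d > Δ} μ(d)` -/
def vaMu (Δ : ℝ) (c : O) : ℂ := ∑ d ∈ (pdiv c).filter (fun d => Δ < N d), mu d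

/-- the term of `h3tail` with cube part `c` -/
def vaT (ℓ : ℤ) (φ : O → ℂ) (Δ : ℝ) (c m : O) : ℂ :=
  if c ^ 3 ∣ m ∧ Prim m then
    conj (g3 (m / c ^ 3)) * (Real.sqrt (N c) : ℂ) * vaMu Δ c * ang m ^ ℓ * φ m else 0

theorem va_mu_le (Δ : ℝ) (c : O) : ‖vaMu Δ c‖ ≤ dv c := by
  refine (norm_sum_le _ _).trans ((Finset.sum_le_card_nsmul _ _ 1 fun d _ => norm_mu_le d).trans ?_)
  rw [nsmul_eq_mul, mul_one, dv]
  exact_mod_cast Finset.card_filter_le _ _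

theorem va_tail_eq (ℓ : ℤ) (φ : O → ℂ) (Δ : ℝ) (m : O) (Cs : Finset O) (h1 : ∀ c ∈ Cs, Prim c)
    (h2 : ∀ c, Prim c → c ∣ m → m ≠ 0 → Δ < N c → c ∈ Cs) :
    h3tail ℓ φ Δ m = ∑ c ∈ Cs, vaT ℓ φ Δ c m := by
  by_cases h : ∃ m0 c, SF m0 ∧ Prim c ∧ m = m0 * c ^ 3
  · obtain ⟨m0, c0, hm, hc, rfl⟩ := h
    have hP := hm.1.mul (hc.pow 3)
    have e : h3tail ℓ φ Δ (m0 * c0 ^ 3) = vaT ℓ φ Δ c0 (m0 * c0 ^ 3) := by
      rw [h3tail_eq ℓ φ Δ hm hc, vaT, if_pos ⟨dvd_mul_left _ _, hP⟩,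
        mul_div_cancel_right₀ _ (hc.pow 3).ne_zero, vaMu]
    rw [e, Finset.sum_eq_single c0]
    · intro c hcs hne
      unfold vaT
      split_ifs with h3
      · obtain ⟨⟨m', h4⟩, -⟩ := h3
        obtain ⟨a, ha, e1, e2⟩ := rkey_cube (m := m') (h1 c hcs) hc hm.2 (by rw [h4, mul_comm])
        rw [h4, mul_div_cancel_left₀ _ ((h1 c hcs).pow 3).ne_zero, e2,
          g3_eq_zero (hm.1.mul (ha.pow 3)) fun hs => hne ?_]
        · simp
        · have := ha.eq_one_of_isUnit (hs a ⟨m0 * a, by ring⟩)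
          rw [e1, this, mul_one]
      · rfl
    · intro hn
      have h3 : vaMu Δ c0 = 0 := Finset.sum_eq_zero fun d hd => by
        obtain ⟨h4, h5⟩ := Finset.mem_filter.1 hd
        exact absurd (h2 c0 hc ⟨m0 * c0 ^ 2, by ring⟩ hP.ne_zero
          (h5.trans_le (N_le_of_dvd hc.ne_zero ((mem_pdiv hc.ne_zero).1 h4).2))) hn
      simp [vaT, h3]
  · have h0 : h3tail ℓ φ Δ m = 0 := by
      by_contra h0
      obtain ⟨m0, c, a1, a2, -, a3⟩ := h3tail_ne ℓ φ Δ h0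
      exact h ⟨m0, c, a1, a2, a3⟩
    rw [h0, Finset.sum_eq_zero]
    intro c hc
    unfold vaT
    split_ifs with h3
    · obtain ⟨⟨m', rfl⟩, h4⟩ := h3
      have h5 := h4.of_mul_left ((h1 c hc).pow 3)
      rw [mul_div_cancel_left₀ _ ((h1 c hc).pow 3).ne_zero,
        g3_eq_zero h5 fun hs => h ⟨m', c, ⟨h5, hs⟩, h1 c hc, mul_comm _ _⟩]
      simp
    · rfl

theorem va_tail_poly (ℓ : ℤ) {φ : O → ℂ} (hφ : ∀ m, ‖φ m‖ ≤ 1) (Δ : ℝ) {n : O} (hn : n ≠ 0) :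
    PolyBd fun k => h3tail ℓ φ Δ (n * k) := by
  refine ⟨N n ^ 2, 2, fun k hk => ?_⟩
  rw [← mul_pow, ← N_mul]
  show ‖h3tail ℓ φ Δ (n * k)‖ ≤ _
  by_cases h0 : h3tail ℓ φ Δ (n * k) = 0
  · rw [h0, norm_zero]; positivity
  obtain ⟨m0, c, a1, a2, -, a3⟩ := h3tail_ne ℓ φ Δ h0
  have hm := mul_ne_zero hn hk
  have h1 : N c ≤ N (n * k) := N_le_of_dvd hm ⟨m0 * c ^ 2, by rw [a3]; ring⟩
  have h2 := one_le_N a2.ne_zero
  have h3 : Real.sqrt (N c) ≤ N c := by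
    rw [Real.sqrt_le_left (by linarith)]; nlinarith
  have h4 : ‖vaMu Δ c‖ ≤ N c := (va_mu_le Δ c).trans (card_pdiv_le_N a2.ne_zero)
  conv_lhs => rw [a3, h3tail_eq ℓ φ Δ a1 a2]
  rw [norm_mul, norm_mul, norm_mul, norm_mul, norm_zpow, norm_ang (a3 ▸ hm), one_zpow, mul_one,
    RCLike.norm_conj, norm_g3 a1.1.isCoprime_three a1.2, one_mul, Complex.norm_real,
    Real.norm_of_nonneg (Real.sqrt_nonneg _)]
  calc _ ≤ N (n * k) * N (n * k) * 1 :=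
        mul_le_mul (mul_le_mul (h3.trans h1) (h4.trans h1) (norm_nonneg _) (N_nonneg _)) (hφ _)
          (norm_nonneg _) (mul_nonneg (N_nonneg _) (N_nonneg _))
    _ = _ := by ring

theorem va_winS_le (b : O → ℂ) (v T : ℝ) (s : ℂ) {B : ℝ}
    (h : ∀ A : Finset O, (∀ k ∈ A, k ≠ 0) →
      ∑ k ∈ A, ‖b k‖ * (N k ^ (-s.re) * gw (T * (lg k - v))) ≤ B) : ‖winS b v T s‖ ≤ B := by
  have h1 : ∀ A : Finset O, ∑ k ∈ A, ‖if k = 0 then 0 else
      b k * (N k : ℂ) ^ (-s) * (gw (T * (lg k - v)) : ℂ)‖ ≤ B := fun A => by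
    refine le_trans (le_of_eq ?_) (h (A.filter (· ≠ 0)) fun k hk => (Finset.mem_filter.1 hk).2)
    rw [Finset.sum_filter]
    refine Finset.sum_congr rfl fun k _ => ?_
    by_cases hk : k = 0
    · simp [hk]
    · rw [if_neg hk, if_pos hk, norm_mul, norm_mul, Complex.norm_cpow_eq_rpow_re_of_pos (N_pos hk),
        Complex.norm_real, Real.norm_of_nonneg (gw_pos _).le, Complex.neg_re, mul_assoc]
  have h2 := summable_of_sum_le (fun k => norm_nonneg _) h1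
  exact (norm_tsum_le_tsum_norm h2).trans (h2.tsum_le_of_sum_le h1)

theorem va_wt {x v T σ ρ : ℝ} (hx : 0 < x) (hT : 1 ≤ T) (hσ : |σ| ≤ 4) (hρ : ρ = Real.exp v / x) :
    x ^ (-σ) * gw (T * (Real.log x - v)) ≤
      Real.exp 11 * Real.exp (-(σ * v)) * (Real.sqrt ρ * min 1 (ρ ^ 2)) := by
  obtain ⟨y, hy⟩ : ∃ y, y = Real.log x - v := ⟨_, rfl⟩
  have e1 : x = Real.exp (v + y) := by rw [hy, add_sub_cancel, Real.exp_log hx]
  have e2 : ρ = Real.exp (-y) := by rw [hρ, e1, ← Real.exp_sub]; congr 1; ring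
  have e3 : Real.sqrt ρ = Real.exp (-y / 2) := by rw [e2, Real.exp_half]
  have h1 : y ^ 2 ≤ (T * y) ^ 2 := by
    rw [mul_pow]; exact le_mul_of_one_le_left (sq_nonneg _) (one_le_pow₀ hT)
  obtain ⟨h2, h3⟩ := abs_le.1 hσ
  rw [← hy, e3, e2, e1, ← Real.exp_mul, gw, ← Real.exp_add, mul_min_of_nonneg _ _ (Real.exp_pos _).le,
    mul_min_of_nonneg _ _ (by positivity), mul_one, ← Real.exp_nat_mul, ← Real.exp_add,
    ← Real.exp_add, ← Real.exp_add, ← Real.exp_add]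
  refine le_min (Real.exp_le_exp.2 ?_) (Real.exp_le_exp.2 ?_)
  · nlinarith [sq_nonneg (y - (1 / 2 - σ) / 2)]
  · push_cast
    nlinarith [sq_nonneg (y - (5 / 2 - σ) / 2)]

theorem va_inner (ℓ : ℤ) {Q0 : O} {φ : O → ℂ} (hper : Per Q0 φ) (hφ : ∀ m, ‖φ m‖ ≤ 1) (Δ : ℝ)
    {c n1 a : O} (hc : Prim c) (hn1 : Prim n1) (S0 : Finset O) (u : O → ℂ)
    (hS : ∀ n ∈ S0, SF n ∧ n1 ∣ n ∧ IsCoprime (n / n1) c ∧ Q0 ∣ n / n1 - a) (k : O) :
    ‖∑ n ∈ S0, u n * vaT ℓ φ Δ c (n * k)‖ ≤ if c ^ 3 ∣ n1 * k ∧ SF (n1 * k / c ^ 3) then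
      Real.sqrt (N c) * dv c * ‖∑ n ∈ S0, (u n * conj (g3 (n / n1)) * ang (n / n1) ^ ℓ) *
        cub (n1 * k / c ^ 3) (n / n1)‖ else 0 := by
  have hc3 := (hc.pow 3).ne_zero
  split_ifs with h
  · obtain ⟨⟨k', e⟩, hk'⟩ := h
    rw [e, mul_div_cancel_left₀ _ hc3] at hk' ⊢
    have h1 : ∀ n ∈ S0, u n * vaT ℓ φ Δ c (n * k) = (conj (g3 k') * (Real.sqrt (N c) : ℂ) *
        vaMu Δ c * ang (c ^ 3 * k') ^ ℓ * φ (a * (c ^ 3 * k'))) *
        ((u n * conj (g3 (n / n1)) * ang (n / n1) ^ ℓ) * cub k' (n / n1)) := by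
      intro n hn
      obtain ⟨a1, a2, -, a4⟩ := hS n hn
      have a5 := (a1.div hn1 a2).1
      obtain ⟨n2, rfl⟩ := a2
      rw [mul_div_cancel_left₀ _ hn1.ne_zero] at a4 a5 ⊢
      have e1 : n1 * n2 * k = c ^ 3 * (n2 * k') := by linear_combination n2 * e
      have e2 : φ (c ^ 3 * (n2 * k')) = φ (a * (c ^ 3 * k')) :=
        hper.congr (by
          rw [show c ^ 3 * (n2 * k') - a * (c ^ 3 * k') = (n2 - a) * (c ^ 3 * k') by ring]
          exact a4.mul_right _)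
      have e3 : ang (c ^ 3 * (n2 * k')) = ang n2 * ang (c ^ 3 * k') := by
        rw [← ang_mul]; congr 1; ring
      rw [e1, vaT, if_pos ⟨dvd_mul_right _ _, (hc.pow 3).mul (a5.1.mul hk'.1)⟩,
        mul_div_cancel_left₀ _ hc3, g3_mul' a5 hk'.1, e2, e3, mul_zpow, map_mul, map_mul,
        Complex.conj_conj]
      ring
    rw [Finset.sum_congr rfl h1, ← Finset.mul_sum, norm_mul]
    refine mul_le_mul_of_nonneg_right ?_ (norm_nonneg _)
    rw [norm_mul, norm_mul, norm_mul, norm_mul, norm_zpow, norm_ang (mul_ne_zero hc3 hk'.1.ne_zero),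
      one_zpow, mul_one, RCLike.norm_conj, norm_g3 hk'.1.isCoprime_three hk'.2, one_mul,
      Complex.norm_real, Real.norm_of_nonneg (Real.sqrt_nonneg _)]
    exact (mul_le_of_le_one_right (by positivity) (hφ _)).trans
      (mul_le_mul_of_nonneg_left (va_mu_le Δ c) (Real.sqrt_nonneg _))
  · rw [Finset.sum_eq_zero, norm_zero]
    intro n hn
    obtain ⟨a1, a2, a3, -⟩ := hS n hn
    have a5 := (a1.div hn1 a2).1
    obtain ⟨n2, rfl⟩ := a2
    rw [mul_div_cancel_left₀ _ hn1.ne_zero] at a3 a5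
    unfold vaT
    split_ifs with h2
    · obtain ⟨h2, h3⟩ := h2
      obtain ⟨k', e⟩ : c ^ 3 ∣ n1 * k := (a3.symm.pow_left (m := 3)).dvd_of_dvd_mul_left
        (by rwa [show n2 * (n1 * k) = n1 * n2 * k by ring])
      have e1 : n1 * n2 * k = c ^ 3 * (n2 * k') := by linear_combination n2 * e
      rw [e1] at h3
      have h4 := (h3.of_mul_left (hc.pow 3)).of_mul_left a5.1
      rw [e, mul_div_cancel_left₀ _ hc3] at h
      rw [e1, mul_div_cancel_left₀ _ hc3, g3_mul' a5 h4,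
        g3_eq_zero h4 fun hs => h ⟨dvd_mul_right _ _, h4, hs⟩]
      simp
    · rw [mul_zero]

theorem va_block : ∃ C : ℝ, 0 ≤ C ∧ ∀ (ℓ : ℤ) (Q0 : O) (φ : O → ℂ), Per Q0 φ →
    (∀ m, ‖φ m‖ ≤ 1) → ∀ (M Δ v T σ : ℝ) (c n1 a : O) (S0 A : Finset O) (u : O → ℂ), 0 ≤ v →
    1 ≤ T → |σ| ≤ 4 → Prim c → Prim n1 → n1 ∣ c → (∀ k ∈ A, k ≠ 0) →
    (∀ n ∈ S0, N n ≤ M ∧ SF n ∧ n1 ∣ n ∧ IsCoprime (n / n1) c ∧ Q0 ∣ n / n1 - a) →
    ∑ k ∈ A, ‖∑ n ∈ S0, u n * vaT ℓ φ Δ c (n * k)‖ * (N k ^ (-σ) * gw (T * (lg k - v))) ≤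
      C * Real.exp (-(σ * v)) * (1 + v) * (Real.sqrt M * Real.exp (v / 2) *
        (dv c * ((N c)⁻¹ * min 1 (Real.exp v / N c ^ 2))) + Real.exp (3 / 2 * v) *
        (dv c * Real.sqrt (N n1) / N c ^ 3 * (N n1 / N c))) * Real.sqrt (n2 S0 u) := by
  obtain ⟨C, hC, h⟩ := ls_wt
  refine ⟨Real.exp 11 * C * 2, by positivity,
    fun ℓ Q0 φ hper hφ M Δ v T σ c n1 a S0 A u hv hT hσ hc hn1 hdvd hA hS => ?_⟩
  have hNc := one_le_N hc.ne_zero
  have hN1 := one_le_N hn1.ne_zero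
  have hN1c := N_le_of_dvd hc.ne_zero hdvd
  have hdv : 0 ≤ dv c := Nat.cast_nonneg _
  rcases S0.eq_empty_or_nonempty with rfl | ⟨n0, hn0⟩
  · simp [n2]
  have hM : N n1 ≤ M := (N_le_of_dvd (hS n0 hn0).2.1.1.ne_zero (hS n0 hn0).2.2.1).trans (hS n0 hn0).1
  obtain ⟨K, hK⟩ : ∃ K, K = Real.exp v := ⟨_, rfl⟩
  have hK1 : 1 ≤ K := hK ▸ Real.one_le_exp hv
  obtain ⟨Y, hY⟩ : ∃ Y, Y = K * N n1 / N c ^ 3 := ⟨_, rfl⟩
  have hY0 : 0 < Y := by rw [hY]; positivity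
  have hc3 := (hc.pow 3).ne_zero
  set x : O → ℂ := fun e => u (n1 * e) * conj (g3 e) * ang e ^ ℓ with hx
  have hmul : ∀ n ∈ S0, n1 * (n / n1) = n := fun n hn =>
    EuclideanDomain.mul_div_cancel' hn1.ne_zero (hS n hn).2.2.1
  have hinj : Set.InjOn (fun n => n / n1) S0 := fun p hp q hq hpq => by
    rw [← hmul p hp, ← hmul q hq]; exact congrArg _ hpq
  have hSF : ∀ n ∈ S0, SF (n / n1) := fun n hn => ((hS n hn).2.1.div hn1 (hS n hn).2.2.1).1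
  have e1 : ∀ m, ∑ n ∈ S0, (u n * conj (g3 (n / n1)) * ang (n / n1) ^ ℓ) * cub m (n / n1) =
      ∑ e ∈ S0.image (fun n => n / n1), x e * cub m e := fun m => by
    rw [Finset.sum_image hinj]
    exact Finset.sum_congr rfl fun n hn => by simp only [hx, hmul n hn]
  have e2 : n2 (S0.image (fun n => n / n1)) x = n2 S0 u := by
    unfold n2
    rw [Finset.sum_image hinj]
    refine Finset.sum_congr rfl fun n hn => ?_
    simp only [hx, hmul n hn]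
    rw [norm_mul, norm_mul, norm_zpow, norm_ang (hSF n hn).1.ne_zero, one_zpow, RCLike.norm_conj,
      norm_g3 (hSF n hn).1.isCoprime_three (hSF n hn).2, mul_one, mul_one]
  have h1 := h Y (M / N n1) ((A.image fun k => n1 * k / c ^ 3).filter SF)
    (S0.image (fun n => n / n1)) x hY0 ((one_le_div (by linarith)).2 hM)
    (fun m hm => (Finset.mem_filter.1 hm).2) (fun e he => by
      obtain ⟨n, hn, rfl⟩ := Finset.mem_image.1 he
      refine mem_ball.2 ⟨(hSF n hn).1.ne_zero, ?_⟩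
      rw [le_div_iff₀ (by linarith), mul_comm, ← N_mul, hmul n hn]
      exact (hS n hn).1)
  have h2 := va_cover A ((A.image fun k => n1 * k / c ^ 3).filter SF) (fun k' => c ^ 3 * k' / n1)
    (fun k => ‖∑ n ∈ S0, u n * vaT ℓ φ Δ c (n * k)‖ * (N k ^ (-σ) * gw (T * (lg k - v))))
    (fun m => Real.exp 11 * Real.exp (-(σ * v)) * (Real.sqrt (N c) * dv c * Real.sqrt Y) *
      (N m ^ (-(1 / 2 : ℝ)) * min 1 ((Y / N m) ^ 2) *
        ‖∑ e ∈ S0.image (fun n => n / n1), x e * cub m e‖))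
    (fun m _ => by have := N_nonneg m; positivity)
    (fun k hk hne => by
      have h3 := va_inner ℓ hper hφ Δ hc hn1 S0 u (fun n hn => (hS n hn).2) k
      split_ifs at h3 with h4
      swap
      · exact absurd (by rw [le_antisymm h3 (norm_nonneg _), zero_mul]) hne
      refine ⟨_, Finset.mem_filter.2 ⟨Finset.mem_image_of_mem _ hk, h4.2⟩, ?_, ?_⟩
      · rw [EuclideanDomain.mul_div_cancel' hc3 h4.1, mul_div_cancel_left₀ _ hn1.ne_zero]
      obtain ⟨⟨k', e⟩, hk'⟩ := h4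
      rw [e1] at h3
      rw [e, mul_div_cancel_left₀ _ hc3] at hk' h3 ⊢
      have hNk := N_pos (hA k hk)
      have hNk' := N_pos hk'.1.ne_zero
      have e3 : N n1 * N k = N c ^ 3 * N k' := by rw [← N_mul, e, N_mul, N_pow]
      have h5 := va_wt (ρ := Y / N k') (v := v) hNk hT hσ (by
        rw [hY, ← hK, div_div, ← e3]; field_simp)
      have e4 : Real.sqrt (Y / N k') = Real.sqrt Y * N k' ^ (-(1 / 2 : ℝ)) := by
        rw [Real.sqrt_div hY0.le, Real.rpow_neg hNk'.le, ← Real.sqrt_eq_rpow, div_eq_mul_inv]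
      rw [e4] at h5
      refine (mul_le_mul h3 h5 (mul_nonneg (Real.rpow_nonneg hNk.le _) (gw_pos _).le)
        (by positivity)).trans (le_of_eq ?_)
      ring)
  refine h2.trans ?_
  rw [← Finset.mul_sum]
  rw [e2] at h1
  have hY1 : Y ≤ K / N c ^ 2 := by
    rw [hY, div_le_div_iff₀ (by positivity) (by positivity)]
    calc K * N n1 * N c ^ 2 ≤ K * N c * N c ^ 2 := by gcongr
      _ = _ := by ring
  have hY2 : Y ≤ K := hY1.trans (div_le_self (by linarith) (one_le_pow₀ hNc))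
  have h3 : 1 + Real.log (1 + Y) ≤ 2 * (1 + v) := by
    have : Real.log (1 + Y) ≤ 1 + v := by
      rw [Real.log_le_iff_le_exp (by linarith), Real.exp_add, ← hK]
      have := Real.add_one_le_exp 1
      nlinarith
    linarith
  have e5 : Real.exp (v / 2) = Real.sqrt K := by rw [hK, Real.exp_half]
  have e6 : Real.exp (3 / 2 * v) = K * Real.sqrt K := by
    rw [← e5, hK, ← Real.exp_add]; congr 1; ring
  have e7 : Real.sqrt (N c) * Real.sqrt Y = Real.sqrt K * Real.sqrt (N n1) / N c := by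
    rw [← Real.sqrt_mul (by linarith), ← Real.sqrt_mul (by linarith),
      show N c * Y = K * N n1 / N c ^ 2 by rw [hY]; field_simp, Real.sqrt_div (by positivity),
      Real.sqrt_sq (by linarith)]
  have hs1 : 0 < Real.sqrt (N n1) := Real.sqrt_pos.2 (by linarith)
  have h4 : Real.sqrt (N c) * dv c * Real.sqrt Y * ((Real.sqrt (M / N n1) + Y) * min 1 Y) ≤
      Real.sqrt M * Real.sqrt K * (dv c * ((N c)⁻¹ * min 1 (K / N c ^ 2))) + K * Real.sqrt K *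
        (dv c * Real.sqrt (N n1) / N c ^ 3 * (N n1 / N c)) := by
    have a1 : min 1 Y ≤ min 1 (K / N c ^ 2) := min_le_min le_rfl hY1
    have a2 : min 1 Y ≤ 1 := min_le_left _ _
    calc _ = dv c * (Real.sqrt (N c) * Real.sqrt Y) *
          (Real.sqrt (M / N n1) * min 1 Y + Y * min 1 Y) := by ring
      _ ≤ dv c * (Real.sqrt (N c) * Real.sqrt Y) *
          (Real.sqrt (M / N n1) * min 1 (K / N c ^ 2) + Y * 1) := by gcongr
      _ = _ := by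
        rw [e7, Real.sqrt_div (by linarith), hY]
        field_simp
  rw [← hK, e5, e6]
  have h5 : 0 ≤ min 1 Y := by positivity
  calc _ ≤ Real.exp 11 * Real.exp (-(σ * v)) * (Real.sqrt (N c) * dv c * Real.sqrt Y) *
        (C * (2 * (1 + v)) * (Real.sqrt (M / N n1) + Y) * min 1 Y * Real.sqrt (n2 S0 u)) := by
        refine mul_le_mul_of_nonneg_left (h1.trans ?_) (by positivity)
        gcongr
    _ = Real.exp 11 * C * 2 * Real.exp (-(σ * v)) * (1 + v) * (Real.sqrt (N c) * dv c *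
        Real.sqrt Y * ((Real.sqrt (M / N n1) + Y) * min 1 Y)) * Real.sqrt (n2 S0 u) := by ring
    _ ≤ _ := by gcongr

theorem va_sum1 : ∃ (C : ℝ) (B : ℕ), 0 ≤ C ∧ ∀ v : ℝ, 0 ≤ v → ∀ A : Finset O, (∀ c ∈ A, c ≠ 0) →
    ∑ c ∈ A, dv c * (dv c * ((N c)⁻¹ * min 1 (Real.exp v / N c ^ 2))) ≤ C * (1 + v) ^ B := by
  obtain ⟨C1, B1, hC1, h1⟩ := sum_dv_inv 2
  obtain ⟨C2, B2, hC2, h2⟩ := sum_dv_tail 2
  refine ⟨C1 + C2, B1 + B2, by positivity, fun v hv A hA => ?_⟩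
  have hK := Real.one_le_exp hv
  have h3 := h1 _ hK
  have h4 := h2 _ hK (A.filter fun c => ¬ N c ≤ Real.exp v)
    (fun c hc => not_le.1 (Finset.mem_filter.1 hc).2)
  rw [Real.log_exp] at h3 h4
  have hv1 : 1 ≤ 1 + v := by linarith
  have h5 : (1 + v) ^ B1 ≤ (1 + v) ^ (B1 + B2) := pow_le_pow_right₀ hv1 (by omega)
  have h6 : (1 + v) ^ B2 ≤ (1 + v) ^ (B1 + B2) := pow_le_pow_right₀ hv1 (by omega)
  rw [← Finset.sum_filter_add_sum_filter_not A (fun c => N c ≤ Real.exp v), add_mul]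
  refine add_le_add (le_trans ?_ (h3.trans (by gcongr))) (le_trans ?_
    (h4.trans ((div_le_self (by positivity) hK).trans (by gcongr))))
  · refine (Finset.sum_le_sum fun c _ => ?_).trans (Finset.sum_le_sum_of_subset_of_nonneg
      (fun c hc => mem_ball.2 ⟨hA c (Finset.mem_filter.1 hc).1, (Finset.mem_filter.1 hc).2⟩)
      fun c _ _ => div_nonneg (sq_nonneg _) (N_nonneg c))
    have := N_nonneg c
    calc _ = dv c ^ 2 / N c * min 1 (Real.exp v / N c ^ 2) := by ring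
      _ ≤ _ := mul_le_of_le_one_right (by positivity) (min_le_left _ _)
  · refine Finset.sum_le_sum fun c hc => ?_
    have h7 := not_le.1 (Finset.mem_filter.1 hc).2
    have h8 : 0 < N c := by linarith
    have h9 : min 1 (Real.exp v / N c ^ 2) ≤ (N c)⁻¹ := by
      refine (min_le_right _ _).trans ?_
      rw [div_le_iff₀ (by positivity)]
      have : (N c)⁻¹ * N c ^ 2 = N c := by field_simp
      linarith
    calc _ = dv c ^ 2 / N c * min 1 (Real.exp v / N c ^ 2) := by ring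
      _ ≤ dv c ^ 2 / N c * (N c)⁻¹ := by gcongr
      _ = _ := by field_simp

theorem va_sum2 : ∃ (C : ℝ) (B : ℕ), 0 ≤ C ∧ ∀ Δ v : ℝ, 1 ≤ Δ → Δ ≤ Real.exp v →
    ∀ (A S : Finset O) (u : O → ℂ), (∀ c ∈ A, c ≠ 0 ∧ Δ < N c) → (∀ n ∈ S, n ≠ 0) →
    ∑ c ∈ A, ∑ n1 ∈ pdiv c, dv c * Real.sqrt (N n1) / N c ^ 3 * (N n1 / N c) *
      Real.sqrt (n2 (S.filter fun n => n1 ∣ n) u) ≤
      C * (1 + v) ^ B / Δ ^ 2 * Real.sqrt (nt S u) := by
  obtain ⟨C, B, hC, h⟩ := sum_dv_tail 3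
  obtain ⟨Z, hZ, h'⟩ := va_Z
  refine ⟨Real.sqrt C * Real.sqrt Z, B, by positivity, fun Δ v hΔ hv A S u hA hS => ?_⟩
  have hl := Real.log_nonneg hΔ
  have hl' : Real.log Δ ≤ v := (Real.log_le_iff_le_exp (by linarith)).2 hv
  have h1 : ∑ c ∈ A, ∑ n1 ∈ pdiv c, (dv c * Real.sqrt (N n1) / N c ^ 3) ^ 2 ≤
      C * ((1 + v) ^ B / Δ ^ 2) ^ 2 := by
    have h2 : ∀ c ∈ A, ∑ n1 ∈ pdiv c, (dv c * Real.sqrt (N n1) / N c ^ 3) ^ 2 ≤
        dv c ^ 3 / N c ^ 2 / Δ ^ 3 := fun c hc => by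
      have h3 := (hA c hc).2
      have h4 : 0 < N c := by linarith
      have hd : 0 ≤ dv c := Nat.cast_nonneg _
      refine (Finset.sum_le_card_nsmul _ _ (dv c ^ 2 / N c ^ 2 / Δ ^ 3) fun n1 hn1 => ?_).trans
        (le_of_eq ?_)
      · have h5 := N_le_of_dvd (hA c hc).1 ((mem_pdiv (hA c hc).1).1 hn1).2
        rw [div_pow, mul_pow, Real.sq_sqrt (N_nonneg _)]
        calc _ ≤ dv c ^ 2 * N c / (N c ^ 3) ^ 2 := by gcongr
          _ = dv c ^ 2 / N c ^ 2 / N c ^ 3 := by field_simp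
          _ ≤ _ := by gcongr
      · rw [nsmul_eq_mul, ← dv]; ring
    refine (Finset.sum_le_sum h2).trans ?_
    rw [← Finset.sum_div]
    have h3 : (1 + Real.log Δ) ^ B ≤ ((1 + v) ^ B) ^ 2 :=
      (pow_le_pow_left₀ (by linarith) (by linarith) B).trans
        (le_self_pow₀ (one_le_pow₀ (by linarith)) (by norm_num))
    calc _ ≤ C * ((1 + v) ^ B) ^ 2 / Δ / Δ ^ 3 := by
          gcongr
          exact (h Δ hΔ A fun c hc => (hA c hc).2).trans (by gcongr)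
      _ = _ := by field_simp
  have h2 : ∑ c ∈ A, ∑ n1 ∈ pdiv c,
      (N n1 / N c * Real.sqrt (n2 (S.filter fun n => n1 ∣ n) u)) ^ 2 ≤ Z * nt S u := by
    have e1 : ∀ c n1 : O, (N n1 / N c * Real.sqrt (n2 (S.filter fun n => n1 ∣ n) u)) ^ 2 =
        ∑ n ∈ S, ‖u n‖ ^ 2 * if n1 ∣ n then (N n1 / N c) ^ 2 else 0 := fun c n1 => by
      rw [mul_pow, Real.sq_sqrt (ls0_n2_nonneg _ _), n2, Finset.sum_filter, Finset.mul_sum]
      refine Finset.sum_congr rfl fun n _ => ?_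
      split_ifs <;> ring
    simp only [e1]
    rw [nt, Finset.mul_sum]
    refine le_trans (le_of_eq ((Finset.sum_congr rfl fun c _ => Finset.sum_comm).trans
      Finset.sum_comm)) (Finset.sum_le_sum fun n hn => ?_)
    simp only [← Finset.mul_sum]
    rw [mul_left_comm]
    refine mul_le_mul_of_nonneg_left ?_ (sq_nonneg _)
    obtain ⟨X, hX⟩ : ∃ X : ℝ, ∀ m ∈ A, N m ≤ X :=
      ⟨∑ m ∈ A, N m, fun m hm => Finset.single_le_sum (fun i _ => N_nonneg i) hm⟩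
    rw [Finset.sum_sigma']
    refine (va_cover _ (pdiv n ×ˢ ball X) (fun t => ⟨t.1 * t.2, t.1⟩) _ (fun t => (N t.2)⁻¹ ^ 2)
      (fun _ _ => sq_nonneg _) ?_).trans ?_
    · rintro ⟨c, n1⟩ ht hne
      obtain ⟨h3, h4⟩ := Finset.mem_sigma.1 ht
      dsimp only at h3 h4 hne ⊢
      have hc0 := (hA c h3).1
      obtain ⟨h5, c', rfl⟩ := (mem_pdiv hc0).1 h4
      have h6 : n1 ∣ n := by
        by_contra h6; exact hne (if_neg h6)
      refine ⟨(n1, c'), Finset.mem_product.2 ⟨(mem_pdiv (hS n hn)).2 ⟨h5, h6⟩, mem_ball.2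
        ⟨right_ne_zero_of_mul hc0, (N_le_of_dvd hc0 (dvd_mul_left _ _)).trans (hX _ h3)⟩⟩, rfl,
        le_of_eq ?_⟩
      have := N_pos h5.ne_zero
      simp only [if_pos h6, N_mul]
      field_simp
    · rw [Finset.sum_product]
      simp only [Finset.sum_const, nsmul_eq_mul]
      have h3 := one_le_dv (hS n hn)
      rw [← dv, mul_comm]
      exact mul_le_mul (h' _) (le_self_pow₀ h3 (by norm_num)) (by linarith) hZ
  simp only [mul_assoc _ (N _ / N _)]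
  rw [Finset.sum_sigma'] at h1 h2 ⊢
  refine (Real.sum_mul_le_sqrt_mul_sqrt _ _ _).trans ((mul_le_mul (Real.sqrt_le_sqrt h1)
    (Real.sqrt_le_sqrt h2) (Real.sqrt_nonneg _) (Real.sqrt_nonneg _)).trans (le_of_eq ?_))
  have : 0 ≤ 1 + v := by linarith
  rw [Real.sqrt_mul hC, Real.sqrt_mul hZ, Real.sqrt_sq (by positivity)]
  ring

/-- **the tail.**  `K = e^v`.  `n k = m₀c³`, `N c > Δ` (`h3tail_ne/eq`); `n₁ = gp n c`, `n₂ = n/n₁`
(coprime to `c`), `m₀ = n₂k'`, `k = k' c³/n₁`; `conj (g3 (n₂k')) = conj (g3 n₂) conj (g3 k') cub k' n₂`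
(`g3_mul'`).  Fix `c`, `n₁ ∣ c` and the class of `n₂` mod `Q₀` (then `φ(n₂k'c³)` depends on `k'` only).
With `K' = K N n₁/N c³`: `N k^{-Re s} gw(T(lg k - v)) ≤ C K^{-Re s} √K' N k'^{-1/2} min(1,(K'/N k')²)`,
so `ls_wt` (`E = M/N n₁`, or `n₂`-range empty) gives
`√N c · dv c · √K' (√(M/N n₁) + K') min(1,K') (1 + log(1+K')) ‖u 1_{n₁ ∣ ·}‖₂`.
First term: `√(KM) ∑_c dv(c)²/N c · min(1, K/N c²)` (`sum_dv_inv`, `sum_dv_tail`).  Second term:
`K^{3/2} ∑ dv c · N n₁^{3/2} N c^{-4} ‖u 1_{n₁∣·}‖₂`, Cauchy–Schwarz over pairs `(c, n₁)`,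
`∑_{n₁} ‖u 1_{n₁∣·}‖² ≤ ∑ |u|² dv`: `≤ K^{3/2} Δ^{-2} log^B √nt`. -/
theorem vas_tail : ∃ (C : ℝ) (B0 : ℕ), 0 ≤ C ∧ ∀ (ℓ : ℤ) (Q0 : O), Q0 ≠ 0 → ∀ φ : O → ℂ, Per Q0 φ →
    (∀ m, ‖φ m‖ ≤ 1) → ∀ (M Δ v T : ℝ) (s : ℂ) (S : Finset O) (u : O → ℂ), 1 ≤ M → 1 ≤ Δ → 0 ≤ v →
    Δ ≤ Real.exp v → 1 ≤ T → |s.re| ≤ 4 → S ⊆ sfb M →
    ‖∑ n ∈ S, u n * winS (fun k => h3tail ℓ φ Δ (n * k)) v T s‖ ≤
      C * N Q0 * (1 + v) ^ B0 * Real.sqrt (nt S u) *
        (Real.sqrt M * Real.exp (v / 2) + Real.exp (3 / 2 * v) / Δ ^ 2) *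
        Real.exp (-(s.re * v)) := by
  obtain ⟨C, hC, h⟩ := va_block
  obtain ⟨C1, B1, hC1, h1⟩ := va_sum1
  obtain ⟨C2, B2, hC2, h2⟩ := va_sum2
  refine ⟨C * (C1 + C2), B1 + B2 + 1, by positivity,
    fun ℓ Q0 hQ φ hper hφ M Δ v T s S u hM hΔ hv hΔv hT hs hS => ?_⟩
  have hSF : ∀ n ∈ S, SF n := fun n hn => (mem_sfb.1 (hS hn)).1
  have hS0 : ∀ n ∈ S, n ≠ 0 := fun n hn => (hSF n hn).1.ne_zero
  simp only [← winS_smul]
  rw [← winS_sum S (fun n hn => vd_poly_smul _ (va_tail_poly ℓ hφ Δ (hS0 n hn))) v hT s]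
  refine va_winS_le _ v T s fun A hA => ?_
  obtain ⟨X, hX⟩ : ∃ X : ℝ, ∀ m ∈ A, N m ≤ X :=
    ⟨∑ m ∈ A, N m, fun m hm => Finset.single_le_sum (fun i _ => N_nonneg i) hm⟩
  obtain ⟨Cs, hCs⟩ : ∃ Cs, Cs = (ball (M * X)).filter (fun c => Prim c ∧ Δ < N c) := ⟨_, rfl⟩
  have hCs1 : ∀ c ∈ Cs, Prim c ∧ Δ < N c := fun c hc => by
    rw [hCs] at hc; exact (Finset.mem_filter.1 hc).2
  obtain ⟨w, hw⟩ : ∃ w : O → ℝ, w = fun k => N k ^ (-s.re) * gw (T * (lg k - v)) := ⟨_, rfl⟩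
  have hw0 : ∀ k, 0 ≤ w k := fun k => hw ▸
    mul_nonneg (Real.rpow_nonneg (N_nonneg k) _) (gw_pos _).le
  have h3 : ∀ k ∈ A, ‖∑ n ∈ S, u n * h3tail ℓ φ Δ (n * k)‖ ≤ ∑ c ∈ Cs, ∑ t ∈ pdiv c ×ˢ res Q0,
      ‖∑ n ∈ S with (gp n c, n / gp n c % Q0) = t, u n * vaT ℓ φ Δ c (n * k)‖ := by
    intro k hk
    have e1 : ∀ n ∈ S, u n * h3tail ℓ φ Δ (n * k) = ∑ c ∈ Cs, u n * vaT ℓ φ Δ c (n * k) := by
      intro n hn
      rw [va_tail_eq ℓ φ Δ (n * k) Cs (fun c hc => (hCs1 c hc).1), Finset.mul_sum]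
      intro c a1 a2 a3 a4
      rw [hCs]
      refine Finset.mem_filter.2 ⟨mem_ball.2 ⟨a1.ne_zero, (N_le_of_dvd a3 a2).trans ?_⟩, a1, a4⟩
      rw [N_mul]
      exact mul_le_mul (mem_sfb.1 (hS hn)).2 (hX k hk) (N_nonneg _) (by linarith)
    rw [Finset.sum_congr rfl e1, Finset.sum_comm]
    refine (norm_sum_le _ _).trans (Finset.sum_le_sum fun c hc => ?_)
    rw [← Finset.sum_fiberwise_of_maps_to (t := pdiv c ×ˢ res Q0)
      (g := fun n => (gp n c, n / gp n c % Q0)) fun n hn => Finset.mem_product.2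
        ⟨(mem_pdiv (hCs1 c hc).1.ne_zero).2 ⟨(gp_spec (hSF n hn) c).1.1,
          (gp_spec (hSF n hn) c).2.2.1⟩, b4_mod_mem_res hQ _⟩]
    exact norm_sum_le _ _
  obtain ⟨P, hP⟩ : ∃ P, P = C * Real.exp (-(s.re * v)) * (1 + v) := ⟨_, rfl⟩
  have hP0 : 0 ≤ P := by rw [hP]; positivity
  obtain ⟨U, hU⟩ : ∃ U, U = Real.sqrt (nt S u) := ⟨_, rfl⟩
  have hU0 : 0 ≤ U := hU ▸ Real.sqrt_nonneg _
  have h4 : ∀ c ∈ Cs, ∀ t ∈ pdiv c ×ˢ res Q0, ∑ k ∈ A,
      ‖∑ n ∈ S with (gp n c, n / gp n c % Q0) = t, u n * vaT ℓ φ Δ c (n * k)‖ * w k ≤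
      P * (Real.sqrt M * Real.exp (v / 2) * U *
        (dv c * ((N c)⁻¹ * min 1 (Real.exp v / N c ^ 2))) + Real.exp (3 / 2 * v) *
        (dv c * Real.sqrt (N t.1) / N c ^ 3 * (N t.1 / N c) *
          Real.sqrt (n2 (S.filter fun n => t.1 ∣ n) u))) := by
    rintro c hc ⟨n1, a⟩ ht
    have hc' := (hCs1 c hc).1
    obtain ⟨a1, a2⟩ := (mem_pdiv hc'.ne_zero).1 (Finset.mem_product.1 ht).1
    have a3 : ∀ n ∈ S.filter fun n => (gp n c, n / gp n c % Q0) = (n1, a),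
        N n ≤ M ∧ SF n ∧ n1 ∣ n ∧ IsCoprime (n / n1) c ∧ Q0 ∣ n / n1 - a := fun n hn => by
      obtain ⟨b1, b2⟩ := Finset.mem_filter.1 hn
      obtain ⟨rfl, rfl⟩ := Prod.mk.inj b2
      obtain ⟨-, b3, -, -, b4⟩ := gp_spec (hSF n b1) c
      exact ⟨(mem_sfb.1 (hS b1)).2, hSF n b1, b3, b4, b4_dvd_sub_mod _ _⟩
    have a4 := h ℓ Q0 φ hper hφ M Δ v T s.re c n1 a _ A u hv hT hs hc' a1 a2 hA a3
    have a5 : Real.sqrt (n2 (S.filter fun n => (gp n c, n / gp n c % Q0) = (n1, a)) u) ≤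
        Real.sqrt (n2 (S.filter fun n => n1 ∣ n) u) :=
      Real.sqrt_le_sqrt (Finset.sum_le_sum_of_subset_of_nonneg (fun n hn => Finset.mem_filter.2
        ⟨(Finset.mem_filter.1 hn).1, (a3 n hn).2.2.1⟩) fun _ _ _ => sq_nonneg _)
    have a6 : Real.sqrt (n2 (S.filter fun n => n1 ∣ n) u) ≤ U := by
      rw [hU]
      exact Real.sqrt_le_sqrt ((Finset.sum_le_sum_of_subset_of_nonneg (Finset.filter_subset _ _)
        fun _ _ _ => sq_nonneg _).trans (n2_le_nt hS0 u))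
    rw [← hP] at a4
    rw [hw]
    refine a4.trans ?_
    clear a4 h3 h h1 h2
    have b1 := N_nonneg c
    have b2 := N_nonneg n1
    have b3 : 0 ≤ dv c := Nat.cast_nonneg _
    have a7 := a5.trans a6
    rw [mul_assoc P, add_mul, mul_assoc (Real.exp (3 / 2 * v)), mul_right_comm]
    gcongr
  have h5 : ∑ k ∈ A, ‖∑ n ∈ S, u n * h3tail ℓ φ Δ (n * k)‖ * w k ≤
      N Q0 * (P * (Real.sqrt M * Real.exp (v / 2) * U *
        ∑ c ∈ Cs, dv c * (dv c * ((N c)⁻¹ * min 1 (Real.exp v / N c ^ 2))) + Real.exp (3 / 2 * v) *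
        ∑ c ∈ Cs, ∑ n1 ∈ pdiv c, dv c * Real.sqrt (N n1) / N c ^ 3 * (N n1 / N c) *
          Real.sqrt (n2 (S.filter fun n => n1 ∣ n) u))) := by
    refine (Finset.sum_le_sum fun k hk => mul_le_mul_of_nonneg_right (h3 k hk) (hw0 k)).trans ?_
    simp only [Finset.sum_mul]
    rw [Finset.sum_comm, Finset.mul_sum, Finset.mul_sum, ← Finset.sum_add_distrib, Finset.mul_sum,
      Finset.mul_sum]
    refine Finset.sum_le_sum fun c hc => ?_
    rw [Finset.sum_comm]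
    refine (Finset.sum_le_sum (h4 c hc)).trans (le_of_eq ?_)
    rw [Finset.sum_product]
    simp only [Finset.sum_const, nsmul_eq_mul, card_res hQ, ← Finset.mul_sum,
      Finset.sum_add_distrib]
    rw [← dv, ← N]
    ring
  rw [hw] at h5
  refine h5.trans ?_
  have h6 := h1 v hv Cs fun c hc => (hCs1 c hc).1.ne_zero
  have h7 := h2 Δ v hΔ hΔv Cs S u (fun c hc => ⟨(hCs1 c hc).1.ne_zero, (hCs1 c hc).2⟩) hS0
  have hv1 : 1 ≤ 1 + v := by linarith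
  have h8 : (1 + v) ^ B1 ≤ (1 + v) ^ (B1 + B2) := pow_le_pow_right₀ hv1 (by omega)
  have h9 : (1 + v) ^ B2 ≤ (1 + v) ^ (B1 + B2) := pow_le_pow_right₀ hv1 (by omega)
  have h10 : C1 * (1 + v) ^ B1 ≤ (C1 + C2) * (1 + v) ^ (B1 + B2) := by gcongr; linarith
  have h11 : C2 * (1 + v) ^ B2 ≤ (C1 + C2) * (1 + v) ^ (B1 + B2) := by gcongr; linarith
  rw [← hU] at h7 ⊢
  have hN := N_nonneg Q0
  calc _ ≤ N Q0 * (P * (Real.sqrt M * Real.exp (v / 2) * U * ((C1 + C2) * (1 + v) ^ (B1 + B2)) +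
        Real.exp (3 / 2 * v) * ((C1 + C2) * (1 + v) ^ (B1 + B2) / Δ ^ 2 * U))) := by
        refine mul_le_mul_of_nonneg_left (mul_le_mul_of_nonneg_left (add_le_add
          (mul_le_mul_of_nonneg_left (h6.trans h10) (by positivity))
          (mul_le_mul_of_nonneg_left (h7.trans (mul_le_mul_of_nonneg_right
            (div_le_div_of_nonneg_right h11 (by positivity)) hU0)) (by positivity))) hP0) hN
    _ = _ := by rw [hP]; ring

end Crest.Agent.R12
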