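import Crest.Agent.R12.VA2
import Crest.Agent.R12.CLS
import Crest.Agent.R12.SM

/-!
# R12 / VA3 : Voronoi on average with a sharp cutoff
-/

set_option autoImplicit false

noncomputable section

open scoped Classical ComplexConjugate Topology
open MeasureTheory Filter

namespace Crest.Agent.R12

open Crest.Agent.R17

theorem va3_pow : ∃ C : ℝ, 0 ≤ C ∧ ∀ (a X c T : ℝ) (R : Finset O), |a| ≤ 12 → 1 ≤ X → 1 ≤ c →
    c ≤ 2 → 1 ≤ T → (∀ j ∈ R, j ≠ 0) →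
    ∑ j ∈ R, (N j / X) ^ a * gw (T * (lg j - Real.log (c * X))) ≤ C * (X / T + Real.sqrt X) := by
  obtain ⟨C, hC, h⟩ := an_pow
  refine ⟨C * 2 ^ 12 * 2, by positivity, fun a X c T R ha hX hc1 hc2 hT hR => ?_⟩
  have hX0 : 0 < X := by linarith
  have hc0 : 0 < c := by linarith
  have hT0 : 0 < T := by linarith
  have h1 := (h a (Real.log (c * X)) T ha hT R hR).1
  have e1 : Real.exp (a * Real.log (c * X)) = c ^ a * X ^ a := by
    rw [← Real.mul_rpow hc0.le hX0.le, Real.rpow_def_of_pos (by positivity), mul_comm]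
  have e2 : Real.exp (Real.log (c * X)) = c * X := Real.exp_log (by positivity)
  have e3 : Real.exp (Real.log (c * X) / 2) = Real.sqrt (c * X) := by
    rw [Real.sqrt_eq_rpow, Real.rpow_def_of_pos (by positivity)]; congr 1; ring
  have e4 : c ^ a ≤ 2 ^ 12 := by
    calc c ^ a ≤ c ^ (12 : ℝ) := Real.rpow_le_rpow_of_exponent_le hc1 (le_of_abs_le ha)
      _ ≤ 2 ^ (12 : ℝ) := Real.rpow_le_rpow hc0.le hc2 (by norm_num)
      _ = 2 ^ 12 := by norm_num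
  have e5 : Real.sqrt (c * X) ≤ 2 * Real.sqrt X := by
    rw [Real.sqrt_le_left (by positivity), mul_pow, Real.sq_sqrt hX0.le]; nlinarith
  have e6 : ∑ j ∈ R, (N j / X) ^ a * gw (T * (lg j - Real.log (c * X))) =
      (X ^ a)⁻¹ * ∑ j ∈ R, N j ^ a * gw (T * (lg j - Real.log (c * X))) := by
    rw [Finset.mul_sum]
    refine Finset.sum_congr rfl fun j _ => ?_
    rw [Real.div_rpow (N_nonneg j) hX0.le]; ring
  have e7 : c * X / T ≤ 2 * (X / T) := by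
    rw [mul_div_assoc]; gcongr
  have hXa : 0 < X ^ a := Real.rpow_pos_of_pos hX0 a
  rw [e1, e2, e3] at h1
  rw [e6]
  calc _ ≤ (X ^ a)⁻¹ * (C * (c ^ a * X ^ a) * (c * X / T + Real.sqrt (c * X))) := by gcongr
    _ = C * c ^ a * (c * X / T + Real.sqrt (c * X)) := by field_simp
    _ ≤ C * 2 ^ 12 * (2 * (X / T) + 2 * Real.sqrt X) := by gcongr
    _ = _ := by ring

theorem va3_wls (ε : ℝ) (hε : 0 < ε) (hε1 : ε ≤ 1) : ∃ C : ℝ, 0 ≤ C ∧ ∀ (X M : ℝ) (S R : Finset O)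
    (x : O → ℂ), 1 ≤ X → 1 ≤ M → S ⊆ sfb M → (∀ j ∈ R, SF j) →
    ∑ j ∈ R, (1 + (N j / X) ^ 4)⁻¹ * ‖cs S x j‖ ^ 2 ≤
      C * ((X * M) ^ ε * (X + M + (X * M) ^ (2 / 3 : ℝ)) * n2 S x) := by
  obtain ⟨C, hC, h⟩ := cls ε hε
  refine ⟨9 * C, by positivity, fun X M S R x hX hM hS hR => ?_⟩
  have hX0 : 0 < X := by linarith
  have hM0 : 0 < M := by linarith
  have hn := ls0_n2_nonneg S x
  set L : ℝ := (X * M) ^ ε * (X + M + (X * M) ^ (2 / 3 : ℝ)) * n2 S x with hL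
  have hL0 : 0 ≤ L := by positivity
  have key : ∀ t : ℝ, 1 ≤ t → ∀ U : Finset O, (∀ j ∈ U, SF j ∧ N j ≤ t * X) →
      ∑ j ∈ U, ‖cs S x j‖ ^ 2 ≤ C * t ^ 2 * L := by
    intro t ht U hU
    have ht0 : 0 < t := by linarith
    have h1 := h (t * X) M S x (by nlinarith) hM hS
    have h2 : ∀ e : ℝ, e ≤ 1 → (t * X * M) ^ e ≤ t * (X * M) ^ e := by
      intro e he
      rw [mul_assoc, Real.mul_rpow ht0.le (by positivity)]
      have : t ^ e ≤ t := by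
        simpa using Real.rpow_le_rpow_of_exponent_le ht he
      gcongr
    have h3 : t * X + M + (t * X * M) ^ (2 / 3 : ℝ) ≤ t * (X + M + (X * M) ^ (2 / 3 : ℝ)) := by
      have := h2 (2 / 3) (by norm_num)
      nlinarith
    calc _ ≤ ∑ k ∈ sfb (t * X), ‖cs S x k‖ ^ 2 :=
          Finset.sum_le_sum_of_subset_of_nonneg (fun j hj => mem_sfb.2 (hU j hj))
            fun _ _ _ => by positivity
      _ ≤ _ := h1
      _ ≤ C * (t * (X * M) ^ ε) * (t * (X + M + (X * M) ^ (2 / 3 : ℝ))) * n2 S x := by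
          have := h2 ε hε1
          gcongr
      _ = _ := by rw [hL]; ring
  rw [← Finset.sum_filter_add_sum_filter_not R (fun j => N j < X)]
  have p1 : ∑ j ∈ R.filter (fun j => N j < X), (1 + (N j / X) ^ 4)⁻¹ * ‖cs S x j‖ ^ 2 ≤ C * L := by
    have := key 1 le_rfl (R.filter fun j => N j < X) fun j hj =>
      ⟨hR j (Finset.mem_filter.1 hj).1, by linarith [(Finset.mem_filter.1 hj).2]⟩
    rw [one_pow, mul_one] at this
    refine le_trans (Finset.sum_le_sum fun j _ => ?_) this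
    refine mul_le_of_le_one_left (by positivity) (inv_le_one_of_one_le₀ ?_)
    have : 0 ≤ (N j / X) ^ 4 := by positivity
    linarith
  obtain ⟨K, -, hK⟩ := bb_dyadic hX0 (R.filter fun j => ¬ N j < X)
    (fun j hj => not_lt.1 (Finset.mem_filter.1 hj).2)
    (fun j => (1 + (N j / X) ^ 4)⁻¹ * ‖cs S x j‖ ^ 2) (fun k => 4 * C * L * (1 / 2) ^ k) (by
      intro k U hU hU'
      have hk : (1 : ℝ) ≤ 2 ^ k := one_le_pow₀ (by norm_num)
      have h1 := key (2 * 2 ^ k) (by linarith) U fun j hj =>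
        ⟨hR j (Finset.mem_filter.1 (hU hj)).1, by linarith [(hU' j hj).2]⟩
      calc _ ≤ ∑ j ∈ U, (((2 : ℝ) ^ k) ^ 4)⁻¹ * ‖cs S x j‖ ^ 2 := by
            refine Finset.sum_le_sum fun j hj => ?_
            have a : (2 : ℝ) ^ k ≤ N j / X := by
              rw [le_div_iff₀ hX0]; exact (hU' j hj).1
            have b : ((2 : ℝ) ^ k) ^ 4 ≤ (N j / X) ^ 4 := by gcongr
            gcongr
            linarith
        _ ≤ (((2 : ℝ) ^ k) ^ 4)⁻¹ * (C * (2 * 2 ^ k) ^ 2 * L) := by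
            rw [← Finset.mul_sum]; gcongr
        _ = 4 * C * L * ((2 ^ k)⁻¹ * (2 ^ k)⁻¹) := by field_simp; ring
        _ ≤ 4 * C * L * ((2 ^ k)⁻¹ * 1) := by
            gcongr
            exact inv_le_one_of_one_le₀ hk
        _ = _ := by rw [mul_one, one_div, inv_pow])
  have p2 : ∑ k ∈ K, 4 * C * L * (1 / 2 : ℝ) ^ k ≤ 4 * C * L * 2 := by
    rw [← Finset.mul_sum]
    have : ∑ k ∈ K, (1 / 2 : ℝ) ^ k ≤ 2 := by
      exact (summable_geometric_two.sum_le_tsum K fun _ _ => by positivity).trans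
        tsum_geometric_two.le
    gcongr
  linarith

/-- smoothing error: `|1_{(X,2X]} - Pl| ≤ gw + gw` (`Pl_sub_le`), Cauchy–Schwarz on dyadic blocks of `j`,
`an` (`gw² ≤ gw`) and `cls` (blocks far from `X` are damped by `gw`; use `an_pow`/`an_tail`). -/
theorem smooth_err (ε : ℝ) (hε : 0 < ε) : ∃ C : ℝ, 0 ≤ C ∧ ∀ (X M T σ : ℝ) (S R : Finset O)
    (x : O → ℂ), 1 ≤ X → 1 ≤ M → 1 ≤ T → |σ| ≤ 4 → S ⊆ sfb M → (∀ j ∈ R, SF j) →
    ∑ j ∈ R, (N j / X) ^ σ * |(if X < N j ∧ N j ≤ 2 * X then 1 else 0) -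
        Pl T (Real.log X) (Real.log (2 * X)) (lg j)| * ‖cs S x j‖ ≤
      C * (X * M) ^ ε * Real.sqrt (X + M + (X * M) ^ (2 / 3 : ℝ)) *
        Real.sqrt (X / T + Real.sqrt X) * Real.sqrt (n2 S x) := by
  obtain ⟨C1, hC1, h1⟩ := va3_pow
  obtain ⟨C2, hC2, h2⟩ := va3_wls (min ε 1) (lt_min hε one_pos) (min_le_right _ _)
  refine ⟨Real.sqrt (4 * C1) * Real.sqrt C2, by positivity,
    fun X M T σ S R x hX hM hT hσ hS hR => ?_⟩
  have hX0 : 0 < X := by linarith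
  have hT0 : 0 < T := by linarith
  have hy : Real.log X ≤ Real.log (2 * X) := Real.log_le_log hX0 (by linarith)
  have hR0 : ∀ j ∈ R, j ≠ 0 := fun j hj => (hR j hj).1.ne_zero
  set D : O → ℝ := fun j => |(if X < N j ∧ N j ≤ 2 * X then 1 else 0) -
    Pl T (Real.log X) (Real.log (2 * X)) (lg j)| with hD
  have hw : ∀ j : O, 0 < 1 + (N j / X) ^ 4 := fun j => by positivity
  have hD1 : ∀ j, D j ≤ 1 := fun j => by
    obtain ⟨a, b⟩ := Pl_mem hT0 hy (lg j)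
    simp only [hD]
    rw [abs_le]
    split_ifs <;> constructor <;> linarith
  have hD2 : ∀ j ∈ R, D j ≤ gw (T * (lg j - Real.log (1 * X))) +
      gw (T * (lg j - Real.log (2 * X))) := fun j hj => by
    have := Pl_sub_le hT0 hy (lg j)
    have hj0 := N_pos (hR0 j hj)
    have e : (X < N j ∧ N j ≤ 2 * X) ↔ (Real.log X < lg j ∧ lg j ≤ Real.log (2 * X)) := by
      rw [lg, Real.log_lt_log_iff hX0 hj0, Real.log_le_log_iff hj0 (by positivity)]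
    simp only [hD, e, one_mul]
    exact this
  have s1 : ∑ j ∈ R, ((N j / X) ^ σ * D j * Real.sqrt (1 + (N j / X) ^ 4)) ^ 2 ≤
      4 * C1 * (X / T + Real.sqrt X) := by
    have ha : |2 * σ| ≤ 12 := by rw [abs_le] at hσ ⊢; constructor <;> linarith
    have hb : |2 * σ + 4| ≤ 12 := by rw [abs_le] at hσ ⊢; constructor <;> linarith
    have q1 := h1 _ X 1 T R ha hX le_rfl (by norm_num) hT hR0
    have q2 := h1 _ X 2 T R ha hX (by norm_num) le_rfl hT hR0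
    have q3 := h1 _ X 1 T R hb hX le_rfl (by norm_num) hT hR0
    have q4 := h1 _ X 2 T R hb hX (by norm_num) le_rfl hT hR0
    refine le_trans ?_ ((add_le_add (add_le_add q1 q2) (add_le_add q3 q4)).trans (le_of_eq (by ring)))
    rw [← Finset.sum_add_distrib, ← Finset.sum_add_distrib, ← Finset.sum_add_distrib]
    refine Finset.sum_le_sum fun j hj => ?_
    have hj0 : 0 < N j / X := div_pos (N_pos (hR0 j hj)) hX0
    have e1 : ((N j / X) ^ σ) ^ 2 = (N j / X) ^ (2 * σ) := by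
      rw [mul_comm 2 σ, Real.rpow_mul hj0.le, Real.rpow_two]
    have e2 : (N j / X) ^ (2 * σ + 4) = (N j / X) ^ (2 * σ) * (N j / X) ^ 4 := by
      rw [Real.rpow_add hj0]; norm_num
    have e3 : D j ^ 2 ≤ gw (T * (lg j - Real.log (1 * X))) + gw (T * (lg j - Real.log (2 * X))) := by
      have : 0 ≤ D j := abs_nonneg _
      nlinarith [hD1 j, hD2 j hj]
    rw [mul_pow, mul_pow, Real.sq_sqrt (hw j).le, e1, e2]
    have hp : 0 ≤ (N j / X) ^ (2 * σ) * (1 + (N j / X) ^ 4) := by positivity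
    nlinarith [mul_le_mul_of_nonneg_left e3 hp]
  have s2 : ∑ j ∈ R, ((Real.sqrt (1 + (N j / X) ^ 4))⁻¹ * ‖cs S x j‖) ^ 2 ≤
      C2 * (((X * M) ^ ε) ^ 2 * (X + M + (X * M) ^ (2 / 3 : ℝ)) * n2 S x) := by
    have hXM : 1 ≤ X * M := by nlinarith
    have a : (X * M) ^ (min ε 1) ≤ ((X * M) ^ ε) ^ 2 := by
      have a1 : (X * M) ^ (min ε 1) ≤ (X * M) ^ ε :=
        Real.rpow_le_rpow_of_exponent_le hXM (min_le_left _ _)
      have a2 : 1 ≤ (X * M) ^ ε := Real.one_le_rpow hXM hε.le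
      nlinarith
    have hn := ls0_n2_nonneg S x
    refine le_trans (le_of_eq ?_) ((h2 X M S R x hX hM hS hR).trans (by gcongr))
    refine Finset.sum_congr rfl fun j _ => ?_
    rw [mul_pow, inv_pow, Real.sq_sqrt (hw j).le]
  calc _ = ∑ j ∈ R, ((N j / X) ^ σ * D j * Real.sqrt (1 + (N j / X) ^ 4)) *
        ((Real.sqrt (1 + (N j / X) ^ 4))⁻¹ * ‖cs S x j‖) := by
        refine Finset.sum_congr rfl fun j _ => ?_
        have := (Real.sqrt_pos.2 (hw j)).ne'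
        simp only [hD]
        field_simp
    _ ≤ _ := Real.sum_mul_le_sqrt_mul_sqrt _ _ _
    _ ≤ Real.sqrt (4 * C1 * (X / T + Real.sqrt X)) *
        Real.sqrt (C2 * (((X * M) ^ ε) ^ 2 * (X + M + (X * M) ^ (2 / 3 : ℝ)) * n2 S x)) := by
        gcongr
    _ = _ := by
        have hM0 : 0 < M := by linarith
        rw [Real.sqrt_mul (by positivity : 0 ≤ 4 * C1), Real.sqrt_mul hC2,
          Real.sqrt_mul (by positivity : 0 ≤ ((X * M) ^ ε) ^ 2 * (X + M + (X * M) ^ (2 / 3 : ℝ))),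
          Real.sqrt_mul (sq_nonneg ((X * M) ^ ε)), Real.sqrt_sq (by positivity)]
        ring

/-! ### the twisted periodic functions -/

def va3_inv (q a : O) : O := if h : ∃ b, q ∣ a * b - 1 then h.choose else 0

theorem va3_inv_spec {q a : O} (h : IsCoprime a q) : q ∣ a * va3_inv q a - 1 := by
  have h' : ∃ b, q ∣ a * b - 1 := by
    obtain ⟨u, w, huw⟩ := h
    exact ⟨u, -w, by linear_combination huw⟩
  rw [va3_inv, dif_pos h']
  exact h'.choose_spec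

def va3_phi (q : O) (φ0 : O → ℂ) (g : O × O) (m : O) : ℂ :=
  if g.1 ∣ m then φ0 (m / g.1 * va3_inv q g.2) else 0

def va3_g (q n : O) : O × O := (gp n q, (n / gp n q) % q)

theorem va3_phi_le (q : O) {φ0 : O → ℂ} (h : ∀ m, ‖φ0 m‖ ≤ 1) (g : O × O) (m : O) :
    ‖va3_phi q φ0 g m‖ ≤ 1 := by
  unfold va3_phi
  split_ifs
  · exact h _
  · simp

theorem va3_phi_per {q : O} {φ0 : O → ℂ} (h : Per q φ0) {g : O × O} (h0 : g.1 ≠ 0) (hd : g.1 ∣ q) :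
    Per (q ^ 2) (va3_phi q φ0 g) := by
  intro m t
  obtain ⟨c, hc⟩ := hd
  have e : q ^ 2 * t = g.1 * (q * (c * t)) := by rw [hc]; ring
  unfold va3_phi
  by_cases hm : g.1 ∣ m
  · obtain ⟨k, rfl⟩ := hm
    have e2 : g.1 * k + q ^ 2 * t = g.1 * (k + q * (c * t)) := by rw [e]; ring
    rw [e2, if_pos (dvd_mul_right _ _), if_pos (dvd_mul_right _ _),
      mul_div_cancel_left₀ _ h0, mul_div_cancel_left₀ _ h0]
    exact h.congr ⟨c * t * va3_inv q g.2, by ring⟩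
  · rw [if_neg hm, if_neg]
    intro h'
    exact hm ((dvd_add_left (e ▸ dvd_mul_right _ _)).1 h')

theorem va3_fac {n : O} (hn : SF n) (q : O) : gp n q * (n / gp n q) = n :=
  EuclideanDomain.mul_div_cancel' (gp_spec hn q).1.1.ne_zero (gp_spec hn q).2.1

theorem va3_sf {n : O} (hn : SF n) (q : O) :
    SF (n / gp n q) ∧ IsCoprime (gp n q) (n / gp n q) :=
  hn.div (gp_spec hn q).1.1 (gp_spec hn q).2.1

theorem va3_N {n : O} (hn : SF n) (q : O) : N (gp n q) * N (n / gp n q) = N n := by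
  rw [← N_mul, va3_fac hn]

theorem va3_N_le {n : O} (hn : SF n) (q : O) : N (n / gp n q) ≤ N n :=
  N_le_of_dvd hn.1.ne_zero (Dvd.intro_left _ (va3_fac hn q))

theorem va3_g_mem {q n : O} (hq : q ≠ 0) (hn : SF n) : va3_g q n ∈ pdiv q ×ˢ res q :=
  Finset.mem_product.2 ⟨(mem_pdiv hq).2 ⟨(gp_spec hn q).1.1, (gp_spec hn q).2.2.1⟩,
    b4_mod_mem_res hq _⟩

theorem va3_gp_dvd {q n n' : O} (hn : SF n) (hn' : SF n') (h : q ∣ n - n') : gp n q ∣ gp n' q := by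
  obtain ⟨-, a1, a2, -, -⟩ := gp_spec hn q
  have b : gp n q ∣ n' := by
    have := dvd_sub a1 (a2.trans h)
    simpa using this
  rw [← va3_fac hn' q] at b
  exact ((gp_spec hn' q).2.2.2.2.symm.of_isCoprime_of_dvd_left a2).dvd_of_dvd_mul_right b

theorem va3_g_congr {q d n n' : O} (hq : q ≠ 0) (hn : SF n) (hn' : SF n')
    (h : q ^ 2 * d ∣ n - n') : va3_g q n = va3_g q n' ∧ d ∣ n / gp n q - n' / gp n' q := by
  have hq1 : q ∣ n - n' := (Dvd.intro (q * d) (by ring)).trans h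
  have e : gp n q = gp n' q := by
    refine (gp_spec hn q).1.1.eq_of_associated (gp_spec hn' q).1.1
      (associated_of_dvd_dvd (va3_gp_dvd hn hn' hq1) (va3_gp_dvd hn' hn ?_))
    rwa [dvd_sub_comm]
  obtain ⟨c, hc⟩ := (gp_spec hn q).2.2.1
  have h2 : q * c * d ∣ n / gp n q - n' / gp n' q := by
    refine (mul_dvd_mul_iff_left (gp_spec hn q).1.1.ne_zero).1 ?_
    have e1 : gp n q * (q * c * d) = q ^ 2 * d := by linear_combination (-(q * d)) * hc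
    have e2 : gp n q * (n / gp n q - n' / gp n' q) = n - n' := by
      rw [mul_sub, va3_fac hn, e, va3_fac hn']
    rwa [e1, e2]
  refine ⟨?_, (Dvd.intro_left _ rfl).trans h2⟩
  unfold va3_g
  rw [b4_mod_congr hq ((Dvd.intro (c * d) (by ring)).trans h2), e]

theorem va3_gcd {d a b : O} (hd : d ≠ 0) (h : d ∣ a - b) :
    N (EuclideanDomain.gcd a d) = N (EuclideanDomain.gcd b d) := by
  have key : ∀ a b : O, d ∣ a - b → N (EuclideanDomain.gcd a d) ≤ N (EuclideanDomain.gcd b d) := by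
    intro a b h
    refine N_le_of_dvd (fun h0 => hd (EuclideanDomain.gcd_eq_zero_iff.1 h0).2)
      (EuclideanDomain.dvd_gcd ?_ (EuclideanDomain.gcd_dvd_right _ _))
    have := dvd_sub (EuclideanDomain.gcd_dvd_left a d) ((EuclideanDomain.gcd_dvd_right a d).trans h)
    simpa using this
  exact le_antisymm (key a b h) (key b a (by rwa [dvd_sub_comm]))

/-- the sequence attached to `n` -/
def va3_a (φ0 : O → ℂ) (n j : O) : ℂ := if Prim j then conj (g3 j) * cub n j * φ0 j else 0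

/-- the window sum to which `vas` applies -/
def va3_W (q : O) (φ0 : O → ℂ) (v T : ℝ) (s : ℂ) (n : O) : ℂ :=
  winS (fun k => h3 0 (va3_phi q φ0 (va3_g q n)) (n / gp n q * k)) (v + lg (gp n q)) T (-s)

theorem va3_key {q : O} {φ0 : O → ℂ} (hφ : Per q φ0) {n : O} (hn : SF n) (v T : ℝ) (s : ℂ) :
    winS (va3_a φ0 n) v T (-s) = g3 n * (N (gp n q) : ℂ) ^ (-s) * va3_W q φ0 v T s n := by
  have h10 := (gp_spec hn q).1.1.ne_zero
  set b : O → ℂ := fun k => h3 0 (va3_phi q φ0 (va3_g q n)) (n / gp n q * k) with hb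
  have e1 : b = dvR (gp n q) b := by
    funext k
    unfold dvR
    split_ifs with hk
    · rfl
    · have : ¬ gp n q ∣ n / gp n q * k := fun h => hk ((va3_sf hn q).2.dvd_of_dvd_mul_left h)
      have z : va3_phi q φ0 (va3_g q n) (n / gp n q * k) = 0 := if_neg this
      simp only [hb, h3, z, mul_zero, ite_self]
  have e2 : ∀ j, va3_a φ0 n j = g3 n * b (gp n q * j) := by
    intro j
    have f1 : n / gp n q * (gp n q * j) = n * j := by
      rw [← mul_assoc, mul_comm (n / gp n q), va3_fac hn]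
    have f2 : va3_phi q φ0 (va3_g q n) (n * j) = φ0 j := by
      have f3 : n * j = gp n q * (n / gp n q * j) := by rw [← mul_assoc, va3_fac hn]
      have f4 : gp n q ∣ n * j := f3 ▸ dvd_mul_right _ _
      have f5 : va3_phi q φ0 (va3_g q n) (n * j) =
          φ0 (n * j / gp n q * va3_inv q (n / gp n q % q)) := if_pos f4
      rw [f5, f3, mul_div_cancel_left₀ _ h10]
      have c1 := b4_dvd_sub_mod q (n / gp n q)
      have c2 : IsCoprime (n / gp n q % q) q := by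
        obtain ⟨t, ht⟩ := c1
        have : n / gp n q % q = n / gp n q + q * (-t) := by linear_combination -ht
        rw [this]
        exact (gp_spec hn q).2.2.2.2.add_mul_left_left _
      obtain ⟨t, ht⟩ := c1
      obtain ⟨w, hw⟩ := va3_inv_spec c2
      exact hφ.congr ⟨j * (w + t * va3_inv q (n / gp n q % q)), by
        linear_combination j * hw + j * va3_inv q (n / gp n q % q) * ht⟩
    simp only [hb, f1, h3, f2, va3_a, zpow_zero, mul_one]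
    by_cases hj : Prim j
    · have g1 : g3 n * conj (g3 n) = 1 := by
        rw [Complex.mul_conj, Complex.normSq_eq_norm_sq, norm_g3 hn.1.isCoprime_three hn.2]
        simp
      rw [if_pos hj, if_pos (hn.1.mul hj), g3_mul' hn hj, cub_rec hj hn.1]
      simp only [map_mul, Complex.conj_conj]
      linear_combination (-(conj (g3 j) * cub n j * φ0 j)) * g1
    · rw [if_neg hj, if_neg (fun h => hj (h.of_mul_left hn.1)), mul_zero]
  have e3 : (N (gp n q) : ℂ) ^ (-s) * (N (gp n q) : ℂ) ^ (- -s) = 1 := by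
    rw [← Complex.cpow_add _ _ (by exact_mod_cast (N_pos h10).ne'), add_neg_cancel,
      Complex.cpow_zero]
  unfold va3_W
  rw [← hb, e1, winS_dvR h10, add_sub_cancel_right, funext e2, winS_smul]
  linear_combination (-(g3 n * winS (fun m => b (gp n q * m)) v T (-s))) * e3

theorem va3_cpow {a : ℝ} (ha : 0 < a) (s : ℂ) : (a : ℂ) ^ s = Complex.exp (Real.log a * s) := by
  rw [Complex.cpow_def_of_ne_zero (by exact_mod_cast ha.ne'), Complex.ofReal_log ha.le]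

theorem va3_pw {X : ℝ} (hX : 0 < X) {j : O} (hj : j ≠ 0) (s : ℂ) :
    pw X j s = (X : ℂ) ^ (-s) * (N j : ℂ) ^ (- -s) := by
  rw [pw, va3_cpow (div_pos (N_pos hj) hX), va3_cpow hX, va3_cpow (N_pos hj), ← Complex.exp_add,
    Real.log_div (N_pos hj).ne' hX.ne']
  congr 1
  push_cast
  ring

theorem va3_a_le {φ0 : O → ℂ} (h : ∀ m, ‖φ0 m‖ ≤ 1) {n : O} (hn : Prim n) (j : O) :
    ‖va3_a φ0 n j‖ ≤ 1 := by
  unfold va3_a
  split_ifs with hj
  · rw [norm_mul, norm_mul, Complex.norm_conj]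
    exact mul_le_one₀ (mul_le_one₀ (norm_g3_le hj) (norm_nonneg _) (ls0_norm_cub hn j))
      (norm_nonneg _) (h j)
  · simp

theorem va3_norm_pw {X : ℝ} (hX : 0 < X) {j : O} (hj : j ≠ 0) (s : ℂ) :
    ‖pw X j s‖ = (N j / X) ^ s.re :=
  Complex.norm_cpow_eq_rpow_re_of_pos (div_pos (N_pos hj) hX) s

theorem va3_poly {a : O → ℂ} {K X : ℝ} (ha : ∀ j, ‖a j‖ ≤ K) (hX : 0 < X) {s : ℂ}
    (hs : |s.re| ≤ 4) : PolyBd fun j => a j * pw X j s := by
  refine ⟨K * (X ^ s.re)⁻¹, 4, fun j hj => ?_⟩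
  have hK : 0 ≤ K := (norm_nonneg _).trans (ha 0)
  have h1 : N j ^ s.re ≤ N j ^ 4 := by
    have := Real.rpow_le_rpow_of_exponent_le (one_le_N hj) (le_of_abs_le hs)
    rwa [show (4 : ℝ) = (4 : ℕ) by norm_num, Real.rpow_natCast] at this
  rw [norm_mul, va3_norm_pw hX hj, Real.div_rpow (N_nonneg j) hX.le, div_eq_inv_mul, mul_assoc]
  have := ha j
  have := Real.rpow_nonneg (N_nonneg j) s.re
  gcongr

/-- the total sequence -/
def va3_A (φ0 : O → ℂ) (S : Finset O) (y : O → ℂ) (X : ℝ) (s : ℂ) (j : O) : ℂ :=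
  ∑ n ∈ S, y n * va3_a φ0 n j * pw X j s

theorem va3_polyA {φ0 : O → ℂ} (h : ∀ m, ‖φ0 m‖ ≤ 1) {S : Finset O} (hS : ∀ n ∈ S, SF n)
    (y : O → ℂ) {X : ℝ} (hX : 0 < X) {s : ℂ} (hs : |s.re| ≤ 4) : PolyBd (va3_A φ0 S y X s) := by
  have e : va3_A φ0 S y X s = fun j => (∑ n ∈ S, y n * va3_a φ0 n j) * pw X j s := by
    funext j; rw [va3_A, Finset.sum_mul]
  rw [e]
  refine va3_poly (K := ∑ n ∈ S, ‖y n‖) (fun j => (norm_sum_le _ _).trans
    (Finset.sum_le_sum fun n hn => ?_)) hX hs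
  rw [norm_mul]
  exact mul_le_of_le_one_right (norm_nonneg _) (va3_a_le h (hS n hn).1 j)

theorem va3_win {q : O} {φ0 : O → ℂ} (hφ : Per q φ0) (h : ∀ m, ‖φ0 m‖ ≤ 1) {S : Finset O}
    (hS : ∀ n ∈ S, SF n) (y : O → ℂ) {X T : ℝ} (hX : 0 < X) (hT : 1 ≤ T) {s : ℂ}
    (hs : |s.re| ≤ 4) (v : ℝ) : win (va3_A φ0 S y X s) v T = (X : ℂ) ^ (-s) *
      ∑ n ∈ S, y n * g3 n * (N (gp n q) : ℂ) ^ (-s) * va3_W q φ0 v T s n := by
  rw [win_eq_winS]
  unfold va3_A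
  rw [winS_sum S (a := fun n j => y n * va3_a φ0 n j * pw X j s) (fun n hn => va3_poly
    (K := ‖y n‖) (fun j => by
      rw [norm_mul]
      exact mul_le_of_le_one_right (norm_nonneg _) (va3_a_le h (hS n hn).1 j)) hX hs) v hT,
    Finset.mul_sum]
  refine Finset.sum_congr rfl fun n hn => ?_
  have e : (fun j => y n * va3_a φ0 n j * pw X j s) =
      fun j => (y n * (X : ℂ) ^ (-s)) * (va3_a φ0 n j * (N j : ℂ) ^ (- -s)) := by
    funext j
    by_cases hj : Prim j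
    · rw [va3_pw hX hj.ne_zero]; ring
    · simp [va3_a, hj]
  rw [e, winS_smul, winS_shift, zero_add, va3_key hφ (hS n hn)]
  ring

theorem va3_class {Q : O} (hQ : Q ≠ 0) (S : Finset O) (f c : O → ℂ) {K : ℝ}
    (hc : ∀ n ∈ S, ∀ n' ∈ S, Q ∣ n - n' → c n = c n') (hb : ∀ n ∈ S, ‖c n‖ ≤ K) :
    ‖∑ n ∈ S, f n * c n‖ ≤ K * ∑ a ∈ res Q, ‖∑ n ∈ S.filter (fun n => Q ∣ n - a), f n‖ := by
  rw [← Finset.sum_fiberwise_of_maps_to (g := fun n => n % Q) (t := res Q)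
    (fun n _ => b4_mod_mem_res hQ n), Finset.mul_sum]
  refine (norm_sum_le _ _).trans (Finset.sum_le_sum fun a ha => ?_)
  have e : S.filter (fun n => n % Q = a) = S.filter (fun n => Q ∣ n - a) := by
    refine Finset.filter_congr fun n _ => ⟨fun h => h ▸ b4_dvd_sub_mod Q n, fun h => ?_⟩
    rw [b4_mod_congr hQ h, (b4_mem_res hQ).1 ha]
  rw [e]
  rcases (S.filter (fun n => Q ∣ n - a)).eq_empty_or_nonempty with h0 | ⟨n0, h0⟩
  · simp [h0]
  · obtain ⟨h1, h2⟩ := Finset.mem_filter.1 h0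
    have e2 : ∑ n ∈ S.filter (fun n => Q ∣ n - a), f n * c n =
        c n0 * ∑ n ∈ S.filter (fun n => Q ∣ n - a), f n := by
      rw [Finset.mul_sum]
      refine Finset.sum_congr rfl fun n hn => ?_
      obtain ⟨h3, h4⟩ := Finset.mem_filter.1 hn
      rw [hc n h3 n0 h1 (by simpa using dvd_sub h4 h2), mul_comm]
    rw [e2, norm_mul]
    have := hb n0 h1
    gcongr

/-! ### the three estimates -/

theorem va3_log (B : ℕ) {ε : ℝ} (hε : 0 < ε) : ∃ C : ℝ, 0 ≤ C ∧ ∀ v : ℝ, 0 ≤ v →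
    (1 + v) ^ B ≤ C * Real.exp (ε * v) := by
  set δ : ℝ := ε / (B + 1) with hδ
  have hδ0 : 0 < δ := by positivity
  refine ⟨(1 + δ⁻¹) ^ B, by positivity, fun v hv => ?_⟩
  have h1 : 1 + v ≤ (1 + δ⁻¹) * Real.exp (δ * v) := by
    have a := Real.add_one_le_exp (δ * v)
    have b : (1 + δ⁻¹) * (δ * v + 1) = 1 + v + (δ * v + δ⁻¹) := by field_simp; ring
    have c : 0 ≤ δ * v + δ⁻¹ := by positivity
    calc 1 + v ≤ (1 + δ⁻¹) * (δ * v + 1) := by linarith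
      _ ≤ _ := by gcongr
  have h2 : B * (δ * v) ≤ ε * v := by
    have : B * δ ≤ ε := by
      rw [hδ, mul_div_assoc', div_le_iff₀ (by positivity)]; nlinarith
    nlinarith
  calc (1 + v) ^ B ≤ ((1 + δ⁻¹) * Real.exp (δ * v)) ^ B := by gcongr
    _ = (1 + δ⁻¹) ^ B * Real.exp (B * (δ * v)) := by rw [mul_pow, Real.exp_nat_mul]
    _ ≤ _ := by gcongr

theorem va3_dv {ε : ℝ} (hε : 0 < ε) : ∃ C : ℝ, 0 ≤ C ∧ ∀ (n : O) (M : ℝ), n ≠ 0 → N n ≤ M →
    dv n ≤ C * M ^ ε := by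
  obtain ⟨C, h⟩ := card_pdiv_le hε
  refine ⟨|C|, abs_nonneg _, fun n M hn hM => (h n hn).trans ?_⟩
  have := N_nonneg n
  have := le_abs_self C
  have := abs_nonneg C
  gcongr

theorem va3_nt {ε : ℝ} (hε : 0 < ε) : ∃ C : ℝ, 0 ≤ C ∧ ∀ (M : ℝ) (S : Finset O) (u : O → ℂ),
    0 ≤ M → S ⊆ sfb M → Real.sqrt (nt S u) ≤ C * M ^ ε * Real.sqrt (n2 S u) := by
  obtain ⟨C, hC, h⟩ := va3_dv (half_pos hε)
  refine ⟨C ^ 2, by positivity, fun M S u hM hS => ?_⟩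
  have e : C ^ 2 * M ^ ε = (C * M ^ (ε / 2)) ^ 2 := by
    rw [mul_pow, ← Real.rpow_natCast (M ^ (ε / 2)), ← Real.rpow_mul hM]; norm_num
  have h1 : nt S u ≤ ((C * M ^ (ε / 2)) ^ 2) ^ 2 * n2 S u := by
    unfold nt n2
    rw [Finset.mul_sum]
    refine Finset.sum_le_sum fun n hn => ?_
    obtain ⟨a, b⟩ := mem_sfb.1 (hS hn)
    have c := one_le_dv a.1.ne_zero
    have d := h n M a.1.ne_zero b
    have f : dv n ^ 3 ≤ ((C * M ^ (ε / 2)) ^ 2) ^ 2 := by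
      calc dv n ^ 3 ≤ dv n ^ 4 := pow_le_pow_right₀ c (by norm_num)
        _ ≤ (C * M ^ (ε / 2)) ^ 4 := by gcongr
        _ = _ := by ring
    rw [mul_comm]
    gcongr
  refine (Real.sqrt_le_sqrt h1).trans (le_of_eq ?_)
  rw [Real.sqrt_mul (sq_nonneg _), Real.sqrt_sq (sq_nonneg _), e]

theorem va3_rpow_le {w e : ℝ} (hw : 1 ≤ w) (he : e ≤ 1) : w ^ e ≤ w := by
  simpa using Real.rpow_le_rpow_of_exponent_le hw he

theorem va3_real1 {X M w E : ℝ} (hX : 1 ≤ X) (hM : 1 ≤ M) (hw : 1 ≤ w) (hE0 : 0 ≤ E)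
    (hE : E ≤ w * X) : Real.sqrt (16 * M) * Real.sqrt E * (E / Real.sqrt (16 * M)) ^ (1 / 5 : ℝ) ≤
      4 * w ^ 2 * (Real.sqrt (M * X) * (X / Real.sqrt M) ^ (1 / 5 : ℝ)) := by
  have hM0 : 0 < Real.sqrt M := Real.sqrt_pos.2 (by linarith)
  have e1 : Real.sqrt (16 * M) = 4 * Real.sqrt M := by
    rw [Real.sqrt_mul (by norm_num), show (16 : ℝ) = 4 ^ 2 by norm_num, Real.sqrt_sq (by norm_num)]
  have e2 : Real.sqrt E ≤ w * Real.sqrt X := by
    rw [Real.sqrt_le_left (by positivity), mul_pow, Real.sq_sqrt (by linarith)]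
    nlinarith [mul_le_mul_of_nonneg_right hw (by nlinarith : 0 ≤ w * X)]
  have e3 : (E / (4 * Real.sqrt M)) ^ (1 / 5 : ℝ) ≤ w * (X / Real.sqrt M) ^ (1 / 5 : ℝ) := by
    calc _ ≤ (w * (X / Real.sqrt M)) ^ (1 / 5 : ℝ) := by
          refine Real.rpow_le_rpow (by positivity) ?_ (by norm_num)
          rw [← mul_div_assoc]
          gcongr
          linarith
      _ = w ^ (1 / 5 : ℝ) * (X / Real.sqrt M) ^ (1 / 5 : ℝ) :=
          Real.mul_rpow (by linarith) (by positivity)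
      _ ≤ _ := by
          have := va3_rpow_le hw (by norm_num : (1 / 5 : ℝ) ≤ 1)
          gcongr
  rw [e1, Real.sqrt_mul (by linarith)]
  calc _ ≤ 4 * Real.sqrt M * (w * Real.sqrt X) * (w * (X / Real.sqrt M) ^ (1 / 5 : ℝ)) := by gcongr
    _ = _ := by ring

/-- the main term -/
def va3_M (q : O) (φ0 : O → ℂ) (v T : ℝ) (s : ℂ) (n : O) : ℂ :=
  ser 0 (va3_phi q φ0 (va3_g q n)) (n / gp n q) * ((N (n / gp n q) ^ (5 / 6 : ℝ) : ℝ) : ℂ) *
    mainW (5 / 6) (-s) (v + lg (gp n q)) T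

theorem va3_In {S : Finset O} {M : ℝ} (h : In S M) : S ⊆ sfb (16 * M) :=
  fun n hn => mem_sfb.2 ⟨(h n hn).1, (h n hn).2.2⟩

theorem va3_three {q : O} (h : (9 : O) ∣ q) : (3 : O) ∣ q ^ 2 :=
  ((Dvd.intro 3 (by norm_num) : (3 : O) ∣ 9).trans h).trans (dvd_pow_self q two_ne_zero)

theorem va3_err1 : ∃ B0 : ℕ, ∀ ε : ℝ, 0 < ε → ε ≤ 1 → ∃ C : ℝ, 0 ≤ C ∧ ∀ (q : O), q ≠ 0 →
    (9 : O) ∣ q → ∀ φ0 : O → ℂ, Per q φ0 → (∀ m, ‖φ0 m‖ ≤ 1) →
    ∀ (X M T v : ℝ) (s : ℂ) (S : Finset O) (y : O → ℂ), 1 ≤ M → 16 * M ≤ X ^ 2 → 1 ≤ X → 1 ≤ T →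
    |s.re| ≤ 4 → In S M → Real.log X ≤ v → v ≤ Real.log (2 * X) →
    ‖∑ n ∈ S, y n * (N (gp n q) : ℂ) ^ (-s) * (va3_W q φ0 v T s n - va3_M q φ0 v T s n)‖ ≤
      C * (X * M) ^ ε * N q ^ B0 * Real.sqrt (n2 S y) *
        ((T + |s.im|) ^ B0 * Real.sqrt (M * X) * (X / Real.sqrt M) ^ (1 / 5 : ℝ)) *
        Real.exp (s.re * v) := by
  obtain ⟨C, B, hC, h⟩ := vas 0
  refine ⟨2 * B + 5, fun ε hε hε1 => ?_⟩
  obtain ⟨CL, hCL, hL⟩ := va3_log B hε
  obtain ⟨Cn, hCn, hnt⟩ := va3_nt hε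
  refine ⟨512 * (C * CL * Cn), by positivity,
    fun q hq h9 φ0 hφ hφ1 X M T v s S y hM hMX hX hT hs hS hv1 hv2 => ?_⟩
  have hX0 : 0 < X := by linarith
  have hM0 : 0 < M := by linarith
  have hq1 := one_le_N hq
  have hTs : 1 ≤ T + |s.im| := by linarith [abs_nonneg s.im]
  have hv0 : 0 ≤ v := (Real.log_nonneg hX).trans hv1
  have hev1 : X ≤ Real.exp v := (Real.log_le_iff_le_exp hX0).1 hv1
  have hev2 : Real.exp v ≤ 2 * X := (Real.le_log_iff_exp_le (by positivity)).1 hv2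
  set P : ℝ := Real.sqrt (M * X) * (X / Real.sqrt M) ^ (1 / 5 : ℝ) with hP
  set E0 : ℝ := C * N q ^ (2 * B) * (T + |s.im|) ^ B * (CL * (2 * N q * X ^ ε)) *
    (Cn * (16 * M ^ ε) * Real.sqrt (n2 S y)) * (4 * (2 * N q) ^ 2 * P) * Real.exp (s.re * v) with hE0
  have fib : ∀ g ∈ pdiv q ×ˢ res q, ‖∑ n ∈ S.filter (fun n => va3_g q n = g),
      y n * (N (gp n q) : ℂ) ^ (-s) * (va3_W q φ0 v T s n - va3_M q φ0 v T s n)‖ ≤ E0 := by
    intro g hg
    obtain ⟨hg1, hg2⟩ := (mem_pdiv hq).1 (Finset.mem_product.1 hg).1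
    have hg0 := hg1.ne_zero
    have hgN := N_pos hg0
    set F := S.filter (fun n => va3_g q n = g) with hF
    have hF1 : ∀ n ∈ F, SF n ∧ va3_g q n = g ∧ gp n q = g.1 ∧ g.1 * (n / g.1) = n := by
      intro n hn
      obtain ⟨a, b⟩ := Finset.mem_filter.1 hn
      have c : gp n q = g.1 := congrArg Prod.fst b
      exact ⟨(hS n a).1, b, c, c ▸ va3_fac (hS n a).1 q⟩
    have hinj : Set.InjOn (fun n => n / g.1) F := fun a ha b hb hab => by
      rw [← (hF1 a ha).2.2.2, ← (hF1 b hb).2.2.2]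
      exact congrArg (g.1 * ·) hab
    have hsub : F.image (fun n => n / g.1) ⊆ sfb (16 * M) := by
      intro r hr
      obtain ⟨n, hn, rfl⟩ := Finset.mem_image.1 hr
      obtain ⟨a, -, c, -⟩ := hF1 n hn
      rw [← c]
      exact mem_sfb.2 ⟨(va3_sf a q).1, (va3_N_le a q).trans (hS n (Finset.mem_filter.1 hn).1).2.2⟩
    have hlg : 0 ≤ lg g.1 := Real.log_nonneg (one_le_N hg0)
    have hE : Real.exp (v + lg g.1) ≤ 2 * N q * X := by
      rw [Real.exp_add, lg, Real.exp_log hgN]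
      have := N_le_of_dvd hq hg2
      calc _ ≤ 2 * X * N q := by gcongr
        _ = _ := by ring
    have h1 := h (q ^ 2) (pow_ne_zero 2 hq) (va3_three h9) (va3_phi q φ0 g)
      (va3_phi_per hφ hg0 hg2) (va3_phi_le q hφ1 g) (16 * M) (v + lg g.1) T (-s)
      (F.image fun n => n / g.1) (fun r => y (g.1 * r)) (by linarith) (by
        have a : Real.exp v ≤ Real.exp (v + lg g.1) := Real.exp_le_exp.2 (by linarith)
        rw [two_mul, Real.exp_add]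
        nlinarith) hT (by simpa using hs) hsub (by
        intro r hr
        obtain ⟨n, hn, rfl⟩ := Finset.mem_image.1 hr
        obtain ⟨a, -, c, -⟩ := hF1 n hn
        rw [← c]
        exact (gp_spec a q).2.2.2.2.pow_right)
    have e1 : ∑ n ∈ F, y n * (N (gp n q) : ℂ) ^ (-s) * (va3_W q φ0 v T s n - va3_M q φ0 v T s n) =
        (N g.1 : ℂ) ^ (-s) * ∑ r ∈ F.image (fun n => n / g.1), y (g.1 * r) *
          (winS (fun k => h3 0 (va3_phi q φ0 g) (r * k)) (v + lg g.1) T (-s) -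
            ser 0 (va3_phi q φ0 g) r * ((N r ^ (5 / 6 : ℝ) : ℝ) : ℂ) *
              mainW (5 / 6) (-s) (v + lg g.1) T) := by
      rw [Finset.sum_image hinj, Finset.mul_sum]
      refine Finset.sum_congr rfl fun n hn => ?_
      obtain ⟨-, b, c, d⟩ := hF1 n hn
      rw [va3_W, va3_M, b, c, d]
      ring
    have e2 : n2 (F.image fun n => n / g.1) (fun r => y (g.1 * r)) ≤ n2 S y := by
      unfold n2
      rw [Finset.sum_image hinj]
      calc _ = ∑ n ∈ F, ‖y n‖ ^ 2 := Finset.sum_congr rfl fun n hn => by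
            simp only [(hF1 n hn).2.2.2]
        _ ≤ _ := Finset.sum_le_sum_of_subset_of_nonneg (Finset.filter_subset _ _)
            fun _ _ _ => by positivity
    have e3 : Real.sqrt (nt (F.image fun n => n / g.1) (fun r => y (g.1 * r))) ≤
        Cn * (16 * M ^ ε) * Real.sqrt (n2 S y) := by
      refine (hnt (16 * M) _ _ (by positivity) hsub).trans ?_
      rw [Real.mul_rpow (by norm_num) hM0.le]
      have := va3_rpow_le (by norm_num : (1 : ℝ) ≤ 16) hε1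
      gcongr
    have e4 : (1 + (v + lg g.1)) ^ B ≤ CL * (2 * N q * X ^ ε) := by
      refine (hL _ (by linarith)).trans ?_
      rw [mul_comm ε, Real.exp_mul]
      have a : Real.exp (v + lg g.1) ^ ε ≤ (2 * N q * X) ^ ε := by gcongr
      rw [Real.mul_rpow (by positivity) hX0.le] at a
      have b := va3_rpow_le (by linarith : 1 ≤ 2 * N q) hε1
      have c : (2 * N q) ^ ε * X ^ ε ≤ 2 * N q * X ^ ε := by gcongr
      gcongr
      exact a.trans c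
    have e5 := va3_real1 hX hM (by linarith : 1 ≤ 2 * N q) (Real.exp_pos _).le hE
    rw [← Real.exp_half] at e5
    have e6 : ‖(N g.1 : ℂ) ^ (-s)‖ * Real.exp (-((-s).re * (v + lg g.1))) =
        Real.exp (s.re * v) := by
      rw [Complex.norm_cpow_eq_rpow_re_of_pos hgN, Real.rpow_def_of_pos hgN, ← Real.exp_add, lg]
      congr 1
      simp only [Complex.neg_re]
      ring
    rw [Complex.neg_im, abs_neg, N_pow, ← pow_mul] at h1
    rw [e1, norm_mul, hE0, ← e6]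
    calc _ ≤ ‖(N g.1 : ℂ) ^ (-s)‖ * (C * N q ^ (2 * B) * (T + |s.im|) ^ B *
          (CL * (2 * N q * X ^ ε)) * (Cn * (16 * M ^ ε) * Real.sqrt (n2 S y)) *
          (4 * (2 * N q) ^ 2 * P) * Real.exp (-((-s).re * (v + lg g.1)))) := by
          refine mul_le_mul_of_nonneg_left (h1.trans ?_) (norm_nonneg _)
          gcongr
      _ = _ := by ring
  rw [← Finset.sum_fiberwise_of_maps_to (g := va3_g q) (t := pdiv q ×ˢ res q)
    (fun n hn => va3_g_mem hq (hS n hn).1)]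
  refine (norm_sum_le _ _).trans ((Finset.sum_le_card_nsmul _ _ E0 fib).trans ?_)
  have hcard : ((pdiv q ×ˢ res q).card : ℝ) ≤ N q * N q := by
    rw [Finset.card_product, card_res hq, Nat.cast_mul]
    exact mul_le_mul_of_nonneg_right (card_pdiv_le_N hq) (Nat.cast_nonneg _)
  have hTB : (T + |s.im|) ^ B ≤ (T + |s.im|) ^ (2 * B + 5) := pow_le_pow_right₀ hTs (by omega)
  rw [nsmul_eq_mul, Real.mul_rpow hX0.le hM0.le, mul_assoc ((T + |s.im|) ^ (2 * B + 5)), ← hP]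
  calc _ ≤ N q * N q * E0 := by gcongr
    _ = 512 * (C * CL * Cn) * (X ^ ε * M ^ ε) * N q ^ (2 * B + 5) * Real.sqrt (n2 S y) *
        ((T + |s.im|) ^ B * P) * Real.exp (s.re * v) := by rw [hE0]; ring
    _ ≤ _ := by gcongr

theorem va3_mw {n1 : O} (h0 : n1 ≠ 0) {s : ℂ} (hs : |s.re| ≤ 4) (v : ℝ) {T : ℝ} (hT : 1 ≤ T) :
    ‖(N n1 : ℂ) ^ (-s) * mainW (5 / 6) (-s) (v + lg n1) T‖ ≤
      2 * Real.exp 7 / T * Real.exp ((5 / 6 + s.re) * v) * N n1 ^ (5 / 6 : ℝ) := by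
  have hN := N_pos h0
  have hre : (5 / 6 : ℂ).re - (-s).re = 5 / 6 + s.re := by
    simp only [Complex.neg_re, sub_neg_eq_add]
    norm_num
  have h := norm_mainW_le (p := 5 / 6) (s := -s) (v + lg n1) hT (by
    rw [hre]; rw [abs_le] at hs ⊢; constructor <;> linarith)
  rw [hre] at h
  rw [norm_mul, Complex.norm_cpow_eq_rpow_re_of_pos hN]
  have e : N n1 ^ (-s).re * Real.exp ((5 / 6 + s.re) * (v + lg n1)) =
      Real.exp ((5 / 6 + s.re) * v) * N n1 ^ (5 / 6 : ℝ) := by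
    rw [Real.rpow_def_of_pos hN, Real.rpow_def_of_pos hN, ← Real.exp_add, ← Real.exp_add, lg]
    congr 1
    simp only [Complex.neg_re]
    ring
  calc _ ≤ N n1 ^ (-s).re * (2 * Real.exp 7 / T * Real.exp ((5 / 6 + s.re) * (v + lg n1))) := by
        gcongr
    _ = 2 * Real.exp 7 / T * (N n1 ^ (-s).re * Real.exp ((5 / 6 + s.re) * (v + lg n1))) := by ring
    _ = _ := by rw [e]; ring

/-- the truncated singular series -/
def va3_tr (φ : O → ℂ) (Δ : ℝ) (r : O) : ℂ :=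
  ∑ d ∈ (ball Δ).filter Prim, mu d * ((N (EuclideanDomain.gcd r d) / (N d ^ 2 * N r) : ℝ) : ℂ) *
    resid 0 (fun m => φ (d ^ 3 * m))

/-- the truncated main term -/
def va3_T (q : O) (φ0 : O → ℂ) (Δ v T : ℝ) (s : ℂ) (n : O) : ℂ :=
  va3_tr (va3_phi q φ0 (va3_g q n)) Δ (n / gp n q) * ((N (n / gp n q) ^ (5 / 6 : ℝ) : ℝ) : ℂ) *
    mainW (5 / 6) (-s) (v + lg (gp n q)) T

theorem va3_real2 {a b : ℝ} (ha : 0 < a) (hb : 0 < b) :
    a ^ (5 / 6 : ℝ) * b ^ (5 / 6 : ℝ) / b = a * (a * b) ^ (-(1 / 6 : ℝ)) := by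
  have e1 : a ^ (5 / 6 : ℝ) = a * a ^ (-(1 / 6 : ℝ)) := by
    rw [← Real.rpow_one_add' ha.le (by norm_num)]; norm_num
  have e2 : b ^ (5 / 6 : ℝ) = b * b ^ (-(1 / 6 : ℝ)) := by
    rw [← Real.rpow_one_add' hb.le (by norm_num)]; norm_num
  rw [e1, e2, Real.mul_rpow ha.le hb.le]
  field_simp

theorem va3_err2 : ∃ B0 : ℕ, ∀ ε : ℝ, 0 < ε → ε ≤ 1 → ∃ C : ℝ, 0 ≤ C ∧ ∀ (q : O), q ≠ 0 →
    (9 : O) ∣ q → ∀ φ0 : O → ℂ, Per q φ0 → (∀ m, ‖φ0 m‖ ≤ 1) →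
    ∀ (M T Δ v : ℝ) (s : ℂ) (S : Finset O) (y : O → ℂ), 1 ≤ M → 1 ≤ T → 1 ≤ Δ →
    |s.re| ≤ 4 → In S M →
    ‖∑ n ∈ S, y n * (N (gp n q) : ℂ) ^ (-s) * (va3_M q φ0 v T s n - va3_T q φ0 Δ v T s n)‖ ≤
      C * M ^ ε * N q ^ B0 * Real.sqrt (n2 S y) * (M ^ (1 / 3 : ℝ) / Δ) *
        Real.exp ((5 / 6 + s.re) * v) / T := by
  obtain ⟨C, B, hC, h⟩ := ser_bound
  refine ⟨2 * B + 1, fun ε hε hε1 => ?_⟩
  obtain ⟨Cd, hCd, hd⟩ := va3_dv hε
  refine ⟨C * Cd * (2 * Real.exp 7) * 16 * 17, by positivity,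
    fun q hq h9 φ0 hφ hφ1 M T Δ v s S y hM hT hΔ hs hS => ?_⟩
  have hM0 : 0 < M := by linarith
  have hT0 : 0 < T := by linarith
  have hΔ0 : 0 < Δ := by linarith
  have hq0 := N_pos hq
  set K : ℝ := C * N q ^ (2 * B) * (Cd * (16 * M ^ ε)) / Δ *
    (2 * Real.exp 7 / T * Real.exp ((5 / 6 + s.re) * v)) * (N q * M ^ (-(1 / 6 : ℝ))) with hK
  have h1 : ∀ n ∈ S, ‖y n * (N (gp n q) : ℂ) ^ (-s) *
      (va3_M q φ0 v T s n - va3_T q φ0 Δ v T s n)‖ ≤ ‖y n‖ * K := by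
    intro n hn
    obtain ⟨hsf, hn1, hn2⟩ := hS n hn
    obtain ⟨g1, -, g2, -, -⟩ := gp_spec hsf q
    have r1 := (va3_sf hsf q).1
    have a0 := N_pos g1.1.ne_zero
    have b0 := N_pos r1.1.ne_zero
    have a := (h 0 (q ^ 2) (pow_ne_zero 2 hq) (va3_three h9) (va3_phi q φ0 (va3_g q n))
      (va3_phi_per hφ g1.1.ne_zero g2) (va3_phi_le q hφ1 _) (n / gp n q) r1).2.2 Δ hΔ
    rw [N_pow, ← pow_mul] at a
    have b := va3_mw g1.1.ne_zero hs v hT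
    have c : dv (n / gp n q) ≤ Cd * (16 * M ^ ε) := by
      refine (hd _ (16 * M) r1.1.ne_zero ((va3_N_le hsf q).trans hn2)).trans ?_
      rw [Real.mul_rpow (by norm_num) hM0.le]
      have := va3_rpow_le (by norm_num : (1 : ℝ) ≤ 16) hε1
      gcongr
    have d : N (gp n q) ^ (5 / 6 : ℝ) * N (n / gp n q) ^ (5 / 6 : ℝ) / N (n / gp n q) ≤
        N q * M ^ (-(1 / 6 : ℝ)) := by
      rw [va3_real2 a0 b0, va3_N hsf]
      have := N_le_of_dvd hq g2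
      have : N n ^ (-(1 / 6 : ℝ)) ≤ M ^ (-(1 / 6 : ℝ)) :=
        Real.rpow_le_rpow_of_nonpos hM0 hn1 (by norm_num)
      have := Real.rpow_nonneg (N_nonneg n) (-(1 / 6 : ℝ))
      gcongr
    have e : y n * (N (gp n q) : ℂ) ^ (-s) * (va3_M q φ0 v T s n - va3_T q φ0 Δ v T s n) =
        y n * ((ser 0 (va3_phi q φ0 (va3_g q n)) (n / gp n q) -
          va3_tr (va3_phi q φ0 (va3_g q n)) Δ (n / gp n q)) *
          (((N (gp n q) : ℂ) ^ (-s) * mainW (5 / 6) (-s) (v + lg (gp n q)) T) *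
            ((N (n / gp n q) ^ (5 / 6 : ℝ) : ℝ) : ℂ))) := by
      rw [va3_M, va3_T]; ring
    have hdv := bb_dv_nonneg (n / gp n q)
    rw [e, norm_mul, norm_mul, norm_mul _ ((N (n / gp n q) ^ (5 / 6 : ℝ) : ℝ) : ℂ),
      Complex.norm_real, Real.norm_of_nonneg (by positivity)]
    refine mul_le_mul_of_nonneg_left ?_ (norm_nonneg _)
    calc _ ≤ C * N q ^ (2 * B) * dv (n / gp n q) / (N (n / gp n q) * Δ) *
          (2 * Real.exp 7 / T * Real.exp ((5 / 6 + s.re) * v) * N (gp n q) ^ (5 / 6 : ℝ) *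
            N (n / gp n q) ^ (5 / 6 : ℝ)) := by
          gcongr
          exact a
      _ = C * N q ^ (2 * B) * dv (n / gp n q) / Δ *
          (2 * Real.exp 7 / T * Real.exp ((5 / 6 + s.re) * v)) *
          (N (gp n q) ^ (5 / 6 : ℝ) * N (n / gp n q) ^ (5 / 6 : ℝ) / N (n / gp n q)) := by
          field_simp
      _ ≤ _ := by rw [hK]; gcongr
  have h2 : ∑ n ∈ S, ‖y n‖ ≤ 17 * Real.sqrt M * Real.sqrt (n2 S y) := by
    have a := Real.sum_mul_le_sqrt_mul_sqrt S (fun _ => (1 : ℝ)) (fun n => ‖y n‖)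
    simp only [one_mul, one_pow, Finset.sum_const, nsmul_eq_mul, mul_one] at a
    have b : Real.sqrt (S.card : ℝ) ≤ 17 * Real.sqrt M := by
      have := ls0_card_sfb (by positivity) (va3_In hS)
      rw [Real.sqrt_le_left (by positivity), mul_pow, Real.sq_sqrt hM0.le]
      linarith
    refine a.trans ?_
    unfold n2
    gcongr
  have h3 : Real.sqrt M * M ^ (-(1 / 6 : ℝ)) = M ^ (1 / 3 : ℝ) := by
    rw [Real.sqrt_eq_rpow, ← Real.rpow_add hM0]; norm_num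
  refine (norm_sum_le _ _).trans ((Finset.sum_le_sum h1).trans ?_)
  rw [← Finset.sum_mul, ← h3]
  calc _ ≤ 17 * Real.sqrt M * Real.sqrt (n2 S y) * K := by gcongr
    _ = _ := by rw [hK]; ring

theorem va3_main : ∃ (C : ℝ) (B0 : ℕ), 0 ≤ C ∧ ∀ (q : O), q ≠ 0 →
    (9 : O) ∣ q → ∀ φ0 ψ : O → ℂ, Per q φ0 → (∀ m, ‖φ0 m‖ ≤ 1) → Per q ψ → (∀ m, ‖ψ m‖ ≤ 1) →
    ∀ (M T Δ v : ℝ) (s : ℂ) (S : Finset O) (x : O → ℂ), 1 ≤ M → 1 ≤ T → |s.re| ≤ 4 → In S M →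
    ‖∑ n ∈ S, x n * ψ n * g3 n * (N (gp n q) : ℂ) ^ (-s) * va3_T q φ0 Δ v T s n‖ ≤
      C * N q ^ B0 * M ^ (-(1 / 6 : ℝ)) *
        (∑ d ∈ ball Δ, ∑ a ∈ res (q ^ 2 * d), ‖fam2 S x M (q ^ 2 * d) a (-1 / 6)‖) *
        Real.exp ((5 / 6 + s.re) * v) / T := by
  obtain ⟨B, h⟩ := vor_div
  refine ⟨2 * Real.exp 7, 2 * B + 1, by positivity,
    fun q hq h9 φ0 ψ hφ hφ1 hψ hψ1 M T Δ v s S x hM hT hs hS => ?_⟩
  have hM0 : 0 < M := by linarith
  have hT0 : 0 < T := by linarith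
  have hq0 := N_pos hq
  set c : O → O → ℂ := fun d n => ψ n * cub n lam * mu d *
    ((N (EuclideanDomain.gcd (n / gp n q) d) / N d ^ 2 : ℝ) : ℂ) *
    resid 0 (fun m => va3_phi q φ0 (va3_g q n) (d ^ 3 * m)) *
    ((N (gp n q) : ℂ) ^ (-s) * mainW (5 / 6) (-s) (v + lg (gp n q)) T *
      ((N (gp n q) ^ (1 / 6 : ℝ) * M ^ (-(1 / 6 : ℝ)) : ℝ) : ℂ)) with hc
  set K : ℝ := N q ^ (2 * B) * (2 * Real.exp 7 / T * Real.exp ((5 / 6 + s.re) * v) *
    (N q * M ^ (-(1 / 6 : ℝ)))) with hK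
  have e1 : ∑ n ∈ S, x n * ψ n * g3 n * (N (gp n q) : ℂ) ^ (-s) * va3_T q φ0 Δ v T s n =
      ∑ d ∈ (ball Δ).filter Prim, ∑ n ∈ S, x n * GG n * pw M n (-1 / 6) * c d n := by
    rw [Finset.sum_comm]
    refine Finset.sum_congr rfl fun n hn => ?_
    have hsf := (hS n hn).1
    have a0 := N_pos (gp_spec hsf q).1.1.ne_zero
    have b0 := N_pos (va3_sf hsf q).1.1.ne_zero
    have f1 : g3 n = GG n * cub n lam := by
      have a := norm_GG hsf
      rw [GG, norm_mul, norm_g3 hsf.1.isCoprime_three hsf.2, one_mul, Complex.norm_conj] at a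
      rw [GG, mul_assoc, mul_comm (conj (cub n lam)), Complex.mul_conj, Complex.normSq_eq_norm_sq, a]
      simp
    have f2 : pw M n (-1 / 6) = (((N n / M) ^ (-(1 / 6 : ℝ)) : ℝ) : ℂ) := by
      rw [pw, Complex.ofReal_cpow (div_nonneg (N_nonneg n) hM0.le)]
      congr 1
      push_cast
      ring
    have f3 : (N n / M) ^ (-(1 / 6 : ℝ)) * (N (gp n q) ^ (1 / 6 : ℝ) * M ^ (-(1 / 6 : ℝ))) =
        N (n / gp n q) ^ (5 / 6 : ℝ) / N (n / gp n q) := by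
      have t1 := va3_real2 one_pos b0
      rw [Real.one_rpow, one_mul, one_mul, one_mul] at t1
      have t2 := Real.rpow_pos_of_pos hM0 (-(1 / 6 : ℝ))
      have t3 := Real.rpow_pos_of_pos a0 (1 / 6 : ℝ)
      rw [t1, ← va3_N hsf q, Real.div_rpow (by positivity) hM0.le, Real.mul_rpow a0.le b0.le,
        Real.rpow_neg a0.le]
      field_simp
    rw [va3_T, va3_tr, Finset.sum_mul, Finset.sum_mul, Finset.mul_sum]
    refine Finset.sum_congr rfl fun d _ => ?_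
    have f4 : N (EuclideanDomain.gcd (n / gp n q) d) / (N d ^ 2 * N (n / gp n q)) *
        N (n / gp n q) ^ (5 / 6 : ℝ) = N (EuclideanDomain.gcd (n / gp n q) d) / N d ^ 2 *
        ((N n / M) ^ (-(1 / 6 : ℝ)) * (N (gp n q) ^ (1 / 6 : ℝ) * M ^ (-(1 / 6 : ℝ)))) := by
      rw [f3, ← div_div]; ring
    have f5 := congrArg (fun r : ℝ => (r : ℂ)) f4
    simp only [Complex.ofReal_mul] at f5
    simp only [hc]
    rw [f1, f2, Complex.ofReal_mul]
    linear_combination (x n * ψ n * GG n * cub n lam * (N (gp n q) : ℂ) ^ (-s) * mu d *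
      resid 0 (fun m => va3_phi q φ0 (va3_g q n) (d ^ 3 * m)) *
      mainW (5 / 6) (-s) (v + lg (gp n q)) T) * f5
  have e2 : ∀ d ∈ (ball Δ).filter Prim, ‖∑ n ∈ S, x n * GG n * pw M n (-1 / 6) * c d n‖ ≤
      K * ∑ a ∈ res (q ^ 2 * d), ‖fam2 S x M (q ^ 2 * d) a (-1 / 6)‖ := by
    intro d hd
    have hd0 := (Finset.mem_filter.1 hd).2.ne_zero
    have hd1 := one_le_N hd0
    refine va3_class (mul_ne_zero (pow_ne_zero 2 hq) hd0) S _ (c d) (fun n hn n' hn' hnn => ?_)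
      fun n hn => ?_
    · obtain ⟨a, b⟩ := va3_g_congr hq (hS n hn).1 (hS n' hn').1 hnn
      have hq1 : q ∣ n - n' := (Dvd.intro (q * d) (by ring)).trans hnn
      have a1 : gp n q = gp n' q := congrArg Prod.fst a
      simp only [hc]
      rw [hψ.congr hq1, cub_lam_congr (hS n hn).1.1 (hS n' hn').1.1 (h9.trans hq1),
        va3_gcd hd0 b, a, a1]
    · have hsf := (hS n hn).1
      obtain ⟨g1, -, g2, -, -⟩ := gp_spec hsf q
      have a0 := N_pos g1.1.ne_zero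
      have p1 : Per (q ^ 2) fun m => va3_phi q φ0 (va3_g q n) (d ^ 3 * m) := fun m t =>
        (va3_phi_per hφ (g := va3_g q n) g1.1.ne_zero g2).congr ⟨d ^ 3 * t, by ring⟩
      have a := (h 0 (q ^ 2) (pow_ne_zero 2 hq) (va3_three h9) _ p1
        (fun m => va3_phi_le q hφ1 _ _)).1
      rw [N_pow, ← pow_mul] at a
      have b := va3_mw g1.1.ne_zero hs v hT
      have b1 : ‖((N (EuclideanDomain.gcd (n / gp n q) d) / N d ^ 2 : ℝ) : ℂ)‖ ≤ 1 := by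
        have := N_le_of_dvd hd0 (EuclideanDomain.gcd_dvd_right (n / gp n q) d)
        have := N_nonneg (EuclideanDomain.gcd (n / gp n q) d)
        rw [Complex.norm_real, Real.norm_of_nonneg (by positivity), div_le_one (by positivity)]
        nlinarith
      have b2 : N (gp n q) ^ (5 / 6 : ℝ) * N (gp n q) ^ (1 / 6 : ℝ) ≤ N q := by
        rw [← Real.rpow_add a0]
        norm_num
        exact N_le_of_dvd hq g2
      have b3 := hψ1 n
      have b4 := ls0_norm_cub hsf.1 lam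
      have b5 := norm_mu_le d
      simp only [hc]
      rw [norm_mul, norm_mul, norm_mul, norm_mul, norm_mul,
        norm_mul _ ((N (gp n q) ^ (1 / 6 : ℝ) * M ^ (-(1 / 6 : ℝ)) : ℝ) : ℂ),
        Complex.norm_real (N (gp n q) ^ (1 / 6 : ℝ) * M ^ (-(1 / 6 : ℝ))),
        Real.norm_of_nonneg (by positivity)]
      calc _ ≤ 1 * 1 * 1 * 1 * N q ^ (2 * B) * (2 * Real.exp 7 / T * Real.exp ((5 / 6 + s.re) * v) *
            N (gp n q) ^ (5 / 6 : ℝ) * (N (gp n q) ^ (1 / 6 : ℝ) * M ^ (-(1 / 6 : ℝ)))) := by gcongr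
        _ = N q ^ (2 * B) * (2 * Real.exp 7 / T * Real.exp ((5 / 6 + s.re) * v) *
            (N (gp n q) ^ (5 / 6 : ℝ) * N (gp n q) ^ (1 / 6 : ℝ) * M ^ (-(1 / 6 : ℝ)))) := by ring
        _ ≤ _ := by rw [hK]; gcongr
  rw [e1]
  refine (norm_sum_le _ _).trans ((Finset.sum_le_sum e2).trans ?_)
  rw [← Finset.mul_sum]
  calc _ ≤ K * ∑ d ∈ ball Δ, ∑ a ∈ res (q ^ 2 * d), ‖fam2 S x M (q ^ 2 * d) a (-1 / 6)‖ := by
        refine mul_le_mul_of_nonneg_left (Finset.sum_le_sum_of_subset_of_nonneg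
          (Finset.filter_subset _ _) fun _ _ _ => by positivity) (by positivity)
    _ = _ := by rw [hK]; ring

theorem va3_smooth (ε : ℝ) (hε : 0 < ε) : ∃ C : ℝ, 0 ≤ C ∧ ∀ φ0 : O → ℂ, (∀ m, ‖φ0 m‖ ≤ 1) →
    ∀ (X M T : ℝ) (s : ℂ) (S : Finset O) (y : O → ℂ), 1 ≤ M → 1 ≤ X → 1 ≤ T → |s.re| ≤ 4 →
    S ⊆ sfb M →
    ‖∑ n ∈ S, y n * ∑ j ∈ sfI X (2 * X), conj (g3 j) * cub n j * φ0 j * pw X j s -
        plS (va3_A φ0 S y X s) T (Real.log X) (Real.log (2 * X))‖ ≤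
      C * (X * M) ^ ε * Real.sqrt (X + M + (X * M) ^ (2 / 3 : ℝ)) *
        Real.sqrt (X / T + Real.sqrt X) * Real.sqrt (n2 S y) := by
  obtain ⟨C, hC, h⟩ := smooth_err ε hε
  refine ⟨C, hC, fun φ0 hφ1 X M T s S y hM hX hT hs hS => ?_⟩
  have hX0 : 0 < X := by linarith
  have hS' : ∀ n ∈ S, SF n := fun n hn => (mem_sfb.1 (hS hn)).1
  have hA0 : ∀ j, ¬ SF j → va3_A φ0 S y X s j = 0 := by
    intro j hj
    refine Finset.sum_eq_zero fun n _ => ?_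
    by_cases hp : Prim j
    · simp [va3_a, g3_eq_zero hp fun h => hj ⟨hp, h⟩]
    · simp [va3_a, hp]
  have hA1 : ∀ j, SF j → ‖va3_A φ0 S y X s j‖ ≤ (N j / X) ^ s.re * ‖cs S y j‖ := by
    intro j hj
    have e : va3_A φ0 S y X s j = conj (g3 j) * φ0 j * (pw X j s * cs S y j) := by
      rw [va3_A, cs, Finset.mul_sum, Finset.mul_sum]
      refine Finset.sum_congr rfl fun n _ => ?_
      rw [va3_a, if_pos hj.1]; ring
    rw [e, norm_mul, norm_mul, norm_mul, Complex.norm_conj, va3_norm_pw hX0 hj.1.ne_zero]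
    refine mul_le_of_le_one_left ?_ (mul_le_one₀ (norm_g3_le hj.1) (norm_nonneg _) (hφ1 j))
    have := N_nonneg j
    positivity
  have h1 : HasSum (fun j : O => va3_A φ0 S y X s j *
      ((if X < N j ∧ N j ≤ 2 * X then 1 else 0 : ℝ) : ℂ))
      (∑ n ∈ S, y n * ∑ j ∈ sfI X (2 * X), conj (g3 j) * cub n j * φ0 j * pw X j s) := by
    have e : ∑ n ∈ S, y n * ∑ j ∈ sfI X (2 * X), conj (g3 j) * cub n j * φ0 j * pw X j s =
        ∑ j ∈ sfI X (2 * X), va3_A φ0 S y X s j *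
          ((if X < N j ∧ N j ≤ 2 * X then 1 else 0 : ℝ) : ℂ) := by
      simp only [Finset.mul_sum]
      rw [Finset.sum_comm]
      refine Finset.sum_congr rfl fun j hj => ?_
      obtain ⟨a, b⟩ := mem_sfI.1 hj
      rw [if_pos b, Complex.ofReal_one, mul_one, va3_A]
      refine Finset.sum_congr rfl fun n _ => ?_
      rw [va3_a, if_pos a.1]; ring
    rw [e]
    refine hasSum_sum_of_ne_finset_zero fun j hj => ?_
    by_cases a : SF j
    · rw [if_neg (fun b => hj (mem_sfI.2 ⟨a, b⟩)), Complex.ofReal_zero, mul_zero]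
    · rw [hA0 j a, zero_mul]
  have h2 := (sm_hasSum_plS (va3_polyA hφ1 hS' y hX0 hs) hT (Real.log X)
    (Real.log (2 * X))).summable.hasSum
  refine le_of_tendsto' (Filter.Tendsto.norm (h1.sub h2)) fun R => ?_
  refine (norm_sum_le _ _).trans (le_trans ?_ (h X M T s.re S (R.filter SF) y hX hM hT hs hS
    fun j hj => (Finset.mem_filter.1 hj).2))
  rw [Finset.sum_filter]
  refine Finset.sum_le_sum fun j _ => ?_
  by_cases a : SF j
  · rw [if_pos a, if_neg a.1.ne_zero, ← mul_sub, ← Complex.ofReal_sub, norm_mul, Complex.norm_real,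
      Real.norm_eq_abs, mul_right_comm]
    exact mul_le_mul_of_nonneg_right (hA1 j a) (abs_nonneg _)
  · simp [a, hA0 j a]

theorem va3_n2_le (S : Finset O) {x y : O → ℂ} (h : ∀ n ∈ S, ‖y n‖ ≤ ‖x n‖) :
    Real.sqrt (n2 S y) ≤ Real.sqrt (n2 S x) :=
  Real.sqrt_le_sqrt (Finset.sum_le_sum fun n hn => by
    have := h n hn
    gcongr)

theorem va3_exp {X v a : ℝ} (hX : 0 < X) (hv1 : Real.log X ≤ v) (hv2 : v ≤ Real.log (2 * X))
    (ha : a ≤ 5) : Real.exp (a * v) ≤ 32 * X ^ a := by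
  rw [Real.log_mul (by norm_num) hX.ne'] at hv2
  have h1 : a * (v - Real.log X) ≤ (5 : ℕ) * Real.log 2 := by
    push_cast
    nlinarith
  have h2 : Real.exp ((5 : ℕ) * Real.log 2) = 32 := by
    rw [Real.exp_nat_mul, Real.exp_log (by norm_num)]; norm_num
  rw [Real.rpow_def_of_pos hX, ← h2, ← Real.exp_add]
  exact Real.exp_le_exp.2 (by linarith)

theorem va3_real3 {C C1 C2 C3 Q q1 q2 q3 m Z e1 e2 a b T k k' r r' U U' f P g : ℝ}
    (c1 : C1 ≤ C / 32) (c2 : C2 ≤ C / 32) (c3 : C3 ≤ C / 32) (hQ1 : q1 ≤ Q) (hQ2 : q2 ≤ Q)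
    (hQ3 : q3 ≤ Q) (x1 : e1 ≤ 32 * b) (x2 : e2 ≤ 32 * (a * b)) (hk : k' ≤ k) (hr : r' ≤ r)
    (hU : U' ≤ U / T) (h1 : 0 ≤ C) (h2 : 0 ≤ q1) (h3 : 0 ≤ q2) (h4 : 0 ≤ q3) (h5 : 0 ≤ m)
    (h6 : 0 ≤ Z) (h7 : 0 ≤ e1) (h8 : 0 ≤ e2) (h9 : 0 < T) (h10 : 0 ≤ k') (h11 : 0 ≤ r')
    (h12 : 0 ≤ U') (h13 : 0 ≤ f) (h14 : 0 ≤ P) (h15 : 0 ≤ g) :
    C3 * q3 * m * Z * e2 / T + (C1 * k * q1 * r' * (U' * f * P) * e1 + C2 * k' * q2 * r' * g * e2 / T) ≤
      b * ((C * Q * a * m * Z + C * k * Q * r * (U * f * P + g * a)) / T) := by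
  have : 0 ≤ Q := h2.trans hQ1
  have : 0 ≤ k := h10.trans hk
  have : 0 ≤ r := h11.trans hr
  have : 0 ≤ U / T := h12.trans hU
  calc _ ≤ C / 32 * Q * m * Z * (32 * (a * b)) / T + (C / 32 * k * Q * r * (U / T * f * P) * (32 * b) +
        C / 32 * k * Q * r * g * (32 * (a * b)) / T) := by gcongr
    _ = _ := by ring

theorem va3_winb : ∃ B0 : ℕ, ∀ ε : ℝ, 0 < ε → ε ≤ 1 → ∃ C : ℝ, 0 ≤ C ∧ ∀ (q : O), q ≠ 0 →
    (9 : O) ∣ q →
    ∀ φ0 ψ : O → ℂ, Per q φ0 → (∀ m, ‖φ0 m‖ ≤ 1) → Per q ψ → (∀ m, ‖ψ m‖ ≤ 1) →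
    ∀ (X M T Δ : ℝ) (s : ℂ) (S : Finset O) (x : O → ℂ), 1 ≤ M → 16 * M ≤ X ^ 2 → 1 ≤ X → 1 ≤ T →
    1 ≤ Δ → |s.re| ≤ 4 → In S M → ∀ v, Real.log X ≤ v → v ≤ Real.log (2 * X) →
    ‖win (va3_A φ0 S (fun n => x n * ψ n) X s) v T‖ ≤
      (C * N q ^ B0 * X ^ (5 / 6 : ℝ) * M ^ (-(1 / 6 : ℝ)) *
        ∑ d ∈ ball Δ, ∑ a ∈ res (q ^ 2 * d), ‖fam2 S x M (q ^ 2 * d) a (-1 / 6)‖ +
      C * (X * M) ^ ε * N q ^ B0 * Real.sqrt (n2 S x) *
        ((T + |s.im|) ^ B0 * Real.sqrt (M * X) * (X / Real.sqrt M) ^ (1 / 5 : ℝ) +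
          M ^ (1 / 3 : ℝ) * X ^ (5 / 6 : ℝ) / Δ)) / T := by
  obtain ⟨B1, h1⟩ := va3_err1
  obtain ⟨B2, h2⟩ := va3_err2
  obtain ⟨C3, B3, hC3, h3⟩ := va3_main
  refine ⟨B1 + B2 + B3 + 1, fun ε hε hε1 => ?_⟩
  obtain ⟨C1, hC1, h1⟩ := h1 ε hε hε1
  obtain ⟨C2, hC2, h2⟩ := h2 ε hε hε1
  refine ⟨32 * (C1 + C2 + C3), by positivity,
    fun q hq h9 φ0 ψ hφ hφ1 hψ hψ1 X M T Δ s S x hM hMX hX hT hΔ hs hS v hv1 hv2 => ?_⟩
  have hX0 : 0 < X := by linarith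
  have hM0 : 0 < M := by linarith
  have hT0 : 0 < T := by linarith
  have hΔ0 : 0 < Δ := by linarith
  have hq1 := one_le_N hq
  have hTs : T ≤ T + |s.im| := by linarith [abs_nonneg s.im]
  have hS' : ∀ n ∈ S, SF n := fun n hn => (hS n hn).1
  have n2' : Real.sqrt (n2 S fun n => x n * ψ n * g3 n) ≤ Real.sqrt (n2 S x) :=
    va3_n2_le S fun n hn => by
      rw [mul_assoc, norm_mul, norm_mul]
      exact mul_le_of_le_one_right (norm_nonneg _)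
        (mul_le_one₀ (hψ1 n) (norm_nonneg _) (norm_g3_le (hS' n hn).1))
  have hQ1 : N q ^ B1 ≤ N q ^ (B1 + B2 + B3 + 1) := pow_le_pow_right₀ hq1 (by omega)
  have hQ2 : N q ^ B2 ≤ N q ^ (B1 + B2 + B3 + 1) := pow_le_pow_right₀ hq1 (by omega)
  have hQ3 : N q ^ B3 ≤ N q ^ (B1 + B2 + B3 + 1) := pow_le_pow_right₀ hq1 (by omega)
  have hMε : M ^ ε ≤ (X * M) ^ ε := Real.rpow_le_rpow hM0.le (by nlinarith) hε.le
  have hs' := abs_le.1 hs
  have x1 := va3_exp hX0 hv1 hv2 (by linarith : s.re ≤ 5)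
  have x2 := va3_exp hX0 hv1 hv2 (by linarith : 5 / 6 + s.re ≤ 5)
  rw [Real.rpow_add hX0] at x2
  have hXs := Real.rpow_pos_of_pos hX0 s.re
  have u1 : (T + |s.im|) ^ B1 ≤ (T + |s.im|) ^ (B1 + B2 + B3 + 1) / T := by
    rw [le_div_iff₀ hT0, pow_succ]
    have : (T + |s.im|) ^ B1 ≤ (T + |s.im|) ^ (B1 + B2 + B3) :=
      pow_le_pow_right₀ (by linarith) (by omega)
    gcongr
  have c1 : C1 ≤ 32 * (C1 + C2 + C3) / 32 := by linarith
  have c2 : C2 ≤ 32 * (C1 + C2 + C3) / 32 := by linarith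
  have c3 : C3 ≤ 32 * (C1 + C2 + C3) / 32 := by linarith
  have t1 := h1 q hq h9 φ0 hφ hφ1 X M T v s S (fun n => x n * ψ n * g3 n) hM hMX hX hT hs hS hv1 hv2
  have t2 := h2 q hq h9 φ0 hφ hφ1 M T Δ v s S (fun n => x n * ψ n * g3 n) hM hT hΔ hs hS
  have t3 := h3 q hq h9 φ0 ψ hφ hφ1 hψ hψ1 M T Δ v s S x hM hT hs hS
  have e : ∑ n ∈ S, x n * ψ n * g3 n * (N (gp n q) : ℂ) ^ (-s) * va3_W q φ0 v T s n =
      ∑ n ∈ S, x n * ψ n * g3 n * (N (gp n q) : ℂ) ^ (-s) * va3_T q φ0 Δ v T s n +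
      (∑ n ∈ S, x n * ψ n * g3 n * (N (gp n q) : ℂ) ^ (-s) *
        (va3_W q φ0 v T s n - va3_M q φ0 v T s n) +
      ∑ n ∈ S, x n * ψ n * g3 n * (N (gp n q) : ℂ) ^ (-s) *
        (va3_M q φ0 v T s n - va3_T q φ0 Δ v T s n)) := by
    rw [← Finset.sum_add_distrib, ← Finset.sum_add_distrib]
    exact Finset.sum_congr rfl fun n _ => by ring
  rw [va3_win hφ hφ1 hS' _ hX0 hT hs, norm_mul, Complex.norm_cpow_eq_rpow_re_of_pos hX0,
    Complex.neg_re, Real.rpow_neg hX0.le, e, inv_mul_le_iff₀ hXs]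
  refine (norm_add_le _ _).trans ((add_le_add t3 ((norm_add_le _ _).trans
    (add_le_add t1 t2))).trans ?_)
  refine (va3_real3 c1 c2 c3 hQ1 hQ2 hQ3 x1 x2 hMε n2' u1 (by positivity) (by positivity)
    (by positivity) (by positivity) (by positivity)
    (Finset.sum_nonneg fun _ _ => Finset.sum_nonneg fun _ _ => norm_nonneg _)
    (Real.exp_pos _).le (Real.exp_pos _).le hT0 (by positivity)
    (Real.sqrt_nonneg _) (by positivity) (Real.sqrt_nonneg _) (by positivity)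
    (by positivity)).trans (le_of_eq ?_)
  rw [div_mul_eq_mul_div]

theorem va3_real4 {X M ε : ℝ} (hX : 0 < X) (hM : 0 < M) (hε1 : ε ≤ 1) :
    (X * (16 * M)) ^ ε * Real.sqrt (X + 16 * M + (X * (16 * M)) ^ (2 / 3 : ℝ)) ≤
      64 * ((X * M) ^ ε * Real.sqrt (X + M + (X * M) ^ (2 / 3 : ℝ))) := by
  have a : ∀ e : ℝ, e ≤ 1 → (X * (16 * M)) ^ e ≤ 16 * (X * M) ^ e := fun e he => by
    rw [mul_left_comm, Real.mul_rpow (by norm_num) (by positivity)]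
    have := va3_rpow_le (by norm_num : (1 : ℝ) ≤ 16) he
    gcongr
  have b : Real.sqrt (X + 16 * M + (X * (16 * M)) ^ (2 / 3 : ℝ)) ≤
      4 * Real.sqrt (X + M + (X * M) ^ (2 / 3 : ℝ)) := by
    rw [Real.sqrt_le_left (by positivity), mul_pow, Real.sq_sqrt (by positivity)]
    have := a (2 / 3) (by norm_num)
    linarith
  have c := a ε hε1
  calc _ ≤ 16 * (X * M) ^ ε * (4 * Real.sqrt (X + M + (X * M) ^ (2 / 3 : ℝ))) := by gcongr
    _ = _ := by ring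

theorem va3_real5 {L L0 L1 C0 C1 Q a m Z k k0 k' k'' r r' U f f' g T l : ℝ} (h0 : L ≤ L0 + L1)
    (h1 : L0 ≤ C0 * k0 * f' * g * r') (h2 : L1 ≤ T * l * ((C1 * Q * a * m * Z + C1 * k * Q * r * U) / T))
    (h3 : k0 * f' ≤ 64 * (k' * f)) (hk : k' ≤ k) (hk1 : k ≤ k'') (hr : r' ≤ r) (hl : l ≤ 1) (hQ : 1 ≤ Q)
    (hT : 0 < T) (p1 : 0 ≤ C0) (p2 : 0 ≤ C1) (p3 : 0 ≤ a) (p4 : 0 ≤ m) (p5 : 0 ≤ Z) (p6 : 0 ≤ k')
    (p7 : 0 ≤ r') (p8 : 0 ≤ U) (p9 : 0 ≤ f) (p10 : 0 ≤ g) :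
    L ≤ (64 * C0 + C1) * Q * a * m * Z + (64 * C0 + C1) * k'' * Q * r * (U + f * g) := by
  have : 0 ≤ Q := by linarith
  have : 0 ≤ k := by linarith
  have : 0 ≤ k'' := by linarith
  have : 0 ≤ r := by linarith
  have a1 : L0 ≤ (64 * C0 + C1) * k'' * Q * r * (f * g) := by
    have : k' ≤ k'' := hk.trans hk1
    calc L0 ≤ C0 * (k0 * f') * g * r' := by linarith
      _ ≤ C0 * (64 * (k' * f)) * g * r := by gcongr
      _ = (64 * C0) * k' * 1 * r * (f * g) := by ring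
      _ ≤ _ := by gcongr; linarith
  have a2 : L1 ≤ (64 * C0 + C1) * Q * a * m * Z + (64 * C0 + C1) * k'' * Q * r * U := by
    calc L1 ≤ T * 1 * ((C1 * Q * a * m * Z + C1 * k * Q * r * U) / T) := h2.trans (by gcongr)
      _ = C1 * Q * a * m * Z + C1 * k * Q * r * U := by field_simp
      _ ≤ _ := by gcongr <;> linarith
  linarith

/-- **sharp form.**  `conj (g3 j) cub n j = g3 n · conj (g3 (n j))` (`g3_mul'`, reciprocity, `norm = 1`).
Replace the cutoff by `Pl` (`smooth_err`), `∑_j a(j) N j^s Pl(lg j) = (T/√π) ∫ winS a v T (-s) dv`.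
Split `n = n₁n₂`, `n₁ = gp n q ∣ q`, `n₂ ≡ a₂ mod q` coprime to `q`, `a₂ā₂ ≡ 1`.  With `m = n j`,
`k = n₁ j`: `φ₀ j = φ_{n₁,a₂}(m) := [n₁ ∣ m] φ₀((m/n₁) ā₂)`, periodic mod `Q₀ = q²`; apply `vas`
(`ℓ = 0`) at `v + lg n₁` with `M' = 16M/N n₁`; `nt ≤ C M^ε n2`.  Main term: `ser_bound` truncated at
`Δ`; the coefficient of `d` depends only on `n mod q²d`, as do `ψ n` and
`cub n λ` (`g3 n = GG n · cub n λ`, `phr_lam_per`). -/
theorem va_sharp' : ∃ B0 : ℕ, ∀ ε : ℝ, 0 < ε → ∃ C : ℝ, 0 ≤ C ∧ ∀ (q : O), q ≠ 0 → (9 : O) ∣ q →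
    ∀ φ0 ψ : O → ℂ, Per q φ0 → (∀ m, ‖φ0 m‖ ≤ 1) → Per q ψ → (∀ m, ‖ψ m‖ ≤ 1) →
    ∀ (X M T Δ : ℝ) (s : ℂ) (S : Finset O) (x : O → ℂ), 1 ≤ M → 16 * M ≤ X ^ 2 → 1 ≤ X → 1 ≤ T →
    1 ≤ Δ → |s.re| ≤ 4 → In S M →
    ‖∑ n ∈ S, x n * ψ n * ∑ j ∈ sfI X (2 * X), conj (g3 j) * cub n j * φ0 j * pw X j s‖ ≤
      C * N q ^ B0 * X ^ (5 / 6 : ℝ) * M ^ (-(1 / 6 : ℝ)) *
        ∑ d ∈ ball Δ, ∑ a ∈ res (q ^ 2 * d), ‖fam2 S x M (q ^ 2 * d) a (-1 / 6)‖ +
      C * (X * M) ^ ε * N q ^ B0 * Real.sqrt (n2 S x) *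
        ((T + |s.im|) ^ B0 * Real.sqrt (M * X) * (X / Real.sqrt M) ^ (1 / 5 : ℝ) +
          M ^ (1 / 3 : ℝ) * X ^ (5 / 6 : ℝ) / Δ +
          Real.sqrt (X + M + (X * M) ^ (2 / 3 : ℝ)) * Real.sqrt (X / T + Real.sqrt X)) := by
  obtain ⟨B, h1⟩ := va3_winb
  refine ⟨B, fun ε hε => ?_⟩
  obtain ⟨C0, hC0, h0⟩ := va3_smooth (min ε 1) (lt_min hε one_pos)
  obtain ⟨C1, hC1, h1⟩ := h1 (min ε 1) (lt_min hε one_pos) (min_le_right ε 1)
  refine ⟨64 * C0 + C1, by positivity,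
    fun q hq h9 φ0 ψ hφ hφ1 hψ hψ1 X M T Δ s S x hM hMX hX hT hΔ hs hS => ?_⟩
  have hX0 : 0 < X := by linarith
  have hM0 : 0 < M := by linarith
  have hT0 : 0 < T := by linarith
  have hΔ0 : 0 < Δ := by linarith
  have n1 : Real.sqrt (n2 S fun n => x n * ψ n) ≤ Real.sqrt (n2 S x) :=
    va3_n2_le S fun n _ => by
      rw [norm_mul]; exact mul_le_of_le_one_right (norm_nonneg _) (hψ1 n)
  have a : (X * M) ^ min ε 1 ≤ (X * M) ^ ε :=
    Real.rpow_le_rpow_of_exponent_le (by nlinarith) (min_le_left _ _)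
  have hl : Real.log (2 * X) - Real.log X ≤ 1 := by
    rw [Real.log_mul (by norm_num) hX0.ne']
    linarith [Real.log_two_lt_d9]
  exact va3_real5 (norm_le_norm_sub_add _ _)
    (h0 φ0 hφ1 X (16 * M) T s S (fun n => x n * ψ n) (by linarith) hX hT hs (va3_In hS))
    (norm_plS_le (va3_polyA hφ1 (fun n hn => (hS n hn).1) (fun n => x n * ψ n) hX0 hs) hT
      (Real.log_le_log hX0 (by linarith))
      (h1 q hq h9 φ0 ψ hφ hφ1 hψ hψ1 X M T Δ s S x hM hMX hX hT hΔ hs hS))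
    (va3_real4 hX0 hM0 (min_le_right ε 1)) le_rfl a n1 hl (one_le_pow₀ (one_le_N hq)) hT0 hC0 hC1
    (by positivity) (by positivity)
    (Finset.sum_nonneg fun _ _ => Finset.sum_nonneg fun _ _ => norm_nonneg _) (by positivity)
    (Real.sqrt_nonneg _) (by positivity) (Real.sqrt_nonneg _) (Real.sqrt_nonneg _)

/-- the weaker quantifier order (`B0` after `ε`); use `va_sharp'` -/
theorem va_sharp (ε : ℝ) (hε : 0 < ε) : ∃ (C : ℝ) (B0 : ℕ), 0 ≤ C ∧ ∀ (q : O), q ≠ 0 → (9 : O) ∣ q →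
    ∀ φ0 ψ : O → ℂ, Per q φ0 → (∀ m, ‖φ0 m‖ ≤ 1) → Per q ψ → (∀ m, ‖ψ m‖ ≤ 1) →
    ∀ (X M T Δ : ℝ) (s : ℂ) (S : Finset O) (x : O → ℂ), 1 ≤ M → 16 * M ≤ X ^ 2 → 1 ≤ X → 1 ≤ T →
    1 ≤ Δ → |s.re| ≤ 4 → In S M →
    ‖∑ n ∈ S, x n * ψ n * ∑ j ∈ sfI X (2 * X), conj (g3 j) * cub n j * φ0 j * pw X j s‖ ≤
      C * N q ^ B0 * X ^ (5 / 6 : ℝ) * M ^ (-(1 / 6 : ℝ)) *
        ∑ d ∈ ball Δ, ∑ a ∈ res (q ^ 2 * d), ‖fam2 S x M (q ^ 2 * d) a (-1 / 6)‖ +
      C * (X * M) ^ ε * N q ^ B0 * Real.sqrt (n2 S x) *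
        ((T + |s.im|) ^ B0 * Real.sqrt (M * X) * (X / Real.sqrt M) ^ (1 / 5 : ℝ) +
          M ^ (1 / 3 : ℝ) * X ^ (5 / 6 : ℝ) / Δ +
          Real.sqrt (X + M + (X * M) ^ (2 / 3 : ℝ)) * Real.sqrt (X / T + Real.sqrt X)) := by
  obtain ⟨B, h⟩ := va_sharp'
  obtain ⟨C, hC, h⟩ := h ε hε
  exact ⟨C, B, hC, h⟩

end Crest.Agent.R12
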