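import Crest.Agent.R12.WinFE
import Crest.Agent.R17.VoC6
import Crest.Agent.R17.VoGam
import Crest.Agent.R17.LMisc

/-!
# R12 / VoDiv : Voronoi summation with a divisibility condition
-/

set_option autoImplicit false

noncomputable section

open scoped Classical ComplexConjugate Topology
open MeasureTheory Filter

namespace Crest.Agent.R12

open Crest.Agent.R17

theorem vd_tau_le {n : O} (hp : Prim n) : ‖tau n‖ ≤ N n := by
  refine (norm_tau_le hp).trans ?_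
  conv_rhs => rw [← Real.rpow_one (N n)]
  exact Real.rpow_le_rpow_of_exponent_le (one_le_N hp.ne_zero) (by norm_num)

theorem vd_th3_le (ℓ : ℤ) {φ : O → ℂ} (h : ∀ m, ‖φ m‖ ≤ 1) (n : O) :
    ‖prim (th3 ℓ φ) n‖ ≤ N n := by
  unfold prim th3
  split_ifs with hp
  · rw [norm_mul, norm_mul, norm_zpow, norm_ang hp.ne_zero, one_zpow, mul_one]
    exact (mul_le_of_le_one_right (norm_nonneg _) (h n)).trans (vd_tau_le hp)
  · rw [norm_zero]; exact N_nonneg n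

theorem vd_poly_smul (c : ℂ) {a : O → ℂ} (ha : PolyBd a) : PolyBd fun n => c * a n := by
  obtain ⟨C, j, h⟩ := ha
  refine ⟨‖c‖ * C, j, fun n hn => ?_⟩
  rw [norm_mul, mul_assoc]
  exact mul_le_mul_of_nonneg_left (h n hn) (norm_nonneg _)

theorem vd_poly_add {a b : O → ℂ} (ha : PolyBd a) (hb : PolyBd b) : PolyBd fun n => a n + b n := by
  obtain ⟨C, j, h⟩ := ha
  obtain ⟨C', j', h'⟩ := hb
  refine ⟨|C| + |C'|, j + j', fun n hn => ?_⟩
  have hN := one_le_N hn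
  have h1 : C * N n ^ j ≤ |C| * N n ^ (j + j') :=
    mul_le_mul (le_abs_self _) (pow_le_pow_right₀ hN (by omega)) (by positivity) (abs_nonneg _)
  have h2 : C' * N n ^ j' ≤ |C'| * N n ^ (j + j') :=
    mul_le_mul (le_abs_self _) (pow_le_pow_right₀ hN (by omega)) (by positivity) (abs_nonneg _)
  have := norm_add_le (a n) (b n)
  have := h n hn
  have := h' n hn
  rw [add_mul]
  linarith

theorem vd_poly_sum {ι : Type*} (I : Finset ι) {a : ι → O → ℂ} (ha : ∀ i ∈ I, PolyBd (a i)) :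
    PolyBd fun n => ∑ i ∈ I, a i n := by
  induction I using Finset.induction_on with
  | empty => exact ⟨0, 0, fun n _ => by simp⟩
  | insert i I hi ih =>
    simp only [Finset.sum_insert hi]
    exact vd_poly_add (ha i (Finset.mem_insert_self _ _))
      (ih fun k hk => ha k (Finset.mem_insert_of_mem hk))

theorem vd_poly_shape {Q0 : O} {M : ℝ} (hM : 0 ≤ M) {b : O → ℂ}
    (h : ∀ n, b n ≠ 0 → ∃ c, CubeShape Q0 n c ∧ ‖b n‖ ≤ M * Real.sqrt (N c)) : PolyBd b := by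
  refine ⟨M, 1, fun n hn => ?_⟩
  have h1n := one_le_N hn
  by_cases hτ : b n = 0
  · rw [hτ, norm_zero]; positivity
  obtain ⟨c, ⟨n2, m0, hnc, -⟩, h2⟩ := h n hτ
  have hcn : N c ≤ N n := N_le_of_dvd hn ⟨n2 * m0 * c ^ 2, by rw [hnc]; ring⟩
  have h3 : Real.sqrt (N c) ≤ N n := by
    rw [Real.sqrt_le_left (by linarith)]; nlinarith
  rw [pow_one]
  exact h2.trans (mul_le_mul_of_nonneg_left h3 hM)

theorem vd_rho {Q0 : O} (hQ : Q0 ≠ 0) (h3 : (3 : O) ∣ Q0) : 1 ≤ N Q0 ∧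
    1 ≤ 9 * N (81 * Q0 ^ 2) / c0 ^ 4 ∧ 9 * N (81 * Q0 ^ 2) / c0 ^ 4 ≤ N Q0 ^ 10 ∧
    (81 * Q0 ^ 2 : O) ≠ 0 := by
  have hN9 : 9 ≤ N Q0 := by
    have := N_le_of_dvd hQ h3
    have e : N (3 : O) = 9 := by
      have := nm_natCast 3
      unfold N; rw [show (3 : O) = ((3 : ℕ) : O) by norm_num, this]; norm_num
    linarith
  have hN1 : 1 ≤ N Q0 := by linarith
  have e81 : N (81 * Q0 ^ 2) = 9 ^ 4 * N Q0 ^ 2 := by
    rw [N_mul, N_pow]
    have := nm_natCast 81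
    have e : N (81 : O) = 9 ^ 4 := by
      unfold N; rw [show (81 : O) = ((81 : ℕ) : O) by norm_num, this]; norm_num
    rw [e]
  have hc1 := one_lt_c0
  have hc4 : c0 < 4 := by
    unfold c0
    rw [div_lt_iff₀ (by positivity)]
    have h1 := Real.pi_lt_d2
    have h2 : (1.7 : ℝ) < Real.sqrt 3 := Real.lt_sqrt_of_sq_lt (by norm_num)
    linarith
  have hc04 : 1 ≤ c0 ^ 4 := one_le_pow₀ hc1.le
  have hc44 : c0 ^ 4 ≤ 4 ^ 4 := pow_le_pow_left₀ (by linarith) hc4.le 4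
  refine ⟨hN1, ?_, ?_, ?_⟩
  · rw [e81, le_div_iff₀ (by positivity)]; nlinarith
  · have h1 : 9 * N (81 * Q0 ^ 2) / c0 ^ 4 ≤ 9 * (9 ^ 4 * N Q0 ^ 2) := by
      rw [e81]; exact div_le_self (by positivity) hc04
    have h2 : (9 : ℝ) ^ 5 ≤ N Q0 ^ 5 := pow_le_pow_left₀ (by norm_num) hN9 5
    have h3 : N Q0 ^ 7 ≤ N Q0 ^ 10 := pow_le_pow_right₀ hN1 (by norm_num)
    have h4 : N Q0 ^ 7 = N Q0 ^ 5 * N Q0 ^ 2 := by ring
    nlinarith [pow_pos (by linarith : (0 : ℝ) < N Q0) 2]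
  · intro h
    have : N (81 * Q0 ^ 2) = 0 := by rw [h]; simp [N]
    rw [e81] at this
    nlinarith [pow_pos (by linarith : (0 : ℝ) < N Q0) 2]

theorem vd_g3_one : g3 1 = 1 := by
  have := rkey_gs_one 3
  unfold g3 cub
  simp only [N_one, Real.sqrt_one, Complex.ofReal_one, div_one]
  exact this

theorem vd_gs {e : O} (he : SF e) (n : O) :
    gs e (fun x => conj (if IsCoprime x e then (1 : ℂ) else 0) * conj (cub e x)) n =
      cub e n * (conj (g3 e) * (Real.sqrt (N e) : ℂ)) := by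
  have hc := rcub_isChar he.1
  have h0 := he.1.ne_zero
  have e1 : (fun x => conj (if IsCoprime x e then (1 : ℂ) else 0) * conj (cub e x)) =
      fun x => conj (cub e x) := by
    funext x
    split_ifs with h
    · simp
    · rw [(hc.zero_iff x).2 h]; simp
  have e2 := conj_gs h0 (cub e) (-n)
  rw [neg_neg] at e2
  have hs : ((Real.sqrt (N e) : ℝ) : ℂ) ≠ 0 := by
    exact_mod_cast (Real.sqrt_pos.2 (N_pos h0)).ne'
  rw [e1, ← e2, gs_cub he.1.isCoprime_three he.2, map_mul, Complex.conj_conj,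
    show -n = -1 * n by ring, hc.mul, cub_neg_one he.1.isCoprime_three, one_mul, g3, map_div₀,
    Complex.conj_ofReal, div_mul_cancel₀ _ hs]

theorem vd_ang_pow (d : O) : ang (d ^ 3) = ang d ^ 3 := by
  rw [pow_three, ang_mul, ang_mul]; ring

/-- `(s - 5/6) E s + R` is entire; `entire_ext`-type identity theorem on a half plane -/
theorem IsRes.unique {a : O → ℂ} {R R' : ℂ} (h : IsRes a R) (h' : IsRes a R') : R = R' := by
  obtain ⟨E, hE, σ0, h1⟩ := h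
  obtain ⟨E', hE', σ1, h2⟩ := h'
  set c : ℝ := max (max σ0 σ1) 0 with hc
  have hc0 : σ0 ≤ c := (le_max_left _ _).trans (le_max_left _ _)
  have hc1 : σ1 ≤ c := (le_max_right _ _).trans (le_max_left _ _)
  have hc2 : 0 ≤ c := le_max_right _ _
  have key := LM.entire_ext (f := fun s => (s + c - 5 / 6) * E (s + c) + R)
    (g := fun s => (s + c - 5 / 6) * E' (s + c) + R') (by fun_prop) (by fun_prop) (fun s hs => by
      have hre : (s + c).re = s.re + c := by simp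
      have hne : s + c - 5 / 6 ≠ 0 := by
        intro h0
        have := congrArg Complex.re h0
        norm_num at this
        linarith
      have e1 := h1 (s + c) (by rw [hre]; linarith)
      have e2 := h2 (s + c) (by rw [hre]; linarith)
      have e3 := e1.trans e2.symm
      rw [← mul_div_cancel₀ R hne, ← mul_div_cancel₀ R' hne, ← mul_add, ← mul_add, e3])
  have := congrFun key (5 / 6 - c)
  simpa using this
theorem resid_eq {ℓ : ℤ} {φ : O → ℂ} {R : ℂ} (h : IsRes (prim (th3 ℓ φ)) R) : resid ℓ φ = R := by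
  unfold resid
  rw [dif_pos ⟨R, h⟩]
  exact (Exists.choose_spec (⟨R, h⟩ : ∃ R, IsRes (prim (th3 ℓ φ)) R)).unique h
theorem resid_congr (ℓ : ℤ) {φ φ' : O → ℂ} (h : ∀ m, Prim m → φ m = φ' m) :
    resid ℓ φ = resid ℓ φ' := by
  have e : prim (th3 ℓ φ) = prim (th3 ℓ φ') := by
    funext m
    unfold prim th3
    split_ifs with hm
    · rw [h m hm]
    · rfl
  by_cases hR : ∃ R, IsRes (prim (th3 ℓ φ)) R
  · obtain ⟨R, hR⟩ := hR
    rw [resid_eq hR, resid_eq (e ▸ hR)]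
  · unfold resid
    rw [dif_neg hR, dif_neg (e ▸ hR)]
theorem polyBd_th3 (ℓ : ℤ) {φ : O → ℂ} (h : ∀ m, ‖φ m‖ ≤ 1) : PolyBd (prim (th3 ℓ φ)) := by
  refine ⟨1, 1, fun n hn => ?_⟩
  rw [pow_one, one_mul]
  exact vd_th3_le ℓ h n

/-- `kernT_rep` with `norm_gamL_left` -/
theorem kern_vor (ℓ : ℤ) (j : ℕ) : ∃ C : ℝ, 0 ≤ C ∧ ∀ (T : ℝ) (s : ℂ), 1 ≤ T → |s.re| ≤ 4 →
    ∃ κ : ℝ → ℂ, Continuous κ ∧ (∀ τ, ‖κ τ‖ ≤ C * (T + |s.im|) ^ (4 * j) * mT T τ) ∧
      ∀ σ u : ℝ, s.re + σ < 5 / 6 → kernT (Vor.gamL ℓ) T σ s u =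
        Real.exp ((1 / 2 - j - s.re) * u) * ∫ τ : ℝ, κ τ * Complex.exp (τ * u * Complex.I) := by
  obtain ⟨C, hC, h⟩ := kernT_rep (4 * j) (j + 5)
  set M : ℝ := (2 * j + ℓ.natAbs + 1) ^ (4 * j) with hM
  have hM0 : 0 ≤ M := by positivity
  refine ⟨C * M, by positivity, fun T s hT hs => ?_⟩
  have hj : (0 : ℝ) ≤ j := Nat.cast_nonneg j
  have hl : (0 : ℝ) ≤ ℓ.natAbs := Nat.cast_nonneg _
  obtain ⟨κ, h1, h2, h3⟩ := h (Vor.gamL ℓ) (5 / 6 + (ℓ.natAbs : ℝ) / 2) (1 / 2 - j) M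
    (Vor.gamL_diff ℓ) (Vor.gamL_growth ℓ) (by linarith) (fun z hz => by
      refine (Vor.norm_gamL_left ℓ j hz).trans ?_
      rw [hM, ← mul_pow]
      have := abs_nonneg z.im
      refine pow_le_pow_left₀ (by positivity) ?_ _
      nlinarith [mul_nonneg (add_nonneg (by positivity : (0 : ℝ) ≤ 2 * j) hl) this]) T s hT (by
      rw [abs_le] at hs ⊢
      constructor <;> linarith [hs.1, hs.2])
  exact ⟨κ, h1, h2, fun σ u hσ => h3 σ u (by linarith)⟩

/-- **Voronoi with `r ∣ m`.**  `Q' = 81Q₀²`, `ρ₀ = 9 N Q'/c0⁴`.  `τ' e := τ'` of `vor_fe` for the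
class `cs = e % Q'`.  `dvd_eq_sum_ramanujan`; for `e ∣ r` apply `vor_fe` with `c₁ = e`, `ψ` principal
(`s3_princ`) and `win_fe`.  `gs e (conj (cub e ·)) n = cub e n · conj (g3 e) √N e` (`gs_cub`,
`conj_gs`; `ψ · conj cub = conj cub`), which vanishes at `n = 0` unless `e = 1`; for `e = 1`
(`gs 1 ψ m = 1`) the residue is `resid ℓ φ` (`resid_eq`).  `η e = cub e (Q'²) ang e^{2ℓ} conj (g3 e)`. -/
theorem vor_div : ∃ B0 : ℕ, ∀ ℓ : ℤ, ∀ Q0 : O, Q0 ≠ 0 → (3 : O) ∣ Q0 → ∀ φ : O → ℂ, Per Q0 φ →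
    (∀ m, ‖φ m‖ ≤ 1) → ‖resid ℓ φ‖ ≤ N Q0 ^ B0 ∧ (ℓ ≠ 0 → resid ℓ φ = 0) ∧
    IsRes (prim (th3 ℓ φ)) (resid ℓ φ) ∧
    ∃ (τ' : O → O → ℂ) (η : O → ℂ) (ρ0 : ℝ), 1 ≤ ρ0 ∧ ρ0 ≤ N Q0 ^ B0 ∧
      (∀ e, SF e → ‖η e‖ ≤ 1) ∧
      (∀ e e', 81 * Q0 ^ 2 ∣ e - e' → τ' e = τ' e') ∧
      (∀ e n, τ' e n ≠ 0 → ∃ c, CubeShape Q0 n c ∧ ‖τ' e n‖ ≤ N Q0 ^ B0 * Real.sqrt (N c)) ∧
      (∀ e, SF e → IsCoprime e Q0 → ∀ (v T σ : ℝ) (s : ℂ), 1 ≤ T → s.re + σ < 5 / 6 →
        Summable (fun n : O => ‖if n = 0 then 0 else τ' e n * cub e n * (N n : ℂ) ^ (s - 1) *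
          kernT (Vor.gamL ℓ) T σ s (lg n + v - Real.log (N e ^ 2 * ρ0))‖)) ∧
      ∀ r, SF r → IsCoprime r Q0 → ∀ (v T σ : ℝ) (s : ℂ), 1 ≤ T → s.re + σ < 5 / 6 →
        winS (dvR r (prim (th3 ℓ φ))) v T s =
          resid ℓ φ / (N r : ℂ) * mainW (5 / 6) s v T +
          (N r : ℂ)⁻¹ * ∑ e ∈ pdiv r, η e * (Real.sqrt (N e) : ℂ) *
            ((N e ^ 2 * ρ0 : ℝ) : ℂ) ^ (1 / 2 - s) *
            ∑' n : O, if n = 0 then 0 else τ' e n * cub e n * (N n : ℂ) ^ (s - 1) *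
              kernT (Vor.gamL ℓ) T σ s (lg n + v - Real.log (N e ^ 2 * ρ0)) := by
  obtain ⟨B, hB⟩ := Vor.vor_fe
  refine ⟨max B 10, fun ℓ Q0 hQ h3 φ hφ hφ1 => ?_⟩
  obtain ⟨hN1, hρ1, hρ2, hQ'⟩ := vd_rho hQ h3
  set ρ0 : ℝ := 9 * N (81 * Q0 ^ 2) / c0 ^ 4 with hρ0
  choose τ' τ0 h0 hsh hτ0 hτ0' hFE using hB ℓ Q0 hQ h3 φ hφ hφ1
  have hB1 : N Q0 ^ B ≤ N Q0 ^ max B 10 := pow_le_pow_right₀ hN1 (le_max_left _ _)
  have hB2 : N Q0 ^ 10 ≤ N Q0 ^ max B 10 := pow_le_pow_right₀ hN1 (le_max_right _ _)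
  set η : O → ℂ := fun e => cub e ((81 * Q0 ^ 2) ^ 2) * ang e ^ (2 * ℓ) * conj (g3 e) with hη
  have key : ∀ e, SF e → IsCoprime e Q0 →
      Vor.HasFE ℓ (fun m => prim (th3 ℓ φ) m * gs e (fun x => if IsCoprime x e then 1 else 0) m)
        (fun n => η e * (Real.sqrt (N e) : ℂ) * (τ' (e % (81 * Q0 ^ 2)) n * cub e n))
        (N e ^ 2 * ρ0) (if e = 1 then τ0 (1 % (81 * Q0 ^ 2)) else 0) := by
    intro e he hco
    have h1 := hFE (e % (81 * Q0 ^ 2)) e he.1 hco (b4_dvd_sub_mod _ _) _ (s3_princ e)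
    have hco' : IsCoprime (-(3 * (81 * Q0 ^ 2))) e :=
      (he.1.isCoprime_three.symm.mul_left (Vor.vc6_co he.1 hco)).neg_left
    simp only [if_pos hco', map_one, one_mul, vd_gs he] at h1
    have e2 : cub e ((81 * Q0 ^ 2) ^ 2) * ((N e ^ (-(2 / 3 : ℝ)) : ℝ) : ℂ) *
        (τ0 (e % (81 * Q0 ^ 2)) * (cub e 0 * (conj (g3 e) * (Real.sqrt (N e) : ℂ)))) =
        if e = 1 then τ0 (1 % (81 * Q0 ^ 2)) else 0 := by
      split_ifs with h
      · subst h
        simp [cub, sym_one, vd_g3_one]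
      · have : cub e 0 = 0 := ((rcub_isChar he.1).zero_iff 0).2 fun hc =>
          h (he.1.eq_one_of_isUnit (isCoprime_zero_left.1 hc))
        rw [this]; simp
    rw [e2] at h1
    refine h1.congr (fun n _ => ?_) (fun n _ => ?_)
    · unfold prim th3
      split_ifs <;> simp
    · simp only [hη]; ring
  have hres : IsRes (prim (th3 ℓ φ)) (τ0 (1 % (81 * Q0 ^ 2))) := by
    obtain ⟨E, hE, -, ⟨σ0, ha⟩, -⟩ := key 1 b1_sf_one isCoprime_one_left
    refine ⟨E, hE, σ0, fun s hs => ?_⟩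
    have := ha s hs
    rw [if_pos rfl] at this
    rw [this]
    congr 1
    funext m
    rw [(s3_unit isUnit_one (s3_princ 1) m).2, mul_one]
  have hR := resid_eq hres
  have hη1 : ∀ e, SF e → IsCoprime e Q0 → ‖η e‖ = 1 := fun e he hco => by
    simp only [hη]
    rw [norm_mul, norm_mul, norm_zpow, norm_ang he.1.ne_zero, one_zpow, RCLike.norm_conj,
      norm_g3 he.1.isCoprime_three he.2,
      (rcub_isChar he.1).norm_eq_one he.1.ne_zero (Vor.vc6_co he.1 hco).pow_left]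
    norm_num
  have pa : ∀ e, SF e → PolyBd
      (fun m => prim (th3 ℓ φ) m * gs e (fun x => if IsCoprime x e then 1 else 0) m) := fun e he =>
    Vor.vc6_poly (polyBd_th3 ℓ hφ1)
      (norm_gs_le he.1.ne_zero ((s3_princ e).norm_le he.1.ne_zero))
  have win : ∀ e, SF e → IsCoprime e Q0 → ∀ (v T σ : ℝ) (s : ℂ), 1 ≤ T → s.re + σ < 5 / 6 →
      Summable (fun n : O => ‖if n = 0 then 0 else τ' (e % (81 * Q0 ^ 2)) n * cub e n *
        (N n : ℂ) ^ (s - 1) * kernT (Vor.gamL ℓ) T σ s (lg n + v - Real.log (N e ^ 2 * ρ0))‖) ∧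
      winS (fun m => prim (th3 ℓ φ) m * gs e (fun x => if IsCoprime x e then 1 else 0) m) v T s =
        (if e = 1 then τ0 (1 % (81 * Q0 ^ 2)) else 0) * mainW (5 / 6) s v T +
        η e * (Real.sqrt (N e) : ℂ) * ((N e ^ 2 * ρ0 : ℝ) : ℂ) ^ (1 / 2 - s) *
          ∑' n : O, if n = 0 then 0 else τ' (e % (81 * Q0 ^ 2)) n * cub e n *
            (N n : ℂ) ^ (s - 1) *
            kernT (Vor.gamL ℓ) T σ s (lg n + v - Real.log (N e ^ 2 * ρ0)) := by
    intro e he hco v T σ s hT hσ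
    obtain ⟨E, hE, hgr, ha, hb⟩ := key e he hco
    have hNe := N_pos he.1.ne_zero
    have pb : PolyBd (fun n => η e * (Real.sqrt (N e) : ℂ) *
        (τ' (e % (81 * Q0 ^ 2)) n * cub e n)) :=
      vd_poly_smul _ (Vor.vc6_poly (vd_poly_shape (by positivity) (hsh _))
        ((rcub_isChar he.1).norm_le he.1.ne_zero))
    have hl : (0 : ℝ) ≤ ℓ.natAbs := Nat.cast_nonneg _
    obtain ⟨w1, w2⟩ := win_fe (pa e he) pb (s1 := 5 / 6 + (ℓ.natAbs : ℝ) / 2)
      (by positivity : 0 < N e ^ 2 * ρ0) hE hgr (Vor.gamL_diff ℓ) (Vor.gamL_growth ℓ) ha hb hT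
      (σ := σ) (s := s) (by linarith) v
    have e1 : ∀ n : O, (if n = 0 then 0 else η e * (Real.sqrt (N e) : ℂ) *
        (τ' (e % (81 * Q0 ^ 2)) n * cub e n) * (N n : ℂ) ^ (s - 1) *
          kernT (Vor.gamL ℓ) T σ s (lg n + v - Real.log (N e ^ 2 * ρ0))) =
        η e * (Real.sqrt (N e) : ℂ) * (if n = 0 then 0 else τ' (e % (81 * Q0 ^ 2)) n * cub e n *
          (N n : ℂ) ^ (s - 1) *
          kernT (Vor.gamL ℓ) T σ s (lg n + v - Real.log (N e ^ 2 * ρ0))) := fun n => by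
      split_ifs
      · simp
      · ring
    simp only [e1] at w1 w2
    have hne : ‖η e * (Real.sqrt (N e) : ℂ)‖ ≠ 0 := by
      rw [norm_mul, hη1 e he hco, one_mul, Complex.norm_real, Real.norm_of_nonneg (Real.sqrt_nonneg _)]
      exact (Real.sqrt_pos.2 hNe).ne'
    constructor
    · refine (summable_mul_left_iff hne).1 (w1.congr fun n => ?_)
      rw [norm_mul]
    · rw [w2, tsum_mul_left]; ring
  refine ⟨hR ▸ (hτ0 _).trans hB1, fun h => hR ▸ hτ0' _ h, hR ▸ hres,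
    fun e => τ' (e % (81 * Q0 ^ 2)), η, ρ0, hρ1, hρ2.trans hB2, fun e he => ?_,
    fun e e' h => by simp only [b4_mod_congr hQ' h], fun e n hn => ?_,
    fun e he hco v T σ s hT hσ => (win e he hco v T σ s hT hσ).1,
    fun r hr hco v T σ s hT hσ => ?_⟩
  · simp only [hη]
    rw [norm_mul, norm_mul, norm_zpow, norm_ang he.1.ne_zero, one_zpow, RCLike.norm_conj,
      norm_g3 he.1.isCoprime_three he.2, mul_one, mul_one]
    exact (rcub_isChar he.1).norm_le he.1.ne_zero _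
  · obtain ⟨c, h1, h2⟩ := hsh _ n hn
    exact ⟨c, h1, h2.trans (mul_le_mul_of_nonneg_right hB1 (Real.sqrt_nonneg _))⟩
  have hr0 := hr.1.ne_zero
  have hSF : ∀ e ∈ pdiv r, SF e := fun e he =>
    hr.of_dvd ((mem_pdiv hr0).1 he).1 ((mem_pdiv hr0).1 he).2
  have e0 : dvR r (prim (th3 ℓ φ)) = fun m => (N r : ℂ)⁻¹ * ∑ e ∈ pdiv r,
      prim (th3 ℓ φ) m * gs e (fun x => if IsCoprime x e then 1 else 0) m := by
    funext m
    rw [← Finset.mul_sum, mul_left_comm, ← dvd_eq_sum_ramanujan hr.1 hr.2]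
    unfold dvR
    split_ifs <;> simp
  rw [e0, winS_smul, winS_sum _ (fun e he => pa e (hSF e he)) v hT s,
    Finset.sum_congr rfl fun e he => (win e (hSF e he)
      (hco.of_isCoprime_of_dvd_left ((mem_pdiv hr0).1 he).2) v T σ s hT hσ).2,
    Finset.sum_add_distrib, ← Finset.sum_mul, Finset.sum_ite_eq' , if_pos (one_mem_pdiv hr0), hR]
  ring

/-- sequences of cube shape: `n = n₂m₀c³`, at most `18 N(Q₀)²` values of `n₂`;
`∑_c N c^{1/2-3σ}`, `∑_{m₀} N m₀^{-σ}` converge for `σ = 3/2` -/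
theorem tsum_shape : ∃ C : ℝ, 0 ≤ C ∧ ∀ (Q0 : O) (b : O → ℂ) (M : ℝ), Q0 ≠ 0 → 0 ≤ M →
    (∀ n, b n ≠ 0 → ∃ c, CubeShape Q0 n c ∧ ‖b n‖ ≤ M * Real.sqrt (N c)) → ∀ S : Finset O,
    ∑ n ∈ S, ‖b n‖ * N n ^ (-(3 / 2 : ℝ)) ≤ C * M * N Q0 ^ 2 := by
  have hZ := summable_N_rpow (σ := 3 / 2) (by norm_num)
  set f : O → ℝ := fun n => N n ^ (-(3 / 2 : ℝ)) with hf
  have hf0 : ∀ n, 0 ≤ f n := fun n => Real.rpow_nonneg (N_nonneg n) _
  set Z : ℝ := ∑' n, f n with hZd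
  have hle : ∀ A : Finset O, ∑ n ∈ A, f n ≤ Z := fun A => hZ.sum_le_tsum A fun n _ => hf0 n
  have hZ0 : 0 ≤ Z := tsum_nonneg hf0
  refine ⟨Z * Z, by positivity, fun Q0 b M hQ hM h S => ?_⟩
  have h1 : ∀ n, ∃ p : O × O, b n ≠ 0 → n = p.1 * p.2 ^ 3 ∧ ‖b n‖ ≤ M * Real.sqrt (N p.2) := by
    intro n
    by_cases hn : b n = 0
    · exact ⟨(0, 0), fun h => absurd hn h⟩
    · obtain ⟨c, ⟨n2, m0, e, -⟩, h2⟩ := h n hn
      exact ⟨(n2 * m0, c), fun _ => ⟨e, h2⟩⟩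
  choose F hF using h1
  set S' := S.filter (fun n => b n ≠ 0) with hS'
  have h2 : ∑ n ∈ S, ‖b n‖ * f n = ∑ n ∈ S', ‖b n‖ * f n := by
    rw [hS', Finset.sum_filter_of_ne]
    intro n _ hn hb
    rw [hb] at hn; simp at hn
  have h3 : ∀ n ∈ S', ‖b n‖ * f n ≤ M * (f (F n).1 * f (F n).2) := by
    intro n hn
    obtain ⟨e, hb⟩ := hF n (Finset.mem_filter.1 hn).2
    by_cases hn0 : n = 0
    · have : f n = 0 := by
        simp only [hf, hn0, N_zero]
        exact Real.zero_rpow (by norm_num)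
      rw [this, mul_zero]
      have := hf0 (F n).1
      have := hf0 (F n).2
      positivity
    have hc : (F n).2 ≠ 0 := by
      intro h0; apply hn0; rw [e, h0]; simp
    have hx := one_le_N hc
    have e1 : f n = f (F n).1 * N (F n).2 ^ (-(9 / 2 : ℝ)) := by
      conv_lhs => rw [e]
      simp only [hf]
      rw [N_mul, N_pow, Real.mul_rpow (N_nonneg _) (by positivity), ← Real.rpow_natCast,
        ← Real.rpow_mul (by linarith)]
      norm_num
    have e2 : Real.sqrt (N (F n).2) * N (F n).2 ^ (-(9 / 2 : ℝ)) ≤ f (F n).2 := by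
      rw [Real.sqrt_eq_rpow, ← Real.rpow_add (by linarith)]
      exact Real.rpow_le_rpow_of_exponent_le hx (by norm_num)
    have h4 := hf0 (F n).1
    have h5 : 0 ≤ N (F n).2 ^ (-(9 / 2 : ℝ)) := by positivity
    calc ‖b n‖ * f n ≤ M * Real.sqrt (N (F n).2) * f n := mul_le_mul_of_nonneg_right hb (hf0 n)
      _ = M * (f (F n).1 * (Real.sqrt (N (F n).2) * N (F n).2 ^ (-(9 / 2 : ℝ)))) := by
          rw [e1]; ring
      _ ≤ _ := by gcongr
  have hinj : Set.InjOn F S' := fun x hx y hy hxy => by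
    rw [(hF x (Finset.mem_filter.1 hx).2).1, (hF y (Finset.mem_filter.1 hy).2).1, hxy]
  have h4 : ∑ n ∈ S', f (F n).1 * f (F n).2 ≤ Z * Z := by
    rw [← Finset.sum_image (f := fun p : O × O => f p.1 * f p.2) hinj]
    refine (Finset.sum_le_sum_of_subset_of_nonneg (Finset.subset_product (s := S'.image F))
      fun p _ _ => mul_nonneg (hf0 _) (hf0 _)).trans ?_
    rw [Finset.sum_product' (f := fun x y => f x * f y), ← Finset.sum_mul_sum]
    exact mul_le_mul (hle _) (hle _) (Finset.sum_nonneg fun n _ => hf0 n) hZ0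
  have h5 : 1 ≤ N Q0 ^ 2 := one_le_pow₀ (one_le_N hQ)
  calc ∑ n ∈ S, ‖b n‖ * f n ≤ M * (Z * Z) := by
        rw [h2]
        refine (Finset.sum_le_sum h3).trans ?_
        rw [← Finset.mul_sum]
        exact mul_le_mul_of_nonneg_left h4 hM
    _ = Z * Z * M * 1 := by ring
    _ ≤ _ := by gcongr

/-- removing cubes: `conj_g3_eq`; for squarefree `r`, `r ∣ d³m' ↔ r/(r,d) ∣ m'`.  `gp r d` is the
primary gcd. -/
def gp (r d : O) : O := ∏ p ∈ (pf r).filter (fun p => p ∣ d), p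

theorem gp_spec {r : O} (hr : SF r) (d : O) : SF (gp r d) ∧ gp r d ∣ r ∧ gp r d ∣ d ∧
    N (gp r d) = N (EuclideanDomain.gcd r d) ∧ IsCoprime (r / gp r d) d := by
  have hr0 := hr.1.ne_zero
  set t : O := ∏ p ∈ (pf r).filter (fun p => ¬ p ∣ d), p with ht
  have e : gp r d * t = r := by
    rw [gp, ht, Finset.prod_filter_mul_prod_filter_not, hr.prod_pf]
  have hP : Prim (gp r d) := Prim.prod fun p hp => ((mem_pf hr0).1 (Finset.mem_filter.1 hp).1).2.1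
  have h1 : gp r d ∣ r := ⟨t, e.symm⟩
  have h2 : gp r d ∣ d := by
    refine Finset.prod_dvd_of_coprime (fun p hp q hq hpq => ?_) fun p hp => (Finset.mem_filter.1 hp).2
    have a := (mem_pf hr0).1 (Finset.mem_filter.1 hp).1
    have b := (mem_pf hr0).1 (Finset.mem_filter.1 hq).1
    exact Prim.b3_isCoprime_of_ne a.1 a.2.1 b.1 b.2.1 hpq
  have h3 : IsCoprime t d := IsCoprime.prod_left fun p hp =>
    (((mem_pf hr0).1 (Finset.mem_filter.1 hp).1).1.coprime_iff_not_dvd).2 (Finset.mem_filter.1 hp).2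
  have h4 : r / gp r d = t := by
    exact (EuclideanDomain.eq_div_of_mul_eq_right hP.ne_zero e).symm
  have h5 : EuclideanDomain.gcd r d ∣ gp r d := by
    refine IsCoprime.dvd_of_dvd_mul_right (z := t)
      (h3.symm.of_isCoprime_of_dvd_left (EuclideanDomain.gcd_dvd_right r d)) ?_
    rw [e]; exact EuclideanDomain.gcd_dvd_left r d
  have h6 : EuclideanDomain.gcd r d ≠ 0 := fun h => hr0 (EuclideanDomain.gcd_eq_zero_iff.1 h).1
  exact ⟨hr.of_dvd hP h1, h1, h2, le_antisymm (N_le_of_dvd h6 (EuclideanDomain.dvd_gcd h1 h2))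
    (N_le_of_dvd hP.ne_zero h5), h4 ▸ h3⟩

theorem vd_dvd_iff {r : O} (hr : SF r) (d m : O) : r ∣ d ^ 3 * m ↔ r / gp r d ∣ m := by
  obtain ⟨h1, h2, h3, -, h5⟩ := gp_spec hr d
  constructor
  · intro h
    exact (h5.pow_right (n := 3)).dvd_of_dvd_mul_left ((EuclideanDomain.div_dvd_of_dvd h2).trans h)
  · intro h
    have := mul_dvd_mul (h3.trans (dvd_pow_self d (by norm_num : 3 ≠ 0))) h
    rwa [EuclideanDomain.mul_div_cancel' h1.1.ne_zero h2] at this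

/-- the part of `h3` coming from `N d > Δ` -/
def h3tail (ℓ : ℤ) (φ : O → ℂ) (Δ : ℝ) (m : O) : ℂ :=
  if Prim m then (∑ d ∈ (pdiv m).filter (fun d => d ^ 3 ∣ m ∧ Δ < N d),
    mu d * (Real.sqrt (N d) : ℂ) * tau (m / d ^ 3)) * ang m ^ ℓ * φ m else 0

theorem win_h3_split (ℓ : ℤ) {φ : O → ℂ} (hφ : ∀ m, ‖φ m‖ ≤ 1) {r : O} (hr : SF r) (Δ v : ℝ)
    {T : ℝ} (hT : 1 ≤ T) (s : ℂ) :
    winS (dvR r (h3 ℓ φ)) v T s = winS (dvR r (h3tail ℓ φ Δ)) v T s +
      ∑ d ∈ (ball Δ).filter Prim, mu d * (Real.sqrt (N d) : ℂ) * ang d ^ (3 * ℓ) *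
        (N d : ℂ) ^ (-(3 * s)) *
        winS (dvR (r / gp r d) (prim (th3 ℓ (fun m => φ (d ^ 3 * m))))) (v - 3 * lg d) T s := by
  set G : O → O → ℂ := fun d => dvR (r / gp r d) (prim (th3 ℓ (fun m => φ (d ^ 3 * m)))) with hG
  set A : O → O → ℂ := fun d m => mu d * (Real.sqrt (N d) : ℂ) * ang d ^ (3 * ℓ) *
    dvR (d ^ 3) (fun m => G d (m / d ^ 3)) m with hA
  have hGle : ∀ d m, ‖G d m‖ ≤ N m := fun d m => by
    simp only [hG, dvR]
    split_ifs
    · exact vd_th3_le ℓ (fun m => hφ _) m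
    · rw [norm_zero]; exact N_nonneg m
  have pA : ∀ d, PolyBd (A d) := fun d => by
    refine vd_poly_smul _ ⟨1, 1, fun n hn => ?_⟩
    rw [pow_one, one_mul]
    unfold dvR
    split_ifs with h
    · refine (hGle d _).trans (N_le_of_dvd hn ?_)
      exact EuclideanDomain.div_dvd_of_dvd h
    · rw [norm_zero]; exact N_nonneg n
  have e0 : dvR r (h3 ℓ φ) = fun m => dvR r (h3tail ℓ φ Δ) m +
      ∑ d ∈ (ball Δ).filter Prim, A d m := by
    funext m
    by_cases hm : Prim m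
    swap
    · have : ∀ d ∈ (ball Δ).filter Prim, A d m = 0 := fun d hd => by
        simp only [hA, hG, dvR, prim]
        split_ifs with h1 h2 h3
        · exact absurd (by
            have := ((Finset.mem_filter.1 hd).2.pow 3).mul h3
            rwa [EuclideanDomain.mul_div_cancel' ((Finset.mem_filter.1 hd).2.pow 3).ne_zero h1]
              at this) hm
        all_goals simp
      rw [Finset.sum_eq_zero this]
      simp [dvR, h3, h3tail, hm]
    have hm0 := hm.ne_zero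
    have hAd : ∀ d ∈ (ball Δ).filter Prim, A d m = if d ^ 3 ∣ m then
        (if r ∣ m then mu d * (Real.sqrt (N d) : ℂ) * tau (m / d ^ 3) * ang m ^ ℓ * φ m else 0)
        else 0 := fun d hd => by
      have hd' := (Finset.mem_filter.1 hd).2
      simp only [hA, dvR]
      split_ifs with h1 h2
      · obtain ⟨m', rfl⟩ := h1
        have hm' := hm.of_mul_left (hd'.pow 3)
        rw [mul_div_cancel_left₀ _ (hd'.pow 3).ne_zero]
        simp only [hG, dvR, prim, th3]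
        rw [if_pos ((vd_dvd_iff hr d m').1 h2), if_pos hm', ang_mul, vd_ang_pow, mul_zpow,
          ← zpow_natCast, ← zpow_mul]
        push_cast
        ring
      · obtain ⟨m', rfl⟩ := h1
        rw [mul_div_cancel_left₀ _ (hd'.pow 3).ne_zero]
        simp only [hG, dvR]
        rw [if_neg (fun h => h2 ((vd_dvd_iff hr d m').2 h)), mul_zero]
      · rw [mul_zero]
    rw [Finset.sum_congr rfl hAd]
    unfold dvR
    by_cases h2 : r ∣ m
    swap
    · simp [h2]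
    simp only [if_pos h2, h3, h3tail, if_pos hm]
    rw [← Finset.sum_filter, ← Finset.sum_mul, ← Finset.sum_mul, ← add_mul, ← add_mul, conj_g3_eq hm,
      ← Finset.sum_filter_add_sum_filter_not _ (fun d => Δ < N d), Finset.filter_filter,
      Finset.filter_filter]
    congr 4
    ext d
    simp only [Finset.mem_filter, mem_pdiv hm0, mem_ball, not_lt]
    constructor
    · rintro ⟨⟨a, -⟩, b, c⟩
      exact ⟨⟨⟨a.ne_zero, c⟩, a⟩, b⟩
    · rintro ⟨⟨⟨-, c⟩, a⟩, b⟩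
      exact ⟨⟨a, (dvd_pow_self d (by norm_num)).trans b⟩, b, c⟩
  have pT : PolyBd (dvR r (h3tail ℓ φ Δ)) := by
    refine ⟨1, 3, fun n hn => ?_⟩
    have hN := one_le_N hn
    unfold dvR h3tail
    split_ifs with h1 h2
    · rw [norm_mul, norm_mul, norm_zpow, norm_ang hn, one_zpow, mul_one, one_mul]
      refine (mul_le_of_le_one_right (norm_nonneg _) (hφ n)).trans ((norm_sum_le _ _).trans ?_)
      refine (Finset.sum_le_card_nsmul _ _ (N n * N n) fun d hd => ?_).trans ?_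
      · obtain ⟨h3, h4, -⟩ := Finset.mem_filter.1 hd
        obtain ⟨h5, h6⟩ := (mem_pdiv hn).1 h3
        have h7 := N_le_of_dvd hn h6
        have h8 : Real.sqrt (N d) ≤ N n := by
          rw [Real.sqrt_le_left (by linarith)]; nlinarith
        have h9 : ‖tau (n / d ^ 3)‖ ≤ N n :=
          (vd_tau_le (h2.div (h5.pow 3) h4)).trans
            (N_le_of_dvd hn (EuclideanDomain.div_dvd_of_dvd h4))
        rw [norm_mul, norm_mul, Complex.norm_real, Real.norm_of_nonneg (Real.sqrt_nonneg _)]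
        refine mul_le_mul ?_ h9 (norm_nonneg _) (by linarith)
        exact (mul_le_of_le_one_left (Real.sqrt_nonneg _) (norm_mu_le d)).trans h8
      · rw [nsmul_eq_mul]
        have h3 : (((pdiv n).filter (fun d => d ^ 3 ∣ n ∧ Δ < N d)).card : ℝ) ≤ N n :=
          le_trans (by exact_mod_cast Finset.card_filter_le _ _) (card_pdiv_le_N hn)
        calc _ ≤ N n * (N n * N n) := by gcongr
          _ = _ := by ring
    all_goals rw [norm_zero]; positivity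
  rw [e0, winS_add pT (vd_poly_sum _ fun d _ => pA d) v hT s, winS_sum _ (fun d _ => pA d) v hT s]
  congr 1
  refine Finset.sum_congr rfl fun d hd => ?_
  have hd' := (Finset.mem_filter.1 hd).2
  have hd0 := hd'.ne_zero
  simp only [hA]
  rw [winS_smul, winS_dvR (hd'.pow 3).ne_zero]
  have e1 : (fun m => G d (d ^ 3 * m / d ^ 3)) = G d := by
    funext m
    rw [mul_div_cancel_left₀ _ (hd'.pow 3).ne_zero]
  have e2 : lg (d ^ 3) = 3 * lg d := by
    unfold lg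
    rw [N_pow, Real.log_pow]; norm_num
  have e3 : (N (d ^ 3) : ℂ) ^ (-s) = (N d : ℂ) ^ (-(3 * s)) := by
    rw [Kn.cpow_eq (N_pos (hd'.pow 3).ne_zero), Kn.cpow_eq (N_pos hd0), N_pow, Real.log_pow]
    congr 1; push_cast; ring
  rw [e1, e2, e3, ← mul_assoc]

/-- on `m = m₀c³` the tail is `conj (g3 m₀) √N c ∑_{d ∣ c, N d > Δ} μ(d)`; otherwise it vanishes -/
theorem h3tail_eq (ℓ : ℤ) (φ : O → ℂ) (Δ : ℝ) {m0 c : O} (hm : SF m0) (hc : Prim c) :
    h3tail ℓ φ Δ (m0 * c ^ 3) = conj (g3 m0) * (Real.sqrt (N c) : ℂ) *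
      (∑ d ∈ (pdiv c).filter (fun d => Δ < N d), mu d) * ang (m0 * c ^ 3) ^ ℓ * φ (m0 * c ^ 3) := by
  have hP := hm.1.mul (hc.pow 3)
  unfold h3tail
  rw [if_pos hP, Finset.mul_sum]
  congr 2
  have e : (pdiv (m0 * c ^ 3)).filter (fun d => d ^ 3 ∣ m0 * c ^ 3 ∧ Δ < N d) =
      (pdiv c).filter (fun d => Δ < N d) := by
    ext d
    simp only [Finset.mem_filter, mem_pdiv hP.ne_zero, mem_pdiv hc.ne_zero]
    constructor
    · rintro ⟨⟨a, -⟩, ⟨m', b⟩, h⟩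
      obtain ⟨x, -, hx, -⟩ := rkey_cube (m := m') a hc hm.2 (by rw [b, mul_comm])
      exact ⟨⟨a, x, hx⟩, h⟩
    · rintro ⟨⟨a, b⟩, h⟩
      have := (pow_dvd_pow_of_dvd b 3).mul_left m0
      exact ⟨⟨a, (dvd_pow_self d (by norm_num)).trans this⟩, this, h⟩
  rw [e]
  refine Finset.sum_congr rfl fun d hd => ?_
  obtain ⟨a, x, rfl⟩ := (mem_pdiv hc.ne_zero).1 (Finset.mem_filter.1 hd).1
  have hx := hc.of_mul_left a
  rw [show m0 * (d * x) ^ 3 = d ^ 3 * (m0 * x ^ 3) by ring, mul_div_cancel_left₀ _ (a.pow 3).ne_zero,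
    tau_eq hm.1 hm.2 hx, N_mul, Real.sqrt_mul (N_nonneg _)]
  push_cast
  ring
theorem h3tail_ne (ℓ : ℤ) (φ : O → ℂ) (Δ : ℝ) {m : O} (h : h3tail ℓ φ Δ m ≠ 0) :
    ∃ m0 c, SF m0 ∧ Prim c ∧ Δ < N c ∧ m = m0 * c ^ 3 := by
  unfold h3tail at h
  split_ifs at h with hm
  swap
  · exact absurd rfl h
  obtain ⟨d, hd, h1⟩ := Finset.exists_ne_zero_of_sum_ne_zero
    (left_ne_zero_of_mul (left_ne_zero_of_mul h))
  obtain ⟨h2, ⟨m', rfl⟩, h4⟩ := Finset.mem_filter.1 hd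
  have a := ((mem_pdiv hm.ne_zero).1 h2).1
  rw [mul_div_cancel_left₀ _ (a.pow 3).ne_zero] at h1
  obtain ⟨m0, c, b1, b2, b3, rfl⟩ := tau_ne_zero (hm.of_mul_left (a.pow 3)) (right_ne_zero_of_mul h1)
  refine ⟨m0, d * c, ⟨b1, b2⟩, a.mul b3, h4.trans_le (N_le_of_dvd (a.mul b3).ne_zero
    (dvd_mul_right _ _)), by ring⟩

end Crest.Agent.R12
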